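import Mathlib

/-!
Row 81 (S0108), ABSTRACT LEMMA, part 1: calculus of real Laurent polynomials.

`LP` = real Laurent polynomials, `evC p` = the trigonometric polynomial `∑ p_k e(k t)` as a continuous
function on the circle, `op U p = ∑ p_k U^k`.
-/

set_option autoImplicit false
set_option linter.unusedSectionVars false

open scoped ComplexConjugate InnerProductSpace
open MeasureTheory

noncomputable section

namespace Crest.Agent.R081.Abs

/-- Real Laurent polynomials. -/
abbrev LP := AddMonoidAlgebra ℝ ℤ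

/-- The circle. -/
abbrev Ci := UnitAddCircle

/-- The monomial `T^k`. -/
def mono (k : ℤ) : LP := AddMonoidAlgebra.single k 1

/-- characters -/
def chC : Multiplicative ℤ →* C(Ci, ℂ) where
  toFun k := fourier k.toAdd
  map_one' := by
    ext t
    simp
  map_mul' a b := by
    ext t
    exact fourier_add

/-- Evaluation of a Laurent polynomial on the circle. -/
def evC : LP →ₐ[ℝ] C(Ci, ℂ) := AddMonoidAlgebra.lift ℝ C(Ci, ℂ) ℤ chC

lemma evC_single (k : ℤ) (a : ℝ) (t : Ci) :
    evC (AddMonoidAlgebra.single k a) t = (a : ℂ) * fourier k t := by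
  rw [evC, AddMonoidAlgebra.lift_single]
  rw [ContinuousMap.smul_apply, Complex.real_smul]
  rfl

lemma evC_mono (k : ℤ) (t : Ci) : evC (mono k) t = fourier k t := by
  rw [mono, evC_single]; simp

lemma norm_fourier_apply (k : ℤ) (t : Ci) : ‖(fourier k t : ℂ)‖ = 1 := by
  rw [fourier_apply]; exact Circle.norm_coe _

lemma evC_norm_mono (k : ℤ) : ‖evC (mono k)‖ ≤ 1 := by
  rw [ContinuousMap.norm_le _ zero_le_one]
  intro t
  rw [evC_mono, norm_fourier_apply]

/-- reversal `T^k ↦ T^{-k}` -/
def revHom : Multiplicative ℤ →* LP where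
  toFun k := AddMonoidAlgebra.single (-k.toAdd) 1
  map_one' := by
    rw [AddMonoidAlgebra.one_def]; rfl
  map_mul' a b := by
    rw [AddMonoidAlgebra.single_mul_single, toAdd_mul, neg_add, mul_one]

def rev : LP →ₐ[ℝ] LP := AddMonoidAlgebra.lift ℝ LP ℤ revHom

lemma rev_single (k : ℤ) (a : ℝ) :
    rev (AddMonoidAlgebra.single k a) = AddMonoidAlgebra.single (-k) a := by
  rw [rev, AddMonoidAlgebra.lift_single]
  change a • AddMonoidAlgebra.single (-k) (1:ℝ) = _
  rw [AddMonoidAlgebra.smul_single, smul_eq_mul, mul_one]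

lemma evC_rev (p : LP) (t : Ci) : evC (rev p) t = conj (evC p t) := by
  induction p using AddMonoidAlgebra.induction_linear with
  | zero => simp
  | add p q hp hq => simp only [map_add, ContinuousMap.add_apply, hp, hq]
  | single k a => 
    rw [rev_single, evC_single, evC_single, fourier_neg, map_mul, Complex.conj_ofReal]

lemma evC_neg (p : LP) (t : Ci) : evC p (-t) = conj (evC p t) := by
  induction p using AddMonoidAlgebra.induction_linear with
  | zero => simp
  | add p q hp hq => simp only [map_add, ContinuousMap.add_apply, hp, hq]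
  | single k a => 
    rw [evC_single, evC_single, map_mul, Complex.conj_ofReal, ← fourier_neg, fourier_apply,
      fourier_apply, smul_neg, neg_smul]

lemma norm_evC_rev (p : LP) : ‖evC (rev p)‖ = ‖evC p‖ := by
  apply le_antisymm
  · rw [ContinuousMap.norm_le _ (norm_nonneg _)]
    intro t
    rw [evC_rev, RCLike.norm_conj]
    exact ContinuousMap.norm_coe_le_norm _ t
  · rw [ContinuousMap.norm_le _ (norm_nonneg _)]
    intro t
    rw [← RCLike.norm_conj, ← evC_rev]
    exact ContinuousMap.norm_coe_le_norm _ t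

/-- `|p|² = p* p`. -/
lemma evC_sq (p : LP) (t : Ci) : evC (rev p * p) t = ((‖evC p t‖ ^ 2 : ℝ) : ℂ) := by
  rw [map_mul, ContinuousMap.mul_apply, evC_rev, mul_comm, RCLike.mul_conj]
  simp

lemma norm_evC_mul (p q : LP) : ‖evC (p * q)‖ ≤ ‖evC p‖ * ‖evC q‖ := by
  rw [map_mul]; exact norm_mul_le _ _

lemma integrable_cont (f : C(Ci, ℂ)) : Integrable (fun t : Ci => f t) volume :=
  f.continuous.integrable_of_hasCompactSupport (HasCompactSupport.of_compactSpace _)

lemma integral_fourier (k : ℤ) : ∫ t : Ci, (fourier k t : ℂ) = if k = 0 then 1 else 0 := by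
  split_ifs with h
  · subst h
    simp only [fourier_zero]
    rw [integral_const]
    simp [Measure.real]
  · exact integral_eq_zero_of_add_right_eq_neg (μ := (volume : Measure Ci))
      (fourier_add_half_inv_index h one_pos)

/-- the zeroth coefficient is the integral -/
lemma integral_evC (p : LP) : ∫ t : Ci, evC p t = (p.coeff 0 : ℂ) := by
  induction p using AddMonoidAlgebra.induction_linear with
  | zero => simp
  | add p q hp hq => 
    simp only [map_add, ContinuousMap.add_apply]
    rw [integral_add (integrable_cont _) (integrable_cont _), hp, hq]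
    simp
  | single k a => 
    simp only [evC_single]
    rw [integral_const_mul, integral_fourier, AddMonoidAlgebra.coeff_single, Finsupp.single_apply]
    split_ifs <;> simp

/-- all coefficients are bounded by the sup norm -/
lemma coeff_le (p : LP) (k : ℤ) : |p.coeff k| ≤ ‖evC p‖ := by
  have h1 : (mono (-k) * p).coeff 0 = p.coeff k := by
    rw [mono, AddMonoidAlgebra.coeff_single_mul_apply]
    simp
  have h2 : ‖((mono (-k) * p).coeff 0 : ℂ)‖ ≤ ‖evC p‖ := by
    rw [← integral_evC]
    calc ‖∫ t : Ci, evC (mono (-k) * p) t‖ ≤ ∫ t : Ci, ‖evC (mono (-k) * p) t‖ :=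
          norm_integral_le_integral_norm _
      _ ≤ ∫ t : Ci, ‖evC p‖ := by
          apply integral_mono (integrable_cont _).norm (integrable_const _)
          intro t
          simp only
          rw [map_mul, ContinuousMap.mul_apply, norm_mul, evC_mono, norm_fourier_apply, one_mul]
          exact ContinuousMap.norm_coe_le_norm _ t
      _ = ‖evC p‖ := by
          rw [integral_const]; simp [Measure.real]
  rw [h1, Complex.norm_real, Real.norm_eq_abs] at h2
  exact h2

/-- `l¹` norm of the coefficients -/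
def l1 (p : LP) : ℝ := p.coeff.sum fun _ a => |a|

lemma l1_nonneg (p : LP) : 0 ≤ l1 p := Finset.sum_nonneg fun _ _ => abs_nonneg _

/-- support bound -/
def SB (d : ℤ) (p : LP) : Prop := ∀ k ∈ p.coeff.support, |k| ≤ d

lemma exists_SB (p : LP) : ∃ d : ℕ, SB d p := by
  refine ⟨∑ k ∈ p.coeff.support, k.natAbs, ?_⟩
  intro k hk
  have h := Finset.single_le_sum (f := fun k : ℤ => k.natAbs) (fun _ _ => Nat.zero_le _) hk
  have h2 : |k| = (k.natAbs : ℤ) := Int.abs_eq_natAbs k
  rw [h2]
  exact_mod_cast h

lemma SB_mul {d e : ℤ} {p q : LP} (hp : SB d p) (hq : SB e q) : SB (d + e) (p * q) := by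
  intro k hk
  have h := AddMonoidAlgebra.support_coeff_mul_subset p q hk
  rw [Finset.mem_add] at h
  obtain ⟨a, ha, b, hb, rfl⟩ := h
  exact (abs_add_le a b).trans (add_le_add (hp a ha) (hq b hb))

lemma SB_one : SB 0 (1 : LP) := by
  intro k hk
  rw [AddMonoidAlgebra.one_def, AddMonoidAlgebra.coeff_single] at hk
  have := Finsupp.support_single_subset hk
  simp only [Finset.mem_singleton] at this
  subst this
  simp

lemma SB_pow {d : ℤ} {p : LP} (hp : SB d p) (n : ℕ) : SB (n * d) (p ^ n) := by
  induction n with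
  | zero => simpa using SB_one
  | succ n ih => 
    rw [pow_succ]
    have := SB_mul ih hp
    convert this using 1
    push_cast; ring

lemma l1_le {d : ℕ} {p : LP} (hp : SB d p) : l1 p ≤ (2 * d + 1) * ‖evC p‖ := by
  have hsub : p.coeff.support ⊆ Finset.Icc (-(d:ℤ)) d := by
    intro k hk
    have := abs_le.mp (hp k hk)
    simpa using this
  calc l1 p = ∑ k ∈ p.coeff.support, |p.coeff k| := rfl
    _ ≤ ∑ k ∈ p.coeff.support, ‖evC p‖ := Finset.sum_le_sum fun k _ => coeff_le p k
    _ = p.coeff.support.card * ‖evC p‖ := by rw [Finset.sum_const, nsmul_eq_mul]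
    _ ≤ (2 * d + 1) * ‖evC p‖ := by
        apply mul_le_mul_of_nonneg_right _ (norm_nonneg _)
        have := Finset.card_le_card hsub
        rw [Int.card_Icc] at this
        have h2 : ((d:ℤ) + 1 - -(d:ℤ)).toNat = 2 * d + 1 := by omega
        rw [h2] at this
        exact_mod_cast this

/-! ### operators -/

variable {H : Type*} [NormedAddCommGroup H] [InnerProductSpace ℝ H] [CompleteSpace H]

/-- powers of `U` -/
def opHom (U : H ≃ₗᵢ[ℝ] H) : Multiplicative ℤ →* (H →L[ℝ] H) where
  toFun k := ((U ^ k.toAdd).toContinuousLinearEquiv : H →L[ℝ] H)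
  map_one' := by
    ext x; simp
  map_mul' a b := by
    ext x
    rw [toAdd_mul, zpow_add]
    rfl

/-- `op U p = ∑ p_k U^k` -/
def op (U : H ≃ₗᵢ[ℝ] H) : LP →ₐ[ℝ] (H →L[ℝ] H) := AddMonoidAlgebra.lift ℝ (H →L[ℝ] H) ℤ (opHom U)

variable (U : H ≃ₗᵢ[ℝ] H)

lemma op_single (k : ℤ) (a : ℝ) (x : H) :
    op U (AddMonoidAlgebra.single k a) x = a • (U ^ k) x := by
  rw [op, AddMonoidAlgebra.lift_single]
  rfl

lemma op_mono (k : ℤ) (x : H) : op U (mono k) x = (U ^ k) x := by
  rw [mono, op_single, one_smul]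

lemma op_mul (p q : LP) (x : H) : op U (p * q) x = op U p (op U q x) := by
  rw [map_mul]; rfl

lemma op_rev (p : LP) (x y : H) : ⟪op U p x, y⟫_ℝ = ⟪x, op U (rev p) y⟫_ℝ := by
  induction p using AddMonoidAlgebra.induction_linear with
  | zero => simp
  | add p q hp hq => 
    simp only [map_add, _root_.add_apply, inner_add_left, inner_add_right, hp, hq]
  | single k a => 
    rw [rev_single, op_single, op_single, inner_smul_left, inner_smul_right]
    congr 1
    have h := (U ^ k).inner_map_map x ((U ^ (-k)) y)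
    have h2 : (U ^ k) ((U ^ (-k)) y) = y := by
      have : (U ^ k * U ^ (-k)) y = y := by rw [← zpow_add]; simp
      exact this
    rw [← h, h2]

lemma adjoint_op (p : LP) : ContinuousLinearMap.adjoint (op U p) = op U (rev p) := by
  symm
  rw [ContinuousLinearMap.eq_adjoint_iff]
  intro x y
  rw [real_inner_comm, ← op_rev, real_inner_comm]

lemma norm_op_le_l1 (p : LP) : ‖op U p‖ ≤ l1 p := by
  apply ContinuousLinearMap.opNorm_le_bound _ (l1_nonneg p)
  intro x
  have h : op U p x = ∑ k ∈ p.coeff.support, (p.coeff k) • (U ^ k) x := by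
    rw [op, AddMonoidAlgebra.lift_apply, Finsupp.sum, _root_.sum_apply]
    rfl
  rw [h, l1, Finsupp.sum, Finset.sum_mul]
  apply norm_sum_le_of_le
  intro k _
  rw [norm_smul, LinearIsometryEquiv.norm_map, Real.norm_eq_abs]

/-- von Neumann inequality for a unitary. -/
theorem norm_op_le (p : LP) : ‖op U p‖ ≤ ‖evC p‖ := by
  obtain ⟨d, hd⟩ := exists_SB (rev p * p)
  set B := op U (rev p * p) with hB
  have hBs : IsSelfAdjoint B := by
    rw [hB, map_mul, ← adjoint_op]
    exact IsSelfAdjoint.star_mul_self (op U p)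
  have hBn : ‖B‖ = ‖op U p‖ * ‖op U p‖ := by
    rw [hB, map_mul, ← adjoint_op]
    exact CStarRing.norm_star_mul_self
  set M := ‖evC p‖ with hM
  have hsq : ‖evC (rev p * p)‖ ≤ M * M := by
    refine (norm_evC_mul _ _).trans ?_
    rw [norm_evC_rev]
  have key : ∀ n : ℕ, ‖B‖ ^ (2 ^ n) ≤ (2 * (2 ^ n * d) + 1) * (M * M) ^ (2 ^ n) := by
    intro n
    rw [← hBs.norm_pow_two_pow n, hB, ← map_pow]
    refine (norm_op_le_l1 U _).trans ?_
    have h1 : SB ((2 ^ n * d : ℕ) : ℤ) ((rev p * p) ^ (2 ^ n)) := by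
      have := SB_pow hd (2 ^ n)
      convert this using 1
      push_cast; ring
    refine (l1_le h1).trans ?_
    push_cast
    apply mul_le_mul_of_nonneg_left _ (by positivity)
    rw [map_pow]
    exact (norm_pow_le _ _).trans (pow_le_pow_left₀ (norm_nonneg _) hsq _)
  have hfin : ‖B‖ ≤ M * M := by
    by_contra hcon
    push Not at hcon
    have hM0 : 0 ≤ M * M := mul_self_nonneg _
    have hBpos : 0 < ‖B‖ := lt_of_le_of_lt hM0 hcon
    -- ratio < 1
    set r := M * M / ‖B‖ with hr
    have hr0 : 0 ≤ r := div_nonneg hM0 hBpos.le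
    have hr1 : r < 1 := (div_lt_one hBpos).mpr hcon
    have h1 : ∀ n : ℕ, 1 ≤ (2 * ((2 ^ n : ℕ) * d) + 1 : ℝ) * r ^ (2 ^ n) := by
      intro n
      have := key n
      rw [hr, div_pow, mul_div_assoc']
      rw [one_le_div (pow_pos hBpos _)]
      push_cast
      exact this
    have h2 : Filter.Tendsto (fun m : ℕ => (2 * ((m:ℝ) * d) + 1 : ℝ) * r ^ m) Filter.atTop
        (nhds 0) := by
      have a1 := tendsto_self_mul_const_pow_of_lt_one hr0 hr1
      have a2 := tendsto_pow_atTop_nhds_zero_of_lt_one hr0 hr1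
      have a3 := (a1.const_mul (2 * (d:ℝ))).add a2
      simp only [mul_zero, add_zero] at a3
      refine a3.congr fun m => ?_
      ring
    have h3 : Filter.Tendsto (fun n : ℕ => (2 * (((2 ^ n : ℕ) : ℝ) * d) + 1 : ℝ) * r ^ (2 ^ n))
        Filter.atTop (nhds 0) :=
      h2.comp (tendsto_pow_atTop_atTop_of_one_lt (by norm_num : 1 < 2))
    have h4 := ge_of_tendsto' h3 h1
    linarith
  rw [hBn] at hfin
  exact (mul_self_le_mul_self_iff (norm_nonneg _) (norm_nonneg _)).mpr hfin

lemma norm_op_apply_le (p : LP) (x : H) : ‖op U p x‖ ≤ ‖evC p‖ * ‖x‖ :=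
  ((op U p).le_opNorm x).trans (mul_le_mul_of_nonneg_right (norm_op_le U p) (norm_nonneg _))

end Crest.Agent.R081.Abs
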