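import Crest.Agent.R081.Abs1

/-!
Row 81 (S0108), ABSTRACT LEMMA, part 2: approximation of a conjugation symmetric function with values
in the unit disc by real trigonometric polynomials bounded by 1.
-/

set_option autoImplicit false
set_option linter.unusedSectionVars false

open scoped ComplexConjugate InnerProductSpace
open MeasureTheory

noncomputable section

namespace Crest.Agent.R081.Abs

/-- projection onto the unit disc -/
def cut (z : ℂ) : ℂ := ((max 1 ‖z‖)⁻¹ : ℝ) * z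

lemma continuous_cut : Continuous cut := by
  unfold cut
  apply Continuous.mul _ continuous_id
  apply Complex.continuous_ofReal.comp
  apply Continuous.inv₀ (continuous_const.max continuous_norm)
  intro z
  have : (1:ℝ) ≤ max 1 ‖z‖ := le_max_left _ _
  positivity

lemma norm_cut_le (z : ℂ) : ‖cut z‖ ≤ 1 := by
  have h : (1:ℝ) ≤ max 1 ‖z‖ := le_max_left _ _
  have h2 : ‖z‖ ≤ max 1 ‖z‖ := le_max_right _ _
  have h0 : (0:ℝ) < max 1 ‖z‖ := by positivity
  unfold cut
  rw [norm_mul, Complex.norm_real, Real.norm_eq_abs, abs_of_pos (inv_pos.mpr h0), inv_mul_le_iff₀ h0,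
    mul_one]
  exact h2

lemma cut_sub_le (z w : ℂ) (hw : ‖w‖ ≤ 1) : ‖cut z - w‖ ≤ 2 * ‖z - w‖ := by
  have h1 : ‖cut z - z‖ ≤ ‖z - w‖ := by
    have h : (1:ℝ) ≤ max 1 ‖z‖ := le_max_left _ _
    have h0 : (0:ℝ) < max 1 ‖z‖ := by positivity
    have e : cut z - z = (((max 1 ‖z‖)⁻¹ - 1 : ℝ) : ℂ) * z := by
      unfold cut; push_cast; ring
    rw [e, norm_mul, Complex.norm_real, Real.norm_eq_abs]
    have h3 : (max 1 ‖z‖)⁻¹ ≤ 1 := inv_le_one_of_one_le₀ h
    rw [abs_of_nonpos (by linarith)]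
    have h4 : ‖z‖ - ‖w‖ ≤ ‖z - w‖ := norm_sub_norm_le z w
    rcases le_total ‖z‖ 1 with hz | hz
    · rw [max_eq_left hz]; simp
    · rw [max_eq_right hz] at h0 ⊢
      have : -(‖z‖⁻¹ - 1) * ‖z‖ = ‖z‖ - 1 := by field_simp; ring
      rw [this]; linarith
  calc ‖cut z - w‖ = ‖(cut z - z) + (z - w)‖ := by congr 1; ring
    _ ≤ ‖cut z - z‖ + ‖z - w‖ := norm_add_le _ _
    _ ≤ 2 * ‖z - w‖ := by linarith

/-- symmetrisation of an element of the span of the characters -/
lemma exists_LP_of_span {r : C(Ci, ℂ)} (hr : r ∈ Submodule.span ℂ (Set.range (@fourier 1))) (a : ℂ) :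
    ∃ s : LP, ∀ t : Ci, evC s t = (a * r t + conj (a * r (-t))) / 2 := by
  induction hr using Submodule.span_induction generalizing a with
  | mem x hx => 
    obtain ⟨k, rfl⟩ := hx
    refine ⟨AddMonoidAlgebra.single k a.re, fun t => ?_⟩
    have h : (fourier k (-t) : ℂ) = conj (fourier k t : ℂ) := by
      have := evC_neg (mono k) t
      rwa [evC_mono, evC_mono] at this
    rw [evC_single, h, map_mul, Complex.conj_conj, ← add_mul, Complex.add_conj]
    push_cast; ring
  | zero => exact ⟨0, fun t => by simp⟩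
  | add x y _ _ hx hy => 
    obtain ⟨s, hs⟩ := hx a
    obtain ⟨s', hs'⟩ := hy a
    refine ⟨s + s', fun t => ?_⟩
    rw [map_add, ContinuousMap.add_apply, hs, hs', ContinuousMap.add_apply, ContinuousMap.add_apply]
    simp only [map_mul, map_add]
    ring
  | smul b x _ hx => 
    obtain ⟨s, hs⟩ := hx (a * b)
    refine ⟨s, fun t => ?_⟩
    rw [hs, ContinuousMap.smul_apply, ContinuousMap.smul_apply, smul_eq_mul, smul_eq_mul]
    simp only [map_mul]
    ring

theorem approx_phase (φ : Ci → ℂ) (hm : Measurable φ) (hb : ∀ t, ‖φ t‖ ≤ 1)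
    (hs : ∀ t, φ (-t) = conj (φ t)) (η : ℝ) (hη : 0 < η) :
    ∃ s : LP, ‖evC s‖ ≤ 1 ∧ ∫ t : Ci, ‖evC s t - φ t‖ ≤ η := by
  have hφ : Integrable φ volume :=
    Integrable.of_bound hm.aestronglyMeasurable 1 (Filter.Eventually.of_forall hb)
  set δ := η / 4 with hδ
  have hδ0 : 0 < δ := by positivity
  obtain ⟨c, hc1, hc2⟩ := hφ.exists_boundedContinuous_integral_sub_le hδ0
  let c' : C(Ci, ℂ) := ⟨fun t => cut (c t), continuous_cut.comp c.continuous⟩
  have hc' : ∀ t, ‖c' t‖ ≤ 1 := fun t => norm_cut_le _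
  have hc'2 : ∀ t, ‖c' t - φ t‖ ≤ 2 * ‖φ t - c t‖ := fun t => by
    rw [norm_sub_rev (φ t)]; exact cut_sub_le _ _ (hb t)
  have hmem : c' ∈ (Submodule.span ℂ (Set.range (@fourier 1))).topologicalClosure := by
    rw [span_fourier_closure_eq_top]; trivial
  rw [← SetLike.mem_coe, Submodule.topologicalClosure_coe, Metric.mem_closure_iff] at hmem
  obtain ⟨r, hr, hr2⟩ := hmem δ hδ0
  have hr3 : ∀ t, ‖r t - c' t‖ ≤ δ := by
    intro t
    have := ContinuousMap.norm_coe_le_norm (c' - r) t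
    rw [ContinuousMap.sub_apply, norm_sub_rev] at this
    rw [dist_eq_norm] at hr2
    linarith
  obtain ⟨s, hs'⟩ := exists_LP_of_span hr 1
  simp only [one_mul] at hs'
  have hrφ : ∀ t, ‖r t - φ t‖ ≤ δ + 2 * ‖φ t - c t‖ := by
    intro t
    calc ‖r t - φ t‖ = ‖(r t - c' t) + (c' t - φ t)‖ := by congr 1; ring
      _ ≤ _ := (norm_add_le _ _).trans (add_le_add (hr3 t) (hc'2 t))
  have hsφ : ∀ t, ‖evC s t - φ t‖ ≤ (‖r t - φ t‖ + ‖r (-t) - φ (-t)‖) / 2 := by
    intro t
    have h1 : φ t = (φ t + conj (φ (-t))) / 2 := by rw [hs]; simp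
    have h2 : evC s t - φ t = ((r t - φ t) + conj (r (-t) - φ (-t))) / 2 := by
      rw [hs' t]
      conv_lhs => rw [h1]
      rw [map_sub]; ring
    rw [h2, norm_div]
    have : ‖(2:ℂ)‖ = 2 := by simp
    rw [this]
    apply div_le_div_of_nonneg_right _ (by norm_num)
    refine (norm_add_le _ _).trans ?_
    rw [RCLike.norm_conj]
  have hsn : ‖evC s‖ ≤ 1 + δ := by
    rw [ContinuousMap.norm_le _ (by positivity)]
    intro t
    rw [hs' t, norm_div]
    have : ‖(2:ℂ)‖ = 2 := by simp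
    rw [this, div_le_iff₀ (by norm_num)]
    have hrn : ∀ t, ‖r t‖ ≤ 1 + δ := by
      intro t
      calc ‖r t‖ = ‖(r t - c' t) + c' t‖ := by congr 1; ring
        _ ≤ δ + 1 := (norm_add_le _ _).trans (add_le_add (hr3 t) (hc' t))
        _ = 1 + δ := by ring
    refine (norm_add_le _ _).trans ?_
    rw [RCLike.norm_conj]
    linarith [hrn t, hrn (-t)]
  refine ⟨(1 + δ)⁻¹ • s, ?_, ?_⟩
  · rw [map_smul, norm_smul, Real.norm_eq_abs, abs_of_pos (by positivity),
      inv_mul_le_iff₀ (by positivity), mul_one]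
    exact hsn
  · have hi1 : Integrable (fun t => ‖φ t - c t‖) (volume : Measure Ci) := (hφ.sub hc2).norm
    have hscal : ∀ t, ‖evC ((1 + δ)⁻¹ • s) t - φ t‖ ≤ δ + ‖evC s t - φ t‖ := by
      intro t
      have e : evC ((1 + δ)⁻¹ • s) t - φ t = (((1 + δ)⁻¹ - 1 : ℝ) : ℂ) * evC s t + (evC s t - φ t) := by
        rw [map_smul, ContinuousMap.smul_apply, Complex.real_smul]
        push_cast; ring
      rw [e]
      refine (norm_add_le _ _).trans (add_le_add ?_ le_rfl)
      rw [norm_mul, Complex.norm_real, Real.norm_eq_abs]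
      have h1 : (1 + δ)⁻¹ ≤ 1 := inv_le_one_of_one_le₀ (by linarith)
      rw [abs_of_nonpos (by linarith)]
      have h2 : ‖evC s t‖ ≤ 1 + δ := (ContinuousMap.norm_coe_le_norm _ t).trans hsn
      have h3 : -((1 + δ)⁻¹ - 1) = δ * (1 + δ)⁻¹ := by field_simp; ring
      rw [h3]
      calc δ * (1 + δ)⁻¹ * ‖evC s t‖ ≤ δ * (1 + δ)⁻¹ * (1 + δ) :=
            mul_le_mul_of_nonneg_left h2 (by positivity)
        _ = δ := by field_simp
    have hpt : ∀ t, ‖evC ((1 + δ)⁻¹ • s) t - φ t‖ ≤ 2 * δ + (‖φ t - c t‖ + ‖φ (-t) - c (-t)‖) := by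
      intro t
      have := hscal t
      have h1 := hsφ t
      have h2 := hrφ t
      have h3 := hrφ (-t)
      linarith
    have hi2 : Integrable (fun t => ‖φ (-t) - c (-t)‖) (volume : Measure Ci) := hi1.comp_neg
    calc ∫ t : Ci, ‖evC ((1 + δ)⁻¹ • s) t - φ t‖ 
        ≤ ∫ t : Ci, (2 * δ + (‖φ t - c t‖ + ‖φ (-t) - c (-t)‖)) := by
          apply integral_mono _ _ hpt
          · exact ((integrable_cont _).sub hφ).norm
          · exact (integrable_const _).add (hi1.add hi2)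
      _ = 2 * δ + ((∫ t : Ci, ‖φ t - c t‖) + ∫ t : Ci, ‖φ (-t) - c (-t)‖) := by
          have e1 := integral_add (μ := (volume : Measure Ci)) (integrable_const (2 * δ)) (hi1.add hi2)
          have e2 := integral_add (μ := (volume : Measure Ci)) hi1 hi2
          simp only [Pi.add_apply] at e1
          rw [e1, e2, integral_const]
          simp [Measure.real]
      _ ≤ η := by
          rw [integral_neg_eq_self (fun t : Ci => ‖φ t - c t‖) volume]
          linarith

end Crest.Agent.R081.Abs
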