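import Crest.Agent.R081.Abs2

/-!
Row 81 (S0108), ABSTRACT LEMMA, part 3: the data of the construction and total-variation closeness of
the spectral measures to Lebesgue measure.
-/

set_option autoImplicit false
set_option linter.unusedSectionVars false

open scoped ComplexConjugate InnerProductSpace Topology
open MeasureTheory Filter

noncomputable section

namespace Crest.Agent.R081.Abs

variable {H : Type*} [NormedAddCommGroup H] [InnerProductSpace ℝ H] [CompleteSpace H]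

/-- partial products `q_{n+1} ⋯ q_{n+m}` -/
def PP (q : ℕ → LP) (n : ℕ) : ℕ → LP
  | 0 => 1
  | m + 1 => PP q n m * q (n + m + 1)

/-- `X_{n,m} = (q_{n+1} ⋯ q_{n+m})(U) x_{n+m}`, the stage `n+m` approximation of `x_n`. -/
def XX (U : H ≃ₗᵢ[ℝ] H) (q : ℕ → LP) (x : ℕ → H) (n m : ℕ) : H := op U (PP q n m) (x (n + m))

/-- Hypotheses of the abstract lemma, except completeness. -/
structure Data (U : H ≃ₗᵢ[ℝ] H) (x : ℕ → H) (q : ℕ → LP) (ε C Γ : ℕ → ℝ) : Prop where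
  eps0 : ∀ n, 0 ≤ ε n
  hx : ∀ n, ‖x n‖ ≤ 2
  hC : ∀ n, 1 ≤ C n
  hG1 : ∀ n, 1 ≤ Γ n
  hG : ∀ n, C (n + 1) * Γ n ≤ Γ (n + 1)
  heps : ∀ n, ε (n + 1) * Γ n ^ 2 ≤ (1 / 4) ^ n
  h1 : ∀ n, ‖x n - op U (q (n + 1)) (x (n + 1))‖ ≤ ε (n + 1)
  h2 : ∀ n, ∫ t : Ci, |‖evC (q (n + 1)) t‖ ^ 2 - 1| ≤ ε (n + 1)
  h3 : ∀ n, ‖evC (q (n + 1))‖ ≤ C (n + 1)
  h5 : ∀ (n : ℕ) (k : ℤ), Tendsto (fun m => ⟪(U ^ k) (XX U q x n m), XX U q x n m⟫_ℝ
    - (rev (PP q n m) * PP q n m).coeff (-k)) atTop (𝓝 0)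

lemma cont_sq (p : LP) : Continuous fun t : Ci => ‖evC p t‖ ^ 2 := (evC p).continuous.norm.pow 2

lemma int_of_cont {f : Ci → ℝ} (hf : Continuous f) : Integrable f volume :=
  hf.integrable_of_hasCompactSupport (HasCompactSupport.of_compactSpace _)

lemma integral_sq (p : LP) : ∫ t : Ci, ‖evC p t‖ ^ 2 = (rev p * p).coeff 0 := by
  have h := integral_evC (rev p * p)
  simp only [evC_sq] at h
  rw [integral_complex_ofReal] at h
  exact_mod_cast h

/-- `∫ p |P|²` -/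
lemma coeff_mul_sq (p P : LP) :
    |(p * (rev P * P)).coeff 0 - p.coeff 0| ≤ ‖evC p‖ * ∫ t : Ci, |‖evC P t‖ ^ 2 - 1| := by
  have h : (((p * (rev P * P)).coeff 0 - p.coeff 0 : ℝ) : ℂ) =
      ∫ t : Ci, evC p t * ((‖evC P t‖ ^ 2 - 1 : ℝ) : ℂ) := by
    push_cast
    rw [← integral_evC, ← integral_evC, ← integral_sub (integrable_cont _) (integrable_cont _)]
    apply integral_congr_ae
    refine Eventually.of_forall fun t => ?_
    simp only
    rw [map_mul, ContinuousMap.mul_apply, evC_sq]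
    push_cast; ring
  have h' : |(p * (rev P * P)).coeff 0 - p.coeff 0| =
      ‖(((p * (rev P * P)).coeff 0 - p.coeff 0 : ℝ) : ℂ)‖ := by
    rw [Complex.norm_real, Real.norm_eq_abs]
  rw [h', h]
  refine (norm_integral_le_integral_norm _).trans ?_
  rw [← integral_const_mul]
  apply integral_mono
  · apply int_of_cont
    exact ((evC p).continuous.mul (Complex.continuous_ofReal.comp ((cont_sq P).sub continuous_const))).norm
  · apply int_of_cont
    exact continuous_const.mul ((cont_sq P).sub continuous_const).abs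
  · intro t
    simp only
    rw [norm_mul, Complex.norm_real, Real.norm_eq_abs]
    exact mul_le_mul_of_nonneg_right (ContinuousMap.norm_coe_le_norm _ t) (abs_nonneg _)

namespace Data

variable {U : H ≃ₗᵢ[ℝ] H} {x : ℕ → H} {q : ℕ → LP} {ε C Γ : ℕ → ℝ} (D : Data U x q ε C Γ)
include D

lemma Gpos (n : ℕ) : 0 < Γ n := lt_of_lt_of_le one_pos (D.hG1 n)

lemma Gmono : Monotone Γ := by
  apply monotone_nat_of_le_succ
  intro n
  refine le_trans ?_ (D.hG n)
  have := D.hC (n + 1)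
  have := D.Gpos n
  nlinarith

lemma normP (n m : ℕ) : ‖evC (PP q n m)‖ * Γ n ≤ Γ (n + m) := by
  induction m with
  | zero => 
    simp only [PP, map_one, add_zero]
    rw [norm_one, one_mul]
  | succ m ih => 
    have h1 : ‖evC (PP q n (m + 1))‖ ≤ ‖evC (PP q n m)‖ * C (n + m + 1) :=
      (norm_evC_mul _ _).trans (mul_le_mul_of_nonneg_left (D.h3 _) (norm_nonneg _))
    calc ‖evC (PP q n (m + 1))‖ * Γ n ≤ (‖evC (PP q n m)‖ * C (n + m + 1)) * Γ n :=
          mul_le_mul_of_nonneg_right h1 (D.Gpos n).le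
      _ = C (n + m + 1) * (‖evC (PP q n m)‖ * Γ n) := by ring
      _ ≤ C (n + m + 1) * Γ (n + m) :=
          mul_le_mul_of_nonneg_left ih (le_trans zero_le_one (D.hC _))
      _ ≤ Γ (n + m + 1) := D.hG _

lemma step_small (n m : ℕ) : ‖evC (PP q n m)‖ * ε (n + m + 1) ≤ (1 / 4) ^ (n + m) / Γ n ^ 2 := by
  have hG := D.Gpos n
  rw [le_div_iff₀ (by positivity)]
  have h1 := D.normP n m
  have h2 : Γ n ≤ Γ (n + m) := D.Gmono (Nat.le_add_right n m)
  have h3 := D.heps (n + m)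
  have h0 := D.eps0 (n + m + 1)
  calc ‖evC (PP q n m)‖ * ε (n + m + 1) * Γ n ^ 2
      = ε (n + m + 1) * ((‖evC (PP q n m)‖ * Γ n) * Γ n) := by ring
    _ ≤ ε (n + m + 1) * (Γ (n + m) * Γ (n + m)) := by
        apply mul_le_mul_of_nonneg_left _ h0
        exact mul_le_mul h1 h2 hG.le (D.Gpos _).le
    _ = ε (n + m + 1) * Γ (n + m) ^ 2 := by ring
    _ ≤ _ := h3

lemma step_small2 (n m : ℕ) :
    ‖evC (PP q n m)‖ ^ 2 * ε (n + m + 1) ≤ (1 / 4) ^ (n + m) / Γ n ^ 2 := by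
  have hG := D.Gpos n
  rw [le_div_iff₀ (by positivity)]
  have h1 := D.normP n m
  have h3 := D.heps (n + m)
  have h0 := D.eps0 (n + m + 1)
  calc ‖evC (PP q n m)‖ ^ 2 * ε (n + m + 1) * Γ n ^ 2
      = ε (n + m + 1) * ((‖evC (PP q n m)‖ * Γ n) * (‖evC (PP q n m)‖ * Γ n)) := by ring
    _ ≤ ε (n + m + 1) * (Γ (n + m) * Γ (n + m)) := by
        apply mul_le_mul_of_nonneg_left _ h0
        exact mul_le_mul h1 h1 (by positivity) (D.Gpos _).le
    _ = ε (n + m + 1) * Γ (n + m) ^ 2 := by ring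
    _ ≤ _ := h3

/-- `x_n ≈ X_{n,m}` -/
lemma dist_XX (n m : ℕ) :
    ‖x n - XX U q x n m‖ ≤ (4 / 3) * ((1 / 4) ^ n - (1 / 4) ^ (n + m)) / Γ n ^ 2 := by
  induction m with
  | zero => simp [XX, PP]
  | succ m ih => 
    have e : x n - XX U q x n (m + 1) = (x n - XX U q x n m) +
        op U (PP q n m) (x (n + m) - op U (q (n + m + 1)) (x (n + m + 1))) := by
      have : XX U q x n (m + 1) = op U (PP q n m) (op U (q (n + m + 1)) (x (n + m + 1))) := by
        rw [XX, PP, op_mul]; rfl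
      rw [this, map_sub]
      simp only [XX]
      abel
    have h2 : ‖op U (PP q n m) (x (n + m) - op U (q (n + m + 1)) (x (n + m + 1)))‖ ≤
        (1 / 4) ^ (n + m) / Γ n ^ 2 :=
      (norm_op_apply_le U _ _).trans
        ((mul_le_mul_of_nonneg_left (D.h1 _) (norm_nonneg _)).trans (D.step_small n m))
    rw [e]
    refine (norm_add_le _ _).trans ((add_le_add ih h2).trans (le_of_eq ?_))
    have hG := D.Gpos n
    field_simp
    ring

lemma dist_XX' (n m : ℕ) : ‖x n - XX U q x n m‖ ≤ 2 * (1 / 4) ^ n / Γ n ^ 2 := by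
  refine (D.dist_XX n m).trans ?_
  have hG := D.Gpos n
  apply div_le_div_of_nonneg_right _ (by positivity)
  have h1 : (0:ℝ) < (1 / 4) ^ n := by positivity
  have h2 : (0:ℝ) < (1 / 4) ^ (n + m) := by positivity
  linarith

lemma norm_XX (n m : ℕ) : ‖XX U q x n m‖ ≤ 4 := by
  have h1 := D.dist_XX' n m
  have hG : 1 ≤ Γ n ^ 2 := one_le_pow₀ (D.hG1 n)
  have h2 : 2 * (1 / 4 : ℝ) ^ n / Γ n ^ 2 ≤ 2 := by
    rw [div_le_iff₀ (by positivity)]
    have : (1 / 4 : ℝ) ^ n ≤ 1 := pow_le_one₀ (by norm_num) (by norm_num)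
    linarith
  have h3 := D.hx n
  have h4 : ‖XX U q x n m‖ ≤ ‖x n‖ + ‖x n - XX U q x n m‖ := by
    have : XX U q x n m = x n - (x n - XX U q x n m) := by abel
    calc ‖XX U q x n m‖ = ‖x n - (x n - XX U q x n m)‖ := by rw [← this]
      _ ≤ _ := norm_sub_le _ _
  linarith

lemma flat_PP (n m : ℕ) :
    ∫ t : Ci, |‖evC (PP q n m) t‖ ^ 2 - 1| ≤
      (4 / 3) * ((1 / 4) ^ n - (1 / 4) ^ (n + m)) / Γ n ^ 2 := by
  induction m with
  | zero => simp [PP]
  | succ m ih => 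
    have hpt : ∀ t : Ci, |‖evC (PP q n (m + 1)) t‖ ^ 2 - 1| ≤
        |‖evC (PP q n m) t‖ ^ 2 - 1| + ‖evC (PP q n m)‖ ^ 2 * |‖evC (q (n + m + 1)) t‖ ^ 2 - 1| := by
      intro t
      have e : ‖evC (PP q n (m + 1)) t‖ ^ 2 - 1 = (‖evC (PP q n m) t‖ ^ 2 - 1) +
          ‖evC (PP q n m) t‖ ^ 2 * (‖evC (q (n + m + 1)) t‖ ^ 2 - 1) := by
        rw [PP, map_mul, ContinuousMap.mul_apply, norm_mul]; ring
      rw [e]
      refine (abs_add_le _ _).trans (add_le_add le_rfl ?_)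
      rw [abs_mul, abs_of_nonneg (by positivity : 0 ≤ ‖evC (PP q n m) t‖ ^ 2)]
      apply mul_le_mul_of_nonneg_right _ (abs_nonneg _)
      exact pow_le_pow_left₀ (norm_nonneg _) (ContinuousMap.norm_coe_le_norm _ t) 2
    have hc1 : Continuous fun t : Ci => |‖evC (PP q n m) t‖ ^ 2 - 1| :=
      ((cont_sq _).sub continuous_const).abs
    have hc2 : Continuous fun t : Ci => |‖evC (q (n + m + 1)) t‖ ^ 2 - 1| :=
      ((cont_sq _).sub continuous_const).abs
    calc ∫ t : Ci, |‖evC (PP q n (m + 1)) t‖ ^ 2 - 1|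
        ≤ ∫ t : Ci, (|‖evC (PP q n m) t‖ ^ 2 - 1| +
            ‖evC (PP q n m)‖ ^ 2 * |‖evC (q (n + m + 1)) t‖ ^ 2 - 1|) := by
          apply integral_mono _ _ hpt
          · exact int_of_cont ((cont_sq _).sub continuous_const).abs
          · exact int_of_cont (hc1.add (continuous_const.mul hc2))
      _ = (∫ t : Ci, |‖evC (PP q n m) t‖ ^ 2 - 1|) +
            ‖evC (PP q n m)‖ ^ 2 * ∫ t : Ci, |‖evC (q (n + m + 1)) t‖ ^ 2 - 1| := by
          rw [integral_add (int_of_cont hc1) ((int_of_cont hc2).const_mul _),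
            integral_const_mul]
      _ ≤ (4 / 3) * ((1 / 4) ^ n - (1 / 4) ^ (n + m)) / Γ n ^ 2 + (1 / 4) ^ (n + m) / Γ n ^ 2 := by
          apply add_le_add ih
          exact (mul_le_mul_of_nonneg_left (D.h2 _) (by positivity)).trans (D.step_small2 n m)
      _ = _ := by
          have hG := D.Gpos n
          field_simp
          ring

lemma flat_PP' (n m : ℕ) :
    ∫ t : Ci, |‖evC (PP q n m) t‖ ^ 2 - 1| ≤ 2 * (1 / 4) ^ n / Γ n ^ 2 := by
  refine (D.flat_PP n m).trans ?_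
  have hG := D.Gpos n
  apply div_le_div_of_nonneg_right _ (by positivity)
  have h1 : (0:ℝ) < (1 / 4) ^ n := by positivity
  have h2 : (0:ℝ) < (1 / 4) ^ (n + m) := by positivity
  linarith

lemma lim_XX (n : ℕ) (p : LP) :
    Tendsto (fun m => ⟪op U p (XX U q x n m), XX U q x n m⟫_ℝ
      - (p * (rev (PP q n m) * PP q n m)).coeff 0) atTop (𝓝 0) := by
  induction p using AddMonoidAlgebra.induction_linear with
  | zero => simp
  | add p p' hp hp' => 
    have := hp.add hp'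
    rw [add_zero] at this
    refine this.congr fun m => ?_
    rw [map_add, _root_.add_apply, inner_add_left, add_mul, AddMonoidAlgebra.coeff_add,
      Finsupp.add_apply]
    ring
  | single k a => 
    have := (D.h5 n k).const_mul a
    rw [mul_zero] at this
    refine this.congr fun m => ?_
    rw [op_single, inner_smul_left, AddMonoidAlgebra.coeff_single_mul_apply, add_zero]
    simp only [conj_trivial]
    ring

/-- **TV closeness** of the spectral measure of `x_n` to Lebesgue measure. -/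
theorem TV (n : ℕ) (p : LP) :
    |⟪op U p (x n), x n⟫_ℝ - p.coeff 0| ≤ 14 * (1 / 4) ^ n / Γ n ^ 2 * ‖evC p‖ := by
  have hb : ∀ m, |⟪op U p (x n), x n⟫_ℝ - p.coeff 0| ≤ 14 * (1 / 4) ^ n / Γ n ^ 2 * ‖evC p‖ +
      |⟪op U p (XX U q x n m), XX U q x n m⟫_ℝ - (p * (rev (PP q n m) * PP q n m)).coeff 0| := by
    intro m
    set X := XX U q x n m with hX
    set R := (p * (rev (PP q n m) * PP q n m)).coeff 0 with hR
    have a1 : |⟪op U p (x n), x n⟫_ℝ - ⟪op U p X, X⟫_ℝ| ≤ 12 * (1 / 4) ^ n / Γ n ^ 2 * ‖evC p‖ := by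
      have e : ⟪op U p (x n), x n⟫_ℝ - ⟪op U p X, X⟫_ℝ =
          ⟪op U p (x n), x n - X⟫_ℝ + ⟪op U p (x n - X), X⟫_ℝ := by
        rw [inner_sub_right, map_sub, inner_sub_left]; ring
      rw [e]
      have b1 : |⟪op U p (x n), x n - X⟫_ℝ| ≤ (‖evC p‖ * 2) * (2 * (1 / 4) ^ n / Γ n ^ 2) := by
        refine (abs_real_inner_le_norm _ _).trans ?_
        apply mul_le_mul _ (D.dist_XX' n m) (norm_nonneg _) (by positivity)
        exact (norm_op_apply_le U _ _).trans (mul_le_mul_of_nonneg_left (D.hx n) (norm_nonneg _))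
      have b2 : |⟪op U p (x n - X), X⟫_ℝ| ≤ (‖evC p‖ * (2 * (1 / 4) ^ n / Γ n ^ 2)) * 4 := by
        refine (abs_real_inner_le_norm _ _).trans ?_
        apply mul_le_mul _ (D.norm_XX n m) (norm_nonneg _) (by positivity)
        exact (norm_op_apply_le U _ _).trans
          (mul_le_mul_of_nonneg_left (D.dist_XX' n m) (norm_nonneg _))
      refine (abs_add_le _ _).trans ((add_le_add b1 b2).trans (le_of_eq ?_))
      ring
    have a2 : |R - p.coeff 0| ≤ 2 * (1 / 4) ^ n / Γ n ^ 2 * ‖evC p‖ := by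
      refine (coeff_mul_sq p _).trans ?_
      rw [mul_comm]
      exact mul_le_mul_of_nonneg_right (D.flat_PP' n m) (norm_nonneg _)
    have e : ⟪op U p (x n), x n⟫_ℝ - p.coeff 0 = (⟪op U p (x n), x n⟫_ℝ - ⟪op U p X, X⟫_ℝ) +
        (⟪op U p X, X⟫_ℝ - R) + (R - p.coeff 0) := by ring
    rw [e]
    refine (abs_add_three _ _ _).trans ?_
    have : 14 * (1 / 4) ^ n / Γ n ^ 2 * ‖evC p‖ = 12 * (1 / 4) ^ n / Γ n ^ 2 * ‖evC p‖ +
        2 * (1 / 4) ^ n / Γ n ^ 2 * ‖evC p‖ := by ring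
    rw [this]
    linarith
  have hlim : Tendsto (fun m => 14 * (1 / 4) ^ n / Γ n ^ 2 * ‖evC p‖ +
      |⟪op U p (XX U q x n m), XX U q x n m⟫_ℝ - (p * (rev (PP q n m) * PP q n m)).coeff 0|) atTop
      (𝓝 (14 * (1 / 4) ^ n / Γ n ^ 2 * ‖evC p‖)) := by
    have := (D.lim_XX n p).abs.const_add (14 * (1 / 4) ^ n / Γ n ^ 2 * ‖evC p‖)
    simpa using this
  exact ge_of_tendsto' hlim hb

/-- norm of `p(U) x_n` -/
lemma norm_sq_le (n : ℕ) (p : LP) :
    ‖op U p (x n)‖ ^ 2 ≤ (∫ t : Ci, ‖evC p t‖ ^ 2) + 14 * (1 / 4) ^ n / Γ n ^ 2 * ‖evC p‖ ^ 2 := by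
  have h := D.TV n (rev p * p)
  have e : ⟪op U (rev p * p) (x n), x n⟫_ℝ = ‖op U p (x n)‖ ^ 2 := by
    rw [op_mul, real_inner_comm, ← op_rev, real_inner_self_eq_norm_sq]
  rw [e, ← integral_sq] at h
  have h2 := (abs_le.mp h).2
  have h3 : ‖evC (rev p * p)‖ ≤ ‖evC p‖ ^ 2 := by
    refine (norm_evC_mul _ _).trans ?_
    rw [norm_evC_rev, sq]
  have hG := D.Gpos n
  have h4 : 14 * (1 / 4) ^ n / Γ n ^ 2 * ‖evC (rev p * p)‖ ≤
      14 * (1 / 4) ^ n / Γ n ^ 2 * ‖evC p‖ ^ 2 := mul_le_mul_of_nonneg_left h3 (by positivity)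
  linarith

end Data

end Crest.Agent.R081.Abs
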