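import Crest.Agent.R081.Abs3

/-!
Row 81 (S0108), ABSTRACT LEMMA, part 4: the flat cyclic vector.
-/

set_option autoImplicit false
set_option linter.unusedSectionVars false

open scoped ComplexConjugate InnerProductSpace Topology
open MeasureTheory Filter

noncomputable section

namespace Crest.Agent.R081.Abs

/-- the phase of a trigonometric polynomial -/
def ph (r : LP) (t : Ci) : ℂ := if evC r t = 0 then 1 else evC r t / (‖evC r t‖ : ℂ)

lemma norm_ph (r : LP) (t : Ci) : ‖ph r t‖ = 1 := by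
  unfold ph
  split_ifs with h
  · simp
  · rw [norm_div, Complex.norm_real, norm_norm, div_self (norm_ne_zero_iff.mpr h)]

lemma mul_ph (r : LP) (t : Ci) : ((‖evC r t‖ : ℝ) : ℂ) * ph r t = evC r t := by
  unfold ph
  split_ifs with h
  · simp [h]
  · have : ((‖evC r t‖ : ℝ) : ℂ) ≠ 0 := by
      exact_mod_cast norm_ne_zero_iff.mpr h
    field_simp

lemma measurable_ph (r : LP) : Measurable (ph r) := by
  unfold ph
  apply Measurable.ite
  · exact (isClosed_singleton.preimage (evC r).continuous).measurableSet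
  · exact measurable_const
  · exact (evC r).continuous.measurable.div
      (Complex.continuous_ofReal.comp (evC r).continuous.norm).measurable

lemma ph_neg (r : LP) (t : Ci) : ph r (-t) = conj (ph r t) := by
  unfold ph
  rw [evC_neg]
  by_cases h : evC r t = 0
  · simp [h]
  · rw [if_neg (by simpa using h), if_neg h, map_div₀, RCLike.norm_conj, Complex.conj_ofReal]

lemma sub_ph (r : LP) (t : Ci) : ‖evC r t - ph r t‖ ^ 2 ≤ |‖evC r t‖ ^ 2 - 1| := by
  have e : evC r t - ph r t = ((‖evC r t‖ - 1 : ℝ) : ℂ) * ph r t := by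
    rw [Complex.ofReal_sub, sub_mul, mul_ph]; simp
  rw [e, norm_mul, norm_ph, mul_one, Complex.norm_real, Real.norm_eq_abs, sq_abs]
  set a := ‖evC r t‖
  have ha : 0 ≤ a := norm_nonneg _
  have h1 : |a ^ 2 - 1| = |a - 1| * (a + 1) := by
    have : a ^ 2 - 1 = (a - 1) * (a + 1) := by ring
    rw [this, abs_mul, abs_of_nonneg (by linarith : 0 ≤ a + 1)]
  have h2 : (a - 1) ^ 2 = |a - 1| * |a - 1| := by rw [← sq, sq_abs]
  rw [h1, h2]
  apply mul_le_mul_of_nonneg_left _ (abs_nonneg _)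
  rw [abs_le]; constructor <;> linarith

/-- choice of `s_{n+1}` -/
def nxt (r : LP) (η : ℝ) (hη : 0 < η) : LP :=
  (approx_phase (ph r) (measurable_ph r) (fun t => (norm_ph r t).le) (ph_neg r) η hη).choose

lemma nxt_norm (r : LP) (η : ℝ) (hη : 0 < η) : ‖evC (nxt r η hη)‖ ≤ 1 :=
  (approx_phase (ph r) (measurable_ph r) (fun t => (norm_ph r t).le) (ph_neg r) η hη).choose_spec.1

lemma nxt_int (r : LP) (η : ℝ) (hη : 0 < η) : ∫ t : Ci, ‖evC (nxt r η hη) t - ph r t‖ ≤ η :=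
  (approx_phase (ph r) (measurable_ph r) (fun t => (norm_ph r t).le) (ph_neg r) η hη).choose_spec.2

lemma integrable_ph (r : LP) : Integrable (ph r) volume :=
  Integrable.of_bound (measurable_ph r).aestronglyMeasurable 1
    (Eventually.of_forall fun t => (norm_ph r t).le)

namespace Data

variable {H : Type*} [NormedAddCommGroup H] [InnerProductSpace ℝ H] [CompleteSpace H]
variable {U : H ≃ₗᵢ[ℝ] H} {x : ℕ → H} {q : ℕ → LP} {ε C Γ : ℕ → ℝ} (D : Data U x q ε C Γ)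

/-- tolerance -/
def eta (Γ : ℕ → ℝ) (n : ℕ) : ℝ := (1 / 4) ^ n / Γ n ^ 2

include D in
lemma eta_pos (n : ℕ) : 0 < eta Γ n := by
  have := D.Gpos n
  unfold eta; positivity

/-- the sequence `s_n` -/
def ss : ℕ → LP
  | 0 => 1
  | n + 1 => nxt (ss n * q (n + 1)) (eta Γ (n + 1)) (D.eta_pos (n + 1))

lemma ss_norm (n : ℕ) : ‖evC (D.ss n)‖ ≤ 1 := by
  cases n with
  | zero => rw [ss, map_one]; exact norm_one.le
  | succ n => rw [ss]; exact nxt_norm _ _ _

lemma ss_apply (n : ℕ) (t : Ci) : ‖evC (D.ss n) t‖ ≤ 1 :=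
  (ContinuousMap.norm_coe_le_norm _ t).trans (D.ss_norm n)

/-- defect of unimodularity -/
lemma ss_defect (n : ℕ) : ∫ t : Ci, (1 - ‖evC (D.ss n) t‖ ^ 2) ≤ 2 * eta Γ n := by
  cases n with
  | zero => 
    have : ∀ t : Ci, evC (D.ss 0) t = 1 := by intro t; rw [ss, map_one]; rfl
    simp only [this]
    have := D.eta_pos 0
    simp only [norm_one]
    norm_num
    exact this.le
  | succ n => 
    set r := D.ss n * q (n + 1) with hr
    have h0 : D.ss (n + 1) = nxt r (eta Γ (n + 1)) (D.eta_pos (n + 1)) := by rw [ss]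
    have hpt : ∀ t : Ci, 1 - ‖evC (D.ss (n + 1)) t‖ ^ 2 ≤ 2 * ‖evC (D.ss (n + 1)) t - ph r t‖ := by
      intro t
      have h1 := D.ss_apply (n + 1) t
      have h2 : ‖ph r t‖ - ‖evC (D.ss (n + 1)) t‖ ≤ ‖ph r t - evC (D.ss (n + 1)) t‖ :=
        norm_sub_norm_le _ _
      rw [norm_ph, norm_sub_rev] at h2
      have h3 := norm_nonneg (evC (D.ss (n + 1)) t)
      nlinarith
    calc ∫ t : Ci, (1 - ‖evC (D.ss (n + 1)) t‖ ^ 2) ≤
        ∫ t : Ci, 2 * ‖evC (D.ss (n + 1)) t - ph r t‖ := by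
          apply integral_mono _ _ hpt
          · exact int_of_cont (continuous_const.sub (cont_sq _))
          · exact (((integrable_cont _).sub (integrable_ph r)).norm).const_mul 2
      _ = 2 * ∫ t : Ci, ‖evC (D.ss (n + 1)) t - ph r t‖ := integral_const_mul _ _
      _ ≤ 2 * eta Γ (n + 1) := by
          rw [h0]
          exact mul_le_mul_of_nonneg_left (nxt_int _ _ _) (by norm_num)

/-- the increments -/
lemma int_w (n : ℕ) :
    ∫ t : Ci, ‖evC (D.ss n * q (n + 1) - D.ss (n + 1)) t‖ ^ 2 ≤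
      2 * ε (n + 1) + 4 * eta Γ n + 4 * eta Γ (n + 1) := by
  set r := D.ss n * q (n + 1) with hr
  have h0 : D.ss (n + 1) = nxt r (eta Γ (n + 1)) (D.eta_pos (n + 1)) := by rw [ss]
  have hpt : ∀ t : Ci, ‖evC (r - D.ss (n + 1)) t‖ ^ 2 ≤
      (2 * |‖evC (q (n + 1)) t‖ ^ 2 - 1| + 2 * (1 - ‖evC (D.ss n) t‖ ^ 2)) +
        4 * ‖evC (D.ss (n + 1)) t - ph r t‖ := by
    intro t
    have e1 : evC (r - D.ss (n + 1)) t = (evC r t - ph r t) + (ph r t - evC (D.ss (n + 1)) t) := by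
      rw [map_sub, ContinuousMap.sub_apply]; ring
    have e2 : ‖evC (r - D.ss (n + 1)) t‖ ≤ ‖evC r t - ph r t‖ + ‖evC (D.ss (n + 1)) t - ph r t‖ := by
      rw [e1, norm_sub_rev (evC (D.ss (n + 1)) t)]; exact norm_add_le _ _
    have h2 : ‖evC (D.ss (n + 1)) t - ph r t‖ ≤ 2 := by
      refine (norm_sub_le _ _).trans ?_
      rw [norm_ph]; linarith [D.ss_apply (n + 1) t]
    have h3 : |‖evC r t‖ ^ 2 - 1| ≤ |‖evC (q (n + 1)) t‖ ^ 2 - 1| + (1 - ‖evC (D.ss n) t‖ ^ 2) := by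
      have e3 : ‖evC r t‖ ^ 2 - 1 = ‖evC (D.ss n) t‖ ^ 2 * (‖evC (q (n + 1)) t‖ ^ 2 - 1) +
          (‖evC (D.ss n) t‖ ^ 2 - 1) := by
        rw [hr, map_mul, ContinuousMap.mul_apply, norm_mul]; ring
      have hs : ‖evC (D.ss n) t‖ ^ 2 ≤ 1 := pow_le_one₀ (norm_nonneg _) (D.ss_apply n t)
      rw [e3]
      refine (abs_add_le _ _).trans (add_le_add ?_ ?_)
      · rw [abs_mul, abs_of_nonneg (by positivity : 0 ≤ ‖evC (D.ss n) t‖ ^ 2)]
        calc _ ≤ 1 * |‖evC (q (n + 1)) t‖ ^ 2 - 1| := mul_le_mul_of_nonneg_right hs (abs_nonneg _)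
          _ = _ := one_mul _
      · rw [abs_of_nonpos (by linarith)]; linarith
    have h4 := sub_ph r t
    have ha := norm_nonneg (evC r t - ph r t)
    have hb := norm_nonneg (evC (D.ss (n + 1)) t - ph r t)
    have hc := norm_nonneg (evC (r - D.ss (n + 1)) t)
    nlinarith [sq_nonneg (‖evC r t - ph r t‖ - ‖evC (D.ss (n + 1)) t - ph r t‖)]
  have i1 : Integrable (fun t : Ci => 2 * |‖evC (q (n + 1)) t‖ ^ 2 - 1|) volume :=
    int_of_cont (continuous_const.mul ((cont_sq _).sub continuous_const).abs)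
  have i2 : Integrable (fun t : Ci => 2 * (1 - ‖evC (D.ss n) t‖ ^ 2)) volume :=
    int_of_cont (continuous_const.mul (continuous_const.sub (cont_sq _)))
  have i3 : Integrable (fun t : Ci => 4 * ‖evC (D.ss (n + 1)) t - ph r t‖) volume :=
    (((integrable_cont _).sub (integrable_ph r)).norm).const_mul 4
  calc ∫ t : Ci, ‖evC (r - D.ss (n + 1)) t‖ ^ 2
      ≤ ∫ t : Ci, ((2 * |‖evC (q (n + 1)) t‖ ^ 2 - 1| + 2 * (1 - ‖evC (D.ss n) t‖ ^ 2)) +
        4 * ‖evC (D.ss (n + 1)) t - ph r t‖) := by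
        apply integral_mono _ ((i1.add i2).add i3) hpt
        exact int_of_cont (cont_sq _)
    _ = 2 * (∫ t : Ci, |‖evC (q (n + 1)) t‖ ^ 2 - 1|) + 2 * (∫ t : Ci, (1 - ‖evC (D.ss n) t‖ ^ 2)) +
        4 * ∫ t : Ci, ‖evC (D.ss (n + 1)) t - ph r t‖ := by
        have e1 := integral_add (μ := (volume : Measure Ci)) (i1.add i2) i3
        have e2 := integral_add (μ := (volume : Measure Ci)) i1 i2
        simp only [Pi.add_apply] at e1
        rw [e1, e2, integral_const_mul, integral_const_mul, integral_const_mul]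
    _ ≤ 2 * ε (n + 1) + 2 * (2 * eta Γ n) + 4 * eta Γ (n + 1) := by
        have a1 := D.h2 n
        have a2 := D.ss_defect n
        have a3 : ∫ t : Ci, ‖evC (D.ss (n + 1)) t - ph r t‖ ≤ eta Γ (n + 1) := by
          rw [h0]; exact nxt_int _ _ _
        linarith
    _ = _ := by ring

/-- `g_n = s_n(U) x_n` -/
def gg (n : ℕ) : H := op U (D.ss n) (x n)

lemma dist_gg (n : ℕ) : dist (D.gg n) (D.gg (n + 1)) ≤ 6 / Γ n * (1 / 2) ^ n := by
  have hG := D.Gpos n
  have hG1 := D.Gpos (n + 1)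
  set w := D.ss n * q (n + 1) - D.ss (n + 1) with hw
  have e : D.gg n - D.gg (n + 1) = op U (D.ss n) (x n - op U (q (n + 1)) (x (n + 1))) +
      op U w (x (n + 1)) := by
    have e0 : op U (D.ss n * q (n + 1) - D.ss (n + 1)) (x (n + 1)) =
        op U (D.ss n) (op U (q (n + 1)) (x (n + 1))) - op U (D.ss (n + 1)) (x (n + 1)) := by
      rw [map_sub, ← op_mul]; rfl
    rw [hw, e0, map_sub, gg, gg]; abel
  have h1 : ‖op U (D.ss n) (x n - op U (q (n + 1)) (x (n + 1)))‖ ≤ ε (n + 1) := by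
    refine (norm_op_apply_le U _ _).trans ?_
    calc _ ≤ 1 * ε (n + 1) := mul_le_mul (D.ss_norm n) (D.h1 n) (norm_nonneg _) zero_le_one
      _ = _ := one_mul _
  have h2 : ‖op U w (x (n + 1))‖ ≤ 5 * (1 / 2) ^ n / Γ n := by
    have h3 := D.norm_sq_le (n + 1) w
    have h4 := D.int_w n
    have hwn : ‖evC w‖ ≤ 2 * C (n + 1) := by
      rw [hw, map_sub]
      refine (norm_sub_le _ _).trans ?_
      have a1 : ‖evC (D.ss n * q (n + 1))‖ ≤ C (n + 1) := by
        refine (norm_evC_mul _ _).trans ?_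
        calc _ ≤ 1 * C (n + 1) := mul_le_mul (D.ss_norm n) (D.h3 n) (norm_nonneg _) zero_le_one
          _ = _ := one_mul _
      have a2 := D.ss_norm (n + 1)
      have a3 := D.hC (n + 1)
      linarith
    have hwn2 : ‖evC w‖ ^ 2 ≤ 4 * C (n + 1) ^ 2 := by
      calc ‖evC w‖ ^ 2 ≤ (2 * C (n + 1)) ^ 2 := pow_le_pow_left₀ (norm_nonneg _) hwn 2
        _ = _ := by ring
    have hp : (0:ℝ) < (1 / 4) ^ n := by positivity
    have hp1 : ((1:ℝ) / 4) ^ (n + 1) = (1 / 4) ^ n / 4 := by rw [pow_succ]; ring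
    -- multiply by Γ n ^ 2
    have key : ‖op U w (x (n + 1))‖ ^ 2 * Γ n ^ 2 ≤ 25 * (1 / 4) ^ n := by
      have b1 : ε (n + 1) * Γ n ^ 2 ≤ (1 / 4) ^ n := D.heps n
      have b2 : eta Γ n * Γ n ^ 2 = (1 / 4) ^ n := by
        unfold eta; field_simp
      have b3 : eta Γ (n + 1) * Γ n ^ 2 ≤ (1 / 4) ^ n / 4 := by
        unfold eta
        rw [div_mul_eq_mul_div, div_le_iff₀ (by positivity), hp1]
        have : Γ n ^ 2 ≤ Γ (n + 1) ^ 2 := pow_le_pow_left₀ hG.le (D.Gmono (Nat.le_succ n)) 2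
        exact mul_le_mul_of_nonneg_left this (by positivity)
      have b4 : 14 * (1 / 4) ^ (n + 1) / Γ (n + 1) ^ 2 * ‖evC w‖ ^ 2 * Γ n ^ 2 ≤ 14 * (1 / 4) ^ n := by
        have c1 : (C (n + 1) * Γ n) ^ 2 ≤ Γ (n + 1) ^ 2 :=
          pow_le_pow_left₀ (mul_nonneg (zero_le_one.trans (D.hC _)) hG.le) (D.hG n) 2
        calc 14 * (1 / 4) ^ (n + 1) / Γ (n + 1) ^ 2 * ‖evC w‖ ^ 2 * Γ n ^ 2
            ≤ 14 * (1 / 4) ^ (n + 1) / Γ (n + 1) ^ 2 * (4 * C (n + 1) ^ 2) * Γ n ^ 2 := by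
              gcongr
          _ = 14 * (1 / 4) ^ (n + 1) * 4 * ((C (n + 1) * Γ n) ^ 2 / Γ (n + 1) ^ 2) := by ring
          _ ≤ 14 * (1 / 4) ^ (n + 1) * 4 * 1 := by
              gcongr
              exact (div_le_one (by positivity)).mpr c1
          _ = 14 * (1 / 4) ^ n := by rw [hp1]; ring
      calc ‖op U w (x (n + 1))‖ ^ 2 * Γ n ^ 2
          ≤ ((2 * ε (n + 1) + 4 * eta Γ n + 4 * eta Γ (n + 1)) +
              14 * (1 / 4) ^ (n + 1) / Γ (n + 1) ^ 2 * ‖evC w‖ ^ 2) * Γ n ^ 2 := by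
            apply mul_le_mul_of_nonneg_right _ (by positivity)
            linarith
        _ = 2 * (ε (n + 1) * Γ n ^ 2) + 4 * (eta Γ n * Γ n ^ 2) + 4 * (eta Γ (n + 1) * Γ n ^ 2) +
              14 * (1 / 4) ^ (n + 1) / Γ (n + 1) ^ 2 * ‖evC w‖ ^ 2 * Γ n ^ 2 := by ring
        _ ≤ 25 * (1 / 4) ^ n := by
            rw [b2]; linarith
    have h25 : (25:ℝ) * (1 / 4) ^ n = (5 * (1 / 2) ^ n) ^ 2 := by
      rw [mul_pow, ← pow_mul, mul_comm n 2, pow_mul]; norm_num
    rw [h25, ← mul_pow] at key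
    rw [le_div_iff₀ hG]
    exact (sq_le_sq₀ (by positivity) (by positivity)).mp key
  have h3 : ε (n + 1) ≤ (1 / 2) ^ n / Γ n := by
    rw [le_div_iff₀ hG]
    have b1 := D.heps n
    have b2 := D.eps0 (n + 1)
    have b3 := D.hG1 n
    have b4 : ((1:ℝ) / 4) ^ n ≤ (1 / 2) ^ n := pow_le_pow_left₀ (by norm_num) (by norm_num) n
    calc ε (n + 1) * Γ n ≤ ε (n + 1) * Γ n ^ 2 := by
          apply mul_le_mul_of_nonneg_left _ b2
          nlinarith
      _ ≤ _ := b1.trans b4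
  rw [dist_eq_norm, e]
  refine (norm_add_le _ _).trans ((add_le_add (h1.trans h3) h2).trans (le_of_eq ?_))
  ring

lemma exists_lim : ∃ g : H, Tendsto D.gg atTop (𝓝 g) := by
  apply cauchySeq_tendsto_of_complete
  apply cauchySeq_of_le_geometric (1 / 2) 6 (by norm_num)
  intro n
  refine (D.dist_gg n).trans ?_
  apply mul_le_mul_of_nonneg_right _ (by positivity)
  have hG := D.Gpos n
  rw [div_le_iff₀ hG]
  have := D.hG1 n
  linarith

def lim : H := D.exists_lim.choose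

lemma tendsto_lim : Tendsto D.gg atTop (𝓝 D.lim) := D.exists_lim.choose_spec

lemma dist_lim (n : ℕ) : ‖D.gg n - D.lim‖ ≤ 12 / Γ n * (1 / 2) ^ n := by
  have hG := D.Gpos n
  have h := dist_le_of_le_geometric_of_tendsto₀ (f := fun m => D.gg (n + m)) (1 / 2)
    (6 / Γ n * (1 / 2) ^ n) (by norm_num) (a := D.lim) ?_ ?_
  · rw [← dist_eq_norm]
    simp only [add_zero] at h
    refine h.trans (le_of_eq ?_)
    ring
  · intro m
    refine (D.dist_gg (n + m)).trans ?_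
    rw [pow_add, ← mul_assoc]
    apply mul_le_mul_of_nonneg_right _ (by positivity)
    apply mul_le_mul_of_nonneg_right _ (by positivity)
    exact div_le_div_of_nonneg_left (by norm_num) hG (D.Gmono (Nat.le_add_right n m))
  · exact D.tendsto_lim.comp (tendsto_add_atTop_nat n |>.congr fun m => by ring)

lemma quarter_tendsto (c : ℝ) : Tendsto (fun n : ℕ => c * (1 / 4 : ℝ) ^ n) atTop (𝓝 0) := by
  have := (tendsto_pow_atTop_nhds_zero_of_lt_one (by norm_num : (0:ℝ) ≤ 1 / 4) (by norm_num)).const_mul c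
  simpa using this

/-- orthonormality of the orbit -/
theorem inner_lim (k : ℤ) : ⟪(U ^ k) D.lim, D.lim⟫_ℝ = if k = 0 then 1 else 0 := by
  have h1 : Tendsto (fun n => ⟪(U ^ k) (D.gg n), D.gg n⟫_ℝ) atTop (𝓝 ⟪(U ^ k) D.lim, D.lim⟫_ℝ) := by
    apply Tendsto.inner _ D.tendsto_lim
    exact ((U ^ k).continuous.tendsto _).comp D.tendsto_lim
  have h2 : Tendsto (fun n => ⟪(U ^ k) (D.gg n), D.gg n⟫_ℝ) atTop
      (𝓝 (if k = 0 then 1 else 0)) := by
    rw [tendsto_iff_dist_tendsto_zero]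
    apply squeeze_zero (fun _ => dist_nonneg) _ (quarter_tendsto 16)
    intro n
    have hG := D.Gpos n
    have e1 : ⟪(U ^ k) (D.gg n), D.gg n⟫_ℝ =
        ⟪op U (mono k * (rev (D.ss n) * D.ss n)) (x n), x n⟫_ℝ := by
      have : mono k * (rev (D.ss n) * D.ss n) = rev (D.ss n) * (mono k * D.ss n) := by ring
      rw [this, op_mul, real_inner_comm (x n), ← op_rev, op_mul, op_mono, real_inner_comm]; rfl
    have h3 := D.TV n (mono k * (rev (D.ss n) * D.ss n))
    rw [← e1] at h3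
    have h4 := coeff_mul_sq (mono k) (D.ss n)
    have h5 : (mono k).coeff 0 = if k = 0 then 1 else 0 := by
      rw [mono, AddMonoidAlgebra.coeff_single, Finsupp.single_apply]
    rw [h5] at h4
    have h6 : ∫ t : Ci, |‖evC (D.ss n) t‖ ^ 2 - 1| ≤ 2 * eta Γ n := by
      refine le_trans (le_of_eq ?_) (D.ss_defect n)
      apply integral_congr_ae
      refine Eventually.of_forall fun t => ?_
      simp only
      have : ‖evC (D.ss n) t‖ ^ 2 ≤ 1 := pow_le_one₀ (norm_nonneg _) (D.ss_apply n t)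
      rw [abs_of_nonpos (by linarith)]; ring
    have h7 : ‖evC (mono k * (rev (D.ss n) * D.ss n))‖ ≤ 1 := by
      refine (norm_evC_mul _ _).trans ?_
      have a1 := evC_norm_mono k
      have a2 : ‖evC (rev (D.ss n) * D.ss n)‖ ≤ 1 := by
        refine (norm_evC_mul _ _).trans ?_
        rw [norm_evC_rev]
        have := D.ss_norm n
        have h0 := norm_nonneg (evC (D.ss n))
        nlinarith
      have h0 := norm_nonneg (evC (mono k))
      have h00 := norm_nonneg (evC (rev (D.ss n) * D.ss n))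
      nlinarith
    have h8 : eta Γ n ≤ (1 / 4) ^ n := by
      unfold eta
      apply div_le_self (by positivity)
      exact one_le_pow₀ (D.hG1 n)
    have h9 : 14 * (1 / 4) ^ n / Γ n ^ 2 * ‖evC (mono k * (rev (D.ss n) * D.ss n))‖ ≤
        14 * (1 / 4) ^ n := by
      calc _ ≤ 14 * (1 / 4) ^ n / Γ n ^ 2 * 1 := by gcongr
        _ = 14 * ((1 / 4) ^ n / Γ n ^ 2) := by ring
        _ ≤ _ := by
          have : (1 / 4 : ℝ) ^ n / Γ n ^ 2 ≤ (1 / 4) ^ n := h8
          linarith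
    have h10 : ‖evC (mono k)‖ * ∫ t : Ci, |‖evC (D.ss n) t‖ ^ 2 - 1| ≤ 2 * (1 / 4) ^ n := by
      have a1 := evC_norm_mono k
      have a0 : 0 ≤ ∫ t : Ci, |‖evC (D.ss n) t‖ ^ 2 - 1| := integral_nonneg fun _ => abs_nonneg _
      calc _ ≤ 1 * ∫ t : Ci, |‖evC (D.ss n) t‖ ^ 2 - 1| := mul_le_mul_of_nonneg_right a1 a0
        _ ≤ _ := by rw [one_mul]; linarith
    rw [Real.dist_eq]
    calc |⟪(U ^ k) (D.gg n), D.gg n⟫_ℝ - (if k = 0 then 1 else 0)|
        ≤ |⟪(U ^ k) (D.gg n), D.gg n⟫_ℝ - (mono k * (rev (D.ss n) * D.ss n)).coeff 0| +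
          |(mono k * (rev (D.ss n) * D.ss n)).coeff 0 - (if k = 0 then 1 else 0)| :=
          abs_sub_le _ _ _
      _ ≤ 14 * (1 / 4) ^ n + 2 * (1 / 4) ^ n := add_le_add (h3.trans h9) (h4.trans h10)
      _ = 16 * (1 / 4) ^ n := by ring
  exact tendsto_nhds_unique h1 h2

end Data

end Crest.Agent.R081.Abs
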