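import Mathlib

/-!
# Row 81, arithmetic tower with MID variable (note 13608)

`qs`, `ps` shifted continuants (`q_n = qs (n+1)`), `Ds n y = (-1)^(n+1) (qs n * y - ps n)`
(`D_n = Ds (n+1)`, `D_{-1} = 1`), `X n y = y 1 - ∑_{j<n} Q_j D_j (y 0)`.
-/

set_option autoImplicit false

open Finset

namespace Crest.Agent.R081.CF

/-- shifted continuants `q_{n-1}`. -/
def qs (M : ℕ → ℕ) : ℕ → ℤ
  | 0 => 0
  | 1 => 1
  | (n + 2) => M n * qs M (n + 1) + qs M n

/-- shifted continuants `p_{n-1}`. -/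
def ps (M : ℕ → ℕ) : ℕ → ℤ
  | 0 => 1
  | 1 => 0
  | (n + 2) => M n * ps M (n + 1) + ps M n

variable (M Q : ℕ → ℕ)

@[simp] theorem qs_zero : qs M 0 = 0 := rfl
@[simp] theorem qs_one : qs M 1 = 1 := rfl
theorem qs_add_two (n : ℕ) : qs M (n + 2) = M n * qs M (n + 1) + qs M n := rfl
@[simp] theorem ps_zero : ps M 0 = 1 := rfl
@[simp] theorem ps_one : ps M 1 = 0 := rfl
theorem ps_add_two (n : ℕ) : ps M (n + 2) = M n * ps M (n + 1) + ps M n := rfl

/-- `q_n`. -/
def q (n : ℕ) : ℤ := qs M (n + 1)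
/-- `p_n`. -/
def p (n : ℕ) : ℤ := ps M (n + 1)

@[simp] theorem q_zero : q M 0 = 1 := rfl
@[simp] theorem p_zero : p M 0 = 0 := rfl
theorem q_one : q M 1 = M 0 := by simp [q, qs_add_two]
theorem p_one : p M 1 = 1 := by simp [p, ps_add_two]
theorem q_add_two (n : ℕ) : q M (n + 2) = M (n + 1) * q M (n + 1) + q M n := rfl
theorem p_add_two (n : ℕ) : p M (n + 2) = M (n + 1) * p M (n + 1) + p M n := rfl

/-- determinant: `p_{n-1} q_{n} - p_n q_{n-1} = (-1)^n` in shifted form. -/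
theorem det_eq (n : ℕ) : ps M n * qs M (n + 1) - ps M (n + 1) * qs M n = (-1) ^ n := by
  induction n with
  | zero => simp
  | succ n ih =>
    rw [qs_add_two, ps_add_two, pow_succ, ← ih]; ring

variable {M} in
theorem qs_pos_aux (hM : ∀ n, 1 ≤ M n) (n : ℕ) : 0 < qs M (n + 1) ∧ 0 ≤ qs M n := by
  induction n with
  | zero => simp
  | succ n ih =>
    refine ⟨?_, ih.1.le⟩
    rw [qs_add_two]
    have : (1 : ℤ) ≤ M n := by exact_mod_cast hM n
    nlinarith [ih.1, ih.2]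

variable {M} in
theorem qs_pos (hM : ∀ n, 1 ≤ M n) (n : ℕ) : 0 < qs M (n + 1) := (qs_pos_aux hM n).1

variable {M} in
theorem qs_nonneg (hM : ∀ n, 1 ≤ M n) (n : ℕ) : 0 ≤ qs M n := (qs_pos_aux hM n).2

variable {M} in
theorem q_pos (hM : ∀ n, 1 ≤ M n) (n : ℕ) : 0 < q M n := qs_pos hM n

variable {M} in
theorem qs_le_succ (hM : ∀ n, 1 ≤ M n) (n : ℕ) : qs M n ≤ qs M (n + 1) := by
  cases n with
  | zero => simp
  | succ n =>
    rw [qs_add_two]
    have : (1 : ℤ) ≤ M n := by exact_mod_cast hM n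
    nlinarith [qs_pos hM n, qs_nonneg hM n]

variable {M} in
theorem q_mono (hM : ∀ n, 1 ≤ M n) : Monotone (q M) :=
  monotone_nat_of_le_succ fun n => qs_le_succ hM (n + 1)

variable {M} in
theorem M_mul_q_le (hM : ∀ n, 1 ≤ M n) (n : ℕ) : M n * q M n ≤ q M (n + 1) := by
  simp only [q]; rw [qs_add_two]; linarith [qs_nonneg hM n]

/-! ### the functions `D` -/

/-- `Ds 0 = 1 = D_{-1}`, `Ds (n+1) = D_n`. -/
noncomputable def Ds (n : ℕ) (y : ℝ) : ℝ := (-1) ^ (n + 1) * (qs M n * y - ps M n)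

/-- `D_n(y) = (-1)^n (q_n y - p_n)`. -/
noncomputable def D (n : ℕ) (y : ℝ) : ℝ := (-1) ^ n * (q M n * y - p M n)

theorem Ds_succ (n : ℕ) (y : ℝ) : Ds M (n + 1) y = D M n y := by
  simp only [Ds, D, q, p]; ring

@[simp] theorem Ds_zero (y : ℝ) : Ds M 0 y = 1 := by simp [Ds]
@[simp] theorem D_zero (y : ℝ) : D M 0 y = y := by simp [D]

theorem Ds_add_two (n : ℕ) (y : ℝ) : Ds M (n + 2) y = Ds M n y - M n * Ds M (n + 1) y := by
  simp only [Ds, qs_add_two, ps_add_two]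
  push_cast
  ring

theorem D_add_two (n : ℕ) (y : ℝ) : D M (n + 2) y = D M n y - M (n + 1) * D M (n + 1) y := by
  rw [← Ds_succ, ← Ds_succ, ← Ds_succ, Ds_add_two]

theorem D_one (y : ℝ) : D M 1 y = 1 - M 0 * D M 0 y := by
  rw [← Ds_succ, ← Ds_succ, Ds_add_two, Ds_zero]

theorem Ds_identity (n : ℕ) (y : ℝ) : Ds M n y * qs M (n + 1) + Ds M (n + 1) y * qs M n = 1 := by
  induction n with
  | zero => simp
  | succ n ih =>
    rw [Ds_add_two, qs_add_two]
    push_cast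
    linear_combination ih

/-- `β_n q_{n+1} + β_{n+1} q_n = 1`. -/
theorem D_identity (n : ℕ) (y : ℝ) : D M n y * q M (n + 1) + D M (n + 1) y * q M n = 1 := by
  rw [← Ds_succ, ← Ds_succ]; exact Ds_identity M (n + 1) y

/-! ### existence of `α` -/

def Itv (n : ℕ) : Set ℝ := {y | 0 ≤ Ds M n y ∧ 0 ≤ Ds M (n + 1) y}

theorem continuous_Ds (n : ℕ) : Continuous (Ds M n) := by unfold Ds; fun_prop
theorem continuous_D (n : ℕ) : Continuous (D M n) := by unfold D; fun_prop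

theorem itv_closed (n : ℕ) : IsClosed (Itv M n) :=
  (isClosed_le continuous_const (continuous_Ds M n)).inter
    (isClosed_le continuous_const (continuous_Ds M (n + 1)))

theorem itv_anti (n : ℕ) : Itv M (n + 1) ⊆ Itv M n := by
  rintro y ⟨h1, h2⟩
  refine ⟨?_, h1⟩
  have := Ds_add_two M n y
  have h3 : 0 ≤ (M n : ℝ) * Ds M (n + 1) y := mul_nonneg (by positivity) h1
  have h2' : 0 ≤ Ds M (n + 2) y := h2
  linarith

variable {M} in
theorem itv_nonempty (hM : ∀ n, 1 ≤ M n) (n : ℕ) : (Itv M n).Nonempty := by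
  have hq : (0 : ℝ) < qs M (n + 1) := by exact_mod_cast qs_pos hM n
  refine ⟨ps M (n + 1) / qs M (n + 1), ?_, ?_⟩
  · have h1 : Ds M (n + 1) (ps M (n + 1) / qs M (n + 1)) = 0 := by
      simp only [Ds]; field_simp; simp
    have := Ds_identity M n (ps M (n + 1) / qs M (n + 1))
    rw [h1, zero_mul, add_zero] at this
    by_contra hneg
    push Not at hneg
    nlinarith
  · have h1 : Ds M (n + 1) (ps M (n + 1) / qs M (n + 1)) = 0 := by
      simp only [Ds]; field_simp; simp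
    rw [h1]

variable {M} in
theorem itv_compact (hM : ∀ n, 1 ≤ M n) : IsCompact (Itv M 1) := by
  apply IsCompact.of_isClosed_subset (isCompact_Icc (a := (0 : ℝ)) (b := 1)) (itv_closed M 1)
  rintro y ⟨h1, h2⟩
  rw [Ds_succ, D_zero] at h1
  rw [Ds_succ, D_one, D_zero] at h2
  have : (1 : ℝ) ≤ M 0 := by exact_mod_cast hM 0
  exact ⟨h1, by nlinarith⟩

variable {M} in
/-- Existence of the irrational number with all `β_n > 0`. -/
theorem exists_alpha (hM : ∀ n, 1 ≤ M n) : ∃ α : ℝ, ∀ n, 0 < D M n α := by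
  have hne := IsCompact.nonempty_iInter_of_sequence_nonempty_isCompact_isClosed
    (fun n => Itv M (n + 1)) (fun n => itv_anti M (n + 1)) (fun n => itv_nonempty hM (n + 1))
    (itv_compact hM) (fun n => itv_closed M (n + 1))
  obtain ⟨a, ha⟩ := hne
  rw [Set.mem_iInter] at ha
  refine ⟨a, ?_⟩
  have hnn : ∀ n, 0 ≤ D M n a := by
    intro n
    rw [← Ds_succ]
    exact (ha n).1
  intro n
  refine lt_of_le_of_ne (hnn n) (fun h0 => ?_)
  have e0 : D M n a = 0 := h0.symm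
  have hM1 : (1 : ℝ) ≤ M (n + 1) := by exact_mod_cast hM (n + 1)
  have e1 : D M (n + 1) a = 0 := by
    have h1 := D_add_two M n a
    rw [e0] at h1
    have h2 := hnn (n + 1)
    have h3 := hnn (n + 2)
    nlinarith
  have := D_identity M n a
  rw [e0, e1] at this
  simp at this

/-! ### second coordinate -/

/-- `X_n(y) = y_2 - ∑_{j<n} Q_j D_j(y_1)`. -/
noncomputable def X (n : ℕ) (y : Fin 2 → ℝ) : ℝ := y 1 - ∑ j ∈ range n, Q j * D M j (y 0)

@[simp] theorem X_zero (y : Fin 2 → ℝ) : X M Q 0 y = y 1 := by simp [X]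

theorem X_succ (n : ℕ) (y : Fin 2 → ℝ) : X M Q (n + 1) y = X M Q n y - Q n * D M n (y 0) := by
  simp only [X, sum_range_succ]; ring

/-- slope `N_{n-1}`: `X_n = y_2 - N n * y_1 + C n`. -/
def N (n : ℕ) : ℤ := ∑ j ∈ range n, (-1) ^ j * (Q j * q M j)
def C (n : ℕ) : ℤ := ∑ j ∈ range n, (-1) ^ j * (Q j * p M j)

theorem X_eq (n : ℕ) (y : Fin 2 → ℝ) : X M Q n y = y 1 - N M Q n * y 0 + C M Q n := by
  simp only [X, N, C, D]
  push_cast
  rw [sum_mul, sub_add, ← sum_sub_distrib]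
  congr 1
  apply sum_congr rfl
  intro j _
  ring

/-- The kick direction is `(p_n/q_n) (1, N_{n-1})`. -/
theorem dir_X (n : ℕ) (y : Fin 2 → ℝ) (s : ℝ) :
    X M Q n (fun i => y i + s * ![1, (N M Q n : ℝ)] i) = X M Q n y := by
  simp only [X_eq, Matrix.cons_val_zero, Matrix.cons_val_one]
  ring

theorem dir_D (n : ℕ) (y s : ℝ) (t : ℤ) (hs : q M n * s = t) :
    D M n (y + s) = D M n y + (((-1) ^ n * t : ℤ) : ℝ) := by
  simp only [D]
  push_cast
  rw [← hs]; ring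

variable {M} in
/-- `D_n` moves by the integer `(-1)^n p_n` along `w_n`. -/
theorem dir_D_self (hM : ∀ n, 1 ≤ M n) (n : ℕ) (y : ℝ) :
    D M n (y + p M n / q M n) = D M n y + (((-1) ^ n * p M n : ℤ) : ℝ) := by
  have hq : (q M n : ℝ) ≠ 0 := by exact_mod_cast (q_pos hM n).ne'
  exact dir_D M n y _ _ (by field_simp)

variable {M} in
/-- `X_{n+1}` moves by an integer along `w_n`. -/
theorem dir_X_succ (hM : ∀ n, 1 ≤ M n) (n : ℕ) (y : Fin 2 → ℝ) (k : ℤ) :
    X M Q (n + 1) (fun i => y i + (k * (p M n / q M n : ℝ)) * ![1, (N M Q n : ℝ)] i) =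
      X M Q (n + 1) y - ((Q n * ((-1) ^ n * (k * p M n)) : ℤ) : ℝ) := by
  have hq : (q M n : ℝ) ≠ 0 := by exact_mod_cast (q_pos hM n).ne'
  rw [X_succ, X_succ, dir_X]
  have : D M n (y 0 + k * (p M n / q M n : ℝ)) = D M n (y 0) + (((-1) ^ n * (k * p M n) : ℤ) : ℝ) :=
    dir_D M n (y 0) _ _ (by push_cast; field_simp)
  simp only [Matrix.cons_val_zero, mul_one]
  rw [this]
  push_cast
  ring

variable {M} in
/-- `D_{n-1}` moves by `1/q_n` modulo `ℤ` along `w_n` (shifted form). -/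
theorem dir_Ds (hM : ∀ n, 1 ≤ M n) (n : ℕ) (y : ℝ) :
    Ds M n (y + p M n / q M n) = Ds M n y + 1 / q M n + (((-1) ^ (n + 1) * ps M n : ℤ) : ℝ) := by
  have hq : (q M n : ℝ) ≠ 0 := by exact_mod_cast (q_pos hM n).ne'
  have hdet : (ps M n : ℝ) * q M n - p M n * qs M n = (-1) ^ n := by
    exact_mod_cast det_eq M n
  have hsq : ((-1 : ℝ) ^ n) * (-1) ^ n = 1 := by
    rw [← mul_pow]; simp
  simp only [Ds]
  push_cast
  field_simp
  rw [pow_succ]
  linear_combination ((-1 : ℝ) ^ n) * hdet + hsq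

/-! ### the rotation vector -/

/-- Rotation data: `α = a 0`, `α₂ = a 1 = ∑ Q_j β_j`. `L` are margins. -/
structure Rot (L : ℕ → ℕ) (a : Fin 2 → ℝ) : Prop where
  hM : ∀ n, 1 ≤ M n
  hL : ∀ n, 1 ≤ L n
  hML : ∀ n, 4 * L n * Q (n + 1) ≤ M (n + 1)
  pos : ∀ n, 0 < D M n (a 0)
  sum : HasSum (fun j => (Q j : ℝ) * D M j (a 0)) (a 1)

variable {M Q}
variable {L : ℕ → ℕ} {a : Fin 2 → ℝ}

theorem beta_le_inv (hM : ∀ n, 1 ≤ M n) {α : ℝ} (hpos : ∀ n, 0 < D M n α) (n : ℕ) :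
    D M n α ≤ 1 / q M (n + 1) := by
  have h1 := D_identity M n α
  have hq : (0 : ℝ) < q M (n + 1) := by exact_mod_cast q_pos hM (n + 1)
  have hq0 : (0 : ℝ) < q M n := by exact_mod_cast q_pos hM n
  rw [le_div_iff₀ hq]
  have := mul_pos (hpos (n + 1)) hq0
  linarith

theorem M_mul_beta_le {α : ℝ} (hpos : ∀ n, 0 < D M n α) (n : ℕ) :
    M (n + 1) * D M (n + 1) α ≤ D M n α := by
  have := D_add_two M n α
  linarith [hpos (n + 2)]

theorem le_beta_mul (hM : ∀ n, 1 ≤ M n) {α : ℝ} (hpos : ∀ n, 0 < D M n α) (n : ℕ) :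
    1 - 1 / (M (n + 1) : ℝ) ≤ D M n α * q M (n + 1) := by
  have h1 := D_identity M n α
  have hMp : (0 : ℝ) < M (n + 1) := by exact_mod_cast hM (n + 1)
  have h2 : D M (n + 1) α * q M n ≤ 1 / (M (n + 1) : ℝ) := by
    rw [le_div_iff₀ hMp]
    have h3 := beta_le_inv hM hpos (n + 1)
    have hq2 : (0 : ℝ) < q M (n + 2) := by exact_mod_cast q_pos hM (n + 2)
    have h4 : D M (n + 1) α * q M (n + 2) ≤ 1 := by
      rw [le_div_iff₀ hq2] at h3; exact h3
    have h5 : (M (n + 1) : ℝ) * q M (n + 1) ≤ q M (n + 2) := by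
      exact_mod_cast M_mul_q_le hM (n + 1)
    have h6 : (q M n : ℝ) ≤ q M (n + 1) := by exact_mod_cast q_mono hM (Nat.le_succ n)
    have hb := hpos (n + 1)
    calc D M (n + 1) α * q M n * M (n + 1)
        ≤ D M (n + 1) α * q M (n + 1) * M (n + 1) := by gcongr
      _ = D M (n + 1) α * (M (n + 1) * q M (n + 1)) := by ring
      _ ≤ D M (n + 1) α * q M (n + 2) := by gcongr
      _ ≤ 1 := h4
  linarith

/-- `Q_{n+1} β_{n+1} ≤ β_n / (4 L_n)`. -/
theorem Q_mul_beta_le {α : ℝ} (hL : ∀ n, 1 ≤ L n) (hML : ∀ n, 4 * L n * Q (n + 1) ≤ M (n + 1))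
    (hpos : ∀ n, 0 < D M n α) (n : ℕ) :
    Q (n + 1) * D M (n + 1) α ≤ D M n α / (4 * L n) := by
  have hLp : (0 : ℝ) < 4 * L n := by
    have : (1 : ℝ) ≤ L n := by exact_mod_cast hL n
    linarith
  rw [le_div_iff₀ hLp]
  have h1 : (4 * L n * Q (n + 1) : ℝ) ≤ M (n + 1) := by exact_mod_cast hML n
  have h2 := M_mul_beta_le hpos n
  have h3 := hpos (n + 1)
  nlinarith

theorem exists_rot (hM : ∀ n, 1 ≤ M n) (hL : ∀ n, 1 ≤ L n)
    (hML : ∀ n, 4 * L n * Q (n + 1) ≤ M (n + 1)) (hQ : ∀ n, 1 ≤ Q n) :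
    ∃ a, Rot M Q L a := by
  obtain ⟨α, hpos⟩ := exists_alpha hM
  have hgeo : ∀ n, Q (n + 1) * D M (n + 1) α ≤ (1 / 4) * (Q n * D M n α) := by
    intro n
    have h1 := Q_mul_beta_le hL hML hpos n
    have hLn : (1 : ℝ) ≤ L n := by exact_mod_cast hL n
    have hQn : (1 : ℝ) ≤ Q n := by exact_mod_cast hQ n
    have hb := hpos n
    have h2 : D M n α / (4 * L n) ≤ D M n α / 4 := by
      apply div_le_div_of_nonneg_left hb.le (by norm_num)
      linarith
    have h3 : D M n α ≤ Q n * D M n α := by nlinarith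
    linarith
  have hbd : ∀ n, Q n * D M n α ≤ (1 / 4) ^ n * (Q 0 * D M 0 α) := by
    intro n
    induction n with
    | zero => simp
    | succ n ih =>
      refine (hgeo n).trans ?_
      rw [pow_succ]
      have := mul_le_mul_of_nonneg_left ih (show (0 : ℝ) ≤ 1 / 4 by norm_num)
      linarith
  have hsum : Summable (fun j => (Q j : ℝ) * D M j α) := by
    apply Summable.of_nonneg_of_le (fun j => mul_nonneg (by positivity) (hpos j).le) hbd
    exact (summable_geometric_of_lt_one (by norm_num) (by norm_num)).mul_right _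
  refine ⟨![α, ∑' j, (Q j : ℝ) * D M j α], hM, hL, hML, ?_, ?_⟩
  · simpa using hpos
  · simpa using hsum.hasSum

/-- `δ_n = X_n(a)`. -/
theorem Rot.hasSum_delta (H : Rot M Q L a) (n : ℕ) :
    HasSum (fun j => (Q (j + n) : ℝ) * D M (j + n) (a 0)) (X M Q n a) := by
  have := (hasSum_nat_add_iff' n).mpr H.sum
  exact this

theorem Rot.delta_pos (H : Rot M Q L a) (hQ : ∀ n, 1 ≤ Q n) (n : ℕ) : 0 < X M Q n a := by
  have h := H.hasSum_delta n
  have h0 : 0 < (Q (0 + n) : ℝ) * D M (0 + n) (a 0) :=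
    mul_pos (by exact_mod_cast hQ _) (H.pos _)
  exact lt_of_lt_of_le h0 (le_hasSum h 0 (fun j _ => mul_nonneg (by positivity) (H.pos _).le))

theorem Rot.delta_eq (n : ℕ) : X M Q n a = Q n * D M n (a 0) + X M Q (n + 1) a := by
  rw [X_succ]; ring

/-- `δ_{n+1} ≤ β_n / (2 L_n)`. -/
theorem Rot.delta_succ_le (H : Rot M Q L a) (hQ : ∀ n, 1 ≤ Q n) (n : ℕ) :
    X M Q (n + 1) a ≤ D M n (a 0) / (2 * L n) := by
  have h := H.hasSum_delta (n + 1)
  have hb := H.pos n
  have hLn : (1 : ℝ) ≤ L n := by exact_mod_cast H.hL n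
  have hstep : ∀ j, (Q (j + (n + 1)) : ℝ) * D M (j + (n + 1)) (a 0) ≤
      (1 / 4) ^ j * (D M n (a 0) / (4 * L n)) := by
    intro j
    induction j with
    | zero => simpa using Q_mul_beta_le H.hL H.hML H.pos n
    | succ j ih =>
      have h1 := Q_mul_beta_le H.hL H.hML H.pos (j + (n + 1))
      have hLj : (1 : ℝ) ≤ L (j + (n + 1)) := by exact_mod_cast H.hL _
      have hQj : (1 : ℝ) ≤ Q (j + (n + 1)) := by exact_mod_cast hQ _
      have hbj := H.pos (j + (n + 1))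
      have h2 : D M (j + (n + 1)) (a 0) / (4 * L (j + (n + 1))) ≤ D M (j + (n + 1)) (a 0) / 4 := by
        apply div_le_div_of_nonneg_left hbj.le (by norm_num)
        linarith
      have h3 : D M (j + (n + 1)) (a 0) ≤ Q (j + (n + 1)) * D M (j + (n + 1)) (a 0) := by
        nlinarith
      rw [show j + 1 + (n + 1) = j + (n + 1) + 1 by ring, pow_succ]
      linarith
  have hg : HasSum (fun j : ℕ => (1 / 4 : ℝ) ^ j * (D M n (a 0) / (4 * L n)))
      ((1 - 1 / 4)⁻¹ * (D M n (a 0) / (4 * L n))) :=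
    (hasSum_geometric_of_lt_one (by norm_num) (by norm_num)).mul_right _
  refine (hasSum_le hstep h hg).trans ?_
  have : D M n (a 0) / (2 * L n) = 2 * (D M n (a 0) / (4 * L n)) := by field_simp; ring
  rw [this]
  have hx : 0 ≤ D M n (a 0) / (4 * L n) := by positivity
  nlinarith

/-- distance from the rotation vector to the approximant, first coordinate. -/
theorem Rot.sub_app_zero (H : Rot M Q L a) (n : ℕ) :
    a 0 - p M n / q M n = (-1) ^ n * D M n (a 0) / q M n := by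
  have hq : (q M n : ℝ) ≠ 0 := by exact_mod_cast (q_pos H.hM n).ne'
  have hsq : ((-1 : ℝ) ^ n) * (-1) ^ n = 1 := by
    rw [← mul_pow]; simp
  simp only [D]
  field_simp
  linear_combination (-(a 0 * q M n - p M n)) * hsq

/-- distance from the rotation vector to the approximant, second coordinate. -/
theorem Rot.sub_app_one (H : Rot M Q L a) (n : ℕ) :
    a 1 - (N M Q n * (p M n / q M n) - C M Q n) =
      X M Q n a + N M Q n * ((-1) ^ n * D M n (a 0) / q M n) := by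
  rw [← H.sub_app_zero n, X_eq]
  ring

end Crest.Agent.R081.CF
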