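import Crest.Agent.R081.ArTower

set_option autoImplicit false

namespace Crest.Agent.R081.Ar

variable (M : ℕ → ℕ)

/-! ### growth: `M n` may be prescribed by the prefix -/

/-- recursive choice: any rule depending on the prefix can be realised. -/
theorem exists_growth (Φ : ℕ → (ℕ → ℕ) → ℕ) :
    ∃ M : ℕ → ℕ, ∀ n, M n = Φ n (fun i => if i < n then M i else 0) := by
  classical
  let F : (n : ℕ) → ((m : ℕ) → m < n → ℕ) → ℕ := fun n f =>
    Φ n (fun i => if hi : i < n then f i hi else 0)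
  refine ⟨fun n => Nat.strongRecOn (motive := fun _ => ℕ) n F, fun n => ?_⟩
  change Nat.strongRecOn (motive := fun _ => ℕ) n F = _
  rw [Nat.strongRecOn_eq]
  simp only [F]
  congr 1

/-- `kap` depends only on the prefix. -/
theorem kap_congr {M M' : ℕ → ℕ} (n : ℕ) (hMM : ∀ i, i + 2 ≤ n → M i = M' i) :
    kap M n = kap M' n := by
  induction n using Nat.strong_induction_on with
  | _ n ih =>
    match n, ih, hMM with
    | 0, _, _ => rfl
    | 1, _, _ => rfl
    | 2, _, _ => rfl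
    | (n + 3), ih, hMM =>
      funext i
      rw [kap_add_three, kap_add_three, ih n (by omega) (fun i hi => hMM i (by omega)),
        ih (n + 1) (by omega) (fun i hi => hMM i (by omega)), hMM (n + 1) (by omega)]

theorem h_congr {M M' : ℕ → ℕ} (n : ℕ) (hMM : ∀ i, i + 1 ≤ n → M i = M' i) :
    h M n = h M' n := by
  unfold h
  rw [kap_congr n (fun i hi => hMM i (by omega)), kap_congr (n + 1) (fun i hi => hMM i (by omega))]

/-- Towers with prescribed growth and divisibility: for every rule `Φ` there is `M` with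
`Φ n (prefix) ≤ M n`, `h_n ∣ M_{n+1}` and `1 ≤ M n`. -/
theorem exists_tower (Φ : ℕ → (ℕ → ℕ) → ℕ) :
    ∃ M : ℕ → ℕ, (∀ n, Φ n (fun i => if i < n then M i else 0) ≤ M n) ∧
      (∀ n, h M n ∣ (M (n + 1) : ℤ)) ∧ (∀ n, 1 ≤ M n) := by
  obtain ⟨M, hM⟩ := exists_growth (fun n m =>
    (Φ n m + 1) * (if n = 0 then 1 else (h m (n - 1)).toNat))
  have hcongr : ∀ n, h (fun i => if i < n + 1 then M i else 0) n = h M n := by
    intro n
    apply h_congr
    intro i hi
    simp [show i < n + 1 by omega]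
  have hpos : ∀ n, 1 ≤ (h M n).toNat := by
    intro n
    have := h_pos M n
    omega
  refine ⟨M, fun n => ?_, fun n => ?_, fun n => ?_⟩
  · rw [hM n]
    cases n with
    | zero => simp
    | succ n =>
      simp only [Nat.add_eq_zero_iff, one_ne_zero, and_false, if_false, Nat.add_sub_cancel]
      rw [hcongr n]
      have := hpos n
      nlinarith
  · rw [hM (n + 1)]
    simp only [Nat.add_eq_zero_iff, one_ne_zero, and_false, if_false, Nat.add_sub_cancel]
    rw [hcongr n]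
    push_cast
    rw [Int.toNat_of_nonneg (h_pos M n).le]
    exact Dvd.intro_left _ rfl
  · rw [hM n]
    cases n with
    | zero => simp
    | succ n =>
      simp only [Nat.add_eq_zero_iff, one_ne_zero, and_false, if_false, Nat.add_sub_cancel]
      rw [hcongr n]
      have := hpos n
      nlinarith

/-! ### primitivity -/

theorem kap_coprime (hd : ∀ n, h M n ∣ (M (n + 1) : ℤ)) (n : ℕ) :
    IsCoprime (kap M n 0) (kap M n 1) := by
  induction n using Nat.strong_induction_on with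
  | _ n ih =>
    match n, ih with
    | 0, _ => exact ⟨1, 0, by simp [kap]⟩
    | 1, _ => exact ⟨0, 1, by simp [kap]⟩
    | 2, _ => exact ⟨-1, 0, by simp [kap]⟩
    | (n + 3), ih =>
      have hdet : h M n = kap M (n + 3) 0 * kap M (n + 1) 1 - kap M (n + 3) 1 * kap M (n + 1) 0 := by
        rw [← hh_succ]; rfl
      apply isCoprime_of_prime_dvd
      · rintro ⟨h0, h1⟩
        rw [h0, h1] at hdet
        have := h_pos M n
        simp at hdet
        omega
      · intro q hq hq0 hq1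
        have hqh : q ∣ h M n := by
          rw [hdet]
          exact dvd_sub (hq0.mul_right _) (hq1.mul_right _)
        have hqM : q ∣ (M (n + 1) : ℤ) := hqh.trans (hd n)
        have e0 : q ∣ kap M n 0 := by
          have : kap M n 0 = kap M (n + 3) 0 + M (n + 1) * kap M (n + 1) 0 := by
            rw [kap_add_three]; ring
          rw [this]; exact dvd_add hq0 (hqM.mul_right _)
        have e1 : q ∣ kap M n 1 := by
          have : kap M n 1 = kap M (n + 3) 1 + M (n + 1) * kap M (n + 1) 1 := by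
            rw [kap_add_three]; ring
          rw [this]; exact dvd_add hq1 (hqM.mul_right _)
        exact hq.not_isUnit ((ih n (by omega)).isUnit_of_dvd' e0 e1)

/-! ### generation of `ℤ³` (hence of `ℤ²`) -/

theorem kap_span (n : ℕ) (v : Fin 3 → ℤ) : ∃ c0 c1 c2 : ℤ, ∀ i,
    v i = c0 * kap M n i + c1 * kap M (n + 1) i + c2 * kap M (n + 2) i := by
  induction n with
  | zero =>
    refine ⟨v 0 + v 2, v 1 + v 2, v 2, fun i => ?_⟩
    fin_cases i <;> simp [kap]
  | succ n ih =>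
    obtain ⟨c0, c1, c2, hc⟩ := ih
    refine ⟨c1 + c0 * M (n + 1), c2, c0, fun i => ?_⟩
    rw [hc i, show n + 1 + 1 = n + 2 from rfl, show n + 1 + 2 = n + 3 from rfl, kap_add_three]
    ring

/-! ### sizes -/

theorem abs_kap_le (hM : ∀ n, 1 ≤ M n) (n : ℕ) (i : Fin 3) (hi : i ≠ 2) :
    |kap M (n + 1) i| ≤ h M n := by
  induction n using Nat.strong_induction_on with
  | _ n ih =>
    match n, ih with
    | 0, _ => fin_cases i <;> simp_all [kap, h_zero]
    | 1, _ => fin_cases i <;> simp_all [kap, h_one]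
    | 2, _ =>
      rw [h_two]
      have : (0 : ℤ) ≤ M 1 := by positivity
      fin_cases i
      · simp [kap]
      · simp [kap]
      · exact absurd rfl hi
    | (n + 3), ih =>
      rw [show n + 3 + 1 = (n + 1) + 3 from rfl, kap_add_three, h_add_three]
      have h1 := ih n (by omega)
      have h2 := ih (n + 1) (by omega)
      have h3 : h M (n + 1) ≤ h M (n + 2) := h_mono M hM (Nat.le_succ _)
      have hMn : (0 : ℤ) ≤ M (n + 2) := by positivity
      calc |kap M (n + 1) i - (M (n + 1 + 1) : ℤ) * kap M (n + 1 + 1) i|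
          ≤ |kap M (n + 1) i| + |(M (n + 1 + 1) : ℤ) * kap M (n + 1 + 1) i| := abs_sub _ _
        _ ≤ h M n + M (n + 2) * h M (n + 1) := by
            rw [abs_mul, abs_of_nonneg (show (0:ℤ) ≤ M (n + 1 + 1) by positivity)]
            exact add_le_add h1 (mul_le_mul_of_nonneg_left h2 hMn)
        _ ≤ M (n + 2) * h M (n + 2) + h M n := by
            nlinarith [mul_le_mul_of_nonneg_left h3 hMn]

/-! ### distance to the approximants -/

theorem sub_app_zero (a : Fin 2 → ℝ) (n : ℕ) :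
    a 0 - app M n 0 =
      (kap M (n + 2) 1 * bet M a (n + 1) - kap M (n + 1) 1 * bet M a (n + 2)) / h M (n + 1) := by
  have hp : (h M (n + 1) : ℝ) ≠ 0 := by exact_mod_cast (h_pos M (n + 1)).ne'
  have hd : (h M (n + 1) : ℝ) = kap M (n + 1) 0 * kap M (n + 2) 1 - kap M (n + 1) 1 * kap M (n + 2) 0 := by
    simp only [h, show n + 1 + 1 = n + 2 from rfl]; push_cast; ring
  simp only [bet, app, Matrix.cons_val_zero, Matrix.cons_val_one]
  field_simp
  rw [hd]; push_cast; ring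

theorem sub_app_one (a : Fin 2 → ℝ) (n : ℕ) :
    a 1 - app M n 1 =
      (kap M (n + 1) 0 * bet M a (n + 2) - kap M (n + 2) 0 * bet M a (n + 1)) / h M (n + 1) := by
  have hp : (h M (n + 1) : ℝ) ≠ 0 := by exact_mod_cast (h_pos M (n + 1)).ne'
  have hd : (h M (n + 1) : ℝ) = kap M (n + 1) 0 * kap M (n + 2) 1 - kap M (n + 1) 1 * kap M (n + 2) 0 := by
    simp only [h, show n + 1 + 1 = n + 2 from rfl]; push_cast; ring
  simp only [bet, app, Matrix.cons_val_zero, Matrix.cons_val_one]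
  field_simp
  rw [hd]; push_cast; ring

variable {M}
variable {a : Fin 2 → ℝ}

/-- `|a - app_n| ≤ 2 / h_{n+2}` componentwise. -/
theorem Rot.abs_sub_app_le (H : Rot M a) (n : ℕ) (i : Fin 2) :
    |a i - app M n i| ≤ 2 / h M (n + 2) := by
  have hp1 : (0 : ℝ) < h M (n + 1) := by exact_mod_cast h_pos M (n + 1)
  have hp2 : (0 : ℝ) < h M (n + 2) := by exact_mod_cast h_pos M (n + 2)
  have hp3 : (0 : ℝ) < h M (n + 3) := by exact_mod_cast h_pos M (n + 3)
  have b1 := H.le_inv (n + 1)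
  have b2 := H.le_inv (n + 2)
  have p1 := H.pos (n + 1)
  have p2 := H.pos (n + 2)
  have m23 : (h M (n + 2) : ℝ) ≤ h M (n + 3) := by exact_mod_cast h_mono M H.hM (Nat.le_succ _)
  have m01 : (h M n : ℝ) ≤ h M (n + 1) := by exact_mod_cast h_mono M H.hM (Nat.le_succ _)
  have k1 : ∀ j : Fin 3, j ≠ 2 → |(kap M (n + 1) j : ℝ)| ≤ h M (n + 1) := by
    intro j hj
    have := abs_kap_le M H.hM n j hj
    have h' : |(kap M (n + 1) j : ℝ)| ≤ h M n := by exact_mod_cast this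
    linarith
  have k2 : ∀ j : Fin 3, j ≠ 2 → |(kap M (n + 2) j : ℝ)| ≤ h M (n + 1) := by
    intro j hj
    exact_mod_cast abs_kap_le M H.hM (n + 1) j hj
  have b2' : bet M a (n + 2) ≤ 1 / h M (n + 2) := by
    exact b2.trans (one_div_le_one_div_of_le hp2 m23)
  have key : ∀ j j' : Fin 3, j ≠ 2 → j' ≠ 2 →
      |(kap M (n + 2) j : ℝ) * bet M a (n + 1)| + |(kap M (n + 1) j' : ℝ) * bet M a (n + 2)| ≤
        2 / h M (n + 2) * h M (n + 1) := by
    intro j j' hj hj'
    rw [abs_mul, abs_mul, abs_of_pos p1, abs_of_pos p2]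
    have e1 := mul_le_mul (k2 j hj) b1 p1.le hp1.le
    have e2 := mul_le_mul (k1 j' hj') b2' p2.le hp1.le
    have : 2 / (h M (n + 2) : ℝ) * h M (n + 1) =
        h M (n + 1) * (1 / h M (n + 2)) + h M (n + 1) * (1 / h M (n + 2)) := by ring
    rw [this]
    exact add_le_add e1 e2
  fin_cases i
  · simp only [Fin.zero_eta]
    rw [sub_app_zero, abs_div, abs_of_pos hp1, div_le_iff₀ hp1]
    exact (abs_sub _ _).trans (key 1 1 (by decide) (by decide))
  · simp only [Fin.mk_one]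
    rw [sub_app_one, abs_div, abs_of_pos hp1, div_le_iff₀ hp1]
    refine (abs_sub _ _).trans ?_
    rw [add_comm]
    exact key 0 0 (by decide) (by decide)

/-! ### the vectors `w` -/

/-- The step number `s` of the kick: `w = s·(-κ_{n+1,1}, κ_{n+1,0})` is one time step of the
approximant `app n` modulo `ℤ²`. -/
theorem exists_s (hd : ∀ n, h M n ∣ (M (n + 1) : ℤ)) (n : ℕ) :
    ∃ (s : ℝ) (m : Fin 2 → ℤ), 0 ≤ s ∧ s ≤ 1 ∧
      (-(kap M (n + 1) 1 : ℝ) * s = app M n 0 - m 0) ∧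
      ((kap M (n + 1) 0 : ℝ) * s = app M n 1 - m 1) ∧
      (∃ j : ℤ, (h M (n + 1) : ℝ) * s = j) ∧
      (∃ j : ℤ, -(h M n : ℝ) * s = 1 / (h M (n + 1) : ℝ) + j) := by
  obtain ⟨u, v, huv⟩ := kap_coprime M hd (n + 1)
  obtain ⟨x, hx⟩ : ∃ x, x = kap M (n + 1) 0 := ⟨_, rfl⟩
  obtain ⟨y, hy⟩ : ∃ x, x = kap M (n + 1) 1 := ⟨_, rfl⟩
  obtain ⟨z, hz⟩ : ∃ x, x = kap M (n + 1) 2 := ⟨_, rfl⟩
  obtain ⟨x2, hx2⟩ : ∃ x, x = kap M (n + 2) 0 := ⟨_, rfl⟩
  obtain ⟨y2, hy2⟩ : ∃ x, x = kap M (n + 2) 1 := ⟨_, rfl⟩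
  obtain ⟨z2, hz2⟩ : ∃ x, x = kap M (n + 2) 2 := ⟨_, rfl⟩
  obtain ⟨x0, hx0⟩ : ∃ x, x = kap M n 0 := ⟨_, rfl⟩
  obtain ⟨y0, hy0⟩ : ∃ x, x = kap M n 1 := ⟨_, rfl⟩
  obtain ⟨z0, hz0⟩ : ∃ x, x = kap M n 2 := ⟨_, rfl⟩
  obtain ⟨A0, hA0⟩ : ∃ A, A = app M n 0 := ⟨_, rfl⟩
  obtain ⟨A1, hA1⟩ : ∃ A, A = app M n 1 := ⟨_, rfl⟩
  have hH1 : (h M (n + 1) : ℝ) = x * y2 - y * x2 := by
    rw [hx, hy, hx2, hy2]; simp only [h, show n + 1 + 1 = n + 2 from rfl]; push_cast; ring
  have hH0 : (h M n : ℝ) = x0 * y - y0 * x := by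
    rw [hx, hy, hx0, hy0]; simp only [h]; push_cast; ring
  have hap1 : (x : ℝ) * A0 + y * A1 + z = 0 := by
    rw [hx, hy, hz, hA0, hA1]; exact bet_app_one M n
  have hap2 : (x2 : ℝ) * A0 + y2 * A1 + z2 = 0 := by
    rw [hx2, hy2, hz2, hA0, hA1]; exact bet_app_two M n
  have hap0 : (x0 : ℝ) * A0 + y0 * A1 + z0 = 1 / h M (n + 1) := by
    rw [hx0, hy0, hz0, hA0, hA1]; exact bet_app_zero M n
  rw [← hx, ← hy] at huv
  have huv' : (u : ℝ) * x + v * y = 1 := by exact_mod_cast huv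
  rw [← hx, ← hy, ← hA0, ← hA1]
  obtain ⟨w00, hw00⟩ : ∃ w, w = A0 + z * u := ⟨_, rfl⟩
  obtain ⟨w01, hw01⟩ : ∃ w, w = A1 + z * v := ⟨_, rfl⟩
  have horth : (x : ℝ) * w00 + y * w01 = 0 := by
    rw [hw00, hw01]; linear_combination hap1 + (z : ℝ) * huv'
  obtain ⟨t, ht⟩ : ∃ t, t = -v * w00 + u * w01 := ⟨_, rfl⟩
  have e0 : w00 = -(y : ℝ) * t := by
    rw [ht]; linear_combination (-(w00 : ℝ)) * huv' + (u : ℝ) * horth
  have e1 : w01 = (x : ℝ) * t := by
    rw [ht]; linear_combination (-(w01 : ℝ)) * huv' + (v : ℝ) * horth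
  have hs0 : 0 ≤ t - ⌊t⌋ := by rw [Int.self_sub_floor]; exact Int.fract_nonneg t
  have hs1 : t - ⌊t⌋ ≤ 1 := by rw [Int.self_sub_floor]; exact (Int.fract_lt_one t).le
  refine ⟨t - ⌊t⌋, ![-(z * u) - y * ⌊t⌋, -(z * v) + x * ⌊t⌋], hs0, hs1, ?_, ?_, ?_, ?_⟩
  · simp only [Matrix.cons_val_zero]
    push_cast
    linear_combination (-1 : ℝ) * e0 + hw00
  · simp only [Matrix.cons_val_one, Matrix.cons_val_zero]
    push_cast
    linear_combination (-1 : ℝ) * e1 + hw01
  · -- h_{n+1} t = κ_{n+2}·w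
    refine ⟨-z2 + x2 * (z * u) + y2 * (z * v) - (x * y2 - y * x2) * ⌊t⌋, ?_⟩
    push_cast
    rw [hH1]
    linear_combination (-(x2 : ℝ)) * e0 - (y2 : ℝ) * e1 + (x2 : ℝ) * hw00 + (y2 : ℝ) * hw01 + hap2
  · refine ⟨-z0 + x0 * (z * u) + y0 * (z * v) + (x0 * y - y0 * x) * ⌊t⌋, ?_⟩
    push_cast
    rw [hH0]
    linear_combination (-(x0 : ℝ)) * e0 - (y0 : ℝ) * e1 + (x0 : ℝ) * hw00 + (y0 : ℝ) * hw01 + hap0

end Crest.Agent.R081.Ar
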