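import Mathlib

/-!
# Row 81, arithmetic tower

`kap M n : Fin 3 → ℤ` lifted vectors, `kap (n+3) = kap n - M (n+1) • kap (n+1)`,
`h M n = det (kap_n, kap_{n+1})` (first two coordinates), `bet M a n = kap_n · (a,1)`.
-/

set_option autoImplicit false

namespace Crest.Agent.R081.Ar

/-- Lifted integer vectors of the tower: first two coordinates are the vector in `ℤ²`. -/
def kap (M : ℕ → ℕ) : ℕ → Fin 3 → ℤ
  | 0 => ![1, 0, 0]
  | 1 => ![0, 1, 0]
  | 2 => ![-1, -1, 1]
  | (n + 3) => fun i => kap M n i - (M (n + 1) : ℤ) * kap M (n + 1) i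

variable (M : ℕ → ℕ)

theorem kap_zero : kap M 0 = ![1, 0, 0] := by simp [kap]
theorem kap_one : kap M 1 = ![0, 1, 0] := by simp [kap]
theorem kap_two : kap M 2 = ![-1, -1, 1] := by simp [kap]
theorem kap_add_three (n : ℕ) (i : Fin 3) :
    kap M (n + 3) i = kap M n i - (M (n + 1) : ℤ) * kap M (n + 1) i := by
  simp [kap]

/-- `h_n = det(κ_n, κ_{n+1})`. -/
def h (n : ℕ) : ℤ := kap M n 0 * kap M (n + 1) 1 - kap M n 1 * kap M (n + 1) 0

/-- `h_{n+2}`-cyclic determinant `det(κ_{n+2}, κ_n)`; it equals `h_{n-1}`. -/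
def hh (n : ℕ) : ℤ := kap M (n + 2) 0 * kap M n 1 - kap M (n + 2) 1 * kap M n 0

theorem h_zero : h M 0 = 1 := by simp [h, kap]
theorem h_one : h M 1 = 1 := by simp [h, kap]
theorem hh_zero : hh M 0 = 1 := by simp [hh, kap]

theorem hh_succ (n : ℕ) : hh M (n + 1) = h M n := by
  simp only [hh, h]
  rw [show n + 1 + 2 = n + 3 from rfl, kap_add_three, kap_add_three]
  ring

theorem h_succ (n : ℕ) : h M (n + 2) = M (n + 1) * h M (n + 1) + hh M n := by
  simp only [hh, h]
  rw [show n + 2 + 1 = n + 3 from rfl, show n + 1 + 1 = n + 2 from rfl, kap_add_three,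
    kap_add_three]
  ring

theorem h_two : h M 2 = M 1 + 1 := by
  have := h_succ M 0
  simp only [zero_add] at this
  rw [this, h_one, hh_zero]; ring

theorem h_add_three (n : ℕ) : h M (n + 3) = M (n + 2) * h M (n + 2) + h M n := by
  rw [show n + 3 = (n + 1) + 2 from rfl, h_succ, hh_succ]

theorem h_pos_aux (n : ℕ) : 0 < h M n ∧ 0 < h M (n + 1) ∧ 0 < h M (n + 2) := by
  induction n with
  | zero =>
    refine ⟨by simp [h_zero], by simp [h_one], ?_⟩
    rw [h_two]; positivity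
  | succ n ih =>
    refine ⟨ih.2.1, ih.2.2, ?_⟩
    rw [show n + 1 + 2 = n + 3 from rfl, h_add_three]
    have := ih.1
    have h2 := ih.2.2
    positivity

theorem h_pos (n : ℕ) : 0 < h M n := (h_pos_aux M n).1

theorem hh_pos (n : ℕ) : 0 < hh M n := by
  cases n with
  | zero => simp [hh_zero]
  | succ n => rw [hh_succ]; exact h_pos M n

theorem M_mul_h_lt (n : ℕ) : M (n + 1) * h M (n + 1) < h M (n + 2) := by
  rw [h_succ]; linarith [hh_pos M n]

theorem h_lt_succ (hM : ∀ n, 1 ≤ M n) (n : ℕ) : h M (n + 1) < h M (n + 2) := by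
  have h1 := M_mul_h_lt M n
  have h2 : (1 : ℤ) ≤ M (n + 1) := by exact_mod_cast hM (n + 1)
  nlinarith [h_pos M (n + 1)]

theorem h_mono (hM : ∀ n, 1 ≤ M n) : Monotone (h M) := by
  apply monotone_nat_of_le_succ
  intro n
  cases n with
  | zero => simp [h_zero, h_one]
  | succ n => exact (h_lt_succ M hM n).le

/-- The identity `h_{n+1} κ_n + h_{n-1} κ_{n+1} + h_n κ_{n+2} = 0` in `ℤ²`. -/
theorem lin_rel (n : ℕ) (i : Fin 3) (hi : i ≠ 2) :
    h M (n + 1) * kap M n i + hh M n * kap M (n + 1) i + h M n * kap M (n + 2) i = 0 := by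
  simp only [h, hh, show n + 1 + 1 = n + 2 from rfl]
  fin_cases i
  · simp; ring
  · simp; ring
  · exact absurd rfl hi

/-- unimodularity of three consecutive lifted vectors. -/
theorem det_eq_one (n : ℕ) :
    h M (n + 1) * kap M n 2 + hh M n * kap M (n + 1) 2 + h M n * kap M (n + 2) 2 = 1 := by
  induction n with
  | zero => simp [h_one, hh_zero, h_zero, kap]
  | succ n ih =>
    rw [show n + 1 + 1 = n + 2 from rfl, show n + 1 + 2 = n + 3 from rfl, hh_succ, h_succ,
      kap_add_three]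
    rw [← ih]
    ring

/-- `β_n(a) = κ_n·a - p_n`. -/
noncomputable def bet (a : Fin 2 → ℝ) (n : ℕ) : ℝ :=
  kap M n 0 * a 0 + kap M n 1 * a 1 + kap M n 2

theorem bet_add_three (a : Fin 2 → ℝ) (n : ℕ) :
    bet M a (n + 3) = bet M a n - M (n + 1) * bet M a (n + 1) := by
  simp only [bet, kap_add_three]
  push_cast
  ring

theorem bet_eq (a : Fin 2 → ℝ) (n : ℕ) :
    bet M a n = M (n + 1) * bet M a (n + 1) + bet M a (n + 3) := by
  rw [bet_add_three]; ring

/-- `β_n h_{n+1} + β_{n+1} h_{n-1} + β_{n+2} h_n = 1`. -/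
theorem bet_identity (a : Fin 2 → ℝ) (n : ℕ) :
    bet M a n * h M (n + 1) + bet M a (n + 1) * hh M n + bet M a (n + 2) * h M n = 1 := by
  have h0 := lin_rel M n 0 (by decide)
  have h1 := lin_rel M n 1 (by decide)
  have h2 := det_eq_one M n
  have h0' : (h M (n + 1) : ℝ) * kap M n 0 + hh M n * kap M (n + 1) 0 +
      h M n * kap M (n + 2) 0 = 0 := by exact_mod_cast h0
  have h1' : (h M (n + 1) : ℝ) * kap M n 1 + hh M n * kap M (n + 1) 1 +
      h M n * kap M (n + 2) 1 = 0 := by exact_mod_cast h1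
  have h2' : (h M (n + 1) : ℝ) * kap M n 2 + hh M n * kap M (n + 1) 2 +
      h M n * kap M (n + 2) 2 = 1 := by exact_mod_cast h2
  simp only [bet]
  linear_combination a 0 * h0' + a 1 * h1' + h2'

/-- the vertex with `β_{n+1} = β_{n+2} = 0`: the `(n+1)`-st rational approximant,
an element of `(1/h_{n+1}) ℤ²`. -/
noncomputable def app (n : ℕ) : Fin 2 → ℝ :=
  ![(kap M (n + 1) 1 * kap M (n + 2) 2 - kap M (n + 1) 2 * kap M (n + 2) 1 : ℤ) / (h M (n + 1) : ℝ),
    (kap M (n + 1) 2 * kap M (n + 2) 0 - kap M (n + 1) 0 * kap M (n + 2) 2 : ℤ) / (h M (n + 1) : ℝ)]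

theorem bet_app_one (n : ℕ) : bet M (app M n) (n + 1) = 0 := by
  have hp : (h M (n + 1) : ℝ) ≠ 0 := by exact_mod_cast (h_pos M (n + 1)).ne'
  have hd : (h M (n + 1) : ℝ) = kap M (n + 1) 0 * kap M (n + 2) 1 - kap M (n + 1) 1 * kap M (n + 2) 0 := by
    simp only [h, show n + 1 + 1 = n + 2 from rfl]; push_cast; ring
  simp only [bet, app, Matrix.cons_val_zero, Matrix.cons_val_one]
  field_simp
  rw [hd]; push_cast; ring

theorem bet_app_two (n : ℕ) : bet M (app M n) (n + 2) = 0 := by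
  have hp : (h M (n + 1) : ℝ) ≠ 0 := by exact_mod_cast (h_pos M (n + 1)).ne'
  have hd : (h M (n + 1) : ℝ) = kap M (n + 1) 0 * kap M (n + 2) 1 - kap M (n + 1) 1 * kap M (n + 2) 0 := by
    simp only [h, show n + 1 + 1 = n + 2 from rfl]; push_cast; ring
  simp only [bet, app, Matrix.cons_val_zero, Matrix.cons_val_one]
  field_simp
  rw [hd]; push_cast; ring

theorem bet_app_zero (n : ℕ) : bet M (app M n) n = 1 / h M (n + 1) := by
  have hp : (h M (n + 1) : ℝ) ≠ 0 := by exact_mod_cast (h_pos M (n + 1)).ne'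
  have := bet_identity M (app M n) n
  rw [bet_app_one, bet_app_two] at this
  field_simp
  linarith

/-- nested triangles -/
def Tri (n : ℕ) : Set (Fin 2 → ℝ) :=
  {a | 0 ≤ bet M a n ∧ 0 ≤ bet M a (n + 1) ∧ 0 ≤ bet M a (n + 2)}

theorem tri_nonempty (n : ℕ) : (Tri M n).Nonempty := by
  refine ⟨app M n, ?_, ?_, ?_⟩
  · rw [bet_app_zero]
    have : (0 : ℝ) < h M (n + 1) := by exact_mod_cast h_pos M (n + 1)
    positivity
  · rw [bet_app_one]
  · rw [bet_app_two]

theorem continuous_bet (n : ℕ) : Continuous (fun a => bet M a n) := by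
  unfold bet; fun_prop

theorem tri_closed (n : ℕ) : IsClosed (Tri M n) := by
  apply IsClosed.inter
  · exact isClosed_le continuous_const (continuous_bet M n)
  · apply IsClosed.inter
    · exact isClosed_le continuous_const (continuous_bet M (n + 1))
    · exact isClosed_le continuous_const (continuous_bet M (n + 2))

theorem tri_anti (n : ℕ) : Tri M (n + 1) ⊆ Tri M n := by
  intro a ha
  obtain ⟨h1, h2, h3⟩ := ha
  refine ⟨?_, h1, h2⟩
  rw [bet_eq]
  have : (0 : ℝ) ≤ M (n + 1) := by positivity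
  have h3' : 0 ≤ bet M a (n + 3) := h3
  positivity

theorem tri_zero_compact : IsCompact (Tri M 0) := by
  apply IsCompact.of_isClosed_subset (isCompact_Icc (a := (0 : Fin 2 → ℝ)) (b := 1)) (tri_closed M 0)
  intro a ha
  obtain ⟨h1, h2, h3⟩ := ha
  simp only [bet, kap_zero, kap_one, kap_two, zero_add] at h1 h2 h3
  simp at h1 h2 h3
  constructor
  · intro i; fin_cases i
    · simpa using h1
    · simpa using h2
  · intro i; fin_cases i
    · simp; linarith
    · simp; linarith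

/-- Existence of the rotation vector. -/
theorem exists_rot (hM : ∀ n, 1 ≤ M n) : ∃ a : Fin 2 → ℝ, ∀ n, 0 < bet M a n := by
  have hne := IsCompact.nonempty_iInter_of_sequence_nonempty_isCompact_isClosed (Tri M)
    (tri_anti M) (tri_nonempty M) (tri_zero_compact M) (tri_closed M)
  obtain ⟨a, ha⟩ := hne
  rw [Set.mem_iInter] at ha
  refine ⟨a, ?_⟩
  have hnn : ∀ n, 0 ≤ bet M a n := fun n => (ha n).1
  have key : ∀ n, bet M a n = 0 → bet M a (n + 1) = 0 ∧ bet M a (n + 3) = 0 := by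
    intro n hn
    have h1 := bet_eq M a n
    rw [hn] at h1
    have hM1 : (1 : ℝ) ≤ M (n + 1) := by exact_mod_cast hM (n + 1)
    have h2 := hnn (n + 1)
    have h3 := hnn (n + 3)
    constructor <;> nlinarith
  intro n
  refine lt_of_le_of_ne (hnn n) (fun h0 => ?_)
  have e0 : bet M a n = 0 := h0.symm
  have e1 := (key n e0).1
  have e2 := (key (n + 1) e1).1
  have := bet_identity M a n
  rw [e0, e1, show n + 2 = n + 1 + 1 from rfl, e2] at this
  simp at this

variable {M}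

/-- A rotation vector of the tower. -/
structure Rot (M : ℕ → ℕ) (a : Fin 2 → ℝ) : Prop where
  hM : ∀ n, 1 ≤ M n
  pos : ∀ n, 0 < bet M a n

variable {a : Fin 2 → ℝ}

theorem Rot.mul_le_one (H : Rot M a) (n : ℕ) : bet M a n * h M (n + 1) ≤ 1 := by
  have := bet_identity M a n
  have h1 : 0 < bet M a (n + 1) * hh M n :=
    mul_pos (H.pos _) (by exact_mod_cast hh_pos M n)
  have h2 : 0 < bet M a (n + 2) * h M n :=
    mul_pos (H.pos _) (by exact_mod_cast h_pos M n)
  linarith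

theorem Rot.le_inv (H : Rot M a) (n : ℕ) : bet M a n ≤ 1 / h M (n + 1) := by
  rw [le_div_iff₀ (by exact_mod_cast h_pos M (n + 1))]
  exact H.mul_le_one n

theorem hh_le (hM : ∀ n, 1 ≤ M n) (n : ℕ) : hh M n ≤ h M n := by
  cases n with
  | zero => simp [hh_zero, h_zero]
  | succ n => rw [hh_succ]; exact h_mono M hM (Nat.le_succ n)

theorem Rot.one_sub_le (H : Rot M a) (n : ℕ) :
    1 - 1 / (M (n + 1) : ℝ) - 1 / (M (n + 2) : ℝ) ≤ bet M a n * h M (n + 1) := by
  have hid := bet_identity M a n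
  have hMp : ∀ k, (0 : ℝ) < M k := fun k => by exact_mod_cast H.hM k
  -- β_{n+1} h_{n-1} ≤ h_{n+1}/h_{n+2} ≤ 1/M_{n+1}
  have hA : bet M a (n + 1) * hh M n ≤ 1 / (M (n + 1) : ℝ) := by
    have h1 : bet M a (n + 1) * h M (n + 2) ≤ 1 := H.mul_le_one (n + 1)
    have h2 : ((M (n + 1) : ℝ)) * h M (n + 1) ≤ h M (n + 2) := by
      exact_mod_cast (M_mul_h_lt M n).le
    have h3 : (hh M n : ℝ) ≤ h M (n + 1) := by
      exact_mod_cast (hh_le H.hM n).trans (h_mono M H.hM (Nat.le_succ n))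
    rw [le_div_iff₀ (hMp _)]
    have hb := H.pos (n + 1)
    calc bet M a (n + 1) * hh M n * (M (n + 1) : ℝ)
        ≤ bet M a (n + 1) * h M (n + 1) * (M (n + 1) : ℝ) := by gcongr
      _ = bet M a (n + 1) * ((M (n + 1) : ℝ) * h M (n + 1)) := by ring
      _ ≤ bet M a (n + 1) * h M (n + 2) := by gcongr
      _ ≤ 1 := h1
  have hB : bet M a (n + 2) * h M n ≤ 1 / (M (n + 2) : ℝ) := by
    have h1 : bet M a (n + 2) * h M (n + 3) ≤ 1 := H.mul_le_one (n + 2)
    have h2 : ((M (n + 2) : ℝ)) * h M (n + 2) ≤ h M (n + 3) := by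
      exact_mod_cast (M_mul_h_lt M (n + 1)).le
    have h3 : (h M n : ℝ) ≤ h M (n + 2) := by
      exact_mod_cast h_mono M H.hM (Nat.le_add_right n 2)
    rw [le_div_iff₀ (hMp _)]
    have hb := H.pos (n + 2)
    calc bet M a (n + 2) * h M n * (M (n + 2) : ℝ)
        ≤ bet M a (n + 2) * h M (n + 2) * (M (n + 2) : ℝ) := by gcongr
      _ = bet M a (n + 2) * ((M (n + 2) : ℝ) * h M (n + 2)) := by ring
      _ ≤ bet M a (n + 2) * h M (n + 3) := by gcongr
      _ ≤ 1 := h1
  linarith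

end Crest.Agent.R081.Ar
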