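import Crest.Agent.R081.FmTwist

/-! # Row 81, route B: the FOURIER LAYER (helper325), part 4: sums over the orbit, means, tails -/

set_option autoImplicit false

namespace Crest.Agent.R081.Fm

open MeasureTheory Crest.AnalysisR.Torus3 Crest.Agent.R075
open scoped ENNReal ComplexConjugate InnerProductSpace

theorem fcX_neg (f : T3 → ℂ) : fcX (fun x => -f x) = fun x => -fcX f x := by
  funext x
  have := fc_smul (-1) f x.1 x.2
  simp only [fcX]
  have e : (fun x => -f x) = (-1 : ℂ) • f := by funext x; simp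
  rw [e, this]; ring

theorem fcX_sub {f g : T3 → ℂ} (hf : Integrable f volume) (hg : Integrable g volume) :
    fcX (fun x => f x - g x) =ᵐ[muX] fun x => fcX f x - fcX g x := by
  have h := fc_add hf (g := fun x => -g x) hg.neg
  have e : (f + fun x => -g x) = fun x => f x - g x := by funext x; simp [sub_eq_add_neg]
  rw [e, fcX_neg] at h
  filter_upwards [h] with x hx
  rw [hx]
  simp [sub_eq_add_neg]

theorem fcX_zero : fcX (fun _ => 0) = fun _ => 0 := by
  funext x
  simp [fcX, fc]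

theorem fcX_const_mul (a : ℂ) (f : T3 → ℂ) : fcX (fun x => a * f x) = fun x => a * fcX f x := by
  funext x
  exact fc_smul a f x.1 x.2

theorem fcX_sum {ι : Type*} (s : Finset ι) (F : ι → T3 → ℂ) (hF : ∀ i ∈ s, Integrable (F i) volume) :
    fcX (fun x => ∑ i ∈ s, F i x) =ᵐ[muX] fun x => ∑ i ∈ s, fcX (F i) x := by
  classical
  induction s using Finset.induction_on with
  | empty => simp only [Finset.sum_empty]; rw [fcX_zero]
  | insert a s ha ih =>
    have h1 := ih (fun i hi => hF i (Finset.mem_insert_of_mem hi))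
    have h2 : Integrable (fun x => ∑ i ∈ s, F i x) volume :=
      integrable_finsetSum s fun i hi => hF i (Finset.mem_insert_of_mem hi)
    have h3 := fc_add (hF a (Finset.mem_insert_self a s)) h2
    have e : (F a + fun x => ∑ i ∈ s, F i x) = fun x => ∑ i ∈ insert a s, F i x := by
      funext x; simp [Finset.sum_insert ha]
    rw [e] at h3
    filter_upwards [h1, h3] with x e1 e2
    rw [e2, Finset.sum_insert ha, Pi.add_apply, e1]

/-- trigonometric polynomials of the twist -/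
theorem fcX_orbit {T : Equiv.Perm T3} {r : ℝ} {ψ : ℝ → ℝ} (h : IsTw T r ψ)
    (hm : ∀ n : ℤ, MeasurePreserving (T ^ n : Equiv.Perm T3) (volume : Measure T3) volume)
    (s : Finset ℤ) (p : ℤ → ℂ) {g : T3 → ℂ} (hg : Integrable g volume) :
    fcX (fun x => ∑ n ∈ s, p n * g ((T ^ n) x)) =ᵐ[muX]
      fun x => (∑ n ∈ s, p n * ee (n * nu r ψ x)) * fcX g x := by
  have hi : ∀ n : ℤ, Integrable (fun x => g ((T ^ n) x)) volume := fun n =>
    (hm n).integrable_comp_of_integrable hg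
  refine (fcX_sum s (fun n x => p n * g ((T ^ n) x)) (fun n _ => (hi n).const_mul _)).trans ?_
  refine Filter.Eventually.of_forall fun x => ?_
  simp only [fcX_const_mul, fcX_comp_tw_zpow h, Finset.sum_mul]
  refine Finset.sum_congr rfl fun n _ => ?_
  ring

theorem memLp_orbit {T : Equiv.Perm T3}
    (hm : ∀ n : ℤ, MeasurePreserving (T ^ n : Equiv.Perm T3) (volume : Measure T3) volume)
    (s : Finset ℤ) (p : ℤ → ℂ) {g : T3 → ℂ} (hg : MemLp g 2 volume) :
    MemLp (fun x => ∑ n ∈ s, p n * g ((T ^ n) x)) 2 volume :=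
  memLp_finsetSum s fun n _ => (hg.comp_measurePreserving (hm n)).const_mul (p n)

/-- distance from `f` to a trigonometric polynomial of the twist applied to `g` -/
theorem dist_orbit {T : Equiv.Perm T3} {r : ℝ} {ψ : ℝ → ℝ} (h : IsTw T r ψ)
    (hm : ∀ n : ℤ, MeasurePreserving (T ^ n : Equiv.Perm T3) (volume : Measure T3) volume)
    (s : Finset ℤ) (p : ℤ → ℂ) {f g : T3 → ℂ} (hf : MemLp f 2 volume) (hg : MemLp g 2 volume) :
    ∫ x, ‖f x - ∑ n ∈ s, p n * g ((T ^ n) x)‖ ^ 2 =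
      ∫ x, ‖fcX f x - (∑ n ∈ s, p n * ee (n * nu r ψ x)) * fcX g x‖ ^ 2 ∂muX := by
  have h0 := memLp_orbit hm s p hg
  have h1 : MemLp (fun x => f x - ∑ n ∈ s, p n * g ((T ^ n) x)) 2 volume := hf.sub h0
  rw [← parseval_norm h1]
  refine integral_congr_ae ?_
  filter_upwards [fcX_sub (hf.integrable (by norm_num)) (h0.integrable (by norm_num)),
    fcX_orbit h hm s p (hg.integrable (by norm_num))] with x e1 e2
  rw [e1, e2]

/-- the mean -/
theorem integral_eq_fc_zero {f : T3 → ℂ} (hf : Integrable f volume) :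
    ∫ x, f x = ∫ c, fc f 0 c ∂I01 := by
  have h1 : ∫ x, f x = ∫ p, f (P3 p) ∂(I01.prod (I01.prod I01)) := by
    have := hf.aestronglyMeasurable
    rw [← mp_P3.map_eq] at this ⊢
    exact integral_map mp_P3.measurable.aemeasurable this
  rw [h1, integral_prod]
  · refine integral_congr_ae (Filter.Eventually.of_forall fun c => ?_)
    simp [fc, ek]
  · exact (mp_P3.integrable_comp hf.aestronglyMeasurable).2 hf

/-- tails: finitely many `k` carry all but `ε` of the mass -/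
theorem exists_tail {a : (ℤ × ℤ) × ℝ → ℂ} (ha : MemLp a 2 muX) {ε : ℝ} (hε : 0 < ε) :
    ∃ K : Finset (ℤ × ℤ), ∀ K' : Finset (ℤ × ℤ), K ⊆ K' →
      ∫ x, (if x.1 ∈ K' then 0 else ‖a x‖ ^ 2) ∂muX < ε := by
  have hi : Integrable (fun x => ‖a x‖ ^ 2) muX := ha.integrable_norm_pow (by norm_num)
  have hs := hasSum_muX_real hi
  have hmeas : ∀ K' : Finset (ℤ × ℤ), MeasurableSet {x : (ℤ × ℤ) × ℝ | x.1 ∈ K'} := fun K' =>
    measurable_fst K'.measurableSet
  have key : ∀ K' : Finset (ℤ × ℤ), ∫ x, (if x.1 ∈ K' then 0 else ‖a x‖ ^ 2) ∂muX =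
      (∫ x, ‖a x‖ ^ 2 ∂muX) - ∑ k ∈ K', ∫ c, ‖a (k, c)‖ ^ 2 ∂I01 := by
    intro K'
    have h1 : Integrable (fun x => if x.1 ∈ K' then ‖a x‖ ^ 2 else 0) muX := by
      have : (fun x => if x.1 ∈ K' then ‖a x‖ ^ 2 else 0) =
          Set.indicator {x : (ℤ × ℤ) × ℝ | x.1 ∈ K'} (fun x => ‖a x‖ ^ 2) := by
        funext x
        by_cases hx : x.1 ∈ K' <;> simp [Set.indicator, hx]
      rw [this]
      exact hi.indicator (hmeas K')
    have h2 := hasSum_muX_real h1
    have h3 : (fun k : ℤ × ℤ => ∫ c, (if (k, c).1 ∈ K' then ‖a (k, c)‖ ^ 2 else 0) ∂I01) =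
        fun k => if k ∈ K' then ∫ c, ‖a (k, c)‖ ^ 2 ∂I01 else 0 := by
      funext k
      by_cases hk : k ∈ K' <;> simp [hk]
    have h4 : HasSum (fun k : ℤ × ℤ => if k ∈ K' then ∫ c, ‖a (k, c)‖ ^ 2 ∂I01 else 0)
        (∑ k ∈ K', if k ∈ K' then ∫ c, ‖a (k, c)‖ ^ 2 ∂I01 else 0) :=
      hasSum_sum_of_ne_finset_zero (by intro k hk; simp [hk])
    rw [h3] at h2
    have h5 := h2.unique h4
    have h6 : ∑ k ∈ K', (if k ∈ K' then ∫ c, ‖a (k, c)‖ ^ 2 ∂I01 else 0) =
        ∑ k ∈ K', ∫ c, ‖a (k, c)‖ ^ 2 ∂I01 :=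
      Finset.sum_congr rfl fun k hk => by simp [hk]
    rw [← h6, ← h5, ← integral_sub hi h1]
    refine integral_congr_ae (Filter.Eventually.of_forall fun x => ?_)
    by_cases hx : x.1 ∈ K' <;> simp [hx]
  obtain ⟨K, hK⟩ := Filter.eventually_atTop.1
    (hs.eventually (lt_mem_nhds (sub_lt_self (∫ x, ‖a x‖ ^ 2 ∂muX) hε)))
  refine ⟨K, fun K' hK' => ?_⟩
  rw [key]
  have := hK K' hK'
  linarith

/-- slices of the coefficient functions are in `L²` -/
theorem memLp_fc {f : T3 → ℂ} (hf : MemLp f 2 volume) (k : ℤ × ℤ) : MemLp (fc f k) 2 I01 :=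
  memLp_slice_muX (memLp_fcX hf) k

/-- the `L²` function whose coefficients are cut off to a measurable set of modes -/
theorem exists_cut {f : T3 → ℂ} (hf : MemLp f 2 volume) {A : Set ((ℤ × ℤ) × ℝ)}
    (hA : NullMeasurableSet A muX) :
    ∃ f' : T3 → ℂ, MemLp f' 2 volume ∧ fcX f' =ᵐ[muX] A.indicator (fcX f) ∧
      ∫ x, ‖f x - f' x‖ ^ 2 = ∫ x, ‖Aᶜ.indicator (fcX f) x‖ ^ 2 ∂muX := by
  have h1 : MemLp (A.indicator (fcX f)) 2 muX := by
    have h0 := memLp_fcX hf
    refine ⟨?_, ?_⟩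
    · exact h0.aestronglyMeasurable.indicator₀ hA
    · refine lt_of_le_of_lt (eLpNorm_mono fun x => ?_) h0.2
      exact norm_indicator_le_norm_self _ _
  obtain ⟨f', hf', hfc⟩ := exists_of_coeff h1
  refine ⟨f', hf', hfc, ?_⟩
  have h2 : MemLp (fun x => f x - f' x) 2 volume := hf.sub hf'
  rw [← parseval_norm h2]
  refine integral_congr_ae ?_
  filter_upwards [fcX_sub (hf.integrable (by norm_num)) (hf'.integrable (by norm_num)), hfc]
    with x e1 e2
  rw [e1, e2]
  by_cases hx : x ∈ A <;> simp [hx]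

end Crest.Agent.R081.Fm
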