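import Crest.Agent.R081.Ind2

/-!
# Row 81: induction and limit, part 3: the one-step proposition implies S0108.
-/

set_option autoImplicit false

namespace Crest.Agent.R081.Ind

open MeasureTheory Filter Topology Crest.AnalysisR.Torus3 Crest.Agent.R081.Sm Crest.Agent.R081.Glue
open scoped RealInnerProductSpace ContDiff ENNReal

theorem secondCountable_HR : SecondCountableTopology HR := by
  have i1 : MeasurableSpace.CountablyGenerated T3 := by
    unfold T3
    infer_instance
  have i3 : SigmaFinite (volume : Measure T3) := Measure.instSigmaFiniteForallVolume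
  have i2 : IsSeparable (volume : Measure T3) := inferInstance
  have i6 : Fact ((2 : ENNReal) ≠ (⊤ : ENNReal)) := ⟨by norm_num⟩
  exact Lp.SecondCountableTopology

/-- a dense sequence of mean zero functions -/
theorem exists_dense : ∃ f : ℕ → HR, (∀ i, ∫ x, f i x = 0) ∧
    ∀ h : HR, ∫ x, h x = 0 → ∀ η : ℝ, 0 < η → ∃ i, ‖h - f i‖ ≤ η := by
  have i0 := secondCountable_HR
  let Z : Set HR := {h | ∫ x, h x = 0}
  have hne : Nonempty Z := ⟨⟨0, by
    show ∫ x, (0 : HR) x = 0
    rw [integral_congr_ae (Lp.coeFn_zero ℝ 2 (volume : Measure T3))]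
    simp⟩⟩
  refine ⟨fun i => (TopologicalSpace.denseSeq Z i : HR), fun i => (TopologicalSpace.denseSeq Z i).2,
    fun h hh η hη => ?_⟩
  have hd := TopologicalSpace.denseRange_denseSeq Z
  obtain ⟨i, hi⟩ := hd.exists_dist_lt (⟨h, hh⟩ : Z) hη
  refine ⟨i, ?_⟩
  rw [Subtype.dist_eq, dist_eq_norm] at hi
  exact hi.le

theorem integral_eq_zero_of_tendsto {g : ℕ → HR} {G : HR} (h : Tendsto g atTop (𝓝 G))
    (h0 : ∀ n, ∫ x, g n x = 0) : ∫ x, G x = 0 := by
  have hc : Continuous fun f : HR => ∫ x, f x := by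
    have h1 : Continuous fun f : Lp ℝ 2 (volume : Measure T3) =>
        (⟪f, Lp.const 2 (volume : Measure T3) (1 : ℝ)⟫ : ℝ) := by fun_prop
    have h2 : (fun f : HR => ∫ x, f x) =
        fun f : Lp ℝ 2 (volume : Measure T3) => (⟪f, Lp.const 2 (volume : Measure T3) (1 : ℝ)⟫ : ℝ) := by
      funext f
      rw [inner_eq]
      refine integral_congr_ae ?_
      filter_upwards [Lp.coeFn_const 2 (volume : Measure T3) (1 : ℝ)] with x hx
      rw [hx]; simp
    rw [h2]; exact h1
  have h1 : Tendsto (fun n => ∫ x, g n x) atTop (𝓝 (∫ x, G x)) := (hc.tendsto G).comp h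
  simp only [h0] at h1
  exact (tendsto_nhds_unique h1 tendsto_const_nhds)

/-- **One-step proposition implies the goal.** -/
theorem goal_of_step {St : Type} (S : St → Sys) (m : ℕ) (D : ℕ → St → HR → ℝ) (s0 : St)
    (hD : ∀ (s : St) (f : HR), ∫ x, f x = 0 → ∀ η : ℝ, 0 < η →
      ∃ p : ℤ →₀ ℝ, ‖f - pol (S s).A (S s).mp p (S s).g‖ ≤ D 0 s f + η)
    (step : ∀ (s : St) (F : Finset HR), (∀ f ∈ F, ∫ x, f x = 0) → ∀ ε : ℝ, 0 < ε → ∀ r : ℕ,
      ∃ s' : St, Close r ε (S s).A (S s').A ∧ ‖(S s').g - (S s).g‖ ≤ ε ∧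
        ∀ f ∈ F, (∀ i < m, D i s' f ≤ D (i + 1) s f + ε) ∧ D m s' f ≤ ε) : Goal := by
  classical
  obtain ⟨f, hf0, hfd⟩ := exists_dense
  let P : Type := ℤ →₀ ℝ
  let e : ℕ → ℝ := fun n => (1 / 2 : ℝ) ^ n
  have he : ∀ n, 0 < e n := fun n => by simp only [e]; positivity
  -- the relation between successive states
  let R : ℕ → (St × List (ℤ →₀ ℝ)) → (St × List (ℤ →₀ ℝ)) → Prop := fun n s s' =>
    Close n (e n) (S s.1).A (S s'.1).A ∧ ‖(S s'.1).g - (S s.1).g‖ ≤ e n ∧
    (∀ p ∈ s.2, ‖pol (S s'.1).A (S s'.1).mp p (S s'.1).g -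
      pol (S s.1).A (S s.1).mp p (S s.1).g‖ ≤ e n) ∧
    (∀ i ≤ n, (∀ j < m, D j s'.1 (f i) ≤ D (j + 1) s.1 (f i) + e n) ∧ D m s'.1 (f i) ≤ e n) ∧
    (∀ p ∈ s.2, p ∈ s'.2) ∧
    (∀ i ≤ n, ∃ p ∈ s'.2, ‖f i - pol (S s'.1).A (S s'.1).mp p (S s'.1).g‖ ≤
      D 0 s'.1 (f i) + e n)
  have hR : ∀ n s, ∃ s', R n s s' := by
    intro n s
    obtain ⟨δ, hδ, hδ'⟩ := stabList (S s.1).A (S s.1).mp (S s.1).g s.2 (he n)
    obtain ⟨s', h1, h2, h3⟩ := step s.1 ((Finset.range (n + 1)).image f) (by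
      intro h hh
      obtain ⟨i, _, rfl⟩ := Finset.mem_image.1 hh
      exact hf0 i) (min δ (e n)) (lt_min hδ (he n)) n
    choose p hp using fun i : ℕ => hD s' (f i) (hf0 i) (e n) (he n)
    refine ⟨(s', s.2 ++ (List.range (n + 1)).map p), h1.mono le_rfl (min_le_right _ _),
      h2.trans (min_le_right _ _), ?_, ?_, ?_, ?_⟩
    · intro q hq
      exact hδ' (S s').A (S s').mp (S s').g (h1.mono (Nat.zero_le _) (min_le_left _ _))
        (h2.trans (min_le_left _ _)) q hq
    · intro i hi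
      have := h3 (f i) (Finset.mem_image.2 ⟨i, Finset.mem_range.2 (by omega), rfl⟩)
      refine ⟨fun j hj => (this.1 j hj).trans ?_, this.2.trans (min_le_right _ _)⟩
      have := min_le_right δ (e n)
      linarith
    · intro q hq
      exact List.mem_append_left _ hq
    · intro i hi
      refine ⟨p i, List.mem_append_right _ ?_, hp i⟩
      exact List.mem_map.2 ⟨i, List.mem_range.2 (by omega), rfl⟩
  choose nxt hnxt using hR
  let s : ℕ → (St × List (ℤ →₀ ℝ)) := fun n => Nat.rec (s0, []) (fun n s => nxt n s) n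
  have hs : ∀ n, R n (s n) (s (n + 1)) := fun n => hnxt n (s n)
  -- abbreviations
  let L : ℕ → LD := fun n => (S (s n).1).A
  have hL : ∀ n, MPr (L n) := fun n => (S (s n).1).mp
  let g : ℕ → HR := fun n => (S (s n).1).g
  obtain ⟨A, hconv⟩ := exists_lim L (fun n => (hs n).1)
  have hA : MPr A := hconv.measurePreserving hL
  -- tails of the geometric series
  have htail : ∀ n k : ℕ, ∑ i ∈ Finset.range k, e (n + i) ≤ 2 * e n := by
    intro n k
    have h1 : ∑ i ∈ Finset.range k, e (n + i) = e n * ∑ i ∈ Finset.range k, (1 / 2 : ℝ) ^ i := by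
      rw [Finset.mul_sum]
      exact Finset.sum_congr rfl fun i _ => pow_add _ _ _
    have h2 : ∑ i ∈ Finset.range k, (1 / 2 : ℝ) ^ i ≤ 2 := sum_geometric_two_le k
    rw [h1]
    nlinarith [he n]
  -- general Cauchy statement
  have hcauchy : ∀ (u : ℕ → HR) (N : ℕ), (∀ n, N ≤ n → ‖u (n + 1) - u n‖ ≤ e n) → ∀ n, N ≤ n →
      ∀ k, ‖u (n + k) - u n‖ ≤ 2 * e n := by
    intro u N hu n hn k
    refine le_trans ?_ (htail n k)
    induction k with
    | zero => simp
    | succ k ih =>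
      rw [Finset.sum_range_succ]
      calc ‖u (n + (k + 1)) - u n‖ = ‖(u (n + k + 1) - u (n + k)) + (u (n + k) - u n)‖ := by
            congr 1; rw [← add_assoc]; abel
        _ ≤ ‖u (n + k + 1) - u (n + k)‖ + ‖u (n + k) - u n‖ := norm_add_le _ _
        _ ≤ e (n + k) + ∑ i ∈ Finset.range k, e (n + i) :=
            add_le_add (hu (n + k) (by omega)) ih
        _ = _ := by ring
  have he0 : Tendsto e atTop (𝓝 0) :=
    tendsto_pow_atTop_nhds_zero_of_lt_one (by norm_num) (by norm_num)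
  have hgc : ∀ n k, ‖g (n + k) - g n‖ ≤ 2 * e n := fun n k =>
    hcauchy g 0 (fun n _ => (hs n).2.1) n (Nat.zero_le _) k
  have hgC : CauchySeq g := by
    refine Metric.cauchySeq_iff'.2 fun ε hε => ?_
    have h1 : Tendsto (fun n => 2 * e n) atTop (𝓝 0) := by simpa using he0.const_mul 2
    obtain ⟨N, hN⟩ := ((tendsto_order.1 h1).2 ε hε).exists
    refine ⟨N, fun n hn => ?_⟩
    obtain ⟨k, rfl⟩ := Nat.exists_eq_add_of_le hn
    rw [dist_eq_norm]
    exact (hgc N k).trans_lt hN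
  obtain ⟨G, hG⟩ := cauchySeq_tendsto_of_complete hgC
  have hgG : ∀ n, ‖G - g n‖ ≤ 2 * e n := by
    intro n
    have h1 : Tendsto (fun k => ‖g (n + k) - g n‖) atTop (𝓝 ‖G - g n‖) := by
      have h2 : Tendsto (fun k => g (n + k)) atTop (𝓝 G) := by
        have := (tendsto_add_atTop_iff_nat (f := g) n).2 hG
        simpa [add_comm] using this
      exact (h2.sub_const (g n)).norm
    exact le_of_tendsto h1 (Eventually.of_forall fun k => hgc n k)
  -- strong convergence of U_n^k g_n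
  have hUg : ∀ k : ℤ, Tendsto (fun n => ((U (L n) (hL n)) ^ k) (g n)) atTop
      (𝓝 (((U A hA) ^ k) G)) := by
    intro k
    have h1 := conv_U hconv hL hA k G
    have h2 : Tendsto (fun n => ((U (L n) (hL n)) ^ k) (g n) - ((U (L n) (hL n)) ^ k) G) atTop
        (𝓝 0) := by
      rw [tendsto_zero_iff_norm_tendsto_zero]
      refine squeeze_zero (fun n => norm_nonneg _) (g := fun n => 2 * e n) (fun n => ?_)
        (by simpa using he0.const_mul 2)
      rw [← map_sub, norm_U_zpow, norm_sub_rev]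
      exact hgG n
    simpa using h2.add h1
  -- inner products
  have hon : ∀ k : ℤ, ⟪((U A hA) ^ k) G, G⟫ = if k = 0 then (1 : ℝ) else 0 := by
    intro k
    have h1 : Tendsto (fun n => ⟪((U (L n) (hL n)) ^ k) (g n), g n⟫) atTop
        (𝓝 ⟪((U A hA) ^ k) G, G⟫) := Filter.Tendsto.inner (𝕜 := ℝ) (hUg k) hG
    have h2 : ∀ n, ⟪((U (L n) (hL n)) ^ k) (g n), g n⟫ = if k = 0 then (1 : ℝ) else 0 :=
      fun n => (S (s n).1).on k
    simp only [h2] at h1
    exact (tendsto_nhds_unique h1 tendsto_const_nhds).symm ▸ rfl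
  -- polynomials
  have hpol : ∀ p : ℤ →₀ ℝ, Tendsto (fun n => pol (L n) (hL n) p (g n)) atTop
      (𝓝 (pol A hA p G)) := by
    intro p
    unfold pol Finsupp.sum
    exact tendsto_finsetSum _ fun k _ => (hUg k).const_smul _
  -- the defects
  have hdef : ∀ i n j : ℕ, i ≤ n → j ≤ m →
      D (m - j) (s (n + j + 1)).1 (f i) ≤ ∑ l ∈ Finset.range (j + 1), e (n + l) := by
    intro i n j hi
    induction j with
    | zero =>
      intro _
      simpa using ((hs n).2.2.2.1 i hi).2
    | succ j ih =>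
      intro hj
      have h1 := ((hs (n + j + 1)).2.2.2.1 i (by omega)).1 (m - (j + 1)) (by omega)
      have h2 : m - (j + 1) + 1 = m - j := by omega
      rw [h2] at h1
      have h3 := ih (by omega)
      rw [Finset.sum_range_succ]
      have h4 : n + (j + 1) + 1 = n + j + 1 + 1 := by omega
      have h5 : n + (j + 1) = n + j + 1 := by omega
      rw [h4, h5]
      linarith
  -- every f i is close to a polynomial in U applied to G
  have happ : ∀ i : ℕ, ∀ η : ℝ, 0 < η → ∃ p : ℤ →₀ ℝ, ‖f i - pol A hA p G‖ ≤ η := by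
    intro i η hη
    have h1 : Tendsto (fun n => 8 * e n) atTop (𝓝 0) := by simpa using he0.const_mul 8
    obtain ⟨N, hN⟩ := ((tendsto_order.1 h1).2 η hη).exists_forall_of_atTop
    set n := max N i with hn
    have hni : i ≤ n := le_max_right _ _
    have hNn := hN n (le_max_left _ _)
    -- state n + m + 1
    obtain ⟨p, hp, hp2⟩ := (hs (n + m)).2.2.2.2.2 i (by omega)
    have hd := hdef i n m hni le_rfl
    rw [Nat.sub_self] at hd
    have hd2 : D 0 (s (n + m + 1)).1 (f i) ≤ 2 * e n := hd.trans (htail n (m + 1))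
    have hen : ∀ k, e (n + k) ≤ e n := by
      intro k
      simp only [e]
      exact pow_le_pow_of_le_one (by norm_num) (by norm_num) (by omega)
    -- membership persists
    have hmem : ∀ k, p ∈ (s (n + m + 1 + k)).2 := by
      intro k
      induction k with
      | zero => exact hp
      | succ k ih => exact (hs (n + m + 1 + k)).2.2.2.2.1 p ih
    have hstep : ∀ l, n + m + 1 ≤ l →
        ‖pol (L (l + 1)) (hL (l + 1)) p (g (l + 1)) - pol (L l) (hL l) p (g l)‖ ≤ e l := by
      intro l hl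
      obtain ⟨k, rfl⟩ := Nat.exists_eq_add_of_le hl
      exact (hs (n + m + 1 + k)).2.2.1 p (hmem k)
    have hc := hcauchy (fun l => pol (L l) (hL l) p (g l)) (n + m + 1) hstep (n + m + 1) le_rfl
    have hlim : ‖pol A hA p G - pol (L (n + m + 1)) (hL (n + m + 1)) p (g (n + m + 1))‖ ≤
        2 * e (n + m + 1) := by
      have h2 : Tendsto (fun k => pol (L (n + m + 1 + k)) (hL (n + m + 1 + k)) p
          (g (n + m + 1 + k))) atTop (𝓝 (pol A hA p G)) := by
        have := (tendsto_add_atTop_iff_nat (f := fun l => pol (L l) (hL l) p (g l))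
          (n + m + 1)).2 (hpol p)
        simpa [add_comm] using this
      exact le_of_tendsto (h2.sub_const _).norm (Eventually.of_forall fun k => hc k)
    refine ⟨p, ?_⟩
    have e1 := hen m
    have e2 := hen (m + 1)
    rw [← add_assoc] at e2
    calc ‖f i - pol A hA p G‖
        = ‖(f i - pol (L (n + m + 1)) (hL (n + m + 1)) p (g (n + m + 1))) -
            (pol A hA p G - pol (L (n + m + 1)) (hL (n + m + 1)) p (g (n + m + 1)))‖ := by
          congr 1; abel
      _ ≤ ‖f i - pol (L (n + m + 1)) (hL (n + m + 1)) p (g (n + m + 1))‖ + _ := norm_sub_le _ _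
      _ ≤ (D 0 (s (n + m + 1)).1 (f i) + e (n + m)) + 2 * e (n + m + 1) := add_le_add hp2 hlim
      _ ≤ 8 * e n := by linarith [he n]
      _ ≤ η := hNn.le
  -- orthonormality for all pairs
  have honn : ∀ a b : ℤ, ⟪((U A hA) ^ a) G, ((U A hA) ^ b) G⟫ = if a = b then (1 : ℝ) else 0 := by
    intro a b
    have h1 : ((U A hA) ^ a) G = ((U A hA) ^ b) (((U A hA) ^ (a - b)) G) := by
      have h2 : (U A hA) ^ a = (U A hA) ^ b * (U A hA) ^ (a - b) := by
        rw [← zpow_add]
        congr 1; ring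
      rw [h2]; rfl
    rw [h1, LinearIsometryEquiv.inner_map_map, hon]
    simp only [sub_eq_zero]
  refine goal_of_koop A.perm A.isSmoothDiffeo hA hA.symm G
    (integral_eq_zero_of_tendsto hG fun n => (S (s n).1).g0) honn ?_
  intro h hh horth
  have hpolorth : ∀ p : ℤ →₀ ℝ, ⟪pol A hA p G, h⟫ = 0 := by
    intro p
    unfold pol Finsupp.sum
    rw [sum_inner]
    refine Finset.sum_eq_zero fun k _ => ?_
    rw [real_inner_smul_left]
    have := horth k
    rw [show ⟪((U A hA) ^ k) G, h⟫ = 0 from this, mul_zero]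
  by_contra hne
  have hpos : 0 < ‖h‖ := norm_pos_iff.2 hne
  obtain ⟨i, hi⟩ := hfd h hh (‖h‖ / 4) (by positivity)
  obtain ⟨p, hp⟩ := happ i (‖h‖ / 4) (by positivity)
  have h1 : ‖h‖ ^ 2 = ⟪h - pol A hA p G, h⟫ := by
    rw [inner_sub_left, hpolorth, sub_zero, real_inner_self_eq_norm_sq]
  have h2 : ⟪h - pol A hA p G, h⟫ ≤ ‖h - pol A hA p G‖ * ‖h‖ := real_inner_le_norm _ _
  have h3 : ‖h - pol A hA p G‖ ≤ ‖h‖ / 2 := by
    calc ‖h - pol A hA p G‖ = ‖(h - f i) + (f i - pol A hA p G)‖ := by congr 1; abel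
      _ ≤ ‖h - f i‖ + ‖f i - pol A hA p G‖ := norm_add_le _ _
      _ ≤ ‖h‖ / 4 + ‖h‖ / 4 := add_le_add hi hp
      _ = ‖h‖ / 2 := by ring
  nlinarith

end Crest.Agent.R081.Ind
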