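import Crest.Agent.R081.SmLimit

/-! Row 81, explicit step: soft `C^r` closeness of conjugated jointly smooth families of lifts. -/

set_option autoImplicit false

namespace Crest.Agent.R081.TwSoft

open scoped ContDiff Topology
open Crest.AnalysisR.Torus3 Filter Set Crest.Agent.R081.Sm

section
variable {P E F : Type} [NormedAddCommGroup P] [NormedSpace ℝ P] [NormedAddCommGroup E]
  [NormedSpace ℝ E] [NormedAddCommGroup F] [NormedSpace ℝ F]

theorem iteratedFDeriv_slice {f : P × E → F} (hf : ContDiff ℝ ∞ f) (i : ℕ) (p : P × E) :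
    iteratedFDeriv ℝ i (fun x => f (p.1, x)) p.2 =
      (iteratedFDeriv ℝ i f p).compContinuousLinearMap
        (fun _ => ContinuousLinearMap.inr ℝ P E) := by
  set f' : P × E → F := fun y => f (y + (p.1, 0)) with hf'
  have h1 : ContDiff ℝ ∞ f' := hf.comp (contDiff_id.add contDiff_const)
  have h2 : (fun x => f (p.1, x)) = f' ∘ (ContinuousLinearMap.inr ℝ P E) := by
    ext x; simp [hf']
  rw [h2, ContinuousLinearMap.iteratedFDeriv_comp_right _ h1 _ (by exact_mod_cast le_top)]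
  congr 1
  rw [hf', iteratedFDeriv_comp_add_right]
  congr 1
  ext <;> simp

theorem continuous_slice {f : P × E → F} (hf : ContDiff ℝ ∞ f) (i : ℕ) :
    Continuous (fun p : P × E => iteratedFDeriv ℝ i (fun x => f (p.1, x)) p.2) := by
  have h1 : Continuous (iteratedFDeriv ℝ i f) :=
    hf.continuous_iteratedFDeriv (by exact_mod_cast le_top)
  have h3 : Continuous (fun M : ContinuousMultilinearMap ℝ (fun _ : Fin i => P × E) F =>
      M.compContinuousLinearMap (fun _ : Fin i => ContinuousLinearMap.inr ℝ P E)) :=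
    (ContinuousMultilinearMap.compContinuousLinearMapL (𝕜 := ℝ)
      (fun _ : Fin i => ContinuousLinearMap.inr ℝ P E)).continuous
  have h2 := h3.comp h1
  refine h2.congr fun p => ?_
  rw [iteratedFDeriv_slice hf]
  rfl

end

/-- integer equivariance with the identity linear part -/
def Equi (F : E3 → E3) : Prop := ∀ (k : Fin 3 → ℤ) (x : E3), F (x + zv k) = F x + zv k

theorem Equi.per {F : E3 → E3} (h : Equi F) : Per F := fun k => ⟨k, h k⟩

theorem Equi.comp {F G : E3 → E3} (hF : Equi F) (hG : Equi G) : Equi (fun x => F (G x)) :=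
  fun k x => by show F (G (x + zv k)) = _; rw [hG, hF]

theorem Equi.conj (H : LD) {T : E3 → E3} (hT : Equi T) :
    Equi (fun x => H.F (T (H.H x))) := by
  intro k x
  obtain ⟨m, hm⟩ := H.pH k
  obtain ⟨l, hl⟩ := H.pF m
  have e : zv l = zv k := by
    have h1 := hl (H.H 0)
    rw [← hm 0, H.FH, H.FH] at h1
    simpa using h1.symm
  show H.F (T (H.H (x + zv k))) = H.F (T (H.H x)) + zv k
  rw [hm, hT, hl, e]

theorem exists_floor (x : E3) : ∃ (k : Fin 3 → ℤ) (y : E3), y ∈ Icc (0 : E3) 1 ∧ x = y + zv k := by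
  refine ⟨fun i => ⌊x i⌋, fun i => Int.fract (x i), ⟨fun i => ?_, fun i => ?_⟩, ?_⟩
  · exact Int.fract_nonneg _
  · exact (Int.fract_lt_one _).le
  · ext i
    simp [Int.fract_add_floor]

/-- a periodic function whose slices are bounded on the cube is `Bd` -/
theorem bd_of_cube {r : ℕ} {ε : ℝ} {d : E3 → E3} (hp : ∀ (k : Fin 3 → ℤ) x, d (x + zv k) = d x)
    (h : ∀ i, i ≤ r → ∀ x ∈ Icc (0 : E3) 1, ‖iteratedFDeriv ℝ i d x‖ ≤ ε) : Bd r ε d := by
  intro i hi x
  obtain ⟨k, y, hy, rfl⟩ := exists_floor x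
  have e : iteratedFDeriv ℝ i d (y + zv k) = iteratedFDeriv ℝ i d y := by
    rw [← iteratedFDeriv_comp_add_right]
    congr 1
    ext1 z
    exact hp k z
  rw [e]
  exact h i hi y hy

/-- **soft closeness** -/
theorem soft (r : ℕ) {ε : ℝ} (hε : 0 < ε) (d : ℝ → ℝ → E3 → E3)
    (hd : ContDiff ℝ ∞ (fun p : (ℝ × ℝ) × E3 => d p.1.1 p.1.2 p.2))
    (h0 : ∀ b x, d 0 b x = 0) (hp : ∀ s b (k : Fin 3 → ℤ) x, d s b (x + zv k) = d s b x) :
    ∃ s0 > 0, ∀ s, |s| ≤ s0 → ∀ b ∈ Icc (0 : ℝ) 1, Bd r ε (d s b) := by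
  have key : ∀ i, ∀ᶠ s in 𝓝 (0 : ℝ), ∀ q ∈ (Icc (0 : ℝ) 1) ×ˢ (Icc (0 : E3) 1),
      ‖iteratedFDeriv ℝ i (fun x => d s q.1 x) q.2‖ < ε := by
    intro i
    have hK : IsCompact ((Icc (0 : ℝ) 1) ×ˢ (Icc (0 : E3) 1)) := isCompact_Icc.prod isCompact_Icc
    refine hK.eventually_forall_of_forall_eventually
      (P := fun s q => ‖iteratedFDeriv ℝ i (fun x => d s q.1 x) q.2‖ < ε) ?_
    intro q _
    have hc : Continuous (fun z : ℝ × (ℝ × E3) =>
        ‖iteratedFDeriv ℝ i (fun x => d z.1 z.2.1 x) z.2.2‖) := by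
      have h1 := continuous_slice hd i
      have h2 : Continuous (fun z : ℝ × (ℝ × E3) => (((z.1, z.2.1), z.2.2) : (ℝ × ℝ) × E3)) := by
        fun_prop
      exact (h1.comp h2).norm
    have hz : ‖iteratedFDeriv ℝ i (fun x => d 0 q.1 x) q.2‖ = 0 := by
      have : (fun x => d 0 q.1 x) = (fun _ => (0 : E3)) := funext fun x => h0 _ x
      simp only [this]
      rw [norm_eq_zero]
      have := iteratedFDeriv_fun_zero (𝕜 := ℝ) (E := E3) (F := E3) (n := i)
      exact congrFun this q.2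
    have ht := hc.tendsto (0, q)
    have ht' : Tendsto (fun z : ℝ × (ℝ × E3) =>
        ‖iteratedFDeriv ℝ i (fun x => d z.1 z.2.1 x) z.2.2‖) (𝓝 (0, q)) (𝓝 0) := by
      have e : ‖iteratedFDeriv ℝ i (fun x => d (0, q).1 (0, q).2.1 x) (0, q).2.2‖ = 0 := hz
      rw [e] at ht
      exact ht
    exact ht'.eventually (gt_mem_nhds hε)
  have key2 : ∀ᶠ s in 𝓝 (0 : ℝ), ∀ i ∈ Finset.range (r + 1),
      ∀ q ∈ (Icc (0 : ℝ) 1) ×ˢ (Icc (0 : E3) 1),
      ‖iteratedFDeriv ℝ i (fun x => d s q.1 x) q.2‖ < ε := by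
    rw [Filter.eventually_all_finset]
    exact fun i _ => key i
  obtain ⟨s0, hs0, hs⟩ := Metric.eventually_nhds_iff.1 key2
  refine ⟨s0 / 2, by positivity, fun s hs' b hb => ?_⟩
  refine bd_of_cube (hp s b) fun i hi x hx => ?_
  have h1 : dist s 0 < s0 := by
    rw [Real.dist_eq, sub_zero]
    linarith
  exact (hs h1 i (Finset.mem_range.2 (by omega)) (b, x) ⟨hb, hx⟩).le

/-- **soft closeness of conjugated families** -/
theorem soft_conj (H : LD) (G : ℝ → ℝ → E3 → E3) (R : E3 → E3)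
    (hG : ContDiff ℝ ∞ (fun p : (ℝ × ℝ) × E3 => G p.1.1 p.1.2 p.2)) (hR : ContDiff ℝ ∞ R)
    (h0 : ∀ b x, G 0 b x = R x) (pG : ∀ s b, Equi (G s b)) (pR : Equi R)
    (r : ℕ) {ε : ℝ} (hε : 0 < ε) :
    ∃ s0 > 0, ∀ s, |s| ≤ s0 → ∀ b ∈ Icc (0 : ℝ) 1,
      Bd r ε (fun x => H.F (G s b (H.H x)) - H.F (R (H.H x))) := by
  refine soft r hε (fun s b x => H.F (G s b (H.H x)) - H.F (R (H.H x))) ?_ ?_ ?_
  · have h1 : ContDiff ℝ ∞ (fun p : (ℝ × ℝ) × E3 => (p.1, H.H p.2)) :=
      contDiff_fst.prodMk (H.hH.comp contDiff_snd)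
    have h2 : ContDiff ℝ ∞ (fun p : (ℝ × ℝ) × E3 => H.F (G p.1.1 p.1.2 (H.H p.2))) :=
      H.hF.comp (hG.comp h1)
    exact h2.sub (H.hF.comp (hR.comp (H.hH.comp contDiff_snd)))
  · intro b x
    simp only [h0, sub_self]
  · intro s b k x
    have e1 := Equi.conj H (pG s b) k x
    have e2 := Equi.conj H pR k x
    simp only at e1 e2 ⊢
    rw [e1, e2]
    abel

/-- the same with the uncurried map on `ℝ × ℝ × E3` -/
theorem soft_conj' (H : LD) (G : ℝ → ℝ → E3 → E3) (R : E3 → E3)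
    (hG : ContDiff ℝ ∞ (fun p : ℝ × ℝ × E3 => G p.1 p.2.1 p.2.2)) (hR : ContDiff ℝ ∞ R)
    (h0 : ∀ b x, G 0 b x = R x) (pG : ∀ s b, Equi (G s b)) (pR : Equi R)
    (r : ℕ) {ε : ℝ} (hε : 0 < ε) :
    ∃ s0 > 0, ∀ s, |s| ≤ s0 → ∀ b ∈ Icc (0 : ℝ) 1,
      Bd r ε (fun x => H.F (G s b (H.H x)) - H.F (R (H.H x))) := by
  refine soft_conj H G R ?_ hR h0 pG pR r hε
  have h1 : ContDiff ℝ ∞ (fun p : (ℝ × ℝ) × E3 => ((p.1.1, p.1.2, p.2) : ℝ × ℝ × E3)) :=
    (contDiff_fst.comp contDiff_fst).prodMk ((contDiff_snd.comp contDiff_fst).prodMk contDiff_snd)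
  exact hG.comp h1

/-! ### lifts of the same torus map -/

theorem const_of_int {f : E3 → ℝ} (hf : Continuous f) (h : ∀ x, ∃ n : ℤ, f x = n) :
    ∃ n : ℤ, ∀ x, f x = n := by
  choose k hk using h
  have h1 : Continuous k := by
    rw [Int.isClosedEmbedding_coe_real.isInducing.continuous_iff]
    have : (Int.cast : ℤ → ℝ) ∘ k = f := funext fun x => (hk x).symm
    rw [this]
    exact hf
  refine ⟨k 0, fun x => ?_⟩
  rw [hk x, PreconnectedSpace.constant (α := E3) inferInstance h1 (x := x) (y := 0)]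

theorem lift_unique (A B : LD) (h : A.perm = B.perm) :
    ∃ k : Fin 3 → ℤ, ∀ x, A.F x = B.F x + zv k := by
  have h1 : ∀ i, ∃ n : ℤ, ∀ x, A.F x i - B.F x i = n := by
    intro i
    refine const_of_int ?_ ?_
    · exact ((continuous_apply i).comp A.hF.continuous).sub
        ((continuous_apply i).comp B.hF.continuous)
    · intro x
      have h2 : proj (A.F x) = proj (B.F x) := by
        rw [← A.perm_proj, ← B.perm_proj, h]
      obtain ⟨m, hm⟩ := (proj_eq_iff _ _).1 h2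
      refine ⟨- m i, ?_⟩
      rw [hm]
      simp
  choose k hk using h1
  refine ⟨k, fun x => ?_⟩
  ext i
  have := hk i x
  simp only [Pi.add_apply, zv_apply]
  linarith

/-- change of lift -/
def shift (A : LD) (k : Fin 3 → ℤ) : LD where
  F := fun x => A.F x + zv k
  H := fun x => A.H (x + zv (-k))
  hF := A.hF.add contDiff_const
  hH := A.hH.comp (contDiff_id.add contDiff_const)
  pF := by
    intro m
    obtain ⟨l, hl⟩ := A.pF m
    exact ⟨l, fun x => by
      show A.F (x + zv m) + zv k = A.F x + zv k + zv l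
      rw [hl]; abel⟩
  pH := by
    intro m
    obtain ⟨l, hl⟩ := A.pH m
    exact ⟨l, fun x => by
      show A.H (x + zv m + zv (-k)) = A.H (x + zv (-k)) + zv l
      rw [show x + zv m + zv (-k) = x + zv (-k) + zv m by abel, hl]⟩
  FH := by
    intro x
    rw [A.FH, zv_neg]; abel
  HF := by
    intro x
    rw [zv_neg, add_neg_cancel_right, A.HF]

theorem shift_perm (A : LD) (k : Fin 3 → ℤ) : (shift A k).perm = A.perm := by
  ext1 y
  obtain ⟨x, rfl⟩ := proj_surj y
  simp [shift, proj_add_zv]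

theorem bd_translate {r : ℕ} {ε : ℝ} {d : E3 → E3} (h : Bd r ε d) (v : E3) :
    Bd r ε (fun x => d (x + v)) := by
  intro i hi x
  rw [iteratedFDeriv_comp_add_right]
  exact h i hi _

/-- closeness does not depend on the chosen lift -/
theorem transfer (T C C' : LD) (h : T.perm = C.perm) {r : ℕ} {ε : ℝ}
    (h1 : Bd r ε (fun x => C'.F x - C.F x)) (h2 : Bd r ε (fun x => C'.H x - C.H x)) :
    ∃ T' : LD, T'.perm = C'.perm ∧ Bd r ε (fun x => T'.F x - T.F x) ∧
      Bd r ε (fun x => T'.H x - T.H x) := by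
  obtain ⟨k, hk⟩ := lift_unique T C h
  have hH : ∀ x, T.H x = C.H (x + zv (-k)) := by
    intro x
    have h3 : C.F (T.H x) = x + zv (-k) := by
      have := hk (T.H x)
      rw [T.FH] at this
      have e : C.F (T.H x) = x - zv k := by rw [eq_sub_iff_add_eq]; exact this.symm
      rw [e, zv_neg]; abel
    rw [← h3, C.HF]
  refine ⟨shift C' k, shift_perm _ _, ?_, ?_⟩
  · have e : (fun x => (shift C' k).F x - T.F x) = fun x => C'.F x - C.F x := by
      ext1 x
      show C'.F x + zv k - T.F x = _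
      rw [hk]; abel
    rw [e]; exact h1
  · have e : (fun x => (shift C' k).H x - T.H x) =
        fun x => (fun z => C'.H z - C.H z) (x + zv (-k)) := by
      ext1 x
      show C'.H (x + zv (-k)) - T.H x = _
      rw [hH]
    rw [e]; exact bd_translate h2 _

end Crest.Agent.R081.TwSoft
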