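import Crest.Agent.R081.TwPlane
import Crest.Agent.R081.TwSoft

/-! Row 81, node EXPLICIT STEP: `K L K⁻¹ = Γ_{1/h, B_h}` on the lifts. -/

set_option autoImplicit false

namespace Crest.Agent.R081.Tw

open scoped ContDiff
open MeasureTheory Crest.AnalysisR.Torus3 Crest.Agent.R081.Sm Crest.Agent.R081.Shear

theorem comp_F (A B : LD) (x : E3) : (A.comp B).F x = A.F (B.F x) := rfl
theorem comp_H (A B : LD) (x : E3) : (A.comp B).H x = B.H (A.H x) := rfl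

theorem trLD_F (v : E3) (x : E3) : (trLD v).F x = ![x 0 + v 0, x 1 + v 1, x 2 + v 2] := by
  funext i
  fin_cases i <;> rfl
theorem trLD_H (v : E3) (x : E3) : (trLD v).H x = ![x 0 - v 0, x 1 - v 1, x 2 - v 2] := by
  funext i
  fin_cases i <;> rfl

/-- the twist `(c, y1, y2) ↦ (c, y1 + r, y2 + ψ c)` -/
noncomputable def twLD (r : ℝ) (ψ : ℝ → ℝ) (hψ : ContDiff ℝ ∞ ψ) (pψ : ∀ c, ψ (c + 1) = ψ c) : LD :=
  (trLD ![0, r, 0]).comp (vLD ψ hψ 0 (fun c => by rw [pψ]; simp))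

theorem twLD_F (r : ℝ) (ψ : ℝ → ℝ) (hψ : ContDiff ℝ ∞ ψ) (pψ : ∀ c, ψ (c + 1) = ψ c) (x : E3) :
    (twLD r ψ hψ pψ).F x = ![x 0, x 1 + r, x 2 + ψ (x 0)] := by
  rw [twLD, comp_F, vLD_F, trLD_F]
  funext i
  fin_cases i <;> simp

theorem twLD_H (r : ℝ) (ψ : ℝ → ℝ) (hψ : ContDiff ℝ ∞ ψ) (pψ : ∀ c, ψ (c + 1) = ψ c) (x : E3) :
    (twLD r ψ hψ pψ).H x = ![x 0, x 1 - r, x 2 - ψ (x 0)] := by
  rw [twLD, comp_H, vLD_H, trLD_H]
  funext i
  fin_cases i <;> simp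

theorem mp_twLD (r : ℝ) (ψ : ℝ → ℝ) (hψ : ContDiff ℝ ∞ ψ) (pψ : ∀ c, ψ (c + 1) = ψ c) :
    MP (twLD r ψ hψ pψ) := (mp_trLD _).comp (mp_vLD _ _ _ _)

namespace Dat

variable (D : Dat)

/-- `R_t` -/
noncomputable def R : LD := twLD ((D.P : ℝ) / D.q) D.ψ D.hψ D.pψ

theorem R_F (x : E3) : D.R.F x = ![x 0, x 1 + (D.P : ℝ) / D.q, x 2 + D.ψ (x 0)] := twLD_F _ _ _ _ _
theorem R_H (x : E3) : D.R.H x = ![x 0, x 1 - (D.P : ℝ) / D.q, x 2 - D.ψ (x 0)] := twLD_H _ _ _ _ _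
theorem mp_R : MP D.R := mp_twLD _ _ _ _

/-- `L_{P,s}`: `(c, z) ↦ (c + s, z1 + P/q + s/N, z2 + s F(N z1 - c))` -/
noncomputable def LL (P : ℤ) (s : ℝ) : LD :=
  (trLD ![s, (P : ℝ) / D.q + s / D.N, 0]).comp
    (sh2 (fun c y => s * D.F (D.N * y - c))
      (contDiff_const.mul (D.hF.comp ((contDiff_const.mul contDiff_snd).sub contDiff_fst)))
      (fun m n => ⟨0, fun c y => by
        have e : (D.N : ℝ) * (y + n) - (c + m) = D.N * y - c + ((D.N * n - m : ℤ) : ℝ) := by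
          push_cast; ring
        rw [e, D.F_int]; simp⟩))

theorem LL_F (P : ℤ) (s : ℝ) (x : E3) :
    (D.LL P s).F x = ![x 0 + s, (D.lf P s (x 0) (x 1, x 2)).1, (D.lf P s (x 0) (x 1, x 2)).2] := by
  rw [LL, comp_F, sh2_F, trLD_F]
  funext i
  fin_cases i
  · simp
  · simp [lf]; ring
  · simp [lf]

theorem LL_H (P : ℤ) (s : ℝ) (x : E3) : (D.LL P s).H x = (D.LL (-P) (-s)).F x := by
  rw [LL_F, LL, comp_H, sh2_H, trLD_H]
  have e : (D.N : ℝ) * (x 1 - ((P : ℝ) / D.q + s / D.N)) - (x 0 - s)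
      = D.N * x 1 - x 0 + ((- (D.q2 * P) : ℤ) : ℝ) := by
    have := D.N_mul P
    have hN := D.hN0
    have h2 : (D.N : ℝ) * (x 1 - ((P : ℝ) / D.q + s / D.N)) - (x 0 - s)
      = D.N * x 1 - x 0 - D.N * ((P : ℝ) / D.q) := by field_simp; ring
    rw [h2, this]; push_cast; ring
  have e' : (D.N : ℝ) * (x 1 - ((P : ℝ) / D.q + s / D.N)) - (x 0 - s)
      = D.N * x 1 - x 0 + ((- (D.q2 * P) : ℤ) : ℝ) := e
  funext i
  fin_cases i
  · simp; ring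
  · simp [lf]; ring
  · simp [lf]
    rw [e', D.F_int]; ring

theorem mp_LL (P : ℤ) (s : ℝ) : MP (D.LL P s) := (mp_trLD _).comp (mp_sh2 _ _ _)

/-- `B` as a lifted diffeomorphism -/
noncomputable def BL : LD :=
  (Word.ld D.q D.w).comp ((sh1 (fun c _ => - (D.β c / D.N))
      ((D.β_smooth.comp contDiff_fst).div_const _).neg
      (fun m n => ⟨0, fun c y => by rw [D.β_int]; simp⟩)).comp
    (sh2 (fun c y => - (D.β c * D.F (D.N * y - c)))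
      (((D.β_smooth.comp contDiff_fst).mul
        (D.hF.comp ((contDiff_const.mul contDiff_snd).sub contDiff_fst))).neg)
      (fun m n => ⟨0, fun c y => by
        have e : (D.N : ℝ) * (y + n) - (c + m) = D.N * y - c + ((D.N * n - m : ℤ) : ℝ) := by
          push_cast; ring
        rw [e, D.F_int, D.β_int]; simp⟩)))

theorem BL_F (x : E3) :
    D.BL.F x = ![x 0, (D.Bf (x 0) (x 1, x 2)).1, (D.Bf (x 0) (x 1, x 2)).2] := by
  rw [BL, comp_F, comp_F, sh2_F, sh1_F, Word.ld_F]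
  simp only [Bf, Matrix.cons_val_zero, Matrix.cons_val_one, Matrix.cons_val, ← sub_eq_add_neg]

theorem BL_H (x : E3) :
    D.BL.H x = ![x 0, (D.Bi (x 0) (x 1, x 2)).1, (D.Bi (x 0) (x 1, x 2)).2] := by
  have h : D.BL.F ![x 0, (D.Bi (x 0) (x 1, x 2)).1, (D.Bi (x 0) (x 1, x 2)).2] = x := by
    rw [BL_F]
    simp only [Matrix.cons_val_zero, Matrix.cons_val_one, Matrix.cons_val]
    rw [Prod.mk.eta, Bf_Bi]
    funext i
    fin_cases i <;> simp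
  conv_lhs => rw [← h]
  rw [D.BL.HF]

theorem mp_BL : MP D.BL := (Word.mp_ld _ _).comp ((mp_sh1 _ _ _).comp (mp_sh2 _ _ _))

/-- `B_h = frac(h Ψ(1))` -/
noncomputable def Bh (h : ℕ) : ℝ := Int.fract ((h : ℝ) * Psi D.ψ 1)

theorem Bh_mem (h : ℕ) : D.Bh h ∈ Set.Icc (0 : ℝ) 1 :=
  ⟨Int.fract_nonneg _, (Int.fract_lt_one _).le⟩

/-- `χ_h` -/
noncomputable def χ (h : ℕ) (c : ℝ) : ℝ := h * Psi D.ψ c - D.Bh h * D.pr.zt c

theorem χ_smooth (h : ℕ) : ContDiff ℝ ∞ (D.χ h) :=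
  (contDiff_const.mul (Psi_smooth D.hψ)).sub (contDiff_const.mul D.pr.zt_smooth)

theorem χ_add_int (h : ℕ) (c : ℝ) (m : ℤ) :
    D.χ h (c + m) = D.χ h c + m * ⌊(h : ℝ) * Psi D.ψ 1⌋ := by
  unfold χ Bh
  rw [Psi_per_int D.hψ.continuous D.pψ, zt_int_of_Icc, Int.fract]
  ring

theorem χ_per (h : ℕ) (c : ℝ) : D.χ h (c + 1) = D.χ h c + ⌊(h : ℝ) * Psi D.ψ 1⌋ := by
  have := D.χ_add_int h c 1
  simpa using this

/-- on the interior of the circle `χ_h = h Ψ - B_h` -/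
theorem χ_eq (h : ℕ) {c : ℝ} (h1 : D.δ / 8 ≤ c) (h2 : c ≤ 1 - D.δ / 8) :
    D.χ h c = h * Psi D.ψ c - D.Bh h := by
  unfold χ
  rw [D.pr.zt_one c h1 h2, mul_one]

/-- near the integers `χ_h + B_h z` is an integer -/
theorem χ_near (h : ℕ) {c : ℝ} {m : ℤ} (hc : |c - m| ≤ 3 * D.δ / 8) :
    D.χ h c + D.Bh h * D.pr.z c = m * ⌊(h : ℝ) * Psi D.ψ 1⌋ := by
  have h0 := D.hδ0
  have e : c = (c - m) + m := by ring
  have hz : D.pr.z c = D.pr.zt (c - m) := by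
    rw [← D.pr.z_eq _ hc]
    have := per_int D.pr.z_per m (c - m)
    rw [sub_add_cancel] at this
    exact this
  have h3 : D.χ h (c - m) = - (D.Bh h * D.pr.zt (c - m)) := by
    unfold χ
    rw [Psi_eq_zero D.zψ (hc.trans (by linarith))]
    ring
  have h4 : D.χ h c = D.χ h (c - m) + m * ⌊(h : ℝ) * Psi D.ψ 1⌋ := by
    rw [← χ_add_int, sub_add_cancel]
  rw [h4, hz, h3]; ring

theorem χ_sub (h : ℕ) (c s σ : ℝ) (hs : (h : ℝ) * s = σ) :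
    D.χ h (c + s) = D.χ h c + σ * av D.ψ s c - D.Bh h * (D.pr.zt (c + s) - D.pr.zt c) := by
  unfold χ
  have := Psi_add_sub D.hψ.continuous c s
  have e : Psi D.ψ (c + s) = Psi D.ψ c + s * av D.ψ s c := by linarith
  rw [e, ← hs]; ring

/-- `K = V_χ ∘ B` -/
noncomputable def K (h : ℕ) : LD := (vLD (D.χ h) (D.χ_smooth h) _ (D.χ_per h)).comp D.BL

theorem K_F (h : ℕ) (x : E3) :
    (D.K h).F x = ![x 0, (D.Bf (x 0) (x 1, x 2)).1, (D.Bf (x 0) (x 1, x 2)).2 + D.χ h (x 0)] := by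
  rw [K, comp_F, vLD_F, BL_F]
  simp

theorem K_H (h : ℕ) (x : E3) :
    (D.K h).H x = ![x 0, (D.Bi (x 0) (x 1, x 2 - D.χ h (x 0))).1,
      (D.Bi (x 0) (x 1, x 2 - D.χ h (x 0))).2] := by
  rw [K, comp_H, vLD_H, BL_H]
  simp

theorem mp_K (h : ℕ) : MP (D.K h) := (mp_vLD _ _ _ _).comp D.mp_BL

/-- the smooth family `Γ_{s,b}` -/
noncomputable def Gam (σ : ℝ) (P : ℤ) (s b : ℝ) (x : E3) : E3 :=
  ![x 0 + s, (D.G P s (x 0) (x 1, x 2 + b * D.pr.z (x 0))).1,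
    (D.G P s (x 0) (x 1, x 2 + b * D.pr.z (x 0))).2 +
      (σ * av D.ψ s (x 0) - b * (D.pr.zt (x 0 + s) - D.pr.zt (x 0)) - b * D.pr.z (x 0))]

theorem K_L_K (h : ℕ) (σ : ℝ) (P : ℤ) (s : ℝ) (hs : (h : ℝ) * s = σ) (hs1 : |s| < D.δ / 16)
    (x : E3) : (D.K h).F ((D.LL P s).F ((D.K h).H x)) = D.Gam σ P s (D.Bh h) x := by
  rw [K_H, LL_F, K_F]
  simp only [Matrix.cons_val_zero, Matrix.cons_val_one, Matrix.cons_val]
  have e1 : D.Bf (x 0 + s) ((D.lf P s (x 0) ((D.Bi (x 0) (x 1, x 2 - D.χ h (x 0))).1,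
      (D.Bi (x 0) (x 1, x 2 - D.χ h (x 0))).2)).1, (D.lf P s (x 0)
      ((D.Bi (x 0) (x 1, x 2 - D.χ h (x 0))).1, (D.Bi (x 0) (x 1, x 2 - D.χ h (x 0))).2)).2)
      = D.G P s (x 0) (x 1, x 2 - D.χ h (x 0)) := rfl
  rw [e1]
  have h0 := D.hδ0
  have hδ1 := D.hδ1
  rw [abs_lt] at hs1
  -- the key identity
  have key : D.G P s (x 0) (x 1, x 2 - D.χ h (x 0)) + (0, D.χ h (x 0 + s)) =
      D.G P s (x 0) (x 1, x 2 + D.Bh h * D.pr.z (x 0)) + (0, σ * av D.ψ s (x 0)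
        - D.Bh h * (D.pr.zt (x 0 + s) - D.pr.zt (x 0)) - D.Bh h * D.pr.z (x 0)) := by
    rw [D.χ_sub h (x 0) s σ hs]
    by_cases hc : ∃ m : ℤ, |x 0 - m| ≤ 3 * D.δ / 8
    · obtain ⟨m, hm⟩ := hc
      have h1 := D.χ_near h hm
      have e2 : ((x 1, x 2 - D.χ h (x 0)) : ℝ × ℝ) = (x 1, x 2 + D.Bh h * D.pr.z (x 0))
          + (((0 : ℤ) : ℝ), ((- (m * ⌊(h : ℝ) * Psi D.ψ 1⌋) : ℤ) : ℝ)) := by
        ext
        · simp
        · simp only [Prod.snd_add]; push_cast; rw [← h1]; ring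
      rw [e2, G_add_int]
      have h2 : ((- (m * ⌊(h : ℝ) * Psi D.ψ 1⌋) : ℤ) : ℝ) = - (D.χ h (x 0) + D.Bh h * D.pr.z (x 0)) := by
        rw [h1]; push_cast; ring
      rw [h2]
      ext
      · simp
      · simp only [Prod.snd_add]; ring
    · push Not at hc
      have h1 := hc ⌊x 0⌋
      have h2 := hc (⌊x 0⌋ + 1)
      have h3 := Int.floor_le (x 0)
      have h4 := Int.lt_floor_add_one (x 0)
      rw [abs_of_nonneg (by linarith)] at h1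
      push_cast at h2
      rw [abs_of_nonpos (by linarith)] at h2
      have hb1 : D.β (x 0) = x 0 - (⌊x 0⌋ : ℤ) := D.β_eq (by linarith) (by linarith)
      have hb2 : D.β (x 0 + s) = x 0 + s - (⌊x 0⌋ : ℤ) := D.β_eq (by linarith) (by linarith)
      rw [D.G_far P s (x 0) _ _ hb1 hb2, D.G_far P s (x 0) _ _ hb1 hb2]
      ext
      · simp
      · simp only [Prod.snd_add]; ring
  unfold Gam
  have k1 := congrArg Prod.fst key
  have k2 := congrArg Prod.snd key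
  simp only [Prod.fst_add, Prod.snd_add, add_zero] at k1 k2
  rw [k1, k2]

theorem Gam_zero (σ : ℝ) (P : ℤ) (b : ℝ) (x : E3) :
    D.Gam σ P 0 b x = ![x 0, x 1 + (P : ℝ) / D.q, x 2 + σ * D.ψ (x 0)] := by
  unfold Gam
  rw [G_zero, av_zero]
  funext i
  fin_cases i
  · simp
  · simp
  · simp

theorem Gam_one (b : ℝ) (x : E3) : D.Gam 1 D.P 0 b x = D.R.F x := by
  rw [Gam_zero, R_F, one_mul]

theorem Gam_neg_one (b : ℝ) (x : E3) : D.Gam (-1) (-D.P) 0 b x = D.R.H x := by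
  rw [Gam_zero, R_H]
  funext i
  fin_cases i
  · simp
  · simp; ring
  · simp; ring

theorem av_int (s c : ℝ) (m : ℤ) : av D.ψ s (c + m) = av D.ψ s c :=
  per_int (f := fun c => av D.ψ s c) (fun c => av_per D.pψ s c) m c

theorem Gam_equi (σ : ℝ) (P : ℤ) (s b : ℝ) : TwSoft.Equi (D.Gam σ P s b) := by
  intro k x
  have hz : D.pr.z ((x + zv k) 0) = D.pr.z (x 0) := per_int D.pr.z_per (k 0) (x 0)
  have hzt : D.pr.zt ((x + zv k) 0) = D.pr.zt (x 0) + k 0 := zt_int_of_Icc D.pr (x 0) (k 0)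
  have hzt2 : D.pr.zt ((x + zv k) 0 + s) = D.pr.zt (x 0 + s) + k 0 := by
    rw [← zt_int_of_Icc]; congr 1; simp; ring
  have hav : av D.ψ s ((x + zv k) 0) = av D.ψ s (x 0) := D.av_int s (x 0) (k 0)
  have hG : D.G P s ((x + zv k) 0) ((x + zv k) 1, (x + zv k) 2 + b * D.pr.z (x 0))
      = D.G P s (x 0) (x 1, x 2 + b * D.pr.z (x 0)) + ((k 1 : ℝ), (k 2 : ℝ)) := by
    rw [← G_add_int]
    have := D.G_int P s (x 0) ((x 1, x 2 + b * D.pr.z (x 0)) + ((k 1 : ℝ), (k 2 : ℝ))) (k 0)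
    rw [← this]
    congr 1
    ext
    · simp
    · simp; ring
  unfold Gam
  rw [hz, hzt, hzt2, hav, hG]
  funext i
  fin_cases i
  · simp; ring
  · simp
  · simp; ring

end Dat

end Crest.Agent.R081.Tw
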