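import Crest.Agent.R081.StDefs
import Crest.Agent.R081.TwGam
import Crest.Agent.R081.Ind3

/-! Row 81, route B (architect helper310): node G1, from the concrete stages to the abstract
induction theorem `Ind.goal_of_step`. -/

set_option autoImplicit false

namespace Crest.Agent.R081.G1

open MeasureTheory Crest.AnalysisR.Torus3 Crest.Agent.R075 Crest.Agent.R081.Fm
  Crest.Agent.R081.Sm Crest.Agent.R081.Tw Crest.Agent.R081.St Crest.Agent.R081.Ind
  Crest.Agent.R081.Glue
open scoped RealInnerProductSpace ContDiff ENNReal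

/-- (S0) -/
def FlatS0 : Prop := ∀ (s : Stage) (n : ℤ),
  ∫ x, s.gT ((s.T.perm ^ n) x) * s.gT x = if n = 0 then 1 else 0

/-- mean zero -/
def FlatMean : Prop := ∀ s : Stage, ∫ x, s.gT x = 0

/-- (S1), real form -/
def FlatS1 : Prop := ∀ (s : Stage) (f : T3 → ℝ), MemLp f 2 volume → ∫ x, f x = 0 → ∀ η : ℝ, 0 < η →
  ∃ p : ℤ →₀ ℝ, eLpNorm (fun x => f x - p.sum fun n a => a * s.gT ((s.T.perm ^ n) x)) 2 volume
    ≤ ENNReal.ofReal (s.D0 (fun x => (f x : ℂ)) + η)

theorem mp_R (t : TwD) : MP t.R := by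
  have h := mp_twLD ((t.P : ℝ) / t.q) t.psi t.smooth t.per
  have e : t.R.perm = (twLD ((t.P : ℝ) / t.q) t.psi t.smooth t.per).perm := by
    ext1 y
    obtain ⟨x, rfl⟩ := proj_surj y
    rw [LD.perm_proj, LD.perm_proj, twLD_F]
    rfl
  unfold MP
  rw [e]
  exact h

theorem mpT (s : Stage) : MP s.T := by
  have h : MP (TT s.t s.H) := (s.mpH.comp (mp_R s.t)).comp s.mpH.inv
  unfold MP at h ⊢
  rw [s.hT]
  exact h

theorem gT_lp (s : Stage) : MemLp s.gT 2 volume := by
  have h : MeasurePreserving s.H.perm.symm (volume : Measure T3) volume := MPr.symm s.mpH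
  exact s.g_lp.comp_measurePreserving h

/-- the vector of the stage -/
noncomputable def vec (s : Stage) : HR := (gT_lp s).toLp s.gT

theorem coe_vec (s : Stage) : vec s =ᵐ[volume] s.gT := (gT_lp s).coeFn_toLp

theorem coe_U_vec (s : Stage) (k : ℤ) :
    ((U s.T (mpT s)) ^ k) (vec s) =ᵐ[volume] fun x => s.gT ((s.T.perm ^ k) x) := by
  refine (coeFn_U_zpow s.T (mpT s) k (vec s)).trans ?_
  exact (mp_zpow (mpT s) k).quasiMeasurePreserving.ae_eq_comp (coe_vec s)

noncomputable def sys (h0 : FlatS0) (hm : FlatMean) (s : Stage) : Sys where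
  A := s.T
  mp := mpT s
  g := vec s
  g0 := by rw [integral_congr_ae (coe_vec s)]; exact hm s
  on := by
    intro k
    rw [inner_eq, ← h0 s k]
    refine integral_congr_ae ?_
    filter_upwards [coe_U_vec s k, coe_vec s] with x h1 h2
    rw [h1, h2]

/-- the defects -/
noncomputable def DD (i : ℕ) (s : Stage) (f : HR) : ℝ :=
  match i with
  | 0 => s.D0 (fun x => (f x : ℂ))
  | 1 => s.D1 (fun x => (f x : ℂ))
  | 2 => s.D2 (fun x => (f x : ℂ))
  | _ => s.D3 (fun x => (f x : ℂ))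

theorem memLp_coe (f : HR) : MemLp (fun x => (f x : ℂ)) 2 (volume : Measure T3) :=
  (Lp.memLp f).ofReal

theorem coe_pol (s : Stage) (p : ℤ →₀ ℝ) :
    pol s.T (mpT s) p (vec s) =ᵐ[volume] fun x => p.sum fun n a => a * s.gT ((s.T.perm ^ n) x) := by
  unfold pol Finsupp.sum
  have h1 : ∀ t : Finset ℤ, (∑ k ∈ t, p k • (((U s.T (mpT s)) ^ k) (vec s)) : HR) =ᵐ[volume]
      fun x => ∑ k ∈ t, p k * s.gT ((s.T.perm ^ k) x) := by
    intro t
    classical
    induction t using Finset.induction_on with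
    | empty =>
      simp only [Finset.sum_empty]
      exact Lp.coeFn_zero ℝ 2 (volume : Measure T3)
    | insert a t ha ih =>
      rw [Finset.sum_insert ha]
      refine (Lp.coeFn_add _ _).trans ?_
      filter_upwards [ih, Lp.coeFn_smul (p a) (((U s.T (mpT s)) ^ a) (vec s)), coe_U_vec s a]
        with x h1 h2 h3
      rw [Pi.add_apply, h1, h2, Pi.smul_apply, h3, Finset.sum_insert ha, smul_eq_mul]
  exact h1 _

theorem goal_of_stages (h0 : FlatS0) (hm : FlatMean) (h1 : FlatS1) (hstep : StepStmt)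
    (hbase : Nonempty Stage) : Goal := by
  classical
  obtain ⟨s0⟩ := hbase
  refine goal_of_step (sys h0 hm) 3 DD s0 ?_ ?_
  · intro s f hf η hη
    obtain ⟨p, hp⟩ := h1 s f (Lp.memLp f) hf η hη
    refine ⟨p, ?_⟩
    have e1 : (f - pol s.T (mpT s) p (vec s) : HR) =ᵐ[volume]
        fun x => f x - p.sum fun n a => a * s.gT ((s.T.perm ^ n) x) := by
      refine (Lp.coeFn_sub _ _).trans ?_
      filter_upwards [coe_pol s p] with x hx
      rw [Pi.sub_apply, hx]
    have hnn : 0 ≤ s.D0 (fun x => (f x : ℂ)) + η :=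
      add_nonneg (Real.sqrt_nonneg _) hη.le
    show ‖f - pol s.T (mpT s) p (vec s)‖ ≤ s.D0 (fun x => (f x : ℂ)) + η
    rw [Lp.norm_def, eLpNorm_congr_ae e1]
    exact ENNReal.toReal_le_of_le_ofReal hnn hp
  · intro s F hF ε hε r
    obtain ⟨s', b1, b2, b3, b4⟩ := hstep s (F.image fun f => fun x => ((f x : ℝ) : ℂ)) (by
      intro f hf
      obtain ⟨f', hf', rfl⟩ := Finset.mem_image.1 hf
      refine ⟨memLp_coe f', ?_⟩
      have := hF f' hf'
      have h2 : ∫ x, ((f' x : ℝ) : ℂ) = ((∫ x, f' x : ℝ) : ℂ) := integral_ofReal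
      rw [h2, this]; simp) r ε hε
    refine ⟨s', ⟨b1, b2⟩, ?_, ?_⟩
    · show ‖vec s' - vec s‖ ≤ ε
      have e1 : (vec s' - vec s : HR) =ᵐ[volume] fun x => s'.gT x - s.gT x := by
        refine (Lp.coeFn_sub _ _).trans ?_
        filter_upwards [coe_vec s, coe_vec s'] with x h1 h2
        rw [Pi.sub_apply, h1, h2]
      have e2 : ‖vec s' - vec s‖ ^ 2 = ∫ x, (s'.gT x - s.gT x) ^ 2 := by
        rw [← real_inner_self_eq_norm_sq, inner_eq]
        refine integral_congr_ae ?_
        filter_upwards [e1] with x hx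
        rw [hx]; ring
      have e3 : ‖vec s' - vec s‖ ^ 2 ≤ ε ^ 2 := by rw [e2]; exact b3
      exact abs_le_of_sq_le_sq' e3 hε.le |>.2
    · intro f hf
      obtain ⟨c0, c1, c2, c3⟩ := b4 (fun x => ((f x : ℝ) : ℂ)) (Finset.mem_image.2 ⟨f, hf, rfl⟩)
      refine ⟨?_, c3⟩
      intro i hi
      interval_cases i
      · exact c0
      · exact c1
      · exact c2

end Crest.Agent.R081.G1
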