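import Crest.Agent.R081.TwStep

/-! Row 81, node EXPLICIT STEP: arithmetic of the step and the explicit form of `χ` on the interval `J`. -/

set_option autoImplicit false

namespace Crest.Agent.R081.Tw

open scoped ContDiff
open MeasureTheory Crest.AnalysisR.Torus3 Crest.Agent.R081.Sm Crest.Agent.R081.Shear

/-- arbitrarily large admissible `h` -/
theorem exists_h {q q2 : ℕ} {P : ℤ} (hq : 0 < q) (h1 : IsCoprime P (q : ℤ)) (h2 : Nat.Coprime q q2)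
    (h0 : ℕ) : ∃ h : ℕ, h0 ≤ h ∧ 0 < h ∧ ∃ Pp : ℤ, (q : ℤ) * Pp = P * h * q2 + 1 := by
  have h3 : IsCoprime (P * q2) (q : ℤ) :=
    IsCoprime.mul_left h1 (Nat.Coprime.isCoprime h2).symm
  obtain ⟨a, b, hab⟩ := h3
  -- a * (P q2) + b q = 1
  -- `h = - a + q k` with `k` large
  obtain ⟨k, hk⟩ : ∃ k : ℕ, (h0 : ℤ) + 1 ≤ - a + q * k := by
    refine ⟨(h0 : ℤ).toNat + 1 + a.natAbs, ?_⟩
    have hq1 : (1 : ℤ) ≤ q := by exact_mod_cast hq
    have ha : a ≤ (a.natAbs : ℤ) := Int.le_natAbs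
    push_cast
    have h5 : (0 : ℤ) ≤ |a| := abs_nonneg a
    have h6 : a ≤ |a| := le_abs_self a
    have h7 : ((h0 : ℤ) + 1 + |a|) ≤ q * ((h0 : ℤ) + 1 + |a|) := by
      nlinarith [(Nat.cast_nonneg h0 : (0:ℤ) ≤ (h0 : ℤ))]
    simp only [Int.toNat_natCast]
    linarith
  obtain ⟨h, hh⟩ : ∃ h : ℕ, (h : ℤ) = - a + q * k :=
    ⟨(- a + q * k).toNat, Int.toNat_of_nonneg (by linarith [(Nat.cast_nonneg h0 : (0:ℤ) ≤ (h0 : ℤ))])⟩
  refine ⟨h, ?_, ?_, b + P * q2 * k, ?_⟩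
  · have : (h0 : ℤ) ≤ h := by rw [hh]; linarith
    exact_mod_cast this
  · have : (0 : ℤ) < h := by rw [hh]; linarith [(Nat.cast_nonneg h0 : (0:ℤ) ≤ (h0 : ℤ))]
    exact_mod_cast this
  · rw [hh]
    linear_combination hab

/-- the new fraction is reduced -/
theorem coprime_new {q q2 h : ℕ} {P Pp : ℤ} (hP : (q : ℤ) * Pp = P * h * q2 + 1) :
    IsCoprime Pp ((h * q2 : ℕ) : ℤ) :=
  ⟨q, -P, by push_cast; linear_combination hP⟩

/-- `P_+ q = 1 mod q''` -/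
theorem dvd_new {q q2 h : ℕ} {P Pp : ℤ} (hP : (q : ℤ) * Pp = P * h * q2 + 1) :
    (q2 : ℤ) ∣ Pp * q - 1 := ⟨P * h, by linear_combination hP⟩

namespace Dat

variable (D : Dat)

/-- the primitive of an affine function on `J` -/
theorem Psi_affine {α d : ℝ} (hψ : ∀ c, d ≤ c → c ≤ 1 - d → D.ψ c = α * (c - d)) {c : ℝ}
    (h1 : d ≤ c) (h2 : c ≤ 1 - d) :
    Psi D.ψ c = Psi D.ψ d + α * (c - d) ^ 2 / 2 := by
  have h3 := Psi_sub D.hψ.continuous d c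
  have h4 : ∫ t in d..c, D.ψ t = ∫ t in d..c, α * (t - d) := by
    refine intervalIntegral.integral_congr fun t ht => ?_
    rw [Set.uIcc_of_le h1] at ht
    exact hψ t ht.1 (ht.2.trans h2)
  have h5 : ∫ t in d..c, α * (t - d) = α * (c - d) ^ 2 / 2 := by
    rw [intervalIntegral.integral_const_mul,
      intervalIntegral.integral_comp_sub_right (fun t => t) d, integral_id]
    ring
  rw [h4, h5] at h3
  linarith

/-- **`χ_h` is quadratic on `J = [δ, 1-δ]`** -/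
theorem χ_affine {α : ℝ} (hψ : ∀ c, D.δ ≤ c → c ≤ 1 - D.δ → D.ψ c = α * (c - D.δ)) (h : ℕ) {c : ℝ}
    (h1 : D.δ ≤ c) (h2 : c ≤ 1 - D.δ) :
    D.χ h c = (h * Psi D.ψ D.δ - D.Bh h) + h * α * (c - D.δ) ^ 2 / 2 := by
  have h0 := D.hδ0
  rw [D.χ_eq h (by linarith) (by linarith), D.Psi_affine hψ h1 h2]
  ring

end Dat

end Crest.Agent.R081.Tw
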