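import Mathlib

/-!
Row 81 (S0108), node COVER (helper451), part 1: mode sets, the step cover, the aligned set.

`Md = (ℤ × ℤ) × ℝ` : modes `((k₁,k₂),c)` of a twist.  `nuT P q ψ` : frequency `k₁P/q + k₂ψ(c)`.
`Cov ν S` : almost every real `x` is, modulo one, the frequency of exactly one point of `S`.
`hitE n F e y` : the design point `e = ((a,b),c')`, `a ∈ ZMod n`, hits `y` : `a/n + bF(c') = y mod 1`.
-/

set_option autoImplicit false

open MeasureTheory

namespace Crest.Agent.R081.Cv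

abbrev Md := (ℤ × ℤ) × ℝ
abbrev De (n : ℕ) := (ZMod n × ℤ) × ℝ

/-- frequency of a mode of the twist `(c,y₁,y₂) ↦ (c,y₁+P/q,y₂+ψ c)` -/
noncomputable def nuT (P : ℤ) (q : ℕ) (psi : ℝ → ℝ) (p : Md) : ℝ :=
  (p.1.1 : ℝ) * P / q + p.1.2 * psi p.2

/-- `p` has frequency `x` modulo one -/
def hit (nu : Md → ℝ) (p : Md) (x : ℝ) : Prop := ∃ m : ℤ, nu p = x + m

/-- almost every frequency is attained exactly once on `S`, modulo one -/
def Cov (nu : Md → ℝ) (S : Set Md) : Prop := ∀ᵐ x : ℝ, ∃! p, p ∈ S ∧ hit nu p x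

/-- the design point `e` has frequency `y` modulo one -/
def hitE (n : ℕ) (F : ℝ → ℝ) (e : De n) (y : ℝ) : Prop :=
  ∃ a : ℤ, (a : ZMod n) = e.1.1 ∧ (a : ℝ) / n + e.1.2 * F e.2 = y

/-- almost every frequency is attained exactly once on the design `E`, modulo one -/
def CovE (n : ℕ) (F : ℝ → ℝ) (E : Set (De n)) : Prop := ∀ᵐ y : ℝ, ∃! e, e ∈ E ∧ hitE n F e y

/-- the design point of a mode of the next stage -/
def toDe (n : ℕ) (Pp : ℤ) (p : Md) : De n := (((p.1.1 * Pp : ℤ) : ZMod n), p.1.2, p.2) |> fun t => ((t.1, t.2.1), t.2.2)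

@[simp] lemma toDe_1 (n : ℕ) (Pp : ℤ) (p : Md) : (toDe n Pp p).1.1 = ((p.1.1 * Pp : ℤ) : ZMod n) := rfl
@[simp] lemma toDe_2 (n : ℕ) (Pp : ℤ) (p : Md) : (toDe n Pp p).1.2 = p.1.2 := rfl
@[simp] lemma toDe_3 (n : ℕ) (Pp : ℤ) (p : Md) : (toDe n Pp p).2 = p.2 := rfl

/-- the mode set of the next stage -/
def nextS (q n h : ℕ) (Pp : ℤ) (psi F : ℝ → ℝ) (S : Set Md) (E : Set (De n)) : Set Md :=
  {p | toDe n Pp p ∈ E ∧ ∃ s ∈ S, (q : ℤ) ∣ p.1.1 - s.1.1 ∧
    (h : ℝ) * s.1.2 * psi s.2 = (p.1.1 : ℝ) / (q * n) + p.1.2 * F p.2}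

lemma ae_mul {h : ℝ} (hh : h ≠ 0) {p : ℝ → Prop} (hp : ∀ᵐ y, p y) : ∀ᵐ x : ℝ, p (h * x) := by
  have h1 : ∀ᵐ y ∂(Measure.map (fun x : ℝ => h * x) volume), p y := by
    rw [Real.map_volume_mul_left hh]
    exact Measure.ae_smul_measure hp _
  exact ae_of_ae_map (by fun_prop) h1

lemma ae_affine {s b : ℝ} (hs : s ≠ 0) {p : ℝ → Prop} (hp : ∀ᵐ y, p y) :
    ∀ᵐ x : ℝ, p (s * x + b) := by
  have h2 : ∀ᵐ y : ℝ, p (y + b) := by
    have := (measurePreserving_add_right (volume : Measure ℝ) b).quasiMeasurePreserving.ae hp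
    exact this
  exact ae_mul hs h2

section Step

variable {q n h : ℕ} {P Pp : ℤ} {psi F : ℝ → ℝ} {S : Set Md} {E : Set (De n)}

/-- `h ν₊` -/
lemma nu_next (hq : 0 < q) (hn : 0 < n) (hh : 0 < h) (hP : (q : ℤ) * Pp = P * h * n + 1)
    (p s : Md) (he : (h : ℝ) * s.1.2 * psi s.2 = (p.1.1 : ℝ) / (q * n) + p.1.2 * F p.2) :
    nuT Pp (h * n) (fun c => F c / h) p = (s.1.2 : ℝ) * psi s.2 + (p.1.1 : ℝ) * P / q := by
  have hq' : (q : ℝ) ≠ 0 := by positivity
  have hn' : (n : ℝ) ≠ 0 := by positivity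
  have hh' : (h : ℝ) ≠ 0 := by positivity
  have hP' : (q : ℝ) * Pp = P * h * n + 1 := by exact_mod_cast hP
  have e1 : (p.1.2 : ℝ) * F p.2 = (h : ℝ) * s.1.2 * psi s.2 - (p.1.1 : ℝ) / (q * n) := by
    linarith
  have e2 : (Pp : ℝ) = (P * h * n + 1) / q := by
    field_simp; linarith
  unfold nuT
  have e3 : (p.1.2 : ℝ) * (F p.2 / h) = (p.1.2 * F p.2) / h := by ring
  simp only [Nat.cast_mul]
  rw [e3, e1, e2]
  field_simp
  ring

theorem cov_step (hq : 0 < q) (hn : 0 < n) (hh : 0 < h) (hP : (q : ℤ) * Pp = P * h * n + 1)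
    (hS : Cov (nuT P q psi) S) (hE : CovE n F E) :
    Cov (nuT Pp (h * n) (fun c => F c / h)) (nextS q n h Pp psi F S E) := by
  have hq' : (q : ℝ) ≠ 0 := by positivity
  have hn' : (n : ℝ) ≠ 0 := by positivity
  have hh' : (h : ℝ) ≠ 0 := by positivity
  have hP' : (q : ℝ) * Pp = P * h * n + 1 := by exact_mod_cast hP
  have hE' : ∀ᵐ x : ℝ, ∃! e, e ∈ E ∧ hitE n F e (h * x) := ae_mul hh' hE
  filter_upwards [hS, hE'] with x hx hy
  obtain ⟨s, ⟨hsS, m, hm⟩, hsu⟩ := hx
  obtain ⟨e, ⟨heE, a, ha, hae⟩, heu⟩ := hy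
  have hPz : ((q : ZMod n)) * (Pp : ZMod n) = 1 := by
    have := congrArg (fun z : ℤ => (z : ZMod n)) hP
    push_cast at this
    simpa using this
  -- existence
  set j : ℤ := h * m * q * n - h * s.1.1 * P * n + a * q with hj
  have hτ : (h : ℝ) * s.1.2 * psi s.2 = (j : ℝ) / (q * n) + e.1.2 * F e.2 := by
    have h1 : (s.1.2 : ℝ) * psi s.2 = x + m - (s.1.1 : ℝ) * P / q := by
      have := hm; unfold nuT at this; linarith
    have h2 : (e.1.2 : ℝ) * F e.2 = h * x - (a : ℝ) / n := by linarith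
    rw [mul_assoc, h1, h2, hj]
    push_cast
    field_simp
    ring
  have hjs : (q : ℤ) ∣ j - s.1.1 := by
    refine ⟨h * m * n + a - s.1.1 * Pp, ?_⟩
    rw [hj]
    have : (q : ℤ) * Pp * s.1.1 = (P * h * n + 1) * s.1.1 := by rw [hP]
    linear_combination this
  have hja : ((j * Pp : ℤ) : ZMod n) = e.1.1 := by
    rw [← ha, hj]
    push_cast
    have hn0 : ((n : ℕ) : ZMod n) = 0 := ZMod.natCast_self n
    rw [hn0]
    linear_combination (a : ZMod n) * hPz
  refine ⟨((j, e.1.2), e.2), ⟨⟨?_, s, hsS, hjs, hτ⟩, ?_⟩, ?_⟩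
  · have : toDe n Pp ((j, e.1.2), e.2) = e := by
      apply Prod.ext
      · apply Prod.ext
        · exact hja
        · rfl
      · rfl
    rw [this]; exact heE
  · -- the frequency
    obtain ⟨t, ht⟩ := hjs
    refine ⟨m + t * P, ?_⟩
    rw [nu_next (s := s) hq hn hh hP _ hτ]
    have hm' : (s.1.1 : ℝ) * P / q + s.1.2 * psi s.2 = x + m := hm
    have ht' : (j : ℝ) - s.1.1 = q * t := by exact_mod_cast ht
    have : (j : ℝ) = q * t + s.1.1 := by linarith
    show (s.1.2 : ℝ) * psi s.2 + (j : ℝ) * P / q = _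
    rw [this]
    push_cast
    field_simp
    field_simp at hm'
    linarith
  · -- uniqueness
    rintro p ⟨⟨hpE, s', hs'S, ⟨t, ht⟩, hτ'⟩, m', hm'⟩
    rw [nu_next (s := s') hq hn hh hP _ hτ'] at hm'
    have ht' : (p.1.1 : ℝ) - s'.1.1 = q * t := by exact_mod_cast ht
    have hpj : (p.1.1 : ℝ) = q * t + s'.1.1 := by linarith
    have hss : s' = s := by
      apply hsu
      refine ⟨hs'S, m' - t * P, ?_⟩
      unfold nuT
      rw [hpj] at hm'
      push_cast
      field_simp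
      field_simp at hm'
      linarith
    subst hss
    -- the design point
    have hpe : toDe n Pp p = e := by
      apply heu
      refine ⟨hpE, t + s'.1.1 * Pp - h * m * n, ?_, ?_⟩
      · rw [toDe_1]
        have hjz : (p.1.1 : ℤ) = q * t + s'.1.1 := by linarith
        rw [hjz]
        push_cast
        have hn0 : ((n : ℕ) : ZMod n) = 0 := ZMod.natCast_self n
        rw [hn0]
        linear_combination (-(t : ZMod n)) * hPz
      · have h1 : (s'.1.2 : ℝ) * psi s'.2 = x + m - (s'.1.1 : ℝ) * P / q := by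
          have := hm; unfold nuT at this; linarith
        have h2 : (p.1.2 : ℝ) * F p.2 = h * (x + m - (s'.1.1 : ℝ) * P / q) - (p.1.1 : ℝ) / (q * n) := by
          rw [← h1]; linarith
        show _ + (p.1.2 : ℝ) * F p.2 = _
        rw [h2, hpj]
        push_cast
        have e2 : (Pp : ℝ) = (P * h * n + 1) / q := by
          field_simp; linarith
        rw [e2]
        field_simp
        ring
    have hb : p.1.2 = e.1.2 := by rw [← hpe]; rfl
    have hc : p.2 = e.2 := by rw [← hpe]; rfl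
    have hjj : (p.1.1 : ℝ) = j := by
      have : (p.1.1 : ℝ) / (q * n) = (j : ℝ) / (q * n) := by
        rw [hb, hc] at hτ'
        linarith
      field_simp at this
      exact this
    have hjj' : p.1.1 = j := by exact_mod_cast hjj
    apply Prod.ext
    · apply Prod.ext
      · exact hjj'
      · exact hb
    · exact hc

/-- two modes with the same frequency whose design points lie in `E` (both hitting the same
frequency) agree up to a multiple of `q₊ = h n` in the first component -/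
lemma aligned_of {x : ℝ} (hq : 0 < q) (hn : 0 < n) (hh : 0 < h)
    (hP : (q : ℤ) * Pp = P * h * n + 1)
    (hu : ∀ e e' : De n, e ∈ E → e' ∈ E → hitE n F e (h * x) → hitE n F e' (h * x) → e = e')
    {p p' : Md} (hp : toDe n Pp p ∈ E) (hp' : toDe n Pp p' ∈ E)
    (h1 : hit (nuT Pp (h * n) (fun c => F c / h)) p x)
    (h2 : hit (nuT Pp (h * n) (fun c => F c / h)) p' x) :
    p'.1.2 = p.1.2 ∧ p'.2 = p.2 ∧ ((h * n : ℕ) : ℤ) ∣ p'.1.1 - p.1.1 := by
  have hn' : (n : ℝ) ≠ 0 := by positivity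
  have hh' : (h : ℝ) ≠ 0 := by positivity
  have key : ∀ p : Md, hit (nuT Pp (h * n) (fun c => F c / h)) p x →
      hitE n F (toDe n Pp p) (h * x) := by
    rintro p ⟨m, hm⟩
    refine ⟨p.1.1 * Pp - h * m * n, ?_, ?_⟩
    · rw [toDe_1]; push_cast
      have hn0 : ((n : ℕ) : ZMod n) = 0 := ZMod.natCast_self n
      rw [hn0]; ring
    · unfold nuT at hm
      rw [toDe_2, toDe_3]
      push_cast at hm ⊢
      field_simp at hm ⊢
      linarith
  have he := hu _ _ hp hp' (key p h1) (key p' h2)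
  have hb : p'.1.2 = p.1.2 := by
    have := congrArg (fun e : De n => e.1.2) he
    exact this.symm
  have hc : p'.2 = p.2 := by
    have := congrArg (fun e : De n => e.2) he
    exact this.symm
  refine ⟨hb, hc, ?_⟩
  obtain ⟨m, hm⟩ := h1
  obtain ⟨m', hm'⟩ := h2
  unfold nuT at hm hm'
  rw [hb, hc] at hm'
  have h3 : ((p'.1.1 : ℝ) - p.1.1) * Pp = (h * n : ℕ) * (m' - m) := by
    push_cast at hm hm' ⊢
    field_simp at hm hm'
    field_simp
    linarith
  have h4 : (p'.1.1 - p.1.1) * Pp = ((h * n : ℕ) : ℤ) * (m' - m) := by exact_mod_cast h3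
  have hcop : IsCoprime ((h * n : ℕ) : ℤ) Pp := by
    refine ⟨-P, q, ?_⟩
    push_cast
    linear_combination hP
  exact hcop.dvd_of_dvd_mul_right ⟨_, h4⟩

/-- **aligned set**: for almost every frequency `x`, every mode of frequency `x` whose design point
lies in `E` is, up to a multiple of `q₊ = h n` in the first component, in the next mode set. -/
theorem aligned (hq : 0 < q) (hn : 0 < n) (hh : 0 < h) (hP : (q : ℤ) * Pp = P * h * n + 1)
    (hS : Cov (nuT P q psi) S) (hE : CovE n F E) :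
    ∀ᵐ x : ℝ, ∀ p : Md, hit (nuT Pp (h * n) (fun c => F c / h)) p x → toDe n Pp p ∈ E →
      ∃ r : ℤ, ((p.1.1 + r * (h * n : ℕ), p.1.2), p.2) ∈ nextS q n h Pp psi F S E := by
  have hh' : (h : ℝ) ≠ 0 := by positivity
  have hE' : ∀ᵐ x : ℝ, ∃! e, e ∈ E ∧ hitE n F e (h * x) := ae_mul hh' hE
  filter_upwards [cov_step hq hn hh hP hS hE, hE'] with x hx hy p hp hpE
  obtain ⟨p', ⟨hp'S, hp'⟩, -⟩ := hx
  have hu : ∀ e e' : De n, e ∈ E → e' ∈ E → hitE n F e (h * x) → hitE n F e' (h * x) → e = e' := by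
    intro e e' h1 h2 h3 h4
    exact hy.unique ⟨h1, h3⟩ ⟨h2, h4⟩
  obtain ⟨hb, hc, r, hr⟩ := aligned_of hq hn hh hP hu hpE hp'S.1 hp hp'
  refine ⟨r, ?_⟩
  have : ((p.1.1 + r * (h * n : ℕ), p.1.2), p.2) = p' := by
    apply Prod.ext
    · apply Prod.ext
      · show p.1.1 + r * ((h * n : ℕ) : ℤ) = p'.1.1
        linear_combination -hr
      · exact hb.symm
    · exact hc.symm
  rw [this]; exact hp'S

end Step

end Crest.Agent.R081.Cv
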