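import Mathlib
import Crest.Prelude.Def_Torus3

/-!
# Shears of the three-torus preserve the Haar measure

`T x = x + φ (β x)` with `φ : UnitAddCircle →+ T3` continuous and `β (x + φ s) = β x`.
-/

set_option autoImplicit false

namespace Crest.Agent.R081.Shear

open MeasureTheory Crest.AnalysisR.Torus3
open scoped ContDiff ENNReal

instance instProbUnitAddCircle : IsProbabilityMeasure (volume : Measure UnitAddCircle) :=
  ⟨UnitAddCircle.measure_univ⟩

instance instProbT3 : IsProbabilityMeasure (volume : Measure T3) :=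
  inferInstanceAs (IsProbabilityMeasure (Measure.pi fun _ => (volume : Measure UnitAddCircle)))

/-- General shear lemma on a commutative group with an invariant probability measure. -/
theorem shear_lintegral {X S : Type*} [AddCommGroup X] [MeasurableSpace X] [MeasurableAdd₂ X]
    (μ : Measure X) [IsProbabilityMeasure μ] [μ.IsAddRightInvariant]
    [AddCommGroup S] [MeasurableSpace S] [MeasurableAdd₂ S]
    (ν : Measure S) [IsProbabilityMeasure ν] [ν.IsAddRightInvariant]
    (φ : S →+ X) (hφ : Measurable φ) (β : X → S) (hβ : Measurable β)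
    (hinv : ∀ x s, β (x + φ s) = β x) (f : X → ℝ≥0∞) (hf : Measurable f) :
    ∫⁻ x, f (x + φ (β x)) ∂μ = ∫⁻ x, f x ∂μ := by
  have hT : Measurable fun x => x + φ (β x) := measurable_id.add (hφ.comp hβ)
  -- averaging over translations
  have h1 : ∀ s : S, ∫⁻ x, f (x + φ s + φ (β x)) ∂μ = ∫⁻ x, f (x + φ (β x)) ∂μ := by
    intro s
    have := lintegral_add_right_eq_self (μ := μ) (fun x => f (x + φ (β x))) (φ s)
    rw [← this]
    refine lintegral_congr fun x => ?_
    rw [hinv]
  have h2 : ∫⁻ x, f (x + φ (β x)) ∂μ = ∫⁻ s, ∫⁻ x, f (x + φ s + φ (β x)) ∂μ ∂ν := by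
    simp_rw [h1]
    simp
  have hmeas : Measurable (Function.uncurry fun (s : S) (x : X) => f (x + φ s + φ (β x))) := by
    refine hf.comp ?_
    exact (measurable_snd.add (hφ.comp measurable_fst)).add (hφ.comp (hβ.comp measurable_snd))
  rw [h2, lintegral_lintegral_swap hmeas.aemeasurable]
  have h3 : ∀ x : X, ∫⁻ s, f (x + φ s + φ (β x)) ∂ν = ∫⁻ s, f (x + φ s) ∂ν := by
    intro x
    have := lintegral_add_right_eq_self (μ := ν) (fun s => f (x + φ s)) (β x)
    rw [← this]
    refine lintegral_congr fun s => ?_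
    rw [map_add, add_assoc]
  simp_rw [h3]
  have hmeas2 : Measurable (Function.uncurry fun (x : X) (s : S) => f (x + φ s)) :=
    hf.comp (measurable_fst.add (hφ.comp measurable_snd))
  rw [lintegral_lintegral_swap hmeas2.aemeasurable]
  have h4 : ∀ s : S, ∫⁻ x, f (x + φ s) ∂μ = ∫⁻ x, f x ∂μ :=
    fun s => lintegral_add_right_eq_self (μ := μ) f (φ s)
  simp_rw [h4]
  simp

theorem shear_mp {X S : Type*} [AddCommGroup X] [MeasurableSpace X] [MeasurableAdd₂ X]
    (μ : Measure X) [IsProbabilityMeasure μ] [μ.IsAddRightInvariant]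
    [AddCommGroup S] [MeasurableSpace S] [MeasurableAdd₂ S]
    (ν : Measure S) [IsProbabilityMeasure ν] [ν.IsAddRightInvariant]
    (φ : S →+ X) (hφ : Measurable φ) (β : X → S) (hβ : Measurable β)
    (hinv : ∀ x s, β (x + φ s) = β x) :
    MeasurePreserving (fun x => x + φ (β x)) μ μ := by
  have hT : Measurable fun x => x + φ (β x) := measurable_id.add (hφ.comp hβ)
  refine ⟨hT, ?_⟩
  refine Measure.ext_of_lintegral _ fun f hf => ?_
  rw [lintegral_map hf hT]
  exact shear_lintegral μ ν φ hφ β hβ hinv f hf

/-- Translations preserve the measure of the three-torus. -/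
theorem translate_mp (c : T3) :
    MeasurePreserving (fun x : T3 => x + c) volume volume :=
  measurePreserving_add_right volume c

/-- The one-parameter subgroup of direction `w`. -/
def dir (w : Fin 3 → ℤ) : UnitAddCircle →+ T3 where
  toFun s i := w i • s
  map_zero' := by funext i; simp
  map_add' s t := by funext i; simp [smul_add]

@[simp] theorem dir_apply (w : Fin 3 → ℤ) (s : UnitAddCircle) (i : Fin 3) :
    dir w s i = w i • s := rfl

theorem continuous_dir (w : Fin 3 → ℤ) : Continuous (dir w) := by
  refine continuous_pi fun i => ?_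
  exact (continuous_zsmul (w i))

/-- The standard representative in `[0,1)^3`. -/
noncomputable def rep (t : T3) : Fin 3 → ℝ := fun i => ((AddCircle.equivIco 1 0 (t i)) : ℝ)

theorem proj_rep (t : T3) : proj (rep t) = t := by
  funext i
  simp only [proj, rep]
  exact AddCircle.coe_equivIco

theorem measurable_rep : Measurable rep := by
  refine measurable_pi_lambda _ fun i => ?_
  have h := (AddCircle.measurableEquivIco (1 : ℝ) 0).measurable
  exact measurable_subtype_coe.comp (h.comp (measurable_pi_apply i))

theorem proj_eq_iff {x y : Fin 3 → ℝ} :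
    proj x = proj y ↔ ∃ m : Fin 3 → ℤ, ∀ i, y i = x i + m i := by
  constructor
  · intro h
    have h' : ∀ i, ∃ m : ℤ, y i = x i + m := by
      intro i
      have hi : ((x i : ℝ) : UnitAddCircle) = ((y i : ℝ) : UnitAddCircle) := congrFun h i
      have h2 : ((y i - x i : ℝ) : UnitAddCircle) = 0 := by
        rw [AddCircle.coe_sub, hi, sub_self]
      rw [AddCircle.coe_eq_zero_iff] at h2
      obtain ⟨n, hn⟩ := h2
      refine ⟨n, ?_⟩
      simp at hn
      linarith
    choose m hm using h'
    exact ⟨m, hm⟩
  · rintro ⟨m, hm⟩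
    funext i
    have h0 : (((m i : ℤ) : ℝ) : UnitAddCircle) = 0 := by
      rw [AddCircle.coe_eq_zero_iff]
      exact ⟨m i, by simp⟩
    simp only [proj, hm i, AddCircle.coe_add, h0, add_zero]

theorem coe_int_eq_zero (k : ℤ) : ((k : ℝ) : UnitAddCircle) = 0 := by
  rw [AddCircle.coe_eq_zero_iff]
  exact ⟨k, by simp⟩

/-- Data of a smooth shear: integer direction `w`, amplitude `b : ℝ³ → ℝ`, which is `ℤ³`-periodic
modulo `1` and invariant in the direction `w`. -/
structure ShearData where
  w : Fin 3 → ℤ
  b : (Fin 3 → ℝ) → ℝ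
  smooth : ContDiff ℝ ∞ b
  per : ∀ (m : Fin 3 → ℤ) (x : Fin 3 → ℝ), ∃ k : ℤ, b (fun i => x i + m i) = b x + k
  inv : ∀ (x : Fin 3 → ℝ) (s : ℝ), b (fun i => x i + s * w i) = b x

namespace ShearData

variable (D : ShearData)

/-- The inverse shear. -/
noncomputable def symm : ShearData where
  w := D.w
  b := fun x => - D.b x
  smooth := D.smooth.neg
  per := by
    intro m x
    obtain ⟨k, hk⟩ := D.per m x
    exact ⟨-k, by rw [hk]; push_cast; ring⟩
  inv := by
    intro x s
    rw [D.inv x s]

/-- The lift of the shear. -/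
noncomputable def lift (x : Fin 3 → ℝ) : Fin 3 → ℝ := fun i => x i + D.b x * D.w i

/-- The shear on the torus. -/
noncomputable def map (t : T3) : T3 := t + dir D.w ((D.b (rep t) : ℝ) : UnitAddCircle)

theorem b_rep_proj (x : Fin 3 → ℝ) :
    ((D.b (rep (proj x)) : ℝ) : UnitAddCircle) = ((D.b x : ℝ) : UnitAddCircle) := by
  have h : proj x = proj (rep (proj x)) := (proj_rep _).symm
  obtain ⟨m, hm⟩ := proj_eq_iff.mp h
  have h2 : rep (proj x) = fun i => x i + m i := funext hm
  obtain ⟨k, hk⟩ := D.per m x
  rw [h2, hk, AddCircle.coe_add, coe_int_eq_zero, add_zero]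

theorem map_proj (x : Fin 3 → ℝ) : D.map (proj x) = proj (D.lift x) := by
  rw [map, b_rep_proj]
  funext i
  simp only [Pi.add_apply, dir_apply, proj, lift, AddCircle.coe_add]
  congr 1
  rw [← AddCircle.coe_zsmul]
  congr 1
  simp [mul_comm]

theorem contDiff_lift : ContDiff ℝ ∞ D.lift := by
  refine contDiff_pi.mpr fun i => ?_
  exact (contDiff_apply ℝ ℝ i).add (D.smooth.mul contDiff_const)

theorem isSmoothLift : IsSmoothLift D.map D.lift := by
  refine ⟨?_, D.map_proj⟩
  exact D.contDiff_lift

theorem lift_symm_lift (x : Fin 3 → ℝ) : D.symm.lift (D.lift x) = x := by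
  have h : D.b (D.lift x) = D.b x := D.inv x (D.b x)
  funext i
  change D.lift x i + -(D.b (D.lift x)) * D.w i = x i
  rw [h]
  simp only [lift]
  ring

theorem lift_lift_symm (x : Fin 3 → ℝ) : D.lift (D.symm.lift x) = x := by
  have h : D.b (D.symm.lift x) = D.b x := D.inv x (-(D.b x))
  funext i
  change D.symm.lift x i + (D.b (D.symm.lift x)) * D.w i = x i
  rw [h]
  change x i + -(D.b x) * D.w i + D.b x * D.w i = x i
  ring

/-- The shear as a bijection of the torus. -/
noncomputable def perm : Equiv.Perm T3 where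
  toFun := D.map
  invFun := D.symm.map
  left_inv t := by
    rw [← proj_rep t, D.map_proj, D.symm.map_proj, D.lift_symm_lift]
  right_inv t := by
    rw [← proj_rep t, D.symm.map_proj, D.map_proj, D.lift_lift_symm]

@[simp] theorem perm_apply (t : T3) : D.perm t = D.map t := rfl

@[simp] theorem perm_symm_apply (t : T3) : D.perm.symm t = D.symm.map t := rfl

theorem isSmoothDiffeo : IsSmoothDiffeo D.perm :=
  ⟨⟨D.lift, D.isSmoothLift⟩, ⟨D.symm.lift, D.symm.isSmoothLift⟩⟩

theorem measurePreserving : MeasurePreserving D.map volume volume := by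
  have hβ : Measurable fun t : T3 => ((D.b (rep t) : ℝ) : UnitAddCircle) :=
    (AddCircle.measurable_mk').comp (D.smooth.continuous.measurable.comp measurable_rep)
  refine shear_mp (volume : Measure T3) (volume : Measure UnitAddCircle) (dir D.w)
    (continuous_dir D.w).measurable _ hβ ?_
  intro t s
  obtain ⟨r, rfl⟩ := QuotientAddGroup.mk_surjective s
  have h1 : t + dir D.w ((r : ℝ) : UnitAddCircle) = proj (fun i => rep t i + r * D.w i) := by
    conv_lhs => rw [← proj_rep t]
    funext i
    simp only [Pi.add_apply, dir_apply, proj, AddCircle.coe_add]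
    congr 1
    rw [← AddCircle.coe_zsmul]
    congr 1
    simp [mul_comm]
  change ((D.b (rep (t + dir D.w ((r : ℝ) : UnitAddCircle))) : ℝ) : UnitAddCircle) = _
  rw [h1, b_rep_proj, D.inv]

theorem perm_measurePreserving : MeasurePreserving D.perm volume volume := D.measurePreserving

theorem perm_symm_measurePreserving : MeasurePreserving D.perm.symm volume volume :=
  D.symm.measurePreserving

end ShearData

end Crest.Agent.R081.Shear
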