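import Crest.Agent.R081.SmLift
import Crest.Agent.R081.ShearMP

/-! Row 81, node EXPLICIT STEP: shear words on the 2-torus and measure preserving lifted diffeomorphisms
of the 3-torus.  Coordinates of `E3 = Fin 3 → ℝ`: `(c, y1, y2)`. -/

set_option autoImplicit false

namespace Crest.Agent.R081.Tw

open scoped ContDiff
open MeasureTheory Crest.AnalysisR.Torus3 Crest.Agent.R081.Sm Crest.Agent.R081.Shear

/-- One shear of the `(y1, y2)` plane.
`dir = false`: `(y1, y2) ↦ (y1 + f y2, y2)`;
`dir = true` (needs the order `q`): `(y1, y2) ↦ (y1, y2 + f (q * y1))`. -/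
structure Sh1 where
  dir : Bool
  f : ℝ → ℝ
  smooth : ContDiff ℝ ∞ f
  per : ∀ t, f (t + 1) = f t

/-- the action of one shear on the plane -/
noncomputable def Sh1.act (q : ℕ) (s : Sh1) (y : ℝ × ℝ) : ℝ × ℝ :=
  bif s.dir then (y.1, y.2 + s.f (q * y.1)) else (y.1 + s.f y.2, y.2)

/-- a shear word; the LAST letter of the list acts first -/
abbrev Word := List Sh1

/-- the area preserving diffeomorphism `A` (commuting with `y1 += 1/q`) given by a word -/
noncomputable def Word.act (q : ℕ) (w : Word) (y : ℝ × ℝ) : ℝ × ℝ :=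
  w.foldr (fun s z => s.act q z) y

@[simp] theorem Word.act_nil (q : ℕ) (y : ℝ × ℝ) : Word.act q [] y = y := rfl
@[simp] theorem Word.act_cons (q : ℕ) (s : Sh1) (w : Word) (y : ℝ × ℝ) :
    Word.act q (s :: w) y = s.act q (Word.act q w y) := rfl
theorem Word.act_append (q : ℕ) (w w' : Word) (y : ℝ × ℝ) :
    Word.act q (w ++ w') y = Word.act q w (Word.act q w' y) := by
  simp [Word.act, List.foldr_append]

/-- the inverse shear -/
def Sh1.neg (s : Sh1) : Sh1 where
  dir := s.dir
  f := fun t => - s.f t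
  smooth := s.smooth.neg
  per := fun t => by rw [s.per]

/-- the inverse word -/
def Word.inv (w : Word) : Word := (w.map Sh1.neg).reverse

theorem Sh1.act_neg_act (q : ℕ) (s : Sh1) (y : ℝ × ℝ) : s.neg.act q (s.act q y) = y := by
  cases h : s.dir <;> simp [Sh1.act, Sh1.neg, h]

theorem Sh1.act_act_neg (q : ℕ) (s : Sh1) (y : ℝ × ℝ) : s.act q (s.neg.act q y) = y := by
  cases h : s.dir <;> simp [Sh1.act, Sh1.neg, h]

theorem Word.inv_cons (s : Sh1) (w : Word) : Word.inv (s :: w) = Word.inv w ++ [s.neg] := by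
  simp [Word.inv]

theorem Word.inv_act (q : ℕ) (w : Word) (y : ℝ × ℝ) : Word.act q (Word.inv w) (Word.act q w y) = y := by
  induction w generalizing y with
  | nil => simp [Word.inv]
  | cons s w ih =>
    rw [Word.inv_cons, Word.act_append, Word.act_cons, Word.act_cons, Word.act_nil,
      Sh1.act_neg_act, ih]

theorem Word.act_inv (q : ℕ) (w : Word) (y : ℝ × ℝ) : Word.act q w (Word.act q (Word.inv w) y) = y := by
  induction w generalizing y with
  | nil => simp [Word.inv]
  | cons s w ih =>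
    rw [Word.inv_cons, Word.act_append, Word.act_cons, ih, Word.act_cons, Word.act_nil,
      Sh1.act_act_neg]

theorem per_nat {f : ℝ → ℝ} (h : ∀ t, f (t + 1) = f t) (n : ℕ) (t : ℝ) : f (t + n) = f t := by
  induction n with
  | zero => simp
  | succ n ih => rw [Nat.cast_succ, ← add_assoc, h, ih]

theorem per_int {f : ℝ → ℝ} (h : ∀ t, f (t + 1) = f t) (n : ℤ) (t : ℝ) : f (t + n) = f t := by
  obtain ⟨m, rfl | rfl⟩ := n.eq_nat_or_neg
  · exact_mod_cast per_nat h m t
  · have := per_nat h m (t + ((-(m:ℤ) : ℤ) : ℝ))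
    rw [← this]; congr 1; push_cast; ring

theorem Sh1.act_add_int (q : ℕ) (s : Sh1) (y : ℝ × ℝ) (m n : ℤ) :
    s.act q (y + ((m : ℝ), (n : ℝ))) = s.act q y + ((m : ℝ), (n : ℝ)) := by
  cases h : s.dir
  · simp only [Sh1.act, h, cond_false]
    ext
    · simp only [Prod.fst_add, Prod.snd_add]
      rw [per_int s.per]; ring
    · simp
  · simp only [Sh1.act, h, cond_true]
    ext
    · simp
    · simp only [Prod.fst_add, Prod.snd_add]
      have : (q : ℝ) * (y.1 + m) = q * y.1 + ((q * m : ℤ) : ℝ) := by push_cast; ring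
      rw [this, per_int s.per]; ring

theorem Word.act_add_int (q : ℕ) (w : Word) (y : ℝ × ℝ) (m n : ℤ) :
    Word.act q w (y + ((m : ℝ), (n : ℝ))) = Word.act q w y + ((m : ℝ), (n : ℝ)) := by
  induction w with
  | nil => rfl
  | cons s w ih => rw [Word.act_cons, ih, Sh1.act_add_int, Word.act_cons]

theorem Sh1.act_add_div {q : ℕ} (hq : q ≠ 0) (s : Sh1) (y : ℝ × ℝ) (m : ℤ) :
    s.act q (y + ((m : ℝ) / q, 0)) = s.act q y + ((m : ℝ) / q, 0) := by
  have hq' : (q : ℝ) ≠ 0 := by exact_mod_cast hq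
  cases h : s.dir
  · simp only [Sh1.act, h, cond_false]
    ext
    · simp; ring
    · simp
  · simp only [Sh1.act, h, cond_true]
    ext
    · simp
    · simp only [Prod.fst_add, Prod.snd_add]
      have : (q : ℝ) * (y.1 + (m : ℝ) / q) = q * y.1 + (m : ℝ) := by field_simp
      rw [this, per_int s.per]; ring

theorem Word.act_add_div {q : ℕ} (hq : q ≠ 0) (w : Word) (y : ℝ × ℝ) (m : ℤ) :
    Word.act q w (y + ((m : ℝ) / q, 0)) = Word.act q w y + ((m : ℝ) / q, 0) := by
  induction w with
  | nil => rfl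
  | cons s w ih => rw [Word.act_cons, ih, Sh1.act_add_div hq, Word.act_cons]

theorem Sh1.contDiff_act (q : ℕ) (s : Sh1) : ContDiff ℝ ∞ (Sh1.act q s) := by
  cases h : s.dir
  · have e : Sh1.act q s = fun y => (y.1 + s.f y.2, y.2) := by
      funext y; simp [Sh1.act, h]
    rw [e]
    exact (contDiff_fst.add (s.smooth.comp contDiff_snd)).prodMk contDiff_snd
  · have e : Sh1.act q s = fun y => (y.1, y.2 + s.f (q * y.1)) := by
      funext y; simp [Sh1.act, h]
    rw [e]
    exact contDiff_fst.prodMk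
      (contDiff_snd.add (s.smooth.comp (contDiff_const.mul contDiff_fst)))

theorem Word.contDiff_act (q : ℕ) (w : Word) : ContDiff ℝ ∞ (Word.act q w) := by
  induction w with
  | nil => exact contDiff_id
  | cons s w ih =>
    have : Word.act q (s :: w) = (Sh1.act q s) ∘ (Word.act q w) := rfl
    rw [this]
    exact (s.contDiff_act q).comp ih

end Crest.Agent.R081.Tw
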