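import Crest.Agent.R081.SmLift

/-! Row 81, node SMOOTH LIMIT (SM3): limits of lifted diffeomorphisms. -/

set_option autoImplicit false

namespace Crest.Agent.R081.Sm

open scoped ContDiff Topology BoundedContinuousFunction
open Crest.AnalysisR.Torus3 Filter MeasureTheory

theorem zv_eq_of_norm_lt {k m : Fin 3 → ℤ} (h : ‖zv k - zv m‖ < 1) : k = m := by
  funext i
  have h1 : ‖(zv k - zv m) i‖ < 1 := (norm_le_pi_norm _ i).trans_lt h
  have h2 : |((k i - m i : ℤ) : ℝ)| < 1 := by
    have : (zv k - zv m) i = ((k i - m i : ℤ) : ℝ) := by simp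
    rwa [this, Real.norm_eq_abs] at h1
  have h3 : |k i - m i| < 1 := by exact_mod_cast h2
  rw [Int.abs_lt_one_iff] at h3
  omega

/-- the limit of a sequence of smooth equivariant maps -/
theorem limF (F : ℕ → E3 → E3) (hF : ∀ n, ContDiff ℝ ∞ (F n)) (hP : ∀ n, Per (F n))
    (v : ℕ → ℕ → ℝ) (hv : ∀ r, Summable (v r))
    (hb : ∀ r n, Bd r (v r n) (fun x => F (n + 1) x - F n x)) :
    ∃ G : E3 → E3, ContDiff ℝ ∞ G ∧ Per G ∧ ∀ n x, ‖F n x - G x‖ ≤ ∑' i, v 0 (i + n) := by
  set d : ℕ → E3 → E3 := fun n x => F (n + 1) x - F n x with hd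
  have hdn : ∀ n x, ‖d n x‖ ≤ v 0 n := fun n x => by
    have := hb 0 n 0 le_rfl x
    rwa [norm_iteratedFDeriv_zero] at this
  have hsum : ∀ x, Summable (fun n => d n x) := fun x =>
    Summable.of_norm_bounded (hv 0) (fun n => hdn n x)
  set G : E3 → E3 := fun x => F 0 x + ∑' n, d n x with hG
  have hGn : ∀ n x, ‖F n x - G x‖ ≤ ∑' i, v 0 (i + n) := by
    intro n x
    have h1 : F 0 x + ∑ i ∈ Finset.range n, d i x = F n x := by
      have : ∑ i ∈ Finset.range n, d i x = F n x - F 0 x :=
        Finset.sum_range_sub (fun n => F n x) n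
      rw [this]; abel
    have h2 := (hsum x).sum_add_tsum_nat_add n
    have h3 : F n x - G x = - ∑' i, d (i + n) x := by
      rw [hG]
      simp only
      rw [← h2, ← h1]
      abel
    rw [h3, norm_neg]
    have hs' : Summable (fun i => v 0 (i + n)) := (summable_nat_add_iff n).2 (hv 0)
    exact tsum_of_norm_bounded hs'.hasSum (fun i => hdn (i + n) x)
  have hτ : Tendsto (fun n => ∑' i, v 0 (i + n)) atTop (𝓝 0) := tendsto_sum_nat_add (v 0)
  refine ⟨G, ?_, ?_, hGn⟩
  · refine (hF 0).add ?_
    exact contDiff_tsum (N := ⊤) (v := v) (fun n => (hF (n + 1)).sub (hF n)) (fun k _ => hv k)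
      (fun k i x _ => hb k i k le_rfl x)
  · intro k
    choose m hm using fun n => hP n k
    have key : ∀ n x, ‖(G (x + zv k) - G x) - zv (m n)‖ ≤ 2 * ∑' i, v 0 (i + n) := by
      intro n x
      have e : (G (x + zv k) - G x) - zv (m n)
          = -(F n (x + zv k) - G (x + zv k)) + (F n x - G x) := by
        rw [hm n x]; abel
      rw [e]
      refine (norm_add_le _ _).trans ?_
      rw [norm_neg]
      have a1 := hGn n (x + zv k)
      have a2 := hGn n x
      linarith
    have hev : ∀ᶠ n in atTop, ∑' i, v 0 (i + n) < 1 / 4 :=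
      hτ.eventually (gt_mem_nhds (by norm_num))
    obtain ⟨N, hN⟩ := eventually_atTop.1 hev
    have hmN : ∀ n, N ≤ n → m n = m N := by
      intro n hn
      apply zv_eq_of_norm_lt
      have e : zv (m n) - zv (m N) = -((G (0 + zv k) - G 0) - zv (m n))
          + ((G (0 + zv k) - G 0) - zv (m N)) := by abel
      rw [e]
      refine (norm_add_le _ _).trans_lt ?_
      rw [norm_neg]
      have b1 := key n 0
      have b2 := key N 0
      have b3 := hN n hn
      have b4 := hN N le_rfl
      linarith
    refine ⟨m N, fun x => ?_⟩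
    have h0 : ‖(G (x + zv k) - G x) - zv (m N)‖ ≤ 0 := by
      have ht : Tendsto (fun n => 2 * ∑' i, v 0 (i + n)) atTop (𝓝 (2 * 0)) := hτ.const_mul 2
      rw [mul_zero] at ht
      refine ge_of_tendsto ht ?_
      filter_upwards [eventually_ge_atTop N] with n hn
      have := key n x
      rwa [hmN n hn] at this
    have h1 : (G (x + zv k) - G x) - zv (m N) = 0 := norm_le_zero_iff.1 h0
    rw [sub_eq_zero] at h1
    rw [← h1]; abel

/-- uniform convergence of lifts and of their inverses -/
def Conv (L : ℕ → LD) (A : LD) : Prop :=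
  ∃ τ : ℕ → ℝ, Tendsto τ atTop (𝓝 0) ∧
    ∀ n x, ‖(L n).F x - A.F x‖ ≤ τ n ∧ ‖(L n).H x - A.H x‖ ≤ τ n

theorem tendsto_app {F : ℕ → E3 → E3} {G : E3 → E3} (hG : Continuous G) {τ : ℕ → ℝ}
    (hτ : Tendsto τ atTop (𝓝 0)) (h : ∀ n x, ‖F n x - G x‖ ≤ τ n) {u : ℕ → E3} {w : E3}
    (hu : Tendsto u atTop (𝓝 w)) : Tendsto (fun n => F n (u n)) atTop (𝓝 (G w)) := by
  have h1 : Tendsto (fun n => G (u n)) atTop (𝓝 (G w)) := (hG.tendsto w).comp hu
  have h2 : Tendsto (fun n => F n (u n) - G (u n)) atTop (𝓝 0) :=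
    squeeze_zero_norm (fun n => h n (u n)) hτ
  have := h2.add h1
  simpa using this

/-- the smooth limit -/
theorem exists_limit (L : ℕ → LD) (v : ℕ → ℕ → ℝ) (hv : ∀ r, Summable (v r))
    (hFb : ∀ r n, Bd r (v r n) (fun x => (L (n + 1)).F x - (L n).F x))
    (hHb : ∀ r n, Bd r (v r n) (fun x => (L (n + 1)).H x - (L n).H x)) :
    ∃ A : LD, Conv L A := by
  obtain ⟨G, hG1, hG2, hG3⟩ := limF (fun n => (L n).F) (fun n => (L n).hF) (fun n => (L n).pF) v hv
    hFb
  obtain ⟨K, hK1, hK2, hK3⟩ := limF (fun n => (L n).H) (fun n => (L n).hH) (fun n => (L n).pH) v hv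
    hHb
  have hτ : Tendsto (fun n => ∑' i, v 0 (i + n)) atTop (𝓝 0) := tendsto_sum_nat_add (v 0)
  have t1 : ∀ x, Tendsto (fun n => (L n).H x) atTop (𝓝 (K x)) := fun x =>
    tendsto_app hK1.continuous hτ hK3 tendsto_const_nhds
  have t2 : ∀ x, Tendsto (fun n => (L n).F x) atTop (𝓝 (G x)) := fun x =>
    tendsto_app hG1.continuous hτ hG3 tendsto_const_nhds
  refine ⟨⟨G, K, hG1, hK1, hG2, hK2, fun x => ?_, fun x => ?_⟩, ⟨_, hτ, fun n x => ⟨hG3 n x, hK3 n x⟩⟩⟩
  · have := tendsto_app hG1.continuous hτ hG3 (t1 x)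
    simp only [(L _).FH] at this
    exact tendsto_nhds_unique this tendsto_const_nhds |>.symm ▸ rfl
  · have := tendsto_app hK1.continuous hτ hK3 (t2 x)
    simp only [(L _).HF] at this
    exact tendsto_nhds_unique this tendsto_const_nhds |>.symm ▸ rfl

theorem Conv.tendsto_iter_F {L : ℕ → LD} {A : LD} (h : Conv L A) (j : ℕ) (x : E3) :
    Tendsto (fun n => (L n).F^[j] x) atTop (𝓝 (A.F^[j] x)) := by
  obtain ⟨τ, hτ, hb⟩ := h
  induction j with
  | zero => simp
  | succ j ih =>
    simp only [Function.iterate_succ_apply']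
    exact tendsto_app A.hF.continuous hτ (fun n x => (hb n x).1) ih

theorem Conv.tendsto_iter_H {L : ℕ → LD} {A : LD} (h : Conv L A) (j : ℕ) (x : E3) :
    Tendsto (fun n => (L n).H^[j] x) atTop (𝓝 (A.H^[j] x)) := by
  obtain ⟨τ, hτ, hb⟩ := h
  induction j with
  | zero => simp
  | succ j ih =>
    simp only [Function.iterate_succ_apply']
    exact tendsto_app A.hH.continuous hτ (fun n x => (hb n x).2) ih

/-- pointwise convergence of all iterates on the torus -/
theorem Conv.tendsto_zpow {L : ℕ → LD} {A : LD} (h : Conv L A) (k : ℤ) (y : T3) :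
    Tendsto (fun n => ((L n).perm ^ k) y) atTop (𝓝 ((A.perm ^ k) y)) := by
  obtain ⟨x, rfl⟩ := proj_surj y
  simp only [LD.perm_zpow_proj]
  refine (continuous_proj.tendsto _).comp ?_
  cases k with
  | ofNat j => exact h.tendsto_iter_F j x
  | negSucc j => exact h.tendsto_iter_H (j + 1) x

theorem Conv.tendsto_perm {L : ℕ → LD} {A : LD} (h : Conv L A) (y : T3) :
    Tendsto (fun n => (L n).perm y) atTop (𝓝 (A.perm y)) := by
  have := h.tendsto_zpow 1 y
  simpa using this

theorem isProb_T3 : IsProbabilityMeasure (volume : Measure T3) := by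
  have h1 : IsProbabilityMeasure (volume : Measure UnitAddCircle) :=
    ⟨UnitAddCircle.measure_univ⟩
  have h2 : ∀ i : Fin 3, IsProbabilityMeasure ((fun _ : Fin 3 => (volume : Measure UnitAddCircle)) i) :=
    fun _ => h1
  have h3 : IsProbabilityMeasure (Measure.pi (fun _ : Fin 3 => (volume : Measure UnitAddCircle))) :=
    inferInstance
  exact h3

/-- the limit of volume preserving diffeomorphisms is volume preserving -/
theorem Conv.measurePreserving {L : ℕ → LD} {A : LD} (h : Conv L A)
    (hmp : ∀ n, MeasurePreserving (L n).perm (volume : Measure T3) volume) :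
    MeasurePreserving A.perm (volume : Measure T3) volume := by
  refine ⟨A.measurable_perm, ?_⟩
  have _ := isProb_T3
  have : IsProbabilityMeasure (Measure.map A.perm (volume : Measure T3)) :=
    Measure.isProbabilityMeasure_map A.measurable_perm.aemeasurable
  refine ext_of_forall_integral_eq_of_IsFiniteMeasure fun f => ?_
  rw [integral_map A.measurable_perm.aemeasurable f.continuous.aestronglyMeasurable]
  have h1 : ∀ n, ∫ y, f ((L n).perm y) = ∫ y, f y := by
    intro n
    have := integral_map (μ := (volume : Measure T3)) (L n).measurable_perm.aemeasurable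
      (f := fun y => f y) f.continuous.aestronglyMeasurable
    rw [← this, (hmp n).map_eq]
  have h2 : Tendsto (fun n => ∫ y, f ((L n).perm y)) atTop (𝓝 (∫ y, f (A.perm y))) := by
    refine tendsto_integral_of_dominated_convergence (fun _ => ‖f‖) ?_ ?_ ?_ ?_
    · intro n
      exact (f.continuous.comp (L n).continuous_perm).aestronglyMeasurable
    · exact integrable_const _
    · intro n
      exact Eventually.of_forall fun y => f.norm_coe_le_norm _
    · exact Eventually.of_forall fun y => (f.continuous.tendsto _).comp (h.tendsto_perm y)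
  simp only [h1] at h2
  exact tendsto_nhds_unique h2 tendsto_const_nhds |>.symm ▸ rfl

theorem mp_zpow {A : LD} (hA : MeasurePreserving A.perm (volume : Measure T3) volume) (k : ℤ) :
    MeasurePreserving (A.perm ^ k : Equiv.Perm T3) (volume : Measure T3) volume := by
  have hpow : ∀ (B : LD), MeasurePreserving B.perm (volume : Measure T3) volume → ∀ n : ℕ,
      MeasurePreserving (B.perm ^ n : Equiv.Perm T3) (volume : Measure T3) volume := by
    intro B hB n
    rw [Equiv.Perm.coe_pow]
    exact hB.iterate n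
  have hinv : MeasurePreserving A.inv.perm (volume : Measure T3) volume := by
    let e : T3 ≃ᵐ T3 := ⟨A.perm, A.measurable_perm, A.measurable_perm_symm⟩
    have := (MeasurePreserving.symm e hA)
    rw [LD.perm_inv]
    exact this
  cases k with
  | ofNat n => simpa using hpow A hA n
  | negSucc n =>
    have := hpow A.inv hinv (n + 1)
    rw [zpow_negSucc, ← inv_pow, ← LD.perm_inv]
    exact this

/-- strong convergence `f ∘ T_n^k → f ∘ T^k` in `L²` -/
theorem Conv.l2 {E : Type} [NormedAddCommGroup E] [NormedSpace ℝ E] {L : ℕ → LD} {A : LD}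
    (h : Conv L A) (hmp : ∀ n, MeasurePreserving (L n).perm (volume : Measure T3) volume)
    (k : ℤ) {f : T3 → E} (hf : MemLp f 2 (volume : Measure T3)) :
    Tendsto (fun n => eLpNorm (fun y => f (((L n).perm ^ k) y) - f ((A.perm ^ k) y)) 2
      (volume : Measure T3)) atTop (𝓝 0) := by
  have hA := h.measurePreserving hmp
  have _ := isProb_T3
  rw [ENNReal.tendsto_nhds_zero]
  intro ε hε
  have hε3 : ε / 3 ≠ 0 := by
    simpa [ENNReal.div_eq_zero_iff] using hε.ne'
  obtain ⟨g, hg, hgL⟩ := hf.exists_boundedContinuous_eLpNorm_sub_le (by norm_num) hε3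
  -- the continuous part
  have hcont : Tendsto (fun n => eLpNorm (fun y => g (((L n).perm ^ k) y) - g ((A.perm ^ k) y)) 2
      (volume : Measure T3)) atTop (𝓝 0) := by
    have : Tendsto (fun n => eLpNorm ((fun y => g (((L n).perm ^ k) y))
        - (fun y => g ((A.perm ^ k) y))) 2 (volume : Measure T3)) atTop (𝓝 0) := by
      refine tendsto_Lp_finite_of_tendsto_ae (by norm_num) (by norm_num) ?_ ?_ ?_ ?_
      · intro n
        exact (g.continuous.comp ((L n).continuous_perm_zpow k)).aestronglyMeasurable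
      · exact ((memLp_const ‖g‖).mono'
          (g.continuous.comp (A.continuous_perm_zpow k)).aestronglyMeasurable
          (Eventually.of_forall fun y => g.norm_coe_le_norm _))
      · refine unifIntegrable_of' (by norm_num) (by norm_num)
          (fun n => (g.continuous.comp ((L n).continuous_perm_zpow k)).stronglyMeasurable) ?_
        intro δ hδ
        refine ⟨(‖g‖ + 1).toNNReal, by positivity, fun n => ?_⟩
        have hempty : {x | (‖g‖ + 1).toNNReal ≤ ‖(fun y => g (((L n).perm ^ k) y)) x‖₊} = ∅ := by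
          ext x
          simp only [Set.mem_ofPred_eq, Set.mem_empty_iff_false, iff_false, not_le]
          rw [← NNReal.coe_lt_coe, coe_nnnorm, Real.coe_toNNReal _ (by positivity)]
          have := g.norm_coe_le_norm (((L n).perm ^ k) x)
          linarith
        rw [hempty]
        simp
      · exact Eventually.of_forall fun y => (g.continuous.tendsto _).comp (h.tendsto_zpow k y)
    exact this
  filter_upwards [(ENNReal.tendsto_nhds_zero.1 hcont) (ε / 3) (by positivity)] with n hn
  have hn1 := mp_zpow (hmp n) k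
  have hn2 := mp_zpow hA k
  have hsub : AEStronglyMeasurable (f - ⇑g) (volume : Measure T3) :=
    hf.aestronglyMeasurable.sub g.continuous.aestronglyMeasurable
  have e1 : eLpNorm (fun y => (f - ⇑g) (((L n).perm ^ k) y)) 2 (volume : Measure T3) ≤ ε / 3 :=
    (eLpNorm_comp_measurePreserving hsub hn1).le.trans hg
  have e2 : eLpNorm (fun y => (f - ⇑g) ((A.perm ^ k) y)) 2 (volume : Measure T3) ≤ ε / 3 :=
    (eLpNorm_comp_measurePreserving hsub hn2).le.trans hg
  have dec : (fun y => f (((L n).perm ^ k) y) - f ((A.perm ^ k) y)) =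
      ((fun y => (f - ⇑g) (((L n).perm ^ k) y)) +
        (fun y => g (((L n).perm ^ k) y) - g ((A.perm ^ k) y))) -
        (fun y => (f - ⇑g) ((A.perm ^ k) y)) := by
    funext y
    simp only [Pi.sub_apply, Pi.add_apply]
    abel
  have m1 : AEStronglyMeasurable (fun y => (f - ⇑g) (((L n).perm ^ k) y)) (volume : Measure T3) :=
    hsub.comp_measurePreserving hn1
  have m2 : AEStronglyMeasurable (fun y => (f - ⇑g) ((A.perm ^ k) y)) (volume : Measure T3) :=
    hsub.comp_measurePreserving hn2
  have m3 : AEStronglyMeasurable (fun y => g (((L n).perm ^ k) y) - g ((A.perm ^ k) y))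
      (volume : Measure T3) :=
    ((g.continuous.comp ((L n).continuous_perm_zpow k)).sub
      (g.continuous.comp (A.continuous_perm_zpow k))).aestronglyMeasurable
  rw [dec]
  calc _ ≤ eLpNorm _ 2 volume + eLpNorm _ 2 volume := eLpNorm_sub_le (m1.add m3) m2 (by norm_num)
    _ ≤ (eLpNorm _ 2 volume + eLpNorm _ 2 volume) + eLpNorm _ 2 volume := by
        gcongr
        exact eLpNorm_add_le m1 m3 (by norm_num)
    _ ≤ (ε / 3 + ε / 3) + ε / 3 := by gcongr
    _ = ε := ENNReal.add_thirds ε

end Crest.Agent.R081.Sm
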