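import Crest.Agent.R213.ParamInt

/-! Row 81, explicit step: smooth periodic profiles and averages. -/

set_option autoImplicit false

namespace Crest.Agent.R081.Tw

open scoped ContDiff Topology
open Set Filter MeasureTheory

/-- gluing smooth functions along the integers -/
theorem contDiff_glue {g : ℝ → ℝ} {f : ℤ → ℝ → ℝ} (hf : ∀ n, ContDiff ℝ ∞ (f n)) {η : ℝ}
    (hη : 0 < η) (h : ∀ (n : ℤ) (y : ℝ), (n : ℝ) - η < y → y < n + 1 → g y = f n y) :
    ContDiff ℝ ∞ g := by
  rw [contDiff_iff_contDiffAt]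
  intro x
  have h1 : g =ᶠ[𝓝 x] f ⌊x⌋ := by
    have h2 : Ioo ((⌊x⌋ : ℝ) - η) (⌊x⌋ + 1) ∈ 𝓝 x :=
      Ioo_mem_nhds (by have := Int.floor_le x; linarith) (Int.lt_floor_add_one x)
    filter_upwards [h2] with y hy using h _ y hy.1 hy.2
  exact (hf ⌊x⌋).contDiffAt.congr_of_eventuallyEq h1

/-- smoothness of the periodic extension of `f` restricted to `[0,1)` -/
theorem contDiff_fract {f : ℝ → ℝ} (hf : ContDiff ℝ ∞ f) {η : ℝ} (hη : 0 < η)
    (h : ∀ x, -η < x → x < 0 → f (x + 1) = f x) : ContDiff ℝ ∞ (fun x => f (Int.fract x)) := by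
  refine contDiff_glue (f := fun n x => f (x - n)) (η := min η 1) (fun n => ?_) (by positivity) ?_
  · exact hf.comp (contDiff_id.sub contDiff_const)
  · intro n y h1 h2
    rcases le_or_gt (n : ℝ) y with h3 | h3
    · have : ⌊y⌋ = n := Int.floor_eq_iff.2 ⟨h3, h2⟩
      simp only [Int.fract, this]
    · have h4 : ⌊y⌋ = n - 1 := by
        rw [Int.floor_eq_iff]
        have := min_le_right η 1
        push_cast
        constructor <;> linarith
      have h5 : Int.fract y = (y - n) + 1 := by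
        rw [Int.fract, h4]; push_cast; ring
      rw [h5]
      exact h _ (by have := min_le_left η 1; linarith) (by linarith)

/-- abbreviation for the smooth transition function -/
noncomputable abbrev ST : ℝ → ℝ := Real.smoothTransition

theorem ST_smooth : ContDiff ℝ ∞ ST := Real.smoothTransition.contDiff

/-- bump on the unit interval -/
noncomputable def bmp (a b x : ℝ) : ℝ := ST ((x - a) / (b - a)) * ST ((1 - a - x) / (b - a))

theorem bmp_smooth (a b : ℝ) : ContDiff ℝ ∞ (bmp a b) := by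
  unfold bmp
  refine (ST_smooth.comp ?_).mul (ST_smooth.comp ?_)
  · exact (contDiff_id.sub contDiff_const).div_const _
  · exact (contDiff_const.sub contDiff_id).div_const _

theorem bmp_zero_left {a b x : ℝ} (hab : a < b) (h : x ≤ a) : bmp a b x = 0 := by
  unfold bmp
  rw [show ST ((x - a) / (b - a)) = 0 from Real.smoothTransition.zero_of_nonpos
    (div_nonpos_of_nonpos_of_nonneg (by linarith) (by linarith)), zero_mul]

theorem bmp_zero_right {a b x : ℝ} (hab : a < b) (h : 1 - a ≤ x) : bmp a b x = 0 := by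
  unfold bmp
  rw [show ST ((1 - a - x) / (b - a)) = 0 from Real.smoothTransition.zero_of_nonpos
    (div_nonpos_of_nonpos_of_nonneg (by linarith) (by linarith)), mul_zero]

theorem bmp_one {a b x : ℝ} (hab : a < b) (h1 : b ≤ x) (h2 : x ≤ 1 - b) : bmp a b x = 1 := by
  unfold bmp
  rw [show ST ((x - a) / (b - a)) = 1 from Real.smoothTransition.one_of_one_le
      (by rw [le_div_iff₀ (by linarith)]; linarith),
    show ST ((1 - a - x) / (b - a)) = 1 from Real.smoothTransition.one_of_one_le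
      (by rw [le_div_iff₀ (by linarith)]; linarith), one_mul]

theorem bmp_nonneg (a b x : ℝ) : 0 ≤ bmp a b x :=
  mul_nonneg (Real.smoothTransition.nonneg _) (Real.smoothTransition.nonneg _)

theorem bmp_le_one (a b x : ℝ) : bmp a b x ≤ 1 :=
  mul_le_one₀ (Real.smoothTransition.le_one _) (Real.smoothTransition.nonneg _)
    (Real.smoothTransition.le_one _)

/-- periodic cut-off: `1` on `[b, 1-b]`, `0` at distance `≤ a` of the integers -/
noncomputable def cutp (a b x : ℝ) : ℝ := bmp a b (Int.fract x)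

theorem fract_add_one' (x : ℝ) : Int.fract (x + 1) = Int.fract x := by
  have := Int.fract_add_intCast x 1
  simpa using this

/-- `p(fract x) * cutp a b x` is smooth and periodic for every smooth `p` -/
theorem cutp_mul_smooth {a b : ℝ} (ha : 0 < a) (hab : a < b) {p : ℝ → ℝ}
    (hp : ContDiff ℝ ∞ p) : ContDiff ℝ ∞ (fun x => cutp a b x * p (Int.fract x)) := by
  refine contDiff_fract (f := fun x => bmp a b x * p x) ((bmp_smooth a b).mul hp) ha ?_
  intro x h1 h2
  rw [bmp_zero_right hab (by linarith), bmp_zero_left hab (by linarith), zero_mul, zero_mul]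

theorem cutp_smooth {a b : ℝ} (ha : 0 < a) (hab : a < b) : ContDiff ℝ ∞ (cutp a b) := by
  have := cutp_mul_smooth ha hab (p := fun _ => 1) contDiff_const
  simpa using this

theorem cutp_per (a b x : ℝ) : cutp a b (x + 1) = cutp a b x := by
  unfold cutp; rw [fract_add_one']

theorem cutp_one {a b x : ℝ} (ha : 0 < a) (hab : a < b) (h1 : b ≤ x) (h2 : x ≤ 1 - b) :
    cutp a b x = 1 := by
  have : Int.fract x = x := Int.fract_eq_self.2 ⟨by linarith, by linarith⟩
  rw [cutp, this]
  exact bmp_one hab h1 h2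

theorem cutp_zero {a b x : ℝ} (hab : a < b) (ha1 : a < 1) (h1 : |x| ≤ a) :
    cutp a b x = 0 := by
  rw [abs_le] at h1
  rcases le_or_gt 0 x with h | h
  · have : Int.fract x = x := Int.fract_eq_self.2 ⟨h, by linarith⟩
    rw [cutp, this]
    exact bmp_zero_left hab h1.2
  · have h4 : ⌊x⌋ = -1 := by
      rw [Int.floor_eq_iff]; push_cast; constructor <;> linarith
    have h5 : Int.fract x = x + 1 := by
      rw [Int.fract, h4]; push_cast; ring
    rw [cutp, h5]
    exact bmp_zero_right hab (by linarith)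

theorem cutp_nonneg (a b x : ℝ) : 0 ≤ cutp a b x := bmp_nonneg _ _ _

theorem cutp_le_one (a b x : ℝ) : cutp a b x ≤ 1 := bmp_le_one _ _ _

/-- the periodic twist profile: `v (x - d)/(1-2d)` on `[d, 1-d]`, zero for `|x| ≤ d/2` -/
noncomputable def Fp (v d x : ℝ) : ℝ := cutp (d / 2) d x * (v * (Int.fract x - d) / (1 - 2 * d))

theorem Fp_smooth (v : ℝ) {d : ℝ} (hd : 0 < d) : ContDiff ℝ ∞ (Fp v d) := by
  refine cutp_mul_smooth (a := d / 2) (b := d) (p := fun x => v * (x - d) / (1 - 2 * d))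
    (by linarith) (by linarith) ?_
  exact (contDiff_const.mul (contDiff_id.sub contDiff_const)).div_const _

theorem Fp_per (v d x : ℝ) : Fp v d (x + 1) = Fp v d x := by
  unfold Fp; rw [cutp_per, fract_add_one']

theorem Fp_eq (v : ℝ) {d x : ℝ} (hd : 0 < d) (h1 : d ≤ x) (h2 : x ≤ 1 - d) :
    Fp v d x = v * (x - d) / (1 - 2 * d) := by
  have : Int.fract x = x := Int.fract_eq_self.2 ⟨by linarith, by linarith⟩
  rw [Fp, cutp_one (by linarith) (by linarith) h1 h2, this, one_mul]

theorem Fp_zero (v : ℝ) {d x : ℝ} (hd : 0 < d) (hd1 : d < 1) (h1 : |x| ≤ d / 2) :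
    Fp v d x = 0 := by
  rw [Fp, cutp_zero (by linarith) (by linarith) h1, zero_mul]

/-- the profiles of the explicit step -/
structure Prof (δ : ℝ) where
  β : ℝ → ℝ
  zt : ℝ → ℝ
  z : ℝ → ℝ
  β_smooth : ContDiff ℝ ∞ β
  β_per : ∀ c, β (c + 1) = β c
  β_eq : ∀ c, δ / 8 ≤ c → c ≤ 1 - δ / 8 → β c = c
  zt_smooth : ContDiff ℝ ∞ zt
  zt_per : ∀ c, zt (c + 1) = zt c + 1
  zt_one : ∀ c, δ / 8 ≤ c → c ≤ 1 - δ / 8 → zt c = 1
  z_smooth : ContDiff ℝ ∞ z
  z_per : ∀ c, z (c + 1) = z c
  z_eq : ∀ c, |c| ≤ 3 * δ / 8 → z c = zt c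

/-- the profiles exist -/
noncomputable def prof (δ : ℝ) (h0 : 0 < δ) (h1 : δ < 1 / 8) : Prof δ where
  β := fun c => cutp (δ / 16) (δ / 8) c * Int.fract c
  zt := fun c => ⌊c⌋ + ST (8 * Int.fract c / δ)
  z := fun c => ST (8 * Int.fract c / δ) * ST ((δ / 2 - Int.fract c) / (δ / 8))
  β_smooth := cutp_mul_smooth (by linarith) (by linarith) contDiff_id
  β_per := fun c => by rw [cutp_per, fract_add_one']
  β_eq := fun c h2 h3 => by
    have : Int.fract c = c := Int.fract_eq_self.2 ⟨by linarith, by linarith⟩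
    rw [cutp_one (by linarith) (by linarith) h2 h3, this, one_mul]
  zt_smooth := by
    refine contDiff_glue (f := fun n x => n + ST (8 * (x - n) / δ)) (η := 1 - δ / 8)
      (fun n => ?_) (by linarith) ?_
    · exact contDiff_const.add (ST_smooth.comp
        ((contDiff_const.mul (contDiff_id.sub contDiff_const)).div_const _))
    · intro n y h2 h3
      rcases le_or_gt (n : ℝ) y with h4 | h4
      · have : ⌊y⌋ = n := Int.floor_eq_iff.2 ⟨h4, h3⟩
        simp only [Int.fract, this]
      · have h5 : ⌊y⌋ = n - 1 := by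
          rw [Int.floor_eq_iff]
          push_cast
          constructor <;> linarith
        have h6 : Int.fract y = (y - n) + 1 := by
          rw [Int.fract, h5]; push_cast; ring
        rw [h6, h5, show ST (8 * (y - n + 1) / δ) = 1 from Real.smoothTransition.one_of_one_le
          (by rw [le_div_iff₀ h0]; linarith), show ST (8 * (y - n) / δ) = 0 from
          Real.smoothTransition.zero_of_nonpos
          (div_nonpos_of_nonpos_of_nonneg (by linarith) h0.le)]
        push_cast; ring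
  zt_per := fun c => by
    rw [fract_add_one', Int.floor_add_one]; push_cast; ring
  zt_one := fun c h2 h3 => by
    have h4 : ⌊c⌋ = 0 := by rw [Int.floor_eq_iff]; push_cast; constructor <;> linarith
    have h5 : Int.fract c = c := Int.fract_eq_self.2 ⟨by linarith, by linarith⟩
    rw [h4, h5, show ST (8 * c / δ) = 1 from Real.smoothTransition.one_of_one_le
          (by rw [le_div_iff₀ h0]; linarith)]
    simp
  z_smooth := by
    refine contDiff_fract (f := fun x => ST (8 * x / δ) * ST ((δ / 2 - x) / (δ / 8)))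
      (η := 1 - δ / 2) ?_ (by linarith) ?_
    · refine (ST_smooth.comp ?_).mul (ST_smooth.comp ?_)
      · exact (contDiff_const.mul contDiff_id).div_const _
      · exact (contDiff_const.sub contDiff_id).div_const _
    · intro x h2 h3
      rw [show ST (8 * x / δ) = 0 from Real.smoothTransition.zero_of_nonpos
          (div_nonpos_of_nonpos_of_nonneg (by linarith) h0.le),
        show ST ((δ / 2 - (x + 1)) / (δ / 8)) = 0 from Real.smoothTransition.zero_of_nonpos
          (div_nonpos_of_nonpos_of_nonneg (by linarith) (by linarith)), mul_zero, zero_mul]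
  z_per := fun c => by rw [fract_add_one']
  z_eq := fun c hc => by
    rw [abs_le] at hc
    rcases le_or_gt 0 c with h | h
    · have h4 : ⌊c⌋ = 0 := by rw [Int.floor_eq_iff]; push_cast; constructor <;> linarith
      have h5 : Int.fract c = c := Int.fract_eq_self.2 ⟨by linarith, by linarith⟩
      rw [h4, h5, show ST ((δ / 2 - c) / (δ / 8)) = 1 from Real.smoothTransition.one_of_one_le
          (by rw [le_div_iff₀ (by linarith)]; linarith)]
      simp
    · have h4 : ⌊c⌋ = -1 := by
        rw [Int.floor_eq_iff]; push_cast; constructor <;> linarith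
      have h5 : Int.fract c = c + 1 := by
        rw [Int.fract, h4]; push_cast; ring
      rw [h4, h5, show ST (8 * (c + 1) / δ) = 1 from Real.smoothTransition.one_of_one_le
          (by rw [le_div_iff₀ h0]; linarith),
        show ST ((δ / 2 - (c + 1)) / (δ / 8)) = 0 from Real.smoothTransition.zero_of_nonpos
          (div_nonpos_of_nonpos_of_nonneg (by linarith) (by linarith))]
      push_cast; ring

theorem zt_int_of_Icc {δ : ℝ} (p : Prof δ) (c : ℝ) (n : ℤ) : p.zt (c + n) = p.zt c + n := by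
  induction n using Int.induction_on with
  | zero => simp
  | succ i ih =>
    push_cast at ih ⊢
    rw [← add_assoc, p.zt_per, ih]; ring
  | pred i ih =>
    push_cast at ih ⊢
    have := p.zt_per (c + (-(i:ℝ) - 1))
    rw [show c + (-(i:ℝ) - 1) + 1 = c + -(i:ℝ) by ring, ih] at this
    linarith

theorem per_add_int {f : ℝ → ℝ} (hf : ∀ c, f (c + 1) = f c) (c : ℝ) (n : ℤ) : f (c + n) = f c := by
  have h : Function.Periodic f 1 := hf
  have := h.int_mul n c
  simpa using this

/-! ### averages -/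

/-- `av ψ s c = ∫_0^1 ψ (c + u s) du` -/
noncomputable def av (ψ : ℝ → ℝ) (s c : ℝ) : ℝ := ∫ u in (0:ℝ)..1, ψ (c + u * s)

theorem av_smooth {ψ : ℝ → ℝ} (hψ : ContDiff ℝ ∞ ψ) :
    ContDiff ℝ ∞ (fun p : ℝ × ℝ => av ψ p.1 p.2) := by
  rw [← contDiffOn_univ]
  refine R213.ParamInt.contDiffOn_param (E := ℝ × ℝ) (K := univ) (V := ℝ) convex_univ
    uniqueDiffOn_univ (a := 0) (b := 1) (by norm_num)
    (g := fun q : (ℝ × ℝ) × ℝ => ψ (q.1.2 + q.2 * q.1.1)) ?_
  refine ContDiff.contDiffOn ?_
  refine hψ.comp ?_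
  exact (contDiff_snd.comp contDiff_fst).add (contDiff_snd.mul (contDiff_fst.comp contDiff_fst))

theorem av_zero (ψ : ℝ → ℝ) (c : ℝ) : av ψ 0 c = ψ c := by
  simp [av]

theorem av_per {ψ : ℝ → ℝ} (hψ : ∀ c, ψ (c + 1) = ψ c) (s c : ℝ) : av ψ s (c + 1) = av ψ s c := by
  unfold av
  congr 1
  ext u
  rw [show c + 1 + u * s = c + u * s + 1 by ring, hψ]

theorem mul_av (ψ : ℝ → ℝ) (s c : ℝ) : s * av ψ s c = ∫ t in c..(c + s), ψ t := by
  unfold av
  have h := intervalIntegral.mul_integral_comp_add_mul (a := 0) (b := 1) (f := ψ) s c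
  rw [mul_zero, add_zero, mul_one] at h
  rw [← h]
  congr 2
  ext u
  rw [mul_comm u s]

/-- the primitive -/
noncomputable def Psi (ψ : ℝ → ℝ) (c : ℝ) : ℝ := ∫ t in (0:ℝ)..c, ψ t

theorem Psi_zero (ψ : ℝ → ℝ) : Psi ψ 0 = 0 := by simp [Psi]

theorem Psi_eq (ψ : ℝ → ℝ) (c : ℝ) : Psi ψ c = c * av ψ c 0 := by
  rw [mul_av, zero_add]; rfl

theorem Psi_smooth {ψ : ℝ → ℝ} (hψ : ContDiff ℝ ∞ ψ) : ContDiff ℝ ∞ (Psi ψ) := by
  have h : Psi ψ = fun c => c * av ψ c 0 := funext fun c => Psi_eq ψ c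
  rw [h]
  exact contDiff_id.mul ((av_smooth hψ).comp (contDiff_id.prodMk contDiff_const))

theorem Psi_sub {ψ : ℝ → ℝ} (hψ : Continuous ψ) (a b : ℝ) :
    Psi ψ b - Psi ψ a = ∫ t in a..b, ψ t := by
  unfold Psi
  rw [intervalIntegral.integral_interval_sub_left (hψ.intervalIntegrable _ _)
    (hψ.intervalIntegrable _ _)]

theorem Psi_add_sub {ψ : ℝ → ℝ} (hψ : Continuous ψ) (c s : ℝ) :
    Psi ψ (c + s) - Psi ψ c = s * av ψ s c := by
  rw [Psi_sub hψ, mul_av]

theorem Psi_per {ψ : ℝ → ℝ} (hψ : Continuous ψ) (hp : ∀ c, ψ (c + 1) = ψ c) (c : ℝ) :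
    Psi ψ (c + 1) = Psi ψ c + Psi ψ 1 := by
  have h : Function.Periodic ψ 1 := hp
  have h1 := Psi_sub hψ c (c + 1)
  have h2 := Psi_sub hψ 0 (0 + 1)
  have h3 := h.intervalIntegral_add_eq c 0
  rw [Psi_zero, zero_add] at h2
  rw [h3] at h1
  rw [zero_add] at h1
  linarith

theorem Psi_per_int {ψ : ℝ → ℝ} (hψ : Continuous ψ) (hp : ∀ c, ψ (c + 1) = ψ c) (c : ℝ) (n : ℤ) :
    Psi ψ (c + n) = Psi ψ c + n * Psi ψ 1 := by
  induction n using Int.induction_on with
  | zero => simp
  | succ i ih =>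
    push_cast at ih ⊢
    rw [← add_assoc, Psi_per hψ hp, ih]; ring
  | pred i ih =>
    push_cast at ih ⊢
    have := Psi_per hψ hp (c + (-(i:ℝ) - 1))
    rw [show c + (-(i:ℝ) - 1) + 1 = c + -(i:ℝ) by ring, ih] at this
    linarith

/-- `Psi` vanishes where `ψ` does -/
theorem Psi_eq_zero {ψ : ℝ → ℝ} {d : ℝ} (hz : ∀ c, |c| ≤ d → ψ c = 0) {c : ℝ} (hc : |c| ≤ d) :
    Psi ψ c = 0 := by
  unfold Psi
  rw [intervalIntegral.integral_congr (g := fun _ => 0)]
  · simp
  · intro t ht
    apply hz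
    rw [abs_le] at hc ⊢
    rcases le_total 0 c with h | h
    · rw [uIcc_of_le h] at ht
      exact ⟨by linarith [ht.1], by linarith [ht.2]⟩
    · rw [uIcc_of_ge h] at ht
      exact ⟨by linarith [ht.1], by linarith [ht.2]⟩

end Crest.Agent.R081.Tw
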