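import Crest.Agent.R081.FmDefs
import Crest.Agent.R081.TwDefs
import Crest.Agent.R081.TwProf
import Crest.Agent.R081.TwLD
import Crest.Agent.R081.Cv1

/-! # Row 81, route B, node STEP: frozen definitions (helper9)

`TwD` twist data, `Modes` mode sets with exact single cover, `Stage`, the defects `D0 D1 D2 D3`,
`Des` the output of the design, `Dd` its coefficient array, `GForm` the pointwise form of the step map. -/

set_option autoImplicit false

namespace Crest.Agent.R081.St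

open MeasureTheory Crest.AnalysisR.Torus3 Crest.Agent.R075 Crest.Agent.R081.Fm
  Crest.Agent.R081.Sm Crest.Agent.R081.Tw
open scoped ContDiff

/-- a mode `((k1,k2), c)` -/
abbrev X : Type := (ℤ × ℤ) × ℝ

/-- twist data `(q, P, δ, α, ψ)` -/
structure TwD where
  q : ℕ
  P : ℤ
  del : ℝ
  al : ℝ
  psi : ℝ → ℝ
  q_pos : 0 < q
  cop : IsCoprime (q : ℤ) P
  del_pos : 0 < del
  del_lt : del < 1 / 8
  al_pos : 0 < al
  smooth : ContDiff ℝ ∞ psi
  per : ∀ c, psi (c + 1) = psi c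
  zero : ∀ c, |c| ≤ del / 2 → psi c = 0
  lin : ∀ c ∈ Set.Icc del (1 - del), psi c = al * (c - del)

/-- frequency of a mode -/
noncomputable def TwD.nu (t : TwD) (x : X) : ℝ := x.1.1 * (t.P / t.q) + x.1.2 * t.psi x.2

/-- the twist `(c, y1, y2) ↦ (c, y1 + P/q, y2 + ψ c)` as a map of `ℝ³` -/
noncomputable def TwD.RF (t : TwD) (x : E3) : E3 := ![x 0, x 1 + t.P / t.q, x 2 + t.psi (x 0)]

noncomputable def TwD.RH (t : TwD) (x : E3) : E3 := ![x 0, x 1 - t.P / t.q, x 2 - t.psi (x 0)]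

theorem TwD.psi_int (t : TwD) (c : ℝ) (n : ℤ) : t.psi (c + n) = t.psi c := per_int t.per n c

/-- the twist as a lifted diffeomorphism -/
noncomputable def TwD.R (t : TwD) : LD where
  F := t.RF
  H := t.RH
  hF := by
    unfold TwD.RF
    rw [contDiff_pi]
    intro i
    fin_cases i
    · exact contDiff_apply ℝ ℝ (0 : Fin 3)
    · exact (contDiff_apply ℝ ℝ (1 : Fin 3)).add contDiff_const
    · exact (contDiff_apply ℝ ℝ (2 : Fin 3)).add (t.smooth.comp (contDiff_apply ℝ ℝ (0 : Fin 3)))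
  hH := by
    unfold TwD.RH
    rw [contDiff_pi]
    intro i
    fin_cases i
    · exact contDiff_apply ℝ ℝ (0 : Fin 3)
    · exact (contDiff_apply ℝ ℝ (1 : Fin 3)).sub contDiff_const
    · exact (contDiff_apply ℝ ℝ (2 : Fin 3)).sub (t.smooth.comp (contDiff_apply ℝ ℝ (0 : Fin 3)))
  pF := by
    intro k
    refine ⟨k, fun x => ?_⟩
    funext i
    fin_cases i
    · simp [TwD.RF]
    · simp [TwD.RF]; ring
    · simp [TwD.RF, t.psi_int]; ring
  pH := by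
    intro k
    refine ⟨k, fun x => ?_⟩
    funext i
    fin_cases i
    · simp [TwD.RH]
    · simp [TwD.RH]; ring
    · simp [TwD.RH, t.psi_int]; ring
  FH := by
    intro x
    funext i
    fin_cases i <;> simp [TwD.RF, TwD.RH]
  HF := by
    intro x
    funext i
    fin_cases i <;> simp [TwD.RF, TwD.RH]

/-- mode set with exact single cover of the circle (up to a null set of frequencies) -/
structure Modes (t : TwD) where
  S : Set X
  K : Finset (ℤ × ℤ)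
  meas : MeasurableSet S
  memK : ∀ x ∈ S, x.1 ∈ K
  ne0 : ∀ x ∈ S, x.1.2 ≠ 0
  sub : ∀ x ∈ S, x.2 ∈ Set.Icc t.del (1 - t.del)
  symm : ∀ x ∈ S, ((-x.1, x.2) : X) ∈ S
  inj : ∀ x ∈ S, ∀ y ∈ S, (∃ n : ℤ, t.nu x - t.nu y = n) → x = y
  full : ∀ᵐ x : ℝ, ∃ y ∈ S, ∃ n : ℤ, t.nu y - x = n

/-- aligned modes `{(k1 + r q, k2, c) : (k, c) ∈ S, r ∈ ℤ}` -/
def Modes.Sal {t : TwD} (M : Modes t) : Set X :=
  {x | ∃ r : ℤ, (((x.1.1 + r * t.q, x.1.2), x.2) : X) ∈ M.S}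

/-- transformation of a stage given by twist data and `H` -/
noncomputable def TT (t : TwD) (H : LD) : LD := (H.comp t.R).comp H.inv

/-- a stage of the construction; `T` is a chosen lift of the transformation `H R_t H⁻¹`; `g` is in the coordinates of the twist, the function on the torus of
the stage is `g ∘ H⁻¹` -/
structure Stage where
  t : TwD
  H : LD
  mpH : MP H
  T : LD
  hT : T.perm = (TT t H).perm
  M : Modes t
  g : T3 → ℝ
  g_lp : MemLp g 2 volume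
  flat : ∀ᵐ x ∂muX, ‖fcX (fun y => (g y : ℂ)) x‖ ^ 2 = M.S.indicator (fun x => |(x.1.2 : ℝ)| * t.al) x

/-- the function of the stage on the torus -/
noncomputable def Stage.gT (s : Stage) (y : T3) : ℝ := s.g (s.H.perm.symm y)

/-- `L²` norm of the coefficients of `f ∘ H` on a set of modes -/
noncomputable def Stage.nrm (s : Stage) (B : Set X) (f : T3 → ℂ) : ℝ :=
  Real.sqrt (∫ x in B, ‖fcX (fun y => f (s.H.perm y)) x‖ ^ 2 ∂muX)

noncomputable def Stage.D0 (s : Stage) (f : T3 → ℂ) : ℝ := s.nrm s.M.Sᶜ f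
noncomputable def Stage.D1 (s : Stage) (f : T3 → ℂ) : ℝ := s.nrm s.M.Salᶜ f
noncomputable def Stage.D2 (s : Stage) (f : T3 → ℂ) : ℝ :=
  s.nrm {x | x.1 = 0 ∨ x.2 ∉ Set.Icc s.t.del (1 - s.t.del)} f
noncomputable def Stage.D3 (s : Stage) (f : T3 → ℂ) : ℝ :=
  s.nrm {x | x.2 ∉ Set.Icc s.t.del (1 - s.t.del)} f

/-- coefficient array of a word `w` ((1.3) of 13736, the right hand side of `Co.D_eq`) -/
noncomputable def Dd (q q2 : ℕ) (N : ℤ) (w : Word) (k : ℤ × ℤ) (a b : ℤ) (c : ℝ) : ℂ :=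
  (1 / (q2 : ℂ)) * ∑ i ∈ Finset.range q2, ∫ t in (0 : ℝ)..1,
    ee (k.1 * (Word.act q w (c / (q * q2) + N * i / q2, t)).1
      + k.2 * (Word.act q w (c / (q * q2) + N * i / q2, t)).2 - a * i / q2 - b * t)

/-- output of the design for the base period `q`, a finite set `K` of modes and `eps` -/
structure Des (q : ℕ) (K : Finset (ℤ × ℤ)) (eps : ℝ) where
  q2 : ℕ
  q2_pos : 0 < q2
  cop : Nat.Coprime q q2
  N : ℤ
  hN : (q2 : ℤ) ∣ N * q - 1
  /-- `δ_+` -/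
  del : ℝ
  del_pos : 0 < del
  del_lt : del < 1 / 8
  del_le : del ≤ eps
  v : ℝ
  v_pos : 0 < v
  w : Word
  B : ℕ
  /-- the lines `((a,b),c)`, `a` mod `q''` -/
  E : Set (Cv.De q2)
  E_meas : ∀ (a : ZMod q2) (b : ℤ), MeasurableSet {c : ℝ | ((a, b), c) ∈ E}
  E_ne0 : ∀ x ∈ E, x.1.2 ≠ 0
  E_B : ∀ x ∈ E, |x.1.2| ≤ B
  E_sub : ∀ x ∈ E, x.2 ∈ Set.Icc del (1 - del)
  E_symm : ∀ x ∈ E, ((-x.1.1, -x.1.2), x.2) ∈ E
  /-- the arcs `a/q'' + b F(c)` are disjoint mod 1 -/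
  E_inj : ∀ (a b a' b' : ℤ) (c c' : ℝ), (((a : ZMod q2), b), c) ∈ E → (((a' : ZMod q2), b'), c') ∈ E →
    (∃ n : ℤ, ((a : ℝ) / q2 + b * Fp v del c) - ((a' : ℝ) / q2 + b' * Fp v del c') = n) →
    (a : ZMod q2) = a' ∧ b = b' ∧ c = c'
  /-- main coefficients -/
  M : ℤ × ℤ → ℤ → ℤ → ℝ → ℂ
  M_meas : ∀ k a b, Measurable (M k a b)
  M_per : ∀ k a b c, M k (a + q2) b c = M k a b c
  M_norm : ∀ k a b c, ‖M k a b c‖ ^ 2
    = Set.indicator {c : ℝ | (((a : ZMod q2), b), c) ∈ E} (fun _ => |(b : ℝ)| * (v / (1 - 2 * del))) c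
  M_symm : ∀ k a b c, M (-k) (-a) (-b) c = (starRingEnd ℂ) (M k a b c)
  err : ∀ k ∈ K, k ≠ 0 → ∑ a ∈ Finset.range q2, ∑' b : ℤ, ∫⁻ c in Set.Ioc (0 : ℝ) 1,
    ‖Dd q q2 N w k a b c - M k a b c‖ₑ ^ 2 ≤ ENNReal.ofReal (eps ^ 2)

/-- what DESIGN (DGLUE) has to prove -/
def DesStmt : Prop :=
  ∀ (q : ℕ), 0 < q → ∀ (K : Finset (ℤ × ℤ)) (eps : ℝ), 0 < eps → Nonempty (Des q K eps)

/-- the new twist data of step `h` -/
noncomputable def Des.tw {t : TwD} {K : Finset (ℤ × ℤ)} {eps : ℝ} (d : Des t.q K eps) (h : ℕ) (hh : 0 < h)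
    (P' : ℤ) (hP : t.q * P' = t.P * h * d.q2 + 1) : TwD where
  q := h * d.q2
  P := P'
  del := d.del
  al := d.v / (1 - 2 * d.del) / h
  psi := fun c => Fp d.v d.del c / h
  q_pos := Nat.mul_pos hh d.q2_pos
  cop := ⟨-t.P, t.q, by push_cast; linarith [hP]⟩
  del_pos := d.del_pos
  del_lt := d.del_lt
  al_pos := by
    have := d.del_lt
    have h1 : (0 : ℝ) < 1 - 2 * d.del := by linarith
    have h2 : (0 : ℝ) < h := by exact_mod_cast hh
    have := d.v_pos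
    positivity
  smooth := (Fp_smooth d.v d.del_pos).div_const _
  per := fun c => by rw [Fp_per]
  zero := fun c hc => by rw [Fp_zero d.v d.del_pos (by linarith [d.del_lt]) hc, zero_div]
  lin := fun c hc => by rw [Fp_eq d.v d.del_pos hc.1 hc.2]; ring

/-- pointwise form of the step map `G = K ∘ Lin` (`m = q q''`, `c = m θ₁ - c'`):
`G (c', θ₁, θ₂) = (c, (0, χ c) + A (θ₁ - β c / m, θ₂ - β c F c'))` -/
structure GForm {t : TwD} {K : Finset (ℤ × ℤ)} {eps : ℝ} (d : Des t.q K eps) (h : ℕ) (G : LD) where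
  chi : ℝ → ℝ
  bet : ℝ → ℝ
  chi0 : ℝ
  chi_cont : Continuous chi
  bet_cont : Continuous bet
  chi_per : ∀ c, ∃ n : ℤ, chi (c + 1) = chi c + n
  bet_per : ∀ c, bet (c + 1) = bet c
  chi_J : ∀ c ∈ Set.Icc t.del (1 - t.del), chi c = chi0 + h * t.al * (c - t.del) ^ 2 / 2
  bet_J : ∀ c ∈ Set.Icc t.del (1 - t.del), bet c = c
  form : ∀ c' t1 t2 : ℝ, G.perm (P3 (c', (t1, t2))) =
    P3 ((t.q * d.q2 : ℝ) * t1 - c',
      ((Word.act t.q d.w (t1 - bet ((t.q * d.q2 : ℝ) * t1 - c') / (t.q * d.q2),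
          t2 - bet ((t.q * d.q2 : ℝ) * t1 - c') * Fp d.v d.del c')).1,
        chi ((t.q * d.q2 : ℝ) * t1 - c') +
        (Word.act t.q d.w (t1 - bet ((t.q * d.q2 : ℝ) * t1 - c') / (t.q * d.q2),
          t2 - bet ((t.q * d.q2 : ℝ) * t1 - c') * Fp d.v d.del c')).2))

/-- what SMOOTH STEP has to prove -/
def SmoothStmt : Prop :=
  ∀ (t : TwD) (H T : LD) (_ : T.perm = (TT t H).perm) (K : Finset (ℤ × ℤ)) (eps : ℝ) (d : Des t.q K eps)
    (r : ℕ) (e : ℝ), 0 < e →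
    ∃ h0 : ℕ, ∀ (h : ℕ) (hh : 0 < h), h0 ≤ h → ∀ (P' : ℤ) (hP : t.q * P' = t.P * h * d.q2 + 1),
      ∃ G T' : LD, MP G ∧ Nonempty (GForm d h G) ∧
        T'.perm = (TT (d.tw h hh P' hP) (H.comp G)).perm ∧
        Bd r e (fun x => T'.F x - T.F x) ∧ Bd r e (fun x => T'.H x - T.H x)

/-- what STEP delivers to IND (Fs: finite family of mean zero `L²` functions) -/
def StepStmt : Prop :=
  ∀ (s : Stage) (Fs : Finset (T3 → ℂ)), (∀ f ∈ Fs, MemLp f 2 volume ∧ ∫ x, f x = 0) →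
    ∀ (r : ℕ) (e : ℝ), 0 < e → ∃ s' : Stage,
      Bd r e (fun x => s'.T.F x - s.T.F x) ∧ Bd r e (fun x => s'.T.H x - s.T.H x) ∧
      (∫ x, (s'.gT x - s.gT x) ^ 2) ≤ e ^ 2 ∧
      ∀ f ∈ Fs, s'.D0 f ≤ s.D1 f + e ∧ s'.D1 f ≤ s.D2 f + e ∧ s'.D2 f ≤ s.D3 f + e ∧ s'.D3 f ≤ e

end Crest.Agent.R081.St
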