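import Crest.Agent.R081.TwArith
import Crest.Agent.R081.StDefs

/-! Row 81, node EXPLICIT STEP: the smooth step in the form of `StDefs`. -/

set_option autoImplicit false

namespace Crest.Agent.R081.Tw

open scoped ContDiff
open MeasureTheory Crest.AnalysisR.Torus3 Crest.Agent.R081.Sm Crest.Agent.R081.Shear
open Crest.Agent.R081.Fm

theorem perm_congr {A B : LD} (h : ∀ x, A.F x = B.F x) : A.perm = B.perm := by
  ext1 y
  obtain ⟨x, rfl⟩ := proj_surj y
  rw [LD.perm_proj, LD.perm_proj, h]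

/-- the data of the step from the design -/
noncomputable def datOf (t : St.TwD) {K : Finset (ℤ × ℤ)} {eps : ℝ} (d : St.Des t.q K eps) : Dat where
  q := t.q
  q2 := d.q2
  P := t.P
  w := d.w
  F := Fp d.v d.del
  ψ := t.psi
  δ := t.del
  hq := t.q_pos
  hq2 := d.q2_pos
  hF := Fp_smooth d.v d.del_pos
  pF := fun c => Fp_per d.v d.del c
  hψ := t.smooth
  pψ := t.per
  hδ0 := t.del_pos
  hδ1 := t.del_lt
  zψ := t.zero

section
variable (t : St.TwD) {K : Finset (ℤ × ℤ)} {eps : ℝ} (d : St.Des t.q K eps)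

/-- the step map `G = K ∘ Lin` -/
noncomputable def Gst (h : ℕ) : LD := ((datOf t d).K h).comp (linLD (datOf t d).N)

theorem mp_Gst (h : ℕ) : MP (Gst t d h) := ((datOf t d).mp_K h).comp (mp_linLD _)

theorem R_perm : (datOf t d).R.perm = t.R.perm :=
  perm_congr fun x => by rw [Dat.R_F]; rfl

theorem Rp_perm (h : ℕ) (hh : 0 < h) (P' : ℤ) (hP : t.q * P' = t.P * h * d.q2 + 1) :
    ((datOf t d).Rp h P').perm = (d.tw h hh P' hP).R.perm :=
  perm_congr fun x => by rw [Dat.Rp, twLD_F]; rfl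

noncomputable def gform (h : ℕ) : St.GForm d h (Gst t d h) where
  chi := (datOf t d).χ h
  bet := (datOf t d).β
  chi0 := h * Psi t.psi t.del - (datOf t d).Bh h
  chi_cont := ((datOf t d).χ_smooth h).continuous
  bet_cont := (datOf t d).β_smooth.continuous
  chi_per := fun c => ⟨_, (datOf t d).χ_per h c⟩
  bet_per := (datOf t d).β_per
  chi_J := fun c hc => (datOf t d).χ_affine (α := t.al) (fun c h1 h2 => t.lin c ⟨h1, h2⟩) h hc.1 hc.2
  bet_J := fun c hc => by
    have h0 := t.del_pos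
    have := (datOf t d).β_eq (c := c) (m := 0) (by
      push_cast; show t.del / 8 ≤ c - 0; linarith [hc.1]) (by
      push_cast; show c - 0 ≤ 1 - t.del / 8; linarith [hc.2])
    rw [this]; simp
  form := fun c' t1 t2 => by
    unfold P3 Gst
    rw [LD.perm_proj, Dat.K_lin_F]
    have hN : ((datOf t d).N : ℝ) = t.q * d.q2 := by
      unfold Dat.N; push_cast; rfl
    simp only [Matrix.cons_val_zero, Matrix.cons_val_one, Matrix.cons_val]
    rw [hN]
    congr 2
    rw [add_comm ((datOf t d).χ h _)]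
    rfl

theorem perm_TT (t : St.TwD) (H : LD) : (St.TT t H).perm = H.perm * (t.R.perm * H.perm⁻¹) := by
  unfold St.TT
  rw [LD.perm_comp, LD.perm_comp, LD.perm_inv, mul_assoc]

/-- **the smooth step** -/
theorem smooth_step (H T : LD) (hT : T.perm = (St.TT t H).perm) (r : ℕ) {e : ℝ} (he : 0 < e) :
    ∃ h0 : ℕ, ∀ (h : ℕ) (hh : 0 < h), h0 ≤ h → ∀ (P' : ℤ) (hP : t.q * P' = t.P * h * d.q2 + 1),
      ∃ G T' : LD, MP G ∧ Nonempty (St.GForm d h G) ∧
        T'.perm = (St.TT (d.tw h hh P' hP) (H.comp G)).perm ∧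
        Bd r e (fun x => T'.F x - T.F x) ∧ Bd r e (fun x => T'.H x - T.H x) := by
  obtain ⟨h0, h0p, hstep⟩ := (datOf t d).step H T (by
    rw [hT, perm_TT, LD.perm_comp, LD.perm_comp, LD.perm_inv, R_perm]) r he
  refine ⟨h0, fun h hh hle P' hP => ?_⟩
  obtain ⟨T', e1, e2, e3⟩ := hstep h hle P' hP
  refine ⟨Gst t d h, T', mp_Gst t d h, ⟨gform t d h⟩, ?_, e2, e3⟩
  rw [e1, perm_TT, LD.perm_comp, LD.perm_comp, LD.perm_inv, Rp_perm t d h hh P' hP]
  rfl

end

/-- **SmoothStmt** -/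
theorem smoothStmt : St.SmoothStmt :=
  fun t H T hT _ _ d r _ he => smooth_step t d H T hT r he

end Crest.Agent.R081.Tw
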