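import Crest.Agent.R081.StAsm
import Crest.Agent.R081.TwStmt
import Crest.Agent.R081.TwArith
import Crest.Agent.R081.G1
import Crest.Agent.R081.FmSum

/-! Row 81, route B (architect helper310): the assembly. -/

set_option autoImplicit false

namespace Crest.Agent.R081.Asm

open MeasureTheory Crest.AnalysisR.Torus3 Crest.Agent.R075 Crest.Agent.R081.Fm
  Crest.Agent.R081.Sm Crest.Agent.R081.Tw Crest.Agent.R081.St Crest.Agent.R081.G1

theorem heStmt : HEStmt := by
  intro t K eps d h0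
  obtain ⟨h, h1, h2, Pp, h3⟩ := exists_h t.q_pos t.cop.symm d.cop h0
  exact ⟨h, Pp, h2, h1, h3⟩

theorem hfc (u : T3 → ℂ) (hu : MemLp u 2 volume) : Integrable (fun x => ‖fcX u x‖ ^ 2) muX :=
  (memLp_fcX hu).integrable_norm_pow (by norm_num)

theorem goal_of (hD : DesStmt) (hM : ModesStmt) (h3 : T3Stmt) (h2 : T2Stmt) (h1 : T1Stmt)
    (h0 : T0Stmt) (hGA : GAStmt) (hGP : GPStmt) (f0 : FlatS0) (fm : FlatMean) (f1 : FlatS1)
    (hb : Nonempty Stage) : Glue.Goal :=
  goal_of_stages f0 fm f1 (stepStmt hD smoothStmt hM h3 h2 h1 h0 hGA hGP heStmt hfc) hb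

end Crest.Agent.R081.Asm
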