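import Crest.Agent.R081.FmBase

/-! # Row 81, route B: the FOURIER LAYER (helper325), part 2: the isometry `L²(T³) ≃ L²(ℤ² × (0,1])` -/

set_option autoImplicit false

namespace Crest.Agent.R081.Fm

open MeasureTheory Crest.AnalysisR.Torus3 Crest.Agent.R075
open scoped ENNReal ComplexConjugate InnerProductSpace

/-- `L²` of the three-torus -/
abbrev HT : Type := Lp ℂ 2 (volume : Measure T3)
/-- `L²` of the mode space -/
abbrev HX : Type := Lp ℂ 2 muX

theorem memLp_fcX' (f : HT) : MemLp (fcX f) 2 muX := memLp_fcX (Lp.memLp f)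

/-- norm as an integral -/
theorem enorm_sq_Lp {α : Type*} [MeasurableSpace α] {μ : Measure α} (f : Lp ℂ 2 μ) :
    ‖f‖ₑ ^ 2 = ∫⁻ x, ‖f x‖ₑ ^ 2 ∂μ := by
  rw [Lp.enorm_def, eLpNorm_eq_lintegral_rpow_enorm_toReal (by norm_num) (by norm_num)]
  simp only [ENNReal.toReal_ofNat, one_div]
  rw [← ENNReal.rpow_natCast, ← ENNReal.rpow_mul]
  norm_num

/-- the Fourier isometry as a linear isometry -/
noncomputable def PhiL : HT →ₗᵢ[ℂ] HX where
  toFun f := (memLp_fcX' f).toLp (fcX f)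
  map_add' f g := by
    apply Lp.ext
    have h1 : fcX (f + g : HT) =ᵐ[muX] fcX ((f : T3 → ℂ) + g) := fc_congr (Lp.coeFn_add f g)
    have h2 := fc_add ((Lp.memLp f).integrable (by norm_num)) ((Lp.memLp g).integrable (by norm_num))
    filter_upwards [(memLp_fcX' (f + g)).coeFn_toLp, (memLp_fcX' f).coeFn_toLp,
      (memLp_fcX' g).coeFn_toLp, Lp.coeFn_add ((memLp_fcX' f).toLp (fcX f))
        ((memLp_fcX' g).toLp (fcX g)), h1, h2] with x e1 e2 e3 e4 e5 e6
    rw [e1, e4, Pi.add_apply, e2, e3, e5, e6, Pi.add_apply]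
  map_smul' a f := by
    apply Lp.ext
    have h1 : fcX (a • f : HT) =ᵐ[muX] fcX (a • (f : T3 → ℂ)) := fc_congr (Lp.coeFn_smul a f)
    filter_upwards [(memLp_fcX' (a • f)).coeFn_toLp, (memLp_fcX' f).coeFn_toLp,
      Lp.coeFn_smul a ((memLp_fcX' f).toLp (fcX f)), h1] with x e1 e2 e3 e4
    rw [e1, RingHom.id_apply, e3, Pi.smul_apply, e2, e4, fcX_smul, Pi.smul_apply]
  norm_map' f := by
    have h : ‖(memLp_fcX' f).toLp (fcX f)‖ₑ ^ 2 = ‖f‖ₑ ^ 2 := by
      rw [enorm_sq_Lp, enorm_sq_Lp, ← lintegral_fcX (Lp.memLp f)]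
      refine lintegral_congr_ae ?_
      filter_upwards [(memLp_fcX' f).coeFn_toLp] with x hx
      rw [hx]
    have h2 : ‖(memLp_fcX' f).toLp (fcX f)‖ₑ = ‖f‖ₑ := by
      have := (ENNReal.pow_right_strictMono (n := 2) (by norm_num)).injective h
      exact this
    change ‖(memLp_fcX' f).toLp (fcX f)‖ = ‖f‖
    rw [← toReal_enorm, ← toReal_enorm, h2]

theorem PhiL_coe (f : HT) : (PhiL f : (ℤ × ℤ) × ℝ → ℂ) =ᵐ[muX] fcX f :=
  (memLp_fcX' f).coeFn_toLp

/-! ### elementary functions -/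

/-- the function `u(c) e(k·y)` on the torus -/
noncomputable def em (k : ℤ × ℤ) (u : ℝ → ℂ) (x : T3) : ℂ :=
  AddCircle.liftIoc 1 0 u (x 0) * UnitAddTorus.mFourier (kv k) (fun i => x i.succ)

theorem liftIoc_coe {u : ℝ → ℂ} {c : ℝ} (hc : c ∈ Set.Ioc (0:ℝ) 1) :
    AddCircle.liftIoc 1 0 u (c : UnitAddCircle) = u c := by
  apply AddCircle.liftIoc_coe_apply
  simpa using hc

theorem em_C3 {k : ℤ × ℤ} {u : ℝ → ℂ} {c : ℝ} (hc : c ∈ Set.Ioc (0:ℝ) 1) (z : T2) :
    em k u (C3 (c, z)) = u c * UnitAddTorus.mFourier (kv k) z := by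
  unfold em C3
  simp only [Fin.cons_zero, Fin.cons_succ]
  rw [liftIoc_coe hc]

theorem orth2 (k m : ℤ × ℤ) :
    ∫ z : T2, UnitAddTorus.mFourier (-kv k) z * UnitAddTorus.mFourier (kv m) z =
      if k = m then 1 else 0 := by
  have h := (orthonormal_iff_ite.1 (UnitAddTorus.orthonormal_mFourier (d := Fin 2))) (kv k) (kv m)
  have hvol : (volume : Measure T2) = Measure.pi (fun _ => AddCircle.haarAddCircle) := by
    change Measure.pi (fun _ => (volume : Measure UnitAddCircle)) = _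
    rw [vol_circle]
  rw [hvol]
  rw [MeasureTheory.L2.inner_def] at h
  have e1 : (∫ z : T2, UnitAddTorus.mFourier (-kv k) z * UnitAddTorus.mFourier (kv m) z
      ∂(Measure.pi (fun _ : Fin 2 => AddCircle.haarAddCircle))) =
      if kv k = kv m then (1:ℂ) else 0 := by
    rw [← h]
    refine integral_congr_ae ?_
    filter_upwards [UnitAddTorus.coeFn_mFourierLp (d := Fin 2) 2 (kv k),
      UnitAddTorus.coeFn_mFourierLp (d := Fin 2) 2 (kv m)] with z h1 h2
    rw [h1, h2, UnitAddTorus.mFourier_neg]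
    simp [mul_comm]
  rw [e1]
  have : kv k = kv m ↔ k = m := kvE.injective.eq_iff
  simp only [this]

theorem ae_I01 : ∀ᵐ c ∂I01, c ∈ Set.Ioc (0:ℝ) 1 := by
  unfold I01
  exact ae_restrict_mem measurableSet_Ioc

theorem fc_em (k m : ℤ × ℤ) (u : ℝ → ℂ) :
    ∀ᵐ c ∂I01, fc (em k u) m c = if m = k then u c else 0 := by
  filter_upwards [ae_I01] with c hc
  rw [fc_eq]
  simp only [em_C3 hc]
  have : ∀ z : T2, UnitAddTorus.mFourier (-kv m) z * (u c * UnitAddTorus.mFourier (kv k) z) =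
      u c * (UnitAddTorus.mFourier (-kv m) z * UnitAddTorus.mFourier (kv k) z) := fun z => by ring
  simp only [this]
  rw [integral_const_mul, orth2]
  split_ifs <;> simp

theorem aesm_lift {u : ℝ → ℂ} (hu : AEStronglyMeasurable u I01) :
    AEStronglyMeasurable (AddCircle.liftIoc 1 0 u : UnitAddCircle → ℂ) volume := by
  have h1 : (AddCircle.liftIoc 1 0 u : UnitAddCircle → ℂ) =
      (fun x : Set.Ioc (0:ℝ) (0 + 1) => u x) ∘ (AddCircle.measurableEquivIoc 1 0) := by
    rfl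
  rw [h1]
  have h2 : MeasurePreserving (AddCircle.measurableEquivIoc 1 0) volume
      (Measure.comap Subtype.val volume) := AddCircle.measurePreserving_equivIoc 1
  refine AEStronglyMeasurable.comp_measurePreserving ?_ h2
  have h3 := MeasurableEmbedding.subtype_coe (measurableSet_Ioc (a := (0:ℝ)) (b := 0 + 1))
  have h4 : I01 = Measure.map (Subtype.val : Set.Ioc (0:ℝ) (0+1) → ℝ)
      (Measure.comap Subtype.val volume) := by
    rw [map_comap_subtype_coe measurableSet_Ioc]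
    simp [I01]
  rw [h4, h3.aestronglyMeasurable_map_iff] at hu
  exact hu

theorem aesm_em (k : ℤ × ℤ) {u : ℝ → ℂ} (hu : AEStronglyMeasurable u I01) :
    AEStronglyMeasurable (em k u) volume := by
  unfold em
  have h1 : MeasurePreserving (fun x : T3 => x 0) volume volume :=
    measurePreserving_eval (fun _ : Fin 3 => (volume : Measure UnitAddCircle)) 0
  refine ((aesm_lift hu).comp_measurePreserving h1).mul ?_
  refine Continuous.aestronglyMeasurable ?_
  exact (UnitAddTorus.mFourier (kv k)).continuous.comp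
    (continuous_pi fun i => continuous_apply _)

theorem norm_mF (k : Fin 2 → ℤ) (z : T2) : ‖UnitAddTorus.mFourier k z‖ = 1 := by
  simp only [UnitAddTorus.mFourier, ContinuousMap.coe_mk, norm_prod, fourier_apply, Circle.norm_coe,
    Finset.prod_const_one]

theorem lintegral_em (k : ℤ × ℤ) {u : ℝ → ℂ} (hu : AEStronglyMeasurable u I01) :
    ∫⁻ x, ‖em k u x‖ₑ ^ 2 = ∫⁻ c, ‖u c‖ₑ ^ 2 ∂I01 := by
  rw [lintegral_slices (aesm_em k hu)]
  refine lintegral_congr_ae ?_
  filter_upwards [ae_I01] with c hc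
  have : ∀ z : T2, ‖em k u (C3 (c, z))‖ₑ ^ 2 = ‖u c‖ₑ ^ 2 := by
    intro z
    rw [em_C3 hc, enorm_mul]
    have h1 : ‖UnitAddTorus.mFourier (kv k) z‖ₑ = 1 := by
      rw [← ofReal_norm, norm_mF, ENNReal.ofReal_one]
    rw [h1, mul_one]
  simp [this]

theorem memLp_em (k : ℤ × ℤ) {u : ℝ → ℂ} (hu : MemLp u 2 I01) : MemLp (em k u) 2 volume := by
  refine memLp_two_iff.2 ⟨aesm_em k hu.aestronglyMeasurable, ?_⟩
  rw [lintegral_em k hu.aestronglyMeasurable]
  exact (memLp_two_iff.1 hu).2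

theorem memLp_slice_muX {a : (ℤ × ℤ) × ℝ → ℂ} (ha : MemLp a 2 muX) (k : ℤ × ℤ) :
    MemLp (fun c => a (k, c)) 2 I01 := by
  refine memLp_two_iff.2 ⟨aesm_muX.1 ha.aestronglyMeasurable k, ?_⟩
  have h := (memLp_two_iff.1 ha).2
  rw [lintegral_muX] at h
  exact (ENNReal.le_tsum k).trans_lt h

theorem PhiL_surj : Function.Surjective PhiL := by
  have hclosed : IsClosed (LinearMap.range PhiL.toLinearMap : Set HX) := by
    have : (LinearMap.range PhiL.toLinearMap : Set HX) = Set.range PhiL := by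
      ext; simp
    rw [this]
    exact PhiL.isometry.isClosedEmbedding.isClosed_range
  have : CompleteSpace (LinearMap.range PhiL.toLinearMap) :=
    hclosed.completeSpace_coe
  have horth : (LinearMap.range PhiL.toLinearMap)ᗮ = ⊥ := by
    rw [Submodule.eq_bot_iff]
    intro a ha
    rw [Submodule.mem_orthogonal] at ha
    have haL : MemLp a 2 muX := Lp.memLp a
    have key : ∀ k : ℤ × ℤ, ∀ᵐ c ∂I01, a (k, c) = 0 := by
      intro k
      have hu := memLp_slice_muX haL k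
      have hf := memLp_em k hu
      set f : HT := hf.toLp (em k fun c => a (k, c)) with hfdef
      have h1 := ha (PhiL f) ⟨f, rfl⟩
      rw [MeasureTheory.L2.inner_def] at h1
      have hfc : fcX f =ᵐ[muX] fcX (em k fun c => a (k, c)) := fc_congr hf.coeFn_toLp
      have h2 : ∫ x, ‖a x‖ ^ 2 * (if x.1 = k then 1 else 0) ∂muX = 0 := by
        have h3 : ∫ x, ((‖a x‖ ^ 2 * (if x.1 = k then 1 else 0) : ℝ) : ℂ) ∂muX = 0 := by
          rw [← h1]
          refine integral_congr_ae ?_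
          have h4 : ∀ᵐ x ∂muX, fcX (em k fun c => a (k, c)) x = if x.1 = k then a (k, x.2) else 0 := by
            refine ae_muX.2 fun m => ?_
            filter_upwards [fc_em k m (fun c => a (k, c))] with c hc
            simpa [fcX] using hc
          filter_upwards [PhiL_coe f, hfc, h4] with x e1 e2 e3
          rw [e1, e2, e3]
          obtain ⟨m, c⟩ := x
          by_cases hm : m = k
          · subst hm
            simp only [if_true, mul_one, RCLike.inner_apply]
            rw [RCLike.mul_conj]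
            norm_num
          · simp [hm]
        rw [integral_complex_ofReal] at h3
        exact_mod_cast h3
      have hint : Integrable (fun x => ‖a x‖ ^ 2) muX := haL.integrable_norm_pow (by norm_num)
      have hmeas : MeasurableSet {x : (ℤ × ℤ) × ℝ | x.1 = k} :=
        measurable_fst (measurableSet_singleton k)
      have hint2 : Integrable (fun x => ‖a x‖ ^ 2 * (if x.1 = k then 1 else 0)) muX := by
        have : (fun x => ‖a x‖ ^ 2 * (if x.1 = k then 1 else 0)) =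
            Set.indicator {x : (ℤ × ℤ) × ℝ | x.1 = k} (fun x => ‖a x‖ ^ 2) := by
          funext x
          by_cases hx : x.1 = k <;> simp [Set.indicator, hx]
        rw [this]
        exact hint.indicator hmeas
      have h5 := (integral_eq_zero_iff_of_nonneg (fun x => by
        change (0:ℝ) ≤ ‖a x‖ ^ 2 * (if x.1 = k then 1 else 0)
        split_ifs <;> positivity) hint2).1 h2
      have h6 := ae_muX.1 h5 k
      filter_upwards [h6] with c hc
      simpa using hc
    apply Lp.ext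
    have h7 : ∀ᵐ x ∂muX, a x = 0 := ae_muX.2 key
    filter_upwards [h7, Lp.coeFn_zero ℂ 2 muX] with x e1 e2
    rw [e1, e2]; rfl
  have htop : LinearMap.range PhiL.toLinearMap = ⊤ :=
    (Submodule.orthogonal_eq_bot_iff).1 horth
  intro a
  have : a ∈ LinearMap.range PhiL.toLinearMap := htop ▸ Submodule.mem_top
  obtain ⟨f, hf⟩ := this
  exact ⟨f, hf⟩

/-- the Fourier isometry -/
noncomputable def Phi : HT ≃ₗᵢ[ℂ] HX := LinearIsometryEquiv.ofSurjective PhiL PhiL_surj

theorem Phi_coe (f : HT) : (Phi f : (ℤ × ℤ) × ℝ → ℂ) =ᵐ[muX] fcX f := PhiL_coe f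

theorem Phi_toLp {f : T3 → ℂ} (hf : MemLp f 2 volume) :
    (Phi (hf.toLp f) : (ℤ × ℤ) × ℝ → ℂ) =ᵐ[muX] fcX f :=
  (Phi_coe _).trans (fc_congr hf.coeFn_toLp)

/-- **Parseval, polarised** -/
theorem parseval {f g : T3 → ℂ} (hf : MemLp f 2 volume) (hg : MemLp g 2 volume) :
    ∫ x, fcX f x * conj (fcX g x) ∂muX = ∫ x, f x * conj (g x) := by
  have h := Phi.inner_map_map (hg.toLp g) (hf.toLp f)
  rw [MeasureTheory.L2.inner_def, MeasureTheory.L2.inner_def] at h
  have e1 : ∫ x, fcX f x * conj (fcX g x) ∂muX =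
      ∫ x, ⟪(Phi (hg.toLp g) : (ℤ × ℤ) × ℝ → ℂ) x, (Phi (hf.toLp f) : (ℤ × ℤ) × ℝ → ℂ) x⟫_ℂ ∂muX := by
    refine integral_congr_ae ?_
    filter_upwards [Phi_toLp hf, Phi_toLp hg] with x h1 h2
    rw [h1, h2, RCLike.inner_apply]
  have e2 : ∫ x, f x * conj (g x) =
      ∫ x, ⟪(hg.toLp g : T3 → ℂ) x, (hf.toLp f : T3 → ℂ) x⟫_ℂ := by
    refine integral_congr_ae ?_
    filter_upwards [hf.coeFn_toLp, hg.coeFn_toLp] with x h1 h2
    rw [h1, h2, RCLike.inner_apply]
  rw [e1, e2, h]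

/-- **Parseval** -/
theorem parseval_norm {f : T3 → ℂ} (hf : MemLp f 2 volume) :
    ∫ x, ‖fcX f x‖ ^ 2 ∂muX = ∫ x, ‖f x‖ ^ 2 := by
  have h := parseval hf hf
  have e1 : ∀ z : ℂ, z * conj z = ((‖z‖ ^ 2 : ℝ) : ℂ) := by
    intro z; rw [RCLike.mul_conj]; norm_num
  simp only [e1] at h
  rw [integral_complex_ofReal, integral_complex_ofReal] at h
  exact_mod_cast h

/-- uniqueness -/
theorem ae_eq_of_fcX {f g : T3 → ℂ} (hf : MemLp f 2 volume) (hg : MemLp g 2 volume)
    (h : fcX f =ᵐ[muX] fcX g) : f =ᵐ[volume] g := by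
  have h1 : Phi (hf.toLp f) = Phi (hg.toLp g) := by
    apply Lp.ext
    exact (Phi_toLp hf).trans (h.trans (Phi_toLp hg).symm)
  have h2 := Phi.injective h1
  exact (MemLp.toLp_eq_toLp_iff hf hg).1 h2

/-- **reconstruction** -/
theorem exists_of_coeff {a : (ℤ × ℤ) × ℝ → ℂ} (ha : MemLp a 2 muX) :
    ∃ f : T3 → ℂ, MemLp f 2 volume ∧ fcX f =ᵐ[muX] a := by
  obtain ⟨F, hF⟩ := Phi.surjective (ha.toLp a)
  refine ⟨F, Lp.memLp F, ?_⟩
  refine (Phi_coe F).symm.trans ?_
  rw [hF]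
  exact ha.coeFn_toLp

/-- **reconstruction of a real function** -/
theorem exists_real_of_coeff {a : (ℤ × ℤ) × ℝ → ℂ} (ha : MemLp a 2 muX)
    (hs : ∀ᵐ x ∂muX, a (-x.1, x.2) = conj (a x)) :
    ∃ g : T3 → ℝ, MemLp g 2 volume ∧ fcX (fun x => (g x : ℂ)) =ᵐ[muX] a := by
  obtain ⟨f, hf, hfa⟩ := exists_of_coeff ha
  have hconj : MemLp (fun x => conj (f x)) 2 volume := hf.star
  have h1 : fcX (fun x => conj (f x)) =ᵐ[muX] fcX f := by
    refine ae_muX.2 fun k => ?_
    have e1 := ae_muX.1 hfa (-k)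
    have e2 := ae_muX.1 hfa k
    have e3 := ae_muX.1 hs k
    filter_upwards [e1, e2, e3] with c h1 h2 h3
    simp only [fcX] at h1 h2 ⊢
    rw [fc_conj, h1, h2, h3, Complex.conj_conj]
  have h2 := ae_eq_of_fcX hconj hf h1
  have h3 : (fun x => (((f x).re : ℝ) : ℂ)) =ᵐ[volume] f := by
    filter_upwards [h2] with x hx
    exact Complex.conj_eq_iff_re.1 hx
  exact ⟨fun x => (f x).re, hf.re, (fc_congr h3).trans hfa⟩

end Crest.Agent.R081.Fm
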