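import Crest.Agent.R081.StDefs
import Crest.Agent.R081.FmIso

/-! # Row 81, route B: the base stage (helper850)

`q = 1`, `P = 0`, `δ = 1/10`, `α = 5/8`, modes `(0, ±1)` over the open interval `(1/10, 9/10)`. -/

set_option autoImplicit false

namespace Crest.Agent.R081.BaseSt

open MeasureTheory Crest.AnalysisR.Torus3 Crest.Agent.R075 Crest.Agent.R081.Fm
  Crest.Agent.R081.Sm Crest.Agent.R081.Tw Crest.Agent.R081.St
open scoped ContDiff ENNReal

/-- the twist data of the base stage -/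
noncomputable def t0 : TwD where
  q := 1
  P := 0
  del := 1 / 10
  al := 5 / 8
  psi := Fp (1 / 2) (1 / 10)
  q_pos := one_pos
  cop := ⟨1, 0, by norm_num⟩
  del_pos := by norm_num
  del_lt := by norm_num
  al_pos := by norm_num
  smooth := Fp_smooth _ (by norm_num)
  per := fun c => Fp_per _ _ c
  zero := fun c hc => Fp_zero _ (by norm_num) (by norm_num) hc
  lin := fun c hc => by
    rw [Fp_eq _ (by norm_num) hc.1 hc.2]; norm_num; ring

theorem nu_t0 (k : ℤ × ℤ) {c : ℝ} (hc : c ∈ Set.Ioo (1 / 10 : ℝ) (9 / 10)) :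
    t0.nu (k, c) = k.2 * (5 / 8 * (c - 1 / 10)) := by
  have h : t0.psi c = 5 / 8 * (c - 1 / 10) := t0.lin c ⟨hc.1.le, by
    show c ≤ 1 - 1 / 10
    linarith [hc.2]⟩
  show (k.1 : ℝ) * (((0 : ℤ) : ℝ) / ((1 : ℕ) : ℝ)) + k.2 * t0.psi c = _
  rw [h]
  simp

/-- the modes of the base stage -/
def S0 : Set X := {x | (x.1 = (0, 1) ∨ x.1 = (0, -1)) ∧ x.2 ∈ Set.Ioo (1 / 10 : ℝ) (9 / 10)}

theorem meas_S0 : MeasurableSet S0 := by
  have h : S0 = (Prod.fst ⁻¹' {((0, 1) : ℤ × ℤ), (0, -1)}) ∩ (Prod.snd ⁻¹' Set.Ioo (1 / 10 : ℝ) (9 / 10)) := by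
    ext x
    simp [S0]
  rw [h]
  exact (measurable_fst (Set.toFinite _).measurableSet).inter (measurable_snd measurableSet_Ioo)

theorem full_S0 : ∀ᵐ x : ℝ, ∃ y ∈ S0, ∃ n : ℤ, t0.nu y - x = n := by
  have hc : (Set.range (fun n : ℤ => (n : ℝ) / 2)).Countable := Set.countable_range _
  have h1 : ∀ᵐ x : ℝ, x ∉ Set.range (fun n : ℤ => (n : ℝ) / 2) :=
    (measure_eq_zero_iff_ae_notMem).1 (hc.measure_zero volume)
  filter_upwards [h1] with x hx
  have h2 : Int.fract x ≠ 0 := by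
    intro h
    apply hx
    refine ⟨2 * ⌊x⌋, ?_⟩
    have := Int.floor_add_fract x
    push_cast
    linarith
  have h3 : Int.fract x ≠ 1 / 2 := by
    intro h
    apply hx
    refine ⟨2 * ⌊x⌋ + 1, ?_⟩
    have := Int.floor_add_fract x
    push_cast
    linarith
  have h4 := Int.fract_nonneg x
  have h5 := Int.fract_lt_one x
  have h6 := Int.floor_add_fract x
  have h7 : 0 < Int.fract x := lt_of_le_of_ne h4 (Ne.symm h2)
  rcases lt_or_gt_of_ne h3 with h | h
  · have hm : 1 / 10 + 8 / 5 * Int.fract x ∈ Set.Ioo (1 / 10 : ℝ) (9 / 10) :=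
      ⟨by linarith, by linarith⟩
    refine ⟨((0, 1), 1 / 10 + 8 / 5 * Int.fract x), ⟨Or.inl rfl, hm⟩, -⌊x⌋, ?_⟩
    rw [nu_t0 _ hm]
    push_cast
    linarith
  · have hm : 1 / 10 + 8 / 5 * (1 - Int.fract x) ∈ Set.Ioo (1 / 10 : ℝ) (9 / 10) :=
      ⟨by linarith, by linarith⟩
    refine ⟨((0, -1), 1 / 10 + 8 / 5 * (1 - Int.fract x)), ⟨Or.inr rfl, hm⟩, -⌊x⌋ - 1, ?_⟩
    rw [nu_t0 _ hm]
    push_cast
    linarith

theorem inj_S0 : ∀ x ∈ S0, ∀ y ∈ S0, (∃ n : ℤ, t0.nu x - t0.nu y = n) → x = y := by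
  rintro ⟨k, c⟩ ⟨hk, hc⟩ ⟨k', c'⟩ ⟨hk', hc'⟩ ⟨n, hn⟩
  simp only at hk hk' hc hc'
  rw [nu_t0 k hc, nu_t0 k' hc'] at hn
  obtain ⟨a1, a2⟩ := hc
  obtain ⟨b1, b2⟩ := hc'
  rcases hk with rfl | rfl <;> rcases hk' with rfl | rfl
  · have h1 : (-1 : ℝ) < n := by rw [← hn]; push_cast; linarith
    have h2 : (n : ℝ) < 1 := by rw [← hn]; push_cast; linarith
    have h3 : n = 0 := by
      have h1' : (-1 : ℤ) < n := by exact_mod_cast h1
      have h2' : n < (1 : ℤ) := by exact_mod_cast h2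
      omega
    rw [h3] at hn
    push_cast at hn
    have : c = c' := by linarith
    rw [this]
  · exfalso
    have h1 : (0 : ℝ) < n := by rw [← hn]; push_cast; linarith
    have h2 : (n : ℝ) < 1 := by rw [← hn]; push_cast; linarith
    have h1' : (0 : ℤ) < n := by exact_mod_cast h1
    have h2' : n < (1 : ℤ) := by exact_mod_cast h2
    omega
  · exfalso
    have h1 : (-1 : ℝ) < n := by rw [← hn]; push_cast; linarith
    have h2 : (n : ℝ) < 0 := by rw [← hn]; push_cast; linarith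
    have h1' : (-1 : ℤ) < n := by exact_mod_cast h1
    have h2' : n < (0 : ℤ) := by exact_mod_cast h2
    omega
  · have h1 : (-1 : ℝ) < n := by rw [← hn]; push_cast; linarith
    have h2 : (n : ℝ) < 1 := by rw [← hn]; push_cast; linarith
    have h3 : n = 0 := by
      have h1' : (-1 : ℤ) < n := by exact_mod_cast h1
      have h2' : n < (1 : ℤ) := by exact_mod_cast h2
      omega
    rw [h3] at hn
    push_cast at hn
    have : c = c' := by linarith
    rw [this]

/-- the mode set of the base stage -/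
noncomputable def M0 : Modes t0 where
  S := S0
  K := {(0, 1), (0, -1)}
  meas := meas_S0
  memK := fun x hx => by
    rcases hx.1 with h | h <;> simp [h]
  ne0 := fun x hx => by
    rcases hx.1 with h | h <;> simp [h]
  sub := fun x hx => ⟨hx.2.1.le, by
    have := hx.2.2
    show x.2 ≤ 1 - 1 / 10
    linarith⟩
  symm := fun x hx => by
    refine ⟨?_, hx.2⟩
    rcases hx.1 with h | h
    · right; simp [h]
    · left; simp [h]
  inj := inj_S0
  full := full_S0

/-- the coefficients of the function of the base stage -/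
noncomputable def a0 : X → ℂ := S0.indicator fun _ => ((Real.sqrt (5 / 8) : ℝ) : ℂ)

theorem muX_S0 : muX S0 ≠ ⊤ := by
  have h : muX S0 = ∑' k : ℤ × ℤ, I01 {c | (k, c) ∈ S0} := by
    rw [← lintegral_indicator_one meas_S0, lintegral_muX]
    refine tsum_congr fun k => ?_
    have hm : MeasurableSet {c : ℝ | (k, c) ∈ S0} := measurable_prodMk_left meas_S0
    rw [← lintegral_indicator_one hm]
    rfl
  rw [h, tsum_eq_sum (s := {((0, 1) : ℤ × ℤ), (0, -1)})]
  · exact ENNReal.sum_ne_top.2 fun k _ => measure_ne_top _ _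
  · intro k hk
    have : {c : ℝ | (k, c) ∈ S0} = ∅ := by
      refine Set.eq_empty_iff_forall_notMem.2 fun c hc => hk ?_
      have h1 : k = (0, 1) ∨ k = (0, -1) := hc.1
      simpa using h1
    rw [this, measure_empty]

theorem memLp_a0 : MemLp a0 2 muX :=
  memLp_indicator_const 2 meas_S0 _ (Or.inr muX_S0)

theorem symm_a0 (x : X) : a0 (-x.1, x.2) = (starRingEnd ℂ) (a0 x) := by
  unfold a0
  by_cases h : x ∈ S0
  · have h' : ((-x.1, x.2) : X) ∈ S0 := M0.symm x h
    rw [Set.indicator_of_mem h, Set.indicator_of_mem h', Complex.conj_ofReal]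
  · have h' : ((-x.1, x.2) : X) ∉ S0 := by
      intro h2
      apply h
      have h3 := M0.symm _ h2
      have h4 : ((-(-x.1, x.2).1, (-x.1, x.2).2) : X) = x := by simp
      rw [h4] at h3
      exact h3
    rw [Set.indicator_of_notMem h, Set.indicator_of_notMem h', map_zero]

/-- **the base stage** -/
theorem nonempty_stage : Nonempty Stage := by
  obtain ⟨g, hg, hga⟩ := exists_real_of_coeff memLp_a0 (Filter.Eventually.of_forall symm_a0)
  refine ⟨{ t := t0, H := LD.one, mpH := mp_one, T := TT t0 LD.one, hT := rfl, M := M0, g := g, g_lp := hg, flat := ?_ }⟩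
  filter_upwards [hga] with x hx
  rw [hx]
  show ‖a0 x‖ ^ 2 = S0.indicator (fun x : X => |(x.1.2 : ℝ)| * (5 / 8)) x
  unfold a0
  by_cases h : x ∈ S0
  · rw [Set.indicator_of_mem h, Set.indicator_of_mem h, Complex.norm_real, Real.norm_eq_abs,
      sq_abs, Real.sq_sqrt (by norm_num)]
    rcases h.1 with h1 | h1 <;> simp [h1]
  · rw [Set.indicator_of_notMem h, Set.indicator_of_notMem h]
    simp

end Crest.Agent.R081.BaseSt
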