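import Crest.Agent.R081.FmDefs

/-! # Row 81, route B: the FOURIER LAYER (helper325), part 1: measure preserving maps and Parseval
on the two-torus -/

set_option autoImplicit false

namespace Crest.Agent.R081.Fm

open MeasureTheory Crest.AnalysisR.Torus3 Crest.Agent.R075
open scoped ENNReal ComplexConjugate

/-- the two-torus -/
abbrev T2 : Type := Fin 2 → UnitAddCircle

instance instProbI01 : IsProbabilityMeasure I01 := by
  constructor
  simp [I01]

instance instProbCircle : IsProbabilityMeasure (volume : Measure UnitAddCircle) :=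
  ⟨UnitAddCircle.measure_univ⟩

instance instProbT2 : IsProbabilityMeasure (volume : Measure T2) :=
  inferInstanceAs (IsProbabilityMeasure (Measure.pi fun _ => (volume : Measure UnitAddCircle)))

instance instProbT3 : IsProbabilityMeasure (volume : Measure T3) :=
  inferInstanceAs (IsProbabilityMeasure (Measure.pi fun _ => (volume : Measure UnitAddCircle)))

theorem mp_mk : MeasurePreserving (fun x : ℝ => (x : UnitAddCircle)) I01 volume := by
  have := UnitAddCircle.measurePreserving_mk 0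
  simpa [I01] using this

/-- the projection to the two-torus -/
def Q2 (y : ℝ × ℝ) : T2 := ![(y.1 : UnitAddCircle), (y.2 : UnitAddCircle)]

theorem mp_Q2 : MeasurePreserving Q2 (I01.prod I01) volume := by
  have h1 : MeasurePreserving (Prod.map (fun x : ℝ => (x : UnitAddCircle))
      (fun x : ℝ => (x : UnitAddCircle))) (I01.prod I01) (volume.prod volume) := mp_mk.prod mp_mk
  have h2 := (volume_preserving_finTwoArrow UnitAddCircle).symm
  exact h2.comp h1

/-- adding the first coordinate -/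
def C3 (p : ℝ × T2) : T3 := Fin.cons (p.1 : UnitAddCircle) p.2

theorem mp_C3 : MeasurePreserving C3 (I01.prod volume) volume := by
  have h1 : MeasurePreserving (Prod.map (fun x : ℝ => (x : UnitAddCircle))
      (id : T2 → T2)) (I01.prod volume) (volume.prod volume) := mp_mk.prod (MeasurePreserving.id _)
  have h2 := (volume_preserving_piFinSuccAbove (fun _ : Fin 3 => UnitAddCircle) 0).symm
  have h3 := h2.comp h1
  have : C3 = (⇑(MeasurableEquiv.piFinSuccAbove (fun _ : Fin 3 => UnitAddCircle) 0).symm ∘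
      Prod.map (fun x : ℝ => (x : UnitAddCircle)) (id : T2 → T2)) := by
    funext p
    simp [C3, MeasurableEquiv.piFinSuccAbove]
    rfl
  rw [this]
  exact h3

theorem C3_Q2 (c : ℝ) (y : ℝ × ℝ) : C3 (c, Q2 y) = P3 (c, y) := by
  funext i
  fin_cases i <;> simp [C3, Q2, P3, proj]

theorem mp_P3 : MeasurePreserving P3 (I01.prod (I01.prod I01)) volume := by
  have h1 : MeasurePreserving (Prod.map (id : ℝ → ℝ) Q2) (I01.prod (I01.prod I01))
      (I01.prod volume) := (MeasurePreserving.id _).prod mp_Q2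
  have h3 := mp_C3.comp h1
  have : P3 = C3 ∘ Prod.map (id : ℝ → ℝ) Q2 := by
    funext p
    exact (C3_Q2 p.1 p.2).symm
  rw [this]
  exact h3

theorem vol_circle : (volume : Measure UnitAddCircle) = AddCircle.haarAddCircle := by
  rw [AddCircle.volume_eq_smul_haarAddCircle]; simp

/-- integer vectors for the two-torus -/
def kv (k : ℤ × ℤ) : Fin 2 → ℤ := ![k.1, k.2]

theorem mFourier_Q2 (k : ℤ × ℤ) (y : ℝ × ℝ) : UnitAddTorus.mFourier (kv k) (Q2 y) = ek k y := by
  have h : ∀ (n : ℤ) (x : ℝ), (fourier n (x : UnitAddCircle) : ℂ) = ee (n * x) := by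
    intro n x
    rw [fourier_coe_apply]
    unfold ee
    congr 1
    push_cast
    ring
  have e : UnitAddTorus.mFourier (kv k) (Q2 y) =
      fourier k.1 ((y.1 : ℝ) : UnitAddCircle) * fourier k.2 ((y.2 : ℝ) : UnitAddCircle) := by
    simp [UnitAddTorus.mFourier, kv, Q2]
  rw [e, h, h, ek, ee_add]

/-- Parseval on the two-torus -/
theorem parseval2 {F : T2 → ℂ} (hF : MemLp F 2 volume) :
    HasSum (fun k : Fin 2 → ℤ => ‖∫ z, UnitAddTorus.mFourier (-k) z * F z‖ ^ 2)
      (∫ z, ‖F z‖ ^ 2) := by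
  have hvol : (volume : Measure T2) = Measure.pi (fun _ => AddCircle.haarAddCircle) := by
    change Measure.pi (fun _ => (volume : Measure UnitAddCircle)) = _
    rw [vol_circle]
  rw [hvol] at hF ⊢
  have h1 := UnitAddTorus.hasSum_sq_mFourierCoeff (d := Fin 2) (hF.toLp F)
  have h2 : ∫ z, ‖(hF.toLp F) z‖ ^ 2 ∂(Measure.pi (fun _ : Fin 2 => AddCircle.haarAddCircle)) =
      ∫ z, ‖F z‖ ^ 2 ∂(Measure.pi (fun _ : Fin 2 => AddCircle.haarAddCircle)) := by
    refine integral_congr_ae ?_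
    filter_upwards [hF.coeFn_toLp] with z hz
    rw [hz]
  have h3 : ∀ k : Fin 2 → ℤ, UnitAddTorus.mFourierCoeff (hF.toLp F) k =
      ∫ z, UnitAddTorus.mFourier (-k) z * F z
        ∂(Measure.pi (fun _ : Fin 2 => AddCircle.haarAddCircle)) := by
    intro k
    refine integral_congr_ae ?_
    filter_upwards [hF.coeFn_toLp] with z hz
    rw [hz, smul_eq_mul]
  simp only [h3] at h1
  rw [← h2]
  exact h1

/-- integration over the two-torus in coordinates (no measurability) -/
theorem integral_Q2 (G : T2 → ℂ) : ∫ z, G z = ∫ y, G (Q2 y) ∂(I01.prod I01) := by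
  have hvol : (volume : Measure T2) = Measure.pi (fun _ => AddCircle.haarAddCircle) := by
    change Measure.pi (fun _ => (volume : Measure UnitAddCircle)) = _
    rw [vol_circle]
  rw [hvol]
  have h1 := UnitAddTorus.integral_preimage (d := Fin 2) G (fun _ => 0)
  refine Eq.trans h1 ?_
  have hI : I01.prod I01 = (volume : Measure (ℝ × ℝ)).restrict (Set.Ioc 0 1 ×ˢ Set.Ioc 0 1) := by
    rw [I01, Measure.prod_restrict]; rfl
  rw [hI]
  have h2 := (volume_preserving_finTwoArrow ℝ).symm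
  have h3 : (volume : Measure (ℝ × ℝ)).restrict (Set.Ioc 0 1 ×ˢ Set.Ioc 0 1) =
      (volume : Measure (ℝ × ℝ)).restrict ((MeasurableEquiv.finTwoArrow).symm ⁻¹'
        {x : Fin 2 → ℝ | ∀ i, x i ∈ Set.Ioc ((fun _ => (0:ℝ)) i) ((fun _ => (0:ℝ)) i + 1)}) := by
    congr 1
    ext y
    simp [MeasurableEquiv.finTwoArrow, Fin.forall_fin_two]
  rw [h3]
  have h4 := h2.setIntegral_preimage_emb (MeasurableEquiv.measurableEmbedding _)
    (fun x : Fin 2 → ℝ => G (fun i => (x i : UnitAddCircle)))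
    {x : Fin 2 → ℝ | ∀ i, x i ∈ Set.Ioc ((fun _ => (0:ℝ)) i) ((fun _ => (0:ℝ)) i + 1)}
  refine Eq.trans h4.symm ?_
  refine integral_congr_ae (Filter.Eventually.of_forall fun y => ?_)
  have : (fun i => (((MeasurableEquiv.finTwoArrow.symm y : Fin 2 → ℝ) i : ℝ) : UnitAddCircle)) =
      Q2 y := by
    funext i
    fin_cases i <;> simp [MeasurableEquiv.finTwoArrow, Q2]
  simp only [this]

theorem kv_neg (k : ℤ × ℤ) : kv (-k) = - kv k := by
  funext i; fin_cases i <;> simp [kv]

/-- the coefficient as an integral over the two-torus (no measurability) -/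
theorem fc_eq (f : T3 → ℂ) (k : ℤ × ℤ) (c : ℝ) :
    fc f k c = ∫ z, UnitAddTorus.mFourier (-kv k) z * f (C3 (c, z)) := by
  rw [integral_Q2, fc]
  simp only [← kv_neg, mFourier_Q2, C3_Q2]

theorem C3_add_one (c : ℝ) (z : T2) : C3 (c + 1, z) = C3 (c, z) := by
  funext i
  refine Fin.cases ?_ (fun j => ?_) i
  · simp only [C3, Fin.cons_zero]
    rw [AddCircle.coe_add]
    simp
  · simp [C3]

theorem fc_add_one (f : T3 → ℂ) (k : ℤ × ℤ) (c : ℝ) : fc f k (c + 1) = fc f k c := by
  simp only [fc_eq, C3_add_one]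

/-- the equivalence of the two index sets -/
def kvE : ℤ × ℤ ≃ (Fin 2 → ℤ) where
  toFun := kv
  invFun v := (v 0, v 1)
  left_inv k := by simp [kv]
  right_inv v := by funext i; fin_cases i <;> simp [kv]

theorem parseval_fibre {f : T3 → ℂ} {c : ℝ} (hf : MemLp (fun z => f (C3 (c, z))) 2 volume) :
    HasSum (fun k : ℤ × ℤ => ‖fc f k c‖ ^ 2) (∫ z, ‖f (C3 (c, z))‖ ^ 2) := by
  have h := parseval2 hf
  rw [← kvE.hasSum_iff] at h
  have : (fun k : ℤ × ℤ => ‖fc f k c‖ ^ 2) = (fun k : Fin 2 → ℤ =>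
      ‖∫ z, UnitAddTorus.mFourier (-k) z * f (C3 (c, z))‖ ^ 2) ∘ kvE := by
    funext k
    simp only [Function.comp_apply, fc_eq]
    rfl
  rw [this]
  exact h

theorem parseval_fibre_enn {f : T3 → ℂ} {c : ℝ} (hf : MemLp (fun z => f (C3 (c, z))) 2 volume) :
    ∑' k : ℤ × ℤ, ‖fc f k c‖ₑ ^ 2 = ∫⁻ z, ‖f (C3 (c, z))‖ₑ ^ 2 := by
  have h := parseval_fibre hf
  have hi : Integrable (fun z => ‖f (C3 (c, z))‖ ^ 2) volume := hf.integrable_norm_pow (by norm_num)
  have e1 : ∀ k : ℤ × ℤ, ‖fc f k c‖ₑ ^ 2 = ENNReal.ofReal (‖fc f k c‖ ^ 2) := by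
    intro k
    rw [ENNReal.ofReal_pow (norm_nonneg _), ofReal_norm]
  have e2 : ∀ z, ‖f (C3 (c, z))‖ₑ ^ 2 = ENNReal.ofReal (‖f (C3 (c, z))‖ ^ 2) := by
    intro z
    rw [ENNReal.ofReal_pow (norm_nonneg _), ofReal_norm]
  simp only [e1, e2]
  rw [← ENNReal.ofReal_tsum_of_nonneg (fun k => by positivity) h.summable, h.tsum_eq,
    ofReal_integral_eq_lintegral_ofReal hi (Filter.Eventually.of_forall fun z => by positivity)]

/-! ### the mode space -/

theorem muX_eq : muX = Measure.sum (fun k : ℤ × ℤ => I01.map (Prod.mk k)) := by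
  unfold muX Measure.count
  ext s hs
  rw [Measure.prod_apply hs, lintegral_sum_measure, Measure.sum_apply _ hs]
  congr 1
  funext k
  rw [lintegral_dirac, Measure.map_apply measurable_prodMk_left hs]

theorem lintegral_muX (G : (ℤ × ℤ) × ℝ → ℝ≥0∞) :
    ∫⁻ x, G x ∂muX = ∑' k : ℤ × ℤ, ∫⁻ c, G (k, c) ∂I01 := by
  rw [muX_eq, lintegral_sum_measure]
  congr 1
  funext k
  rw [(measurableEmbedding_prodMk_left k).lintegral_map]

theorem ae_muX {p : (ℤ × ℤ) × ℝ → Prop} :
    (∀ᵐ x ∂muX, p x) ↔ ∀ k : ℤ × ℤ, ∀ᵐ c ∂I01, p (k, c) := by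
  rw [muX_eq, Measure.ae_sum_iff]
  refine forall_congr' fun k => ?_
  exact (measurableEmbedding_prodMk_left k).ae_map_iff

theorem aesm_muX {a : (ℤ × ℤ) × ℝ → ℂ} :
    AEStronglyMeasurable a muX ↔ ∀ k : ℤ × ℤ, AEStronglyMeasurable (fun c => a (k, c)) I01 := by
  rw [aestronglyMeasurable_iff_aemeasurable, muX_eq, aemeasurable_sum_measure_iff]
  refine forall_congr' fun k => ?_
  rw [(measurableEmbedding_prodMk_left k).aemeasurable_map_iff,
    aestronglyMeasurable_iff_aemeasurable]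
  rfl

theorem integrable_muX_slice {G : (ℤ × ℤ) × ℝ → ℂ} (hG : Integrable G muX) (k : ℤ × ℤ) :
    Integrable (fun c => G (k, c)) I01 := by
  rw [muX_eq] at hG
  have h1 : Integrable G (I01.map (Prod.mk k)) :=
    hG.mono_measure (Measure.le_sum _ k)
  exact ((measurableEmbedding_prodMk_left k).integrable_map_iff).1 h1

theorem hasSum_muX {G : (ℤ × ℤ) × ℝ → ℂ} (hG : Integrable G muX) :
    HasSum (fun k : ℤ × ℤ => ∫ c, G (k, c) ∂I01) (∫ x, G x ∂muX) := by
  rw [muX_eq] at hG ⊢
  have h := hasSum_integral_measure hG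
  simpa only [(measurableEmbedding_prodMk_left _).integral_map] using h

theorem hasSum_muX_real {G : (ℤ × ℤ) × ℝ → ℝ} (hG : Integrable G muX) :
    HasSum (fun k : ℤ × ℤ => ∫ c, G (k, c) ∂I01) (∫ x, G x ∂muX) := by
  rw [muX_eq] at hG ⊢
  have h := hasSum_integral_measure hG
  simpa only [(measurableEmbedding_prodMk_left _).integral_map] using h

/-! ### slices of square integrable functions -/

theorem aesm_slice {f : T3 → ℂ} (hf : AEStronglyMeasurable f volume) :
    ∀ᵐ c ∂I01, AEStronglyMeasurable (fun z => f (C3 (c, z))) volume :=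
  (hf.comp_measurePreserving mp_C3).prodMk_left

theorem lintegral_slices {f : T3 → ℂ} (hf : AEStronglyMeasurable f volume) :
    ∫⁻ x, ‖f x‖ₑ ^ 2 = ∫⁻ c, ∫⁻ z, ‖f (C3 (c, z))‖ₑ ^ 2 ∂volume ∂I01 := by
  have h0 : AEMeasurable (fun x => ‖f x‖ₑ ^ 2) (volume : Measure T3) := hf.enorm.pow_const 2
  have h1 : ∫⁻ x, ‖f x‖ₑ ^ 2 = ∫⁻ p, ‖f (C3 p)‖ₑ ^ 2 ∂(I01.prod volume) := by
    have h0' := h0
    rw [← mp_C3.map_eq] at h0' ⊢
    exact lintegral_map' h0' mp_C3.measurable.aemeasurable
  rw [h1, lintegral_prod]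
  exact (hf.comp_measurePreserving mp_C3).enorm.pow_const 2

theorem memLp_two_iff {α : Type*} [MeasurableSpace α] {μ : Measure α} {f : α → ℂ} :
    MemLp f 2 μ ↔ AEStronglyMeasurable f μ ∧ ∫⁻ x, ‖f x‖ₑ ^ 2 ∂μ < ∞ := by
  unfold MemLp
  refine and_congr_right fun _ => ?_
  rw [eLpNorm_lt_top_iff_lintegral_rpow_enorm_lt_top (by norm_num) (by norm_num)]
  simp

theorem memLp_slice {f : T3 → ℂ} (hf : MemLp f 2 volume) :
    ∀ᵐ c ∂I01, MemLp (fun z => f (C3 (c, z))) 2 volume := by
  have h1 := (memLp_two_iff.1 hf).2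
  rw [lintegral_slices hf.aestronglyMeasurable] at h1
  have h2 := hf.aestronglyMeasurable.comp_measurePreserving mp_C3
  have hm : AEMeasurable (fun c => ∫⁻ z, ‖f (C3 (c, z))‖ₑ ^ 2) I01 :=
    (h2.enorm.pow_const 2).lintegral_prod_right'
  filter_upwards [aesm_slice hf.aestronglyMeasurable, ae_lt_top' hm h1.ne] with c h3 h4
  exact memLp_two_iff.2 ⟨h3, h4⟩

theorem continuous_ek (k : ℤ × ℤ) : Continuous (ek k) := by
  unfold ek
  exact ee_continuous.comp (by fun_prop)

theorem aesm_fc {f : T3 → ℂ} (hf : AEStronglyMeasurable f volume) (k : ℤ × ℤ) :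
    AEStronglyMeasurable (fc f k) I01 := by
  have h2 := hf.comp_measurePreserving mp_P3
  have h3 : AEStronglyMeasurable (fun p : ℝ × (ℝ × ℝ) => ek (-k) p.2 * f (P3 p))
      (I01.prod (I01.prod I01)) :=
    (((continuous_ek (-k)).comp continuous_snd).aestronglyMeasurable).mul h2
  exact h3.integral_prod_right'

/-- Parseval on the three-torus, in `ℝ≥0∞` -/
theorem lintegral_fcX {f : T3 → ℂ} (hf : MemLp f 2 volume) :
    ∫⁻ x, ‖fcX f x‖ₑ ^ 2 ∂muX = ∫⁻ x, ‖f x‖ₑ ^ 2 := by
  rw [lintegral_muX, lintegral_slices hf.aestronglyMeasurable]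
  simp only [fcX]
  rw [← lintegral_tsum]
  · refine lintegral_congr_ae ?_
    filter_upwards [memLp_slice hf] with c hc
    exact parseval_fibre_enn hc
  · intro k
    exact (aesm_fc hf.aestronglyMeasurable k).enorm.pow_const 2

theorem memLp_fcX {f : T3 → ℂ} (hf : MemLp f 2 volume) : MemLp (fcX f) 2 muX := by
  refine memLp_two_iff.2 ⟨aesm_muX.2 fun k => aesm_fc hf.aestronglyMeasurable k, ?_⟩
  rw [lintegral_fcX hf]
  exact (memLp_two_iff.1 hf).2

theorem fc_congr {f g : T3 → ℂ} (h : f =ᵐ[volume] g) : fcX f =ᵐ[muX] fcX g := by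
  refine ae_muX.2 fun k => ?_
  have h1 : ∀ᵐ p ∂(I01.prod volume), f (C3 p) = g (C3 p) :=
    mp_C3.quasiMeasurePreserving.ae h
  have h2 := Measure.ae_ae_of_ae_prod h1
  filter_upwards [h2] with c hc
  simp only [fcX, fc_eq]
  refine integral_congr_ae ?_
  filter_upwards [hc] with z hz
  rw [hz]

theorem integrable_slice {f : T3 → ℂ} (hf : Integrable f volume) :
    ∀ᵐ c ∂I01, Integrable (fun z => f (C3 (c, z))) volume := by
  have h2 : Integrable (fun p => f (C3 p)) (I01.prod volume) :=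
    (mp_C3.integrable_comp hf.aestronglyMeasurable).2 hf
  exact h2.prod_right_ae

theorem integrable_mF {F : T2 → ℂ} (hF : Integrable F volume) (k : Fin 2 → ℤ) :
    Integrable (fun z => UnitAddTorus.mFourier k z * F z) volume := by
  refine hF.bdd_mul (c := 1) ?_ ?_
  · exact (UnitAddTorus.mFourier k).continuous.aestronglyMeasurable
  · refine Filter.Eventually.of_forall fun z => ?_
    have := (UnitAddTorus.mFourier k).norm_coe_le_norm z
    rwa [UnitAddTorus.mFourier_norm] at this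

theorem fc_add {f g : T3 → ℂ} (hf : Integrable f volume) (hg : Integrable g volume) :
    fcX (f + g) =ᵐ[muX] fcX f + fcX g := by
  refine ae_muX.2 fun k => ?_
  filter_upwards [integrable_slice hf, integrable_slice hg] with c h1 h2
  simp only [fcX, fc_eq, Pi.add_apply]
  rw [← integral_add (integrable_mF h1 _) (integrable_mF h2 _)]
  simp only [mul_add]

theorem fc_smul (a : ℂ) (f : T3 → ℂ) (k : ℤ × ℤ) (c : ℝ) : fc (a • f) k c = a * fc f k c := by
  simp only [fc, Pi.smul_apply, smul_eq_mul]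
  rw [← integral_const_mul]
  congr 1
  funext y
  ring

theorem fcX_smul (a : ℂ) (f : T3 → ℂ) : fcX (a • f) = a • fcX f := by
  funext x
  simp [fcX, fc_smul]

theorem ek_neg (k : ℤ × ℤ) (y : ℝ × ℝ) : ek (-k) y = conj (ek k y) := by
  unfold ek
  rw [ee_conj]
  congr 1
  push_cast [Prod.fst_neg, Prod.snd_neg]
  ring

theorem fc_conj (f : T3 → ℂ) (k : ℤ × ℤ) (c : ℝ) :
    fc (fun x => conj (f x)) k c = conj (fc f (-k) c) := by
  simp only [fc]
  rw [← integral_conj]
  congr 1
  funext y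
  rw [map_mul, ← ek_neg, neg_neg]

end Crest.Agent.R081.Fm
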