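import Mathlib
import Crest.Prelude.Def_Torus3

/-!
# Glue: from the real Koopman operator to the literal statement S0108
-/

set_option autoImplicit false

namespace Crest.Agent.R081.Glue

open MeasureTheory Crest.AnalysisR.Torus3
open scoped ContDiff ENNReal RealInnerProductSpace

instance instProbUnitAddCircle : IsProbabilityMeasure (volume : Measure UnitAddCircle) :=
  ⟨UnitAddCircle.measure_univ⟩

instance instProbT3 : IsProbabilityMeasure (volume : Measure T3) :=
  inferInstanceAs (IsProbabilityMeasure (Measure.pi fun _ => (volume : Measure UnitAddCircle)))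

/-- The literal conclusion of S0108. -/
def Goal : Prop :=
    ∃ (T : Equiv.Perm T3) (g : T3 → ℝ), IsSmoothDiffeo T ∧
      MeasureTheory.MeasurePreserving T MeasureTheory.volume MeasureTheory.volume ∧
      MeasureTheory.MemLp g 2 MeasureTheory.volume ∧ ∫ x, g x = 0 ∧
      (∀ m n : ℤ, ∫ x, g ((T ^ m) x) * g ((T ^ n) x) = if m = n then 1 else 0) ∧
      (∀ h : T3 → ℂ, MeasureTheory.MemLp h 2 MeasureTheory.volume → ∫ x, h x = 0 →
        (∀ n : ℤ, ∫ x, h x * (g ((T ^ n) x) : ℂ) = 0) → h =ᵐ[MeasureTheory.volume] 0)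

theorem mp_pow {T : Equiv.Perm T3} (hT : MeasurePreserving T volume volume) (n : ℕ) :
    MeasurePreserving ⇑(T ^ n) volume volume := by
  induction n with
  | zero => exact MeasurePreserving.id _
  | succ n ih =>
    have : ⇑(T ^ (n + 1)) = ⇑(T ^ n) ∘ ⇑T := by
      rw [pow_succ]; rfl
    rw [this]
    exact ih.comp hT

theorem mp_zpow {T : Equiv.Perm T3} (hT : MeasurePreserving T volume volume)
    (hT' : MeasurePreserving T.symm volume volume) (n : ℤ) :
    MeasurePreserving ⇑(T ^ n) volume volume := by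
  cases n with
  | ofNat n =>
    simpa using mp_pow hT n
  | negSucc n =>
    rw [zpow_negSucc]
    have h : MeasurePreserving ⇑((T⁻¹) ^ (n + 1)) volume volume := by
      apply mp_pow
      exact hT'
    rwa [inv_pow] at h

/-- The Koopman operator on real `L²`. -/
noncomputable def koop (T : Equiv.Perm T3) (hT : MeasurePreserving T volume volume)
    (hT' : MeasurePreserving T.symm volume volume) :
    (Lp ℝ 2 (volume : Measure T3)) ≃ₗᵢ[ℝ] (Lp ℝ 2 (volume : Measure T3)) where
  toLinearEquiv := LinearEquiv.ofLinearMap (Lp.compMeasurePreservingₗ ℝ T hT)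
    (Lp.compMeasurePreservingₗ ℝ T.symm hT')
    (by
      ext1 f
      change Lp.compMeasurePreserving T hT (Lp.compMeasurePreserving T.symm hT' f) = f
      rw [← Lp.compMeasurePreserving_comp_apply f hT' hT]
      have h : (⇑T.symm ∘ ⇑T) = id := by funext x; simp
      simp only [h]
      exact Lp.compMeasurePreserving_id_apply f)
    (by
      ext1 f
      change Lp.compMeasurePreserving T.symm hT' (Lp.compMeasurePreserving T hT f) = f
      rw [← Lp.compMeasurePreserving_comp_apply f hT hT']
      have h : (⇑T ∘ ⇑T.symm) = id := by funext x; simp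
      simp only [h]
      exact Lp.compMeasurePreserving_id_apply f)
  norm_map' f := Lp.norm_compMeasurePreserving f hT

theorem koop_apply (T : Equiv.Perm T3) (hT : MeasurePreserving T volume volume)
    (hT' : MeasurePreserving T.symm volume volume) (f : Lp ℝ 2 (volume : Measure T3)) :
    koop T hT hT' f = Lp.compMeasurePreserving T hT f := rfl

theorem coeFn_koop (T : Equiv.Perm T3) (hT : MeasurePreserving T volume volume)
    (hT' : MeasurePreserving T.symm volume volume) (f : Lp ℝ 2 (volume : Measure T3)) :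
    koop T hT hT' f =ᵐ[volume] f ∘ T := Lp.coeFn_compMeasurePreserving f hT

theorem coeFn_koop_symm (T : Equiv.Perm T3) (hT : MeasurePreserving T volume volume)
    (hT' : MeasurePreserving T.symm volume volume) (f : Lp ℝ 2 (volume : Measure T3)) :
    (koop T hT hT').symm f =ᵐ[volume] f ∘ T.symm := Lp.coeFn_compMeasurePreserving f hT'

theorem coeFn_koop_pow (T : Equiv.Perm T3) (hT : MeasurePreserving T volume volume)
    (hT' : MeasurePreserving T.symm volume volume) (n : ℕ) (f : Lp ℝ 2 (volume : Measure T3)) :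
    ((koop T hT hT') ^ n) f =ᵐ[volume] f ∘ ⇑(T ^ n) := by
  induction n with
  | zero => simp
  | succ n ih =>
    have h1 : ((koop T hT hT') ^ (n + 1)) f = koop T hT hT' (((koop T hT hT') ^ n) f) := by
      rw [pow_succ']; rfl
    have h2 : ⇑(T ^ (n + 1)) = ⇑(T ^ n) ∘ ⇑T := by rw [pow_succ]; rfl
    rw [h1, h2]
    refine (coeFn_koop T hT hT' _).trans ?_
    have := hT.quasiMeasurePreserving.ae_eq_comp ih
    exact this

theorem coeFn_koop_inv_pow (T : Equiv.Perm T3) (hT : MeasurePreserving T volume volume)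
    (hT' : MeasurePreserving T.symm volume volume) (n : ℕ) (f : Lp ℝ 2 (volume : Measure T3)) :
    ((koop T hT hT')⁻¹ ^ n) f =ᵐ[volume] f ∘ ⇑(T⁻¹ ^ n) := by
  induction n with
  | zero => simp
  | succ n ih =>
    have h1 : ((koop T hT hT')⁻¹ ^ (n + 1)) f =
        (koop T hT hT').symm (((koop T hT hT')⁻¹ ^ n) f) := by
      rw [pow_succ']; rfl
    have h2 : ⇑(T⁻¹ ^ (n + 1)) = ⇑(T⁻¹ ^ n) ∘ ⇑T.symm := by rw [pow_succ]; rfl
    rw [h1, h2]
    refine (coeFn_koop_symm T hT hT' _).trans ?_
    have := hT'.quasiMeasurePreserving.ae_eq_comp ih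
    exact this

theorem coeFn_koop_zpow (T : Equiv.Perm T3) (hT : MeasurePreserving T volume volume)
    (hT' : MeasurePreserving T.symm volume volume) (n : ℤ) (f : Lp ℝ 2 (volume : Measure T3)) :
    ((koop T hT hT') ^ n) f =ᵐ[volume] f ∘ ⇑(T ^ n) := by
  cases n with
  | ofNat n => simpa using coeFn_koop_pow T hT hT' n f
  | negSucc n =>
    have h := coeFn_koop_inv_pow T hT hT' (n + 1) f
    rw [zpow_negSucc, zpow_negSucc, ← inv_pow, ← inv_pow]
    exact h

/-- Integral form of the inner product. -/
theorem inner_eq (f g : Lp ℝ 2 (volume : Measure T3)) :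
    ⟪f, g⟫ = ∫ x, f x * g x := by
  rw [L2.inner_def]
  refine integral_congr_ae (Filter.Eventually.of_forall fun x => ?_)
  simp [mul_comm]

/-- **Glue.** Everything in terms of the Koopman operator on real `L²`. -/
theorem goal_of_koop (T : Equiv.Perm T3) (hs : IsSmoothDiffeo T)
    (hT : MeasurePreserving T volume volume) (hT' : MeasurePreserving T.symm volume volume)
    (g : Lp ℝ 2 (volume : Measure T3)) (h0 : ∫ x, g x = 0)
    (hon : ∀ m n : ℤ, ⟪((koop T hT hT') ^ m) g, ((koop T hT hT') ^ n) g⟫ =
      if m = n then (1 : ℝ) else 0)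
    (htot : ∀ f : Lp ℝ 2 (volume : Measure T3), ∫ x, f x = 0 →
      (∀ n : ℤ, ⟪((koop T hT hT') ^ n) g, f⟫ = 0) → f = 0) : Goal := by
  refine ⟨T, g, hs, hT, Lp.memLp g, h0, ?_, ?_⟩
  · intro m n
    rw [← hon m n, inner_eq]
    refine integral_congr_ae ?_
    filter_upwards [coeFn_koop_zpow T hT hT' m g, coeFn_koop_zpow T hT hT' n g] with x h1 h2
    rw [h1, h2]; rfl
  · intro h hh hint horth
    -- real and imaginary parts
    have hre : MemLp (fun x => (h x).re) 2 (volume : Measure T3) := hh.re
    have him : MemLp (fun x => (h x).im) 2 (volume : Measure T3) := hh.im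
    have hgn : ∀ n : ℤ, MemLp (fun x => g ((T ^ n) x)) 2 (volume : Measure T3) :=
      fun n => (Lp.memLp g).comp_measurePreserving (mp_zpow hT hT' n)
    have hint1 : ∀ n : ℤ, Integrable (fun x => h x * ((g ((T ^ n) x) : ℝ) : ℂ)) volume := by
      intro n
      have h2 : MemLp (fun x => ((g ((T ^ n) x) : ℝ) : ℂ)) 2 (volume : Measure T3) :=
        (hgn n).ofReal
      exact hh.integrable_mul h2
    have hre0 : ∀ n : ℤ, ∫ x, (h x).re * g ((T ^ n) x) = 0 := by
      intro n
      have h1 := congrArg Complex.re (horth n)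
      have h2 : (∫ x, h x * ((g ((T ^ n) x) : ℝ) : ℂ)).re =
          ∫ x, (h x * ((g ((T ^ n) x) : ℝ) : ℂ)).re :=
        (integral_re (𝕜 := ℂ) (hint1 n)).symm
      rw [h2] at h1
      simpa using h1
    have him0 : ∀ n : ℤ, ∫ x, (h x).im * g ((T ^ n) x) = 0 := by
      intro n
      have h1 := congrArg Complex.im (horth n)
      have h2 : (∫ x, h x * ((g ((T ^ n) x) : ℝ) : ℂ)).im =
          ∫ x, (h x * ((g ((T ^ n) x) : ℝ) : ℂ)).im :=
        (integral_im (𝕜 := ℂ) (hint1 n)).symm
      rw [h2] at h1
      simpa using h1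
    have hI : Integrable h volume := hh.integrable (by norm_num)
    have hre1 : ∫ x, (h x).re = 0 := by
      have h2 : (∫ x, h x).re = ∫ x, (h x).re := (integral_re (𝕜 := ℂ) hI).symm
      rw [← h2, hint]; rfl
    have him1 : ∫ x, (h x).im = 0 := by
      have h2 : (∫ x, h x).im = ∫ x, (h x).im := (integral_im (𝕜 := ℂ) hI).symm
      rw [← h2, hint]; rfl
    have key : ∀ f : T3 → ℝ, MemLp f 2 (volume : Measure T3) → ∫ x, f x = 0 →
        (∀ n : ℤ, ∫ x, f x * g ((T ^ n) x) = 0) → f =ᵐ[volume] 0 := by
      intro f hf hf0 hfn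
      have h1 : hf.toLp f = 0 := by
        apply htot
        · rw [← hf0]
          exact integral_congr_ae hf.coeFn_toLp
        · intro n
          rw [inner_eq, ← hfn n]
          refine integral_congr_ae ?_
          filter_upwards [coeFn_koop_zpow T hT hT' n g, hf.coeFn_toLp] with x e1 e2
          rw [e1, e2, mul_comm]; rfl
      have h2 : hf.toLp f =ᵐ[volume] f := hf.coeFn_toLp
      rw [h1] at h2
      exact h2.symm.trans (Lp.coeFn_zero ℝ 2 volume)
    have k1 := key _ hre hre1 hre0
    have k2 := key _ him him1 him0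
    filter_upwards [k1, k2] with x e1 e2
    apply Complex.ext
    · simpa using e1
    · simpa using e2

end Crest.Agent.R081.Glue
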