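import Crest.Agent.R081.StDefs
import Crest.Agent.R081.Glue

/-! # Row 81, route B, node STEP: the sub-statements and the assembly of `StepStmt` (helper9) -/

set_option autoImplicit false

namespace Crest.Agent.R081.St

open MeasureTheory Crest.AnalysisR.Torus3 Crest.Agent.R075 Crest.Agent.R081.Fm
  Crest.Agent.R081.Sm Crest.Agent.R081.Tw
open scoped ContDiff

/-- `L²` mass (square root) of the coefficients of `u` on a set of modes -/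
noncomputable def ms (B : Set X) (u : T3 → ℂ) : ℝ := Real.sqrt (∫ x in B, ‖fcX u x‖ ^ 2 ∂muX)

/-- the modes with `c ∉ J` -/
def offJ (t : TwD) : Set X := {x | x.2 ∉ Set.Icc t.del (1 - t.del)}
/-- the modes with `k = 0` or `c ∉ J` -/
def offZ (t : TwD) : Set X := {x | x.1 = 0 ∨ x.2 ∉ Set.Icc t.del (1 - t.del)}

/-- the modes of the next stage lying over the lines of the design -/
def overE {q : ℕ} {K : Finset (ℤ × ℤ)} {eps : ℝ} (d : Des q K eps) (P' : ℤ) : Set X :=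
  {x | Cv.toDe d.q2 P' x ∈ d.E}

/-- main part of the next mode set -/
def stepS {t : TwD} (M : Modes t) {K : Finset (ℤ × ℤ)} {eps : ℝ} (d : Des t.q K eps) (h : ℕ) (P' : ℤ) :
    Set X :=
  {x | x ∈ overE d P' ∧ ∃ y ∈ M.S, (t.q : ℤ) ∣ x.1.1 - y.1.1 ∧
    (h : ℝ) * (y.1.2 * t.psi y.2) = x.1.1 / (t.q * d.q2) + x.1.2 * Fp d.v d.del x.2}

/-- (MS) the new mode set: 683 + 451 -/
def ModesStmt : Prop :=
  ∀ (t : TwD) (M : Modes t) (K : Finset (ℤ × ℤ)) (eps : ℝ) (d : Des t.q K eps) (h : ℕ) (hh : 0 < h)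
    (P' : ℤ) (hP : t.q * P' = t.P * h * d.q2 + 1),
    ∃ M' : Modes (d.tw h hh P' hP), stepS M d h P' ⊆ M'.S ∧
      M'.S ∩ overE d P' ⊆ stepS M d h P' ∧ (∀ᵐ x ∂muX, x ∈ overE d P' → x ∈ M'.Sal)

set_option linter.unusedVariables false in
/-- an `eventually` statement about the step: for `(K, eps)` good enough, every design `d`, every large
admissible `h`, every step map `G` -/
def Ev (t : TwD) (Q : ∀ (K : Finset (ℤ × ℤ)) (eps : ℝ) (d : Des t.q K eps) (h : ℕ) (P' : ℤ) (G : LD), Prop) :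
    Prop :=
  ∃ (K0 : Finset (ℤ × ℤ)) (eps0 : ℝ), 0 < eps0 ∧ ∀ (K : Finset (ℤ × ℤ)) (eps : ℝ), K0 ⊆ K → 0 < eps →
    eps ≤ eps0 → ∀ d : Des t.q K eps, ∃ h0 : ℕ, ∀ h : ℕ, 0 < h → h0 ≤ h → ∀ P' : ℤ,
      t.q * P' = t.P * h * d.q2 + 1 → ∀ G : LD, MP G → Nonempty (GForm d h G) → Q K eps d h P' G

/-- (T3) owner 725 -/
def T3Stmt : Prop := ∀ (t : TwD) (u : T3 → ℂ), MemLp u 2 volume → ∀ e : ℝ, 0 < e →
  Ev t fun _ _ d _ _ G =>
    ms {x | x.2 ∉ Set.Icc d.del (1 - d.del)} (fun y => u (G.perm y)) ≤ e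

/-- (T2) owner 725 -/
def T2Stmt : Prop := ∀ (t : TwD) (u : T3 → ℂ), MemLp u 2 volume → ∫ y, u y = 0 → ∀ e : ℝ, 0 < e →
  Ev t fun _ _ d _ _ G =>
    ms {x | x.1 = 0 ∨ x.2 ∉ Set.Icc d.del (1 - d.del)} (fun y => u (G.perm y)) ≤ ms (offJ t) u + e

/-- (T1) owner 177: everything except the part of `u` on `k = 0` or `c ∉ J` lands over the lines -/
def T1Stmt : Prop := ∀ (t : TwD) (u : T3 → ℂ), MemLp u 2 volume → ∀ e : ℝ, 0 < e →
  Ev t fun _ _ d _ P' G =>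
    ms (overE d P')ᶜ (fun y => u (G.perm y)) ≤ ms (offZ t) u + e

/-- (T0) owner 177: everything except the part of `u` off the aligned set lands in `stepS` -/
def T0Stmt : Prop := ∀ (t : TwD) (M : Modes t) (u : T3 → ℂ), MemLp u 2 volume → ∀ e : ℝ, 0 < e →
  Ev t fun _ _ d h P' G =>
    ms (stepS M d h P')ᶜ (fun y => u (G.perm y)) ≤ ms M.Salᶜ u + e

/-- (GA) owner 177: the coefficients of `g ∘ G` are close to an exactly flat array on `stepS` -/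
def GAStmt : Prop := ∀ (s : Stage) (e : ℝ), 0 < e →
  Ev s.t fun _ _ d h P' G => ∃ a : X → ℂ, Measurable a ∧
    (∀ᵐ x ∂muX, ‖a x‖ ^ 2 = (stepS s.M d h P').indicator
      (fun x => |(x.1.2 : ℝ)| * (d.v / (1 - 2 * d.del) / h)) x) ∧
    (∀ᵐ x ∂muX, a (-x.1, x.2) = (starRingEnd ℂ) (a x)) ∧
    (∫ x, ‖fcX (fun y => (s.g (G.perm y) : ℂ)) x - a x‖ ^ 2 ∂muX) ≤ e ^ 2

/-- (GP) owner 7: construction of the new function from the array `a` (fill `M'.S \\ stepS` with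
`sqrt(|b| al')`; total mass of `M'.S` is one) -/
def GPStmt : Prop := ∀ (s : Stage) (e : ℝ), 0 < e → ∃ e1 : ℝ, 0 < e1 ∧
  ∀ (K : Finset (ℤ × ℤ)) (eps : ℝ) (d : Des s.t.q K eps) (h : ℕ) (hh : 0 < h) (P' : ℤ)
    (hP : s.t.q * P' = s.t.P * h * d.q2 + 1) (G : LD) (_ : MP G)
    (M' : Modes (d.tw h hh P' hP)) (_ : stepS s.M d h P' ⊆ M'.S) (_ : M'.S ∩ overE d P' ⊆ stepS s.M d h P')
    (a : X → ℂ) (_ : Measurable a)
    (_ : ∀ᵐ x ∂muX, ‖a x‖ ^ 2 = (stepS s.M d h P').indicator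
      (fun x => |(x.1.2 : ℝ)| * (d.v / (1 - 2 * d.del) / h)) x)
    (_ : ∀ᵐ x ∂muX, a (-x.1, x.2) = (starRingEnd ℂ) (a x))
    (_ : (∫ x, ‖fcX (fun y => (s.g (G.perm y) : ℂ)) x - a x‖ ^ 2 ∂muX) ≤ e1 ^ 2),
    ∃ g' : T3 → ℝ, MemLp g' 2 volume ∧
      (∀ᵐ x ∂muX, ‖fcX (fun y => (g' y : ℂ)) x‖ ^ 2
        = M'.S.indicator (fun x => |(x.1.2 : ℝ)| * (d.tw h hh P' hP).al) x) ∧
      (∫ y, (g' y - s.g (G.perm y)) ^ 2) ≤ e ^ 2

/-- (HE) owner 301: arbitrarily large admissible `h` -/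
def HEStmt : Prop := ∀ (t : TwD) (K : Finset (ℤ × ℤ)) (eps : ℝ) (d : Des t.q K eps) (h0 : ℕ),
  ∃ (h : ℕ) (P' : ℤ), 0 < h ∧ h0 ≤ h ∧ t.q * P' = t.P * h * d.q2 + 1

set_option linter.unusedVariables false

theorem Ev.mono {t : TwD}
    {Q Q' : ∀ (K : Finset (ℤ × ℤ)) (eps : ℝ) (d : Des t.q K eps) (h : ℕ) (P' : ℤ) (G : LD), Prop}
    (hQ : Ev t Q) (hi : ∀ K eps d h P' G, Q K eps d h P' G → Q' K eps d h P' G) : Ev t Q' := by
  obtain ⟨K0, e0, he0, H⟩ := hQ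
  refine ⟨K0, e0, he0, fun K eps hK h1 h2 d => ?_⟩
  obtain ⟨h0, H'⟩ := H K eps hK h1 h2 d
  exact ⟨h0, fun h hh hh0 P' hP G hG hG' => hi _ _ _ _ _ _ (H' h hh hh0 P' hP G hG hG')⟩

theorem Ev.and {t : TwD}
    {Q Q' : ∀ (K : Finset (ℤ × ℤ)) (eps : ℝ) (d : Des t.q K eps) (h : ℕ) (P' : ℤ) (G : LD), Prop}
    (hQ : Ev t Q) (hQ' : Ev t Q') : Ev t fun K eps d h P' G => Q K eps d h P' G ∧ Q' K eps d h P' G := by
  obtain ⟨K0, e0, he0, H⟩ := hQ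
  obtain ⟨K1, e1, he1, H1⟩ := hQ'
  refine ⟨K0 ∪ K1, min e0 e1, lt_min he0 he1, fun K eps hK h1 h2 d => ?_⟩
  obtain ⟨h0, H'⟩ := H K eps (Finset.union_subset_left hK) h1 (h2.trans (min_le_left _ _)) d
  obtain ⟨h0', H1'⟩ := H1 K eps (Finset.union_subset_right hK) h1 (h2.trans (min_le_right _ _)) d
  exact ⟨max h0 h0', fun h hh hh0 P' hP G hG hG' =>
    ⟨H' h hh ((le_max_left _ _).trans hh0) P' hP G hG hG',
      H1' h hh ((le_max_right _ _).trans hh0) P' hP G hG hG'⟩⟩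

theorem Ev.const {t : TwD} {p : Prop} (hp : p) : Ev t fun _ _ _ _ _ _ => p :=
  ⟨∅, 1, one_pos, fun _ _ _ _ _ _ => ⟨0, fun _ _ _ _ _ _ _ _ => hp⟩⟩

theorem Ev.all {t : TwD} {ι : Type*} (s : Finset ι)
    (Q : ι → ∀ (K : Finset (ℤ × ℤ)) (eps : ℝ) (d : Des t.q K eps) (h : ℕ) (P' : ℤ) (G : LD), Prop)
    (hQ : ∀ i ∈ s, Ev t (Q i)) : Ev t fun K eps d h P' G => ∀ i ∈ s, Q i K eps d h P' G := by
  classical
  induction s using Finset.induction_on with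
  | empty => exact (Ev.const trivial).mono fun _ _ _ _ _ _ _ i hi => absurd hi (Finset.notMem_empty i)
  | insert a s ha ih =>
    have h1 := (hQ a (Finset.mem_insert_self a s)).and
      (ih fun i hi => hQ i (Finset.mem_insert_of_mem hi))
    refine h1.mono fun K eps d h P' G hh i hi => ?_
    rcases Finset.mem_insert.1 hi with rfl | hi
    · exact hh.1
    · exact hh.2 i hi

end Crest.Agent.R081.St
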