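import Crest.Agent.R081.Cv4
import Crest.Agent.R081.StSkel
import Crest.Agent.R081.FmBase

/-!
Row 81 (S0108), node COVER (helper451): the new mode set, `St.ModesStmt`.
-/

set_option autoImplicit false

open MeasureTheory Set
open Crest.Agent.R081.Ms Crest.Agent.R081.Fm Crest.Agent.R081.Tw

namespace Crest.Agent.R081.Cv

open Crest.Agent.R081.St

section

variable {q : ℕ} {K : Finset (ℤ × ℤ)} {eps : ℝ} (d : Des q K eps)

/-- the lines of the design, `a` an integer -/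
def E0 : Set Md := {x | (((x.1.1 : ZMod d.q2), x.1.2), x.2) ∈ d.E}

lemma E0_per : PerM d.q2 (E0 d) := by
  intro a a' b c hd h
  have : (a : ZMod d.q2) = (a' : ZMod d.q2) := by
    rw [← sub_eq_zero, ← Int.cast_sub]
    exact (ZMod.intCast_zmod_eq_zero_iff_dvd _ _).2 hd
  show (((a' : ZMod d.q2), b), c) ∈ d.E
  rw [← this]; exact h

lemma E0_inj : InjE d.q2 (Fp d.v d.del) (E0 d) := by
  rintro x hx y hy hm
  obtain ⟨h1, h2, h3⟩ := d.E_inj _ _ _ _ _ _ hx hy hm
  refine ⟨?_, h2, h3⟩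
  rw [← ZMod.intCast_zmod_eq_zero_iff_dvd, Int.cast_sub, h1, sub_self]

lemma E0_symm : ∀ x ∈ E0 d, ((-x.1.1, -x.1.2), x.2) ∈ E0 d := by
  intro x hx
  have := d.E_symm _ hx
  show ((((-x.1.1 : ℤ) : ZMod d.q2), -x.1.2), x.2) ∈ d.E
  rw [Int.cast_neg]
  exact this

lemma E0_J : ∀ x ∈ E0 d, x.2 ∈ Icc d.del (1 - d.del) := fun _ hx => d.E_sub _ hx

lemma E0_ne0 : ∀ x ∈ E0 d, x.1.2 ≠ 0 := fun _ hx => d.E_ne0 _ hx

lemma E0_meas : MeasurableSet (E0 d) := by
  have : E0 d = ⋃ k : ℤ × ℤ, ({k} : Set (ℤ × ℤ)) ×ˢ {c : ℝ | (((k.1 : ZMod d.q2), k.2), c) ∈ d.E} := by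
    ext x
    simp only [E0, mem_ofPred_eq, mem_iUnion, mem_prod, mem_singleton_iff]
    constructor
    · intro h
      exact ⟨x.1, rfl, h⟩
    · rintro ⟨k, hk, h⟩
      rw [hk]; exact h
  rw [this]
  exact MeasurableSet.iUnion fun k => (MeasurableSet.of_discrete).prod (d.E_meas _ _)

/-- slope of the filler line -/
noncomputable def b0 : ℤ := ⌈1 / (2 * d.v)⌉

lemma b0_pos : 0 < b0 d := by
  have := d.v_pos
  exact Int.ceil_pos.2 (by positivity)

/-- the design with the gap filler -/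
noncomputable def E1 : Set Md := E0 d ∪ fil d.q2 (Fp d.v d.del) d.del (1 - d.del) (b0 d) (E0 d)

lemma slope_pos : 0 < d.v / (1 - 2 * d.del) := by
  have := d.v_pos
  have := d.del_lt
  exact div_pos d.v_pos (by linarith)

lemma F_eq : ∀ c ∈ Icc d.del (1 - d.del), Fp d.v d.del c = d.v / (1 - 2 * d.del) * (c - d.del) := by
  intro c hc
  rw [Fp_eq d.v d.del_pos hc.1 hc.2]; ring

lemma E1_per : PerM d.q2 (E1 d) := by
  rintro a a' b c hd (h | h)
  · exact Or.inl (E0_per d _ _ _ _ hd h)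
  · exact Or.inr (fil_per _ _ _ _ hd h)

lemma E1_inj : InjE d.q2 (Fp d.v d.del) (E1 d) :=
  fil_injE d.q2_pos (slope_pos d) (b0_pos d) (F_eq d) (E0_symm d) (E0_inj d)

lemma E1_full : FullM (lamE d.q2 (Fp d.v d.del)) (E1 d) := by
  refine fil_fullM d.q2_pos (slope_pos d) (b0_pos d) (F_eq d) ?_ (E0_symm d)
  have h1 : d.v / (1 - 2 * d.del) * (1 - d.del - d.del) = d.v := by
    have := d.del_lt
    have : (1 - 2 * d.del) ≠ 0 := by linarith
    field_simp
    ring
  rw [h1]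
  have h2 : 1 / (2 * d.v) ≤ (b0 d : ℝ) := Int.le_ceil _
  have := d.v_pos
  rw [div_le_iff₀ (by positivity)] at h2
  linarith

lemma E1_symm : ∀ x ∈ E1 d, ((-x.1.1, -x.1.2), x.2) ∈ E1 d := by
  rintro x (h | h)
  · exact Or.inl (E0_symm d _ h)
  · exact Or.inr (fil_symm _ h)

lemma E1_J : ∀ x ∈ E1 d, x.2 ∈ Icc d.del (1 - d.del) := by
  rintro x (h | h)
  · exact E0_J d _ h
  · exact fil_J _ h

lemma E1_ne0 : ∀ x ∈ E1 d, x.1.2 ≠ 0 := by
  rintro x (h | h)
  · exact E0_ne0 d _ h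
  · exact fil_b_ne (b0_pos d) _ h

lemma E1_meas : MeasurableSet (E1 d) :=
  (E0_meas d).union
    (fil_measurable d.q2_pos (slope_pos d) (F_eq d) (E0_J d) (E0_ne0 d) (E0_meas d))

lemma E1_finite : {b | ∃ a c, (((a, b), c) : Md) ∈ E1 d}.Finite := by
  refine (Set.finite_Icc (-(max (d.B : ℤ) (b0 d))) (max (d.B : ℤ) (b0 d))).subset ?_
  rintro b ⟨a, c, h⟩
  have : |b| ≤ max (d.B : ℤ) (b0 d) := by
    rcases h with h | h
    · exact (d.E_B _ h).trans (le_max_left _ _)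
    · have h0 := b0_pos d
      refine le_trans ?_ (le_max_right _ _)
      rcases fil_b _ h with h1 | h1
      · have : b = b0 d := h1
        rw [this, abs_of_pos h0]
      · have : b = -b0 d := h1
        rw [this, abs_neg, abs_of_pos h0]
  exact abs_le.1 this

end

theorem stepS_eq {t : TwD} (M : Modes t) {K : Finset (ℤ × ℤ)} {eps : ℝ} (d : Des t.q K eps)
    (h : ℕ) (P' : ℤ) :
    stepS M d h P' = StepSet t.q d.q2 h P' t.psi (Fp d.v d.del) M.S (E0 d) := rfl

lemma periodic_bdd {f : ℝ → ℝ} (hf : Continuous f) (hp : ∀ c, f (c + 1) = f c) :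
    ∃ B, ∀ c, |f c| ≤ B := by
  obtain ⟨B, hB⟩ := (isCompact_Icc (a := (0 : ℝ)) (b := 1)).exists_bound_of_continuousOn hf.continuousOn
  refine ⟨B, fun c => ?_⟩
  have h1 : f c = f (Int.fract c) := by
    have h2 : ∀ (n : ℤ) (x : ℝ), f (x + n) = f x := fun n x => per_int hp n x
    conv_lhs => rw [← Int.fract_add_floor c]
    exact h2 _ _
  rw [h1]
  exact hB _ ⟨Int.fract_nonneg c, (Int.fract_lt_one c).le⟩

theorem modes_stmt : ModesStmt := by
  intro t M K eps d h hh P' hP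
  have hq := t.q_pos
  have hQ := d.q2_pos
  have hP2 : (t.q : ℤ) * P' = t.P * h * d.q2 + 1 := hP
  have hMi : InjM (nuM ((t.P : ℝ) / t.q) t.psi) M.S := by
    intro x hx y hy hm
    exact M.inj x hx y hy hm
  have hMf : FullM (nuM ((t.P : ℝ) / t.q) t.psi) M.S := M.full
  have hnu : ∀ x : Md, (d.tw h hh P' hP).nu x =
      nuM ((P' : ℝ) / ((h : ℝ) * d.q2)) (fun c => Fp d.v d.del c / h) x := by
    intro x
    simp only [TwD.nu, nuM, Des.tw]
    push_cast
    ring
  obtain ⟨B1, hB1⟩ := periodic_bdd t.smooth.continuous t.per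
  obtain ⟨B2, hB2⟩ := periodic_bdd (Fp_smooth d.v d.del_pos).continuous (Fp_per d.v d.del)
  have hfin := stepSet_finite (h := h) (Pp := P') (psi := t.psi) (F := Fp d.v d.del) (S := M.S)
    (E := E1 d) hq hQ ((M.K.finite_toSet).subset (by rintro k ⟨c, hc⟩; exact M.memK _ hc))
    (E1_finite d) (max B1 B2) (fun x _ => (hB1 _).trans (le_max_left _ _))
    (fun x _ => (hB2 _).trans (le_max_right _ _))
  let M' : Modes (d.tw h hh P' hP) :=
    { S := StepSet t.q d.q2 h P' t.psi (Fp d.v d.del) M.S (E1 d)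
      K := hfin.toFinset
      meas := stepSet_measurable hh t.al t.del t.al_pos.ne' (Icc t.del (1 - t.del)) t.lin M.sub M.ne0
        M.meas (E1_meas d) (Fp_smooth d.v d.del_pos).continuous.measurable
      memK := fun x hx => hfin.mem_toFinset.2 ⟨x.2, hx⟩
      ne0 := fun x hx => E1_ne0 d ((x.1.1 * P', x.1.2), x.2) hx.1
      sub := fun x hx => E1_J d ((x.1.1 * P', x.1.2), x.2) hx.1
      symm := fun x hx => stepSet_symm M.symm (E1_symm d) x hx
      inj := by
        intro x hx y hy ⟨m, hm⟩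
        refine stepSet_inj hq hQ hh hP2 hMi (E1_inj d) x hx y hy ⟨m, ?_⟩
        rw [← hnu, ← hnu]; exact hm
      full := by
        have := stepSet_full hq hQ hh hP2 (E1_per d) hMf (E1_full d)
        filter_upwards [this] with x hx
        obtain ⟨y, hy, m, hm⟩ := hx
        refine ⟨y, hy, m, ?_⟩
        rw [hnu]; exact hm }
  refine ⟨M', ?_, ?_, ?_⟩
  · rw [stepS_eq]
    intro x hx
    exact ⟨Or.inl hx.1, hx.2⟩
  · rintro x ⟨hx, hx2⟩
    exact ⟨hx2, hx.2⟩
  · rw [ae_muX]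
    rintro ⟨j, b⟩
    by_cases hb : b = 0
    · refine Filter.Eventually.of_forall fun c hc => ?_
      exact absurd hb (E0_ne0 d ((j * P', b), c) hc)
    have hF : ∀ c ∈ Icc d.del (1 - d.del), Fp d.v d.del c =
        d.v / (1 - 2 * d.del) * c + (-(d.v / (1 - 2 * d.del) * d.del)) := by
      intro c hc
      rw [F_eq d c hc]; ring
    have := aligned_StepSet (slope_pos d).ne' hF hq hQ hh hP2 (E1_per d) hMi hMf (E1_inj d)
      (E1_full d) j b hb
    filter_upwards [ae_restrict_of_ae this] with c hc hx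
    exact hc (E0_J d ((j * P', b), c) hx) (Or.inl hx)

end Crest.Agent.R081.Cv
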