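import Crest.Agent.R081.Co2
import Crest.Agent.R081.TwDefs

/-! # Row 81, node COEF, part 3: shear words are equivariant, Parseval on the section `ℤ/q'' × 𝕋`
Main results: `eqv_word`, `parseval_sec`, `DD_parseval`, `D_parseval`, `continuous_DD`. -/

set_option autoImplicit false

namespace Crest.Agent.R081.Co

open Crest.Agent.R075 MeasureTheory intervalIntegral Finset

/-! ### planar maps given by shear words -/

/-- first component of the planar map of a word -/
noncomputable def wa1 (q : ℕ) (w : Tw.Word) (y t : ℝ) : ℝ := (Tw.Word.act q w (y, t)).1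
/-- second component of the planar map of a word -/
noncomputable def wa2 (q : ℕ) (w : Tw.Word) (y t : ℝ) : ℝ := (Tw.Word.act q w (y, t)).2

theorem continuous_wa1 (q : ℕ) (w : Tw.Word) : Continuous (fun p : ℝ × ℝ => wa1 q w p.1 p.2) :=
  continuous_fst.comp (Tw.Word.contDiff_act q w).continuous

theorem continuous_wa2 (q : ℕ) (w : Tw.Word) : Continuous (fun p : ℝ × ℝ => wa2 q w p.1 p.2) :=
  continuous_snd.comp (Tw.Word.contDiff_act q w).continuous

theorem eqv_word {q : ℕ} (hq : 0 < q) (w : Tw.Word) : Eqv q (wa1 q w) (wa2 q w) where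
  cont1 := fun y => (continuous_wa1 q w).comp (by fun_prop : Continuous fun t : ℝ => (y, t))
  cont2 := fun y => (continuous_wa2 q w).comp (by fun_prop : Continuous fun t : ℝ => (y, t))
  per1 := fun y t => by
    have := Tw.Word.act_add_int q w (y, t) 0 1
    have h1 := congrArg Prod.fst this
    simpa [wa1] using h1
  per2 := fun y t => by
    have := Tw.Word.act_add_int q w (y, t) 0 1
    have h1 := congrArg Prod.snd this
    simpa [wa2] using h1
  perq1 := fun y t => by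
    have := Tw.Word.act_add_div hq.ne' w (y, t) 1
    have h1 := congrArg Prod.fst this
    simpa [wa1] using h1
  perq2 := fun y t => by
    have := Tw.Word.act_add_div hq.ne' w (y, t) 1
    have h1 := congrArg Prod.snd this
    simpa [wa2] using h1

/-! ### Parseval -/

/-- Parseval on `[0,1]` with `ee` -/
theorem parseval01 {f : ℝ → ℂ} (hf : MemLp f 2 (volume.restrict (Set.Ioc 0 1))) :
    HasSum (fun b : ℤ => ‖∫ t in (0:ℝ)..1, f t * ee (-(b * t))‖ ^ 2)
      (∫ t in (0:ℝ)..1, ‖f t‖ ^ 2) := by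
  have h := hasSum_sq_fourierCoeffOn (zero_lt_one' ℝ) hf
  have e : ∀ b : ℤ, fourierCoeffOn (zero_lt_one' ℝ) f b
      = ∫ t in (0:ℝ)..1, f t * ee (-(b * t)) := by
    intro b
    rw [fourierCoeffOn_eq_integral]
    simp only [sub_zero, div_one, one_smul]
    apply intervalIntegral.integral_congr
    intro v _
    simp only
    rw [fourier_coe_apply, smul_eq_mul, mul_comm]
    congr 1
    unfold ee
    congr 1
    push_cast
    ring
  simp_rw [e] at h
  simpa using h

theorem sum_ee_div {n : ℕ} (hn : 0 < n) (d : ℤ) :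
    ∑ a ∈ range n, ee (a * d / n) = if (n : ℤ) ∣ d then (n : ℂ) else 0 := by
  have hn' : (n : ℝ) ≠ 0 := by positivity
  have e1 : ∀ a ∈ range n, ee (a * d / n) = ee ((d : ℝ) / n) ^ a := by
    intro a _
    rw [← ee_mul_nat]; congr 1; ring
  rw [Finset.sum_congr rfl e1]
  by_cases hd : (n : ℤ) ∣ d
  · rw [if_pos hd, (ee_div_eq_one_iff hn d).2 hd]
    simp
  · rw [if_neg hd]
    have hne : ee ((d : ℝ) / n) ≠ 1 := fun h => hd ((ee_div_eq_one_iff hn d).1 h)
    rw [geom_sum_eq hne]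
    have : ee ((d : ℝ) / n) ^ n = 1 := by
      rw [← ee_mul_nat]
      have : (n : ℝ) * ((d : ℝ) / n) = (d : ℤ) := by field_simp
      rw [this, ee_int]
    rw [this]; simp

/-- Parseval on `ℤ/n` -/
theorem parseval_range {n : ℕ} (hn : 0 < n) (v : ℕ → ℂ) :
    ∑ a ∈ range n, ‖(1 / (n : ℂ)) * ∑ i ∈ range n, v i * ee (-(a * i / n))‖ ^ 2
      = (1 / (n : ℝ)) * ∑ i ∈ range n, ‖v i‖ ^ 2 := by
  have hn' : (n : ℝ) ≠ 0 := by positivity
  have hnC : (n : ℂ) ≠ 0 := by exact_mod_cast hn.ne'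
  -- work in ℂ
  have key : (∑ a ∈ range n,
      ((1 / (n : ℂ)) * ∑ i ∈ range n, v i * ee (-((a : ℝ) * i / n)))
        * (starRingEnd ℂ) ((1 / (n : ℂ)) * ∑ i ∈ range n, v i * ee (-((a : ℝ) * i / n))))
      = (1 / (n : ℂ)) * ∑ i ∈ range n, v i * (starRingEnd ℂ) (v i) := by
    have e1 : ∀ a ∈ range n,
        ((1 / (n : ℂ)) * ∑ i ∈ range n, v i * ee (-((a : ℝ) * i / n)))
        * (starRingEnd ℂ) ((1 / (n : ℂ)) * ∑ i ∈ range n, v i * ee (-((a : ℝ) * i / n)))
        = (1 / (n : ℂ)) ^ 2 * ∑ i ∈ range n, ∑ l ∈ range n, v i * (starRingEnd ℂ) (v l)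
            * ee ((a : ℝ) * ((l : ℤ) - (i : ℤ) : ℤ) / n) := by
      intro a _
      rw [map_mul, map_sum, map_div₀, map_one, Complex.conj_natCast]
      rw [show ∀ x S T : ℂ, x * S * (x * T) = x ^ 2 * (S * T) from fun x S T => by ring]
      rw [Finset.sum_mul_sum]
      congr 1
      refine Finset.sum_congr rfl (fun i _ => Finset.sum_congr rfl (fun l _ => ?_))
      rw [map_mul, ee_conj]
      rw [show ∀ x y z w : ℂ, x * y * (z * w) = x * z * (y * w) from fun x y z w => by ring,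
        ← ee_add]
      congr 2
      push_cast; ring
    rw [Finset.sum_congr rfl e1, ← Finset.mul_sum]
    rw [Finset.sum_comm]
    have e2 : ∀ i ∈ range n, ∑ a ∈ range n, ∑ l ∈ range n, v i * (starRingEnd ℂ) (v l)
            * ee ((a : ℝ) * ((l : ℤ) - (i : ℤ) : ℤ) / n)
        = n * (v i * (starRingEnd ℂ) (v i)) := by
      intro i hi
      rw [Finset.sum_comm]
      have e3 : ∀ l ∈ range n, ∑ a ∈ range n, v i * (starRingEnd ℂ) (v l)
            * ee ((a : ℝ) * ((l : ℤ) - (i : ℤ) : ℤ) / n)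
          = if l = i then n * (v i * (starRingEnd ℂ) (v i)) else 0 := by
        intro l hl
        rw [← Finset.mul_sum, sum_ee_div hn]
        have hiff : ((n : ℤ) ∣ (l : ℤ) - (i : ℤ)) ↔ l = i := by
          constructor
          · intro h
            have h1 : |(l : ℤ) - i| < n := by
              rw [abs_lt]
              have := Finset.mem_range.1 hl
              have := Finset.mem_range.1 hi
              constructor <;> omega
            have h2 := Int.eq_zero_of_abs_lt_dvd h h1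
            omega
          · rintro rfl; simp
        by_cases hli : l = i
        · rw [if_pos (hiff.2 hli), if_pos hli, hli]; ring
        · rw [if_neg (fun h => hli (hiff.1 h)), if_neg hli, mul_zero]
      rw [Finset.sum_congr rfl e3, Finset.sum_ite_eq' (range n) i, if_pos hi]
    rw [Finset.sum_congr rfl e2, ← Finset.mul_sum]
    rw [← mul_assoc]
    congr 1
    field_simp
  have hn2 : ∀ z : ℂ, z * (starRingEnd ℂ) z = ((‖z‖ ^ 2 : ℝ) : ℂ) := by
    intro z
    rw [Complex.mul_conj, Complex.normSq_eq_norm_sq]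
  simp_rw [hn2] at key
  have : (((∑ a ∈ range n, ‖(1 / (n : ℂ)) * ∑ i ∈ range n, v i * ee (-((a : ℝ) * i / n))‖ ^ 2 : ℝ)) : ℂ)
      = (((1 / (n : ℝ)) * ∑ i ∈ range n, ‖v i‖ ^ 2 : ℝ) : ℂ) := by
    push_cast
    push_cast at key
    exact key
  exact_mod_cast this

/-- coefficients of a function on the section `ℤ/n × 𝕋` -/
noncomputable def sec (n : ℕ) (V : ℕ → ℝ → ℂ) (a b : ℤ) : ℂ :=
  (1 / (n : ℂ)) * ∑ i ∈ range n, ∫ t in (0:ℝ)..1, V i t * ee (-(a * i / n + b * t))

theorem sec_add_n {n : ℕ} (hn : 0 < n) (V : ℕ → ℝ → ℂ) (a b : ℤ) :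
    sec n V (a + n) b = sec n V a b := by
  have hn' : (n : ℝ) ≠ 0 := by positivity
  unfold sec
  congr 1
  refine Finset.sum_congr rfl (fun i _ => intervalIntegral.integral_congr (fun t _ => ?_))
  have : -(((a + n : ℤ) : ℝ) * i / n + b * t) = -(a * i / n + b * t) + ((-(i : ℤ) : ℤ) : ℝ) := by
    push_cast; field_simp; ring
  show V i t * ee (-(((a + n : ℤ) : ℝ) * i / n + b * t)) = V i t * ee (-(a * i / n + b * t))
  rw [this, ee_add_int]

theorem sec_eq {n : ℕ} (V : ℕ → ℝ → ℂ)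
    (hV : ∀ i < n, IntervalIntegrable (V i) volume 0 1) (a b : ℤ) :
    sec n V a b = ∫ t in (0:ℝ)..1,
      ((1 / (n : ℂ)) * ∑ i ∈ range n, V i t * ee (-(a * i / n))) * ee (-(b * t)) := by
  unfold sec
  rw [← intervalIntegral.integral_finsetSum, ← intervalIntegral.integral_const_mul]
  · refine intervalIntegral.integral_congr (fun t _ => ?_)
    show (1 / (n : ℂ)) * ∑ i ∈ range n, V i t * ee (-(a * i / n + b * t)) =
      ((1 / (n : ℂ)) * ∑ i ∈ range n, V i t * ee (-(a * i / n))) * ee (-(b * t))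
    rw [mul_assoc, Finset.sum_mul]
    congr 1
    refine Finset.sum_congr rfl (fun i _ => ?_)
    rw [mul_assoc, ← ee_add]
    congr 2; ring
  · intro i hi
    refine (hV i (Finset.mem_range.1 hi)).mul_continuousOn ?_
    exact (ee_continuous.comp (by fun_prop)).continuousOn

/-- **Parseval on the section** -/
theorem parseval_sec {n : ℕ} (hn : 0 < n) (V : ℕ → ℝ → ℂ)
    (hV : ∀ i < n, MemLp (V i) 2 (volume.restrict (Set.Ioc 0 1))) :
    HasSum (fun b : ℤ => ∑ a ∈ range n, ‖sec n V a b‖ ^ 2)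
      ((1 / (n : ℝ)) * ∑ i ∈ range n, ∫ t in (0:ℝ)..1, ‖V i t‖ ^ 2) := by
  have hVi : ∀ i < n, IntervalIntegrable (V i) volume 0 1 := by
    intro i hi
    rw [intervalIntegrable_iff_integrableOn_Ioc_of_le zero_le_one]
    exact (hV i hi).integrable (by norm_num)
  have hmem : ∀ a : ℕ, MemLp (fun t => (1 / (n : ℂ)) * ∑ i ∈ range n, V i t * ee (-((a : ℝ) * i / n))) 2
      (volume.restrict (Set.Ioc 0 1)) := by
    intro a
    refine MemLp.const_mul ?_ _
    refine memLp_finsetSum _ (fun i hi => ?_)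
    have := (hV i (Finset.mem_range.1 hi)).const_mul (ee (-((a : ℝ) * i / n)))
    simpa [mul_comm] using this
  have h1 : ∀ a ∈ range n, HasSum (fun b : ℤ => ‖sec n V a b‖ ^ 2)
      (∫ t in (0:ℝ)..1, ‖(1 / (n : ℂ)) * ∑ i ∈ range n, V i t * ee (-((a : ℝ) * i / n))‖ ^ 2) := by
    intro a _
    have := parseval01 (hmem a)
    have e : (fun b : ℤ => ‖sec n V a b‖ ^ 2) = fun b : ℤ => ‖∫ t in (0:ℝ)..1,
        ((1 / (n : ℂ)) * ∑ i ∈ range n, V i t * ee (-((a : ℝ) * i / n))) * ee (-(b * t))‖ ^ 2 := by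
      funext b
      rw [sec_eq V hVi]
      simp
    rw [e]
    exact this
  have h2 := hasSum_sum h1
  have e2 : ∑ a ∈ range n, (∫ t in (0:ℝ)..1,
        ‖(1 / (n : ℂ)) * ∑ i ∈ range n, V i t * ee (-((a : ℝ) * i / n))‖ ^ 2)
      = (1 / (n : ℝ)) * ∑ i ∈ range n, ∫ t in (0:ℝ)..1, ‖V i t‖ ^ 2 := by
    rw [← intervalIntegral.integral_finsetSum, ← intervalIntegral.integral_finsetSum,
      ← intervalIntegral.integral_const_mul]
    · refine intervalIntegral.integral_congr (fun t _ => ?_)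
      exact parseval_range hn (fun i => V i t)
    · intro i hi
      rw [intervalIntegrable_iff_integrableOn_Ioc_of_le zero_le_one]
      exact (hV i (Finset.mem_range.1 hi)).integrable_norm_pow (by norm_num)
    · intro a _
      rw [intervalIntegrable_iff_integrableOn_Ioc_of_le zero_le_one]
      exact (hmem a).integrable_norm_pow (by norm_num)
  rw [e2] at h2
  exact h2

/-! ### the coefficients of `e(k·A)` on the section -/

/-- the section point `c'/(q q'') + N i/q''` -/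
noncomputable def sp (q q2 : ℕ) (N : ℤ) (c' : ℝ) (i : ℕ) : ℝ := c' / (q * q2) + N * i / q2

/-- `D_k(a,b;c')` in the variables `(a, b)` of the section -/
noncomputable def DD (a1 a2 : ℝ → ℝ → ℝ) (q q2 : ℕ) (N : ℤ) (k : ℤ × ℤ) (a b : ℤ) (c' : ℝ) : ℂ :=
  (1 / (q2 : ℂ)) * ∑ i ∈ range q2,
    ∫ t in (0:ℝ)..1, ee (k.1 * a1 (c' / (q * q2) + N * i / q2) t
      + k.2 * a2 (c' / (q * q2) + N * i / q2) t - a * i / q2 - b * t)

variable {q : ℕ} {a1 a2 : ℝ → ℝ → ℝ} {q2 : ℕ}

theorem D_eq_DD (h : Eqv q a1 a2) (hq : 0 < q) (hq2 : 0 < q2) (k : ℤ × ℤ) (j b : ℤ) (c' : ℝ)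
    (hj : (q : ℤ) ∣ (j - k.1)) (N a : ℤ) (hN : (q2 : ℤ) ∣ (N * q - 1))
    (ha : (q2 : ℤ) ∣ (a - j * N)) :
    D a1 a2 (q * q2) k j b c' = DD a1 a2 q q2 N k a b c' :=
  D_eq h hq hq2 k j b c' hj N a hN ha

theorem DD_eq_sec (N : ℤ) (k : ℤ × ℤ) (a b : ℤ) (c' : ℝ) :
    DD a1 a2 q q2 N k a b c' = sec q2 (fun i t => ee (k.1 * a1 (sp q q2 N c' i) t
      + k.2 * a2 (sp q q2 N c' i) t)) a b := by
  unfold DD sec sp
  congr 1
  refine Finset.sum_congr rfl (fun i _ => intervalIntegral.integral_congr (fun t _ => ?_))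
  show ee _ = ee _ * ee _
  rw [← ee_add]
  congr 1; ring

theorem D_eq_sec (m : ℕ) (k : ℤ × ℤ) (j b : ℤ) (c' : ℝ) :
    D a1 a2 m k j b c' = sec m (fun i t => ee (k.1 * a1 ((c' + i) / m) t
      + k.2 * a2 ((c' + i) / m) t)) j b := by
  unfold D sec I
  congr 1
  refine Finset.sum_congr rfl (fun i _ => ?_)
  rw [← intervalIntegral.integral_const_mul]
  refine intervalIntegral.integral_congr (fun t _ => ?_)
  show ee _ * ee _ = ee _ * ee _
  rw [← ee_add, ← ee_add]
  congr 1; ring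

theorem DD_add_q2 (hq2 : 0 < q2) (N : ℤ) (k : ℤ × ℤ) (a b : ℤ) (c' : ℝ) :
    DD a1 a2 q q2 N k (a + q2) b c' = DD a1 a2 q q2 N k a b c' := by
  rw [DD_eq_sec, DD_eq_sec, sec_add_n hq2]

theorem memLp_phase (h : Eqv q a1 a2) (k : ℤ × ℤ) (y : ℝ) :
    MemLp (fun t => ee (k.1 * a1 y t + k.2 * a2 y t)) 2 (volume.restrict (Set.Ioc 0 1)) := by
  refine MemLp.of_bound (C := 1) ?_ (Filter.Eventually.of_forall fun t => (norm_ee _).le)
  refine Continuous.aestronglyMeasurable ?_
  have h1 := h.cont1 y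
  have h2 := h.cont2 y
  exact ee_continuous.comp (by fun_prop)

/-- **Parseval**: `Σ_{a mod q''} Σ_b |D_k(a,b;c')|² = 1` for every `c'` -/
theorem DD_parseval (h : Eqv q a1 a2) (hq2 : 0 < q2) (N : ℤ) (k : ℤ × ℤ) (c' : ℝ) :
    HasSum (fun b : ℤ => ∑ a ∈ range q2, ‖DD a1 a2 q q2 N k a b c'‖ ^ 2) 1 := by
  have := parseval_sec hq2 (fun i t => ee (k.1 * a1 (sp q q2 N c' i) t
      + k.2 * a2 (sp q q2 N c' i) t)) (fun i _ => memLp_phase h k _)
  simp only [norm_ee] at this
  simp_rw [DD_eq_sec]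
  convert this using 1
  have : (q2 : ℝ) ≠ 0 := by positivity
  simp [this]

/-- **Parseval**: `Σ_{j mod m} Σ_b |D_k(j,b;c')|² = 1` for every `c'` -/
theorem D_parseval (h : Eqv q a1 a2) {m : ℕ} (hm : 0 < m) (k : ℤ × ℤ) (c' : ℝ) :
    HasSum (fun b : ℤ => ∑ j ∈ range m, ‖D a1 a2 m k j b c'‖ ^ 2) 1 := by
  have := parseval_sec hm (fun i t => ee (k.1 * a1 ((c' + i) / m) t
      + k.2 * a2 ((c' + i) / m) t)) (fun i _ => memLp_phase h k _)
  simp only [norm_ee] at this
  simp_rw [D_eq_sec]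
  convert this using 1
  have : (m : ℝ) ≠ 0 := by positivity
  simp [this]

/-- **Parseval for a difference**: comparison of `D_k` with the coefficients of any bounded
function `W` on the section (for instance the label function). -/
theorem DD_sub_parseval (h : Eqv q a1 a2) (hq2 : 0 < q2) (N : ℤ) (k : ℤ × ℤ) (c' : ℝ)
    (W : ℕ → ℝ → ℂ) (hW : ∀ i < q2, MemLp (W i) 2 (volume.restrict (Set.Ioc 0 1))) :
    HasSum (fun b : ℤ => ∑ a ∈ range q2, ‖DD a1 a2 q q2 N k a b c' - sec q2 W a b‖ ^ 2)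
      ((1 / (q2 : ℝ)) * ∑ i ∈ range q2, ∫ t in (0:ℝ)..1, ‖ee (k.1 * a1 (sp q q2 N c' i) t
      + k.2 * a2 (sp q q2 N c' i) t) - W i t‖ ^ 2) := by
  have := parseval_sec hq2 (fun i t => ee (k.1 * a1 (sp q q2 N c' i) t
      + k.2 * a2 (sp q q2 N c' i) t) - W i t) (fun i hi => (memLp_phase h k _).sub (hW i hi))
  convert this using 1
  funext b
  refine Finset.sum_congr rfl (fun a _ => ?_)
  congr 2
  rw [DD_eq_sec]
  unfold sec
  rw [← mul_sub, ← Finset.sum_sub_distrib]
  congr 1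
  refine Finset.sum_congr rfl (fun i hi => ?_)
  rw [← intervalIntegral.integral_sub]
  · refine intervalIntegral.integral_congr (fun t _ => ?_)
    simp only; ring
  · rw [intervalIntegrable_iff_integrableOn_Ioc_of_le zero_le_one]
    refine ((memLp_phase h k _).integrable (by norm_num)).mul_bdd (c := 1) ?_ ?_
    · exact (ee_continuous.comp (by fun_prop)).aestronglyMeasurable
    · exact Filter.Eventually.of_forall fun t => (norm_ee _).le
  · rw [intervalIntegrable_iff_integrableOn_Ioc_of_le zero_le_one]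
    refine ((hW i (Finset.mem_range.1 hi)).integrable (by norm_num)).mul_bdd (c := 1) ?_ ?_
    · exact (ee_continuous.comp (by fun_prop)).aestronglyMeasurable
    · exact Filter.Eventually.of_forall fun t => (norm_ee _).le

theorem norm_DD_le_one (hq2 : 0 < q2) (N : ℤ) (k : ℤ × ℤ) (a b : ℤ) (c' : ℝ) :
    ‖DD a1 a2 q q2 N k a b c'‖ ≤ 1 := by
  have hq2' : (0 : ℝ) < q2 := by positivity
  unfold DD
  rw [norm_mul]
  have h1 : ‖∑ i ∈ range q2, ∫ t in (0:ℝ)..1, ee (k.1 * a1 (c' / (q * q2) + N * i / q2) t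
      + k.2 * a2 (c' / (q * q2) + N * i / q2) t - a * i / q2 - b * t)‖ ≤ q2 := by
    refine (norm_sum_le _ _).trans ?_
    refine (Finset.sum_le_sum (g := fun _ => (1 : ℝ)) fun i _ => ?_).trans (by simp)
    refine (intervalIntegral.norm_integral_le_of_norm_le_const (C := 1) fun t _ =>
      (norm_ee _).le).trans (by simp)
  have h2 : ‖(1 / (q2 : ℂ))‖ = 1 / q2 := by simp
  rw [h2]
  calc (1 / (q2 : ℝ)) * _ ≤ (1 / q2) * q2 := by gcongr
    _ = 1 := by field_simp

/-- continuity of `c' ↦ D_k(a,b;c')` -/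
theorem continuous_DD (hc1 : Continuous fun p : ℝ × ℝ => a1 p.1 p.2)
    (hc2 : Continuous fun p : ℝ × ℝ => a2 p.1 p.2) (N : ℤ) (k : ℤ × ℤ) (a b : ℤ) :
    Continuous (fun c' => DD a1 a2 q q2 N k a b c') := by
  unfold DD
  refine continuous_const.mul (continuous_finsetSum _ fun i _ => ?_)
  refine intervalIntegral.continuous_parametric_intervalIntegral_of_continuous' ?_ 0 1
  refine ee_continuous.comp ?_
  have e1 : Continuous fun p : ℝ × ℝ => a1 (p.1 / (q * q2) + N * i / q2) p.2 :=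
    hc1.comp (f := fun p : ℝ × ℝ => (p.1 / (q * q2) + N * i / q2, p.2)) (by fun_prop)
  have e2 : Continuous fun p : ℝ × ℝ => a2 (p.1 / (q * q2) + N * i / q2) p.2 :=
    hc2.comp (f := fun p : ℝ × ℝ => (p.1 / (q * q2) + N * i / q2, p.2)) (by fun_prop)
  exact (((continuous_const.mul e1).add (continuous_const.mul e2)).sub continuous_const).sub
    (by fun_prop)

theorem continuous_D (hc1 : Continuous fun p : ℝ × ℝ => a1 p.1 p.2)
    (hc2 : Continuous fun p : ℝ × ℝ => a2 p.1 p.2) (m : ℕ) (k : ℤ × ℤ) (j b : ℤ) :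
    Continuous (fun c' => D a1 a2 m k j b c') := by
  unfold D I
  refine continuous_const.mul (continuous_finsetSum _ fun i _ => continuous_const.mul ?_)
  refine intervalIntegral.continuous_parametric_intervalIntegral_of_continuous' ?_ 0 1
  refine ee_continuous.comp ?_
  have e1 : Continuous fun p : ℝ × ℝ => a1 ((p.1 + i) / m) p.2 :=
    hc1.comp (f := fun p : ℝ × ℝ => ((p.1 + i) / m, p.2)) (by fun_prop)
  have e2 : Continuous fun p : ℝ × ℝ => a2 ((p.1 + i) / m) p.2 :=
    hc2.comp (f := fun p : ℝ × ℝ => ((p.1 + i) / m, p.2)) (by fun_prop)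
  exact ((continuous_const.mul e1).add (continuous_const.mul e2)).sub (by fun_prop)

/-! ### arithmetic of the classes -/

/-- the representative of the class `j ≡ k₁ (q)`, `j N ≡ a (q'')` -/
def j0 (q : ℕ) (N k1 a : ℤ) : ℤ := k1 + q * (a - N * k1)

theorem class_iff (q q2 : ℕ) (N : ℤ) (hN : (q2 : ℤ) ∣ (N * q - 1)) (k1 j a : ℤ) :
    ((q : ℤ) ∣ (j - k1) ∧ (q2 : ℤ) ∣ (a - j * N)) ↔ ((q * q2 : ℕ) : ℤ) ∣ (j - j0 q N k1 a) := by
  obtain ⟨u, hu⟩ := hN
  have hcop : IsCoprime (q : ℤ) (q2 : ℤ) := ⟨N, -u, by linarith⟩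
  unfold j0
  constructor
  · rintro ⟨⟨x, hx⟩, ⟨y, hy⟩⟩
    push_cast
    refine hcop.mul_dvd ⟨x - (a - N * k1), by linear_combination hx⟩ ?_
    -- j - k1 - q (a - N k1) = j - k1 - q a + q N k1 = (j - q a) + u q2 k1
    refine ⟨u * k1 - q * y - u * j, ?_⟩
    linear_combination (-(q:ℤ)) * hy + (k1 - j) * hu
  · rintro ⟨x, hx⟩
    push_cast at hx
    constructor
    · exact ⟨a - N * k1 + q2 * x, by linear_combination hx⟩
    · refine ⟨u * (N * k1 - a) - q * x * N, ?_⟩
      linear_combination (-N) * hx + (N * k1 - a) * hu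

end Crest.Agent.R081.Co
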