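import Crest.Agent.R081.Dt6
import Crest.Agent.R081.Co3
import Crest.Agent.R081.StSkel

/-! # Row 81, route B, node D2 (helper725), part 7: `T3Stmt` and `T2Stmt` -/

set_option autoImplicit false

namespace Crest.Agent.R081.Dt

open MeasureTheory Crest.AnalysisR.Torus3 Crest.Agent.R075 Crest.Agent.R081.Fm Crest.Agent.R081.Tw
  Crest.Agent.R081.St Crest.Agent.R081.Sm
open scoped Interval ENNReal

theorem ms_le {B : Set X} {u : T3 → ℂ} (hu : MemLp u 2 volume) {e : ℝ} (he : 0 ≤ e)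
    (h : ∫⁻ x in B, ‖fcX u x‖ₑ ^ 2 ∂muX ≤ ENNReal.ofReal (e ^ 2)) : ms B u ≤ e := by
  unfold ms
  refine Real.sqrt_le_iff.2 ⟨he, ?_⟩
  have hm : AEStronglyMeasurable (fun x => ‖fcX u x‖ ^ 2) (muX.restrict B) :=
    ((memLp_fcX hu).aestronglyMeasurable.norm.pow 2).restrict
  rw [integral_eq_lintegral_of_nonneg_ae (Filter.Eventually.of_forall fun _ => by positivity) hm]
  refine ENNReal.toReal_le_of_le_ofReal (by positivity) ?_
  refine le_trans (le_of_eq ?_) h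
  congr 1
  funext x
  rw [ENNReal.ofReal_pow (norm_nonneg _), ofReal_norm]

/-- mass over a set of values of `c` -/
theorem lintegral_snd {u : T3 → ℂ} (hu : MemLp u 2 volume) {A : Set ℝ} (hA : MeasurableSet A) :
    ∫⁻ x in {x : X | x.2 ∈ A}, ‖fcX u x‖ₑ ^ 2 ∂muX =
      ∫⁻ p in {p : ℝ × T2 | p.1 ∈ A}, ‖u (C3 p)‖ₑ ^ 2 ∂(I01.prod volume) := by
  have hA1 : MeasurableSet {x : X | x.2 ∈ A} := measurable_snd hA
  have hA2 : MeasurableSet {p : ℝ × T2 | p.1 ∈ A} := measurable_fst hA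
  rw [← lintegral_indicator hA1, ← lintegral_indicator hA2, lintegral_muX, lintegral_prod]
  swap
  · exact ((hu.aestronglyMeasurable.comp_measurePreserving mp_C3).enorm.pow_const 2).indicator hA2
  have e1 : ∀ k : ℤ × ℤ, ∫⁻ c, {x : X | x.2 ∈ A}.indicator (fun x => ‖fcX u x‖ₑ ^ 2) (k, c) ∂I01
      = ∫⁻ c, A.indicator (fun c => ‖fc u k c‖ₑ ^ 2) c ∂I01 := by
    intro k
    refine lintegral_congr fun c => ?_
    by_cases hc : c ∈ A
    · rw [Set.indicator_of_mem (show ((k, c) : X) ∈ {x : X | x.2 ∈ A} from hc),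
        Set.indicator_of_mem hc]
      rfl
    · rw [Set.indicator_of_notMem (show ((k, c) : X) ∉ {x : X | x.2 ∈ A} from hc),
        Set.indicator_of_notMem hc]
  simp only [e1]
  rw [← lintegral_tsum]
  · refine lintegral_congr_ae ?_
    filter_upwards [memLp_slice hu] with c hc
    by_cases hcA : c ∈ A
    · simp only [Set.indicator_of_mem hcA]
      rw [parseval_fibre_enn hc]
      refine lintegral_congr fun z => ?_
      rw [Set.indicator_of_mem (show ((c, z) : ℝ × T2) ∈ {p : ℝ × T2 | p.1 ∈ A} from hcA)]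
    · simp only [Set.indicator_of_notMem hcA]
      have : ∀ z : T2, {p : ℝ × T2 | p.1 ∈ A}.indicator (fun p => ‖u (C3 p)‖ₑ ^ 2) (c, z) = 0 :=
        fun z => Set.indicator_of_notMem (show ((c, z) : ℝ × T2) ∉ {p : ℝ × T2 | p.1 ∈ A} from hcA) _
      simp only [this]
      simp
  · intro k
    exact ((aesm_fc hu.aestronglyMeasurable k).enorm.pow_const 2).indicator hA

theorem measure_offJ {d : ℝ} (h0 : 0 < d) (h1 : d < 1 / 8) :
    (I01.prod (volume : Measure T2)) {p : ℝ × T2 | p.1 ∈ (Set.Icc d (1 - d))ᶜ}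
      = ENNReal.ofReal (2 * d) := by
  have e : {p : ℝ × T2 | p.1 ∈ (Set.Icc d (1 - d))ᶜ} = (Set.Icc d (1 - d))ᶜ ×ˢ Set.univ := by
    ext p; simp
  rw [e, Measure.prod_prod, measure_univ, mul_one]
  rw [prob_compl_eq_one_sub measurableSet_Icc, I01, Measure.restrict_apply measurableSet_Icc]
  have e2 : Set.Icc d (1 - d) ∩ Set.Ioc 0 1 = Set.Icc d (1 - d) := by
    refine Set.inter_eq_left.2 fun x hx => ⟨lt_of_lt_of_le h0 hx.1, hx.2.trans (by linarith)⟩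
  rw [e2, Real.volume_Icc, ← ENNReal.ofReal_one, ← ENNReal.ofReal_sub _ (by linarith)]
  congr 1
  ring

theorem offJ_small {u : T3 → ℂ} (hu : MemLp u 2 volume) {e : ℝ} (he : 0 < e) :
    ∃ δ : ℝ, 0 < δ ∧ ∀ Φ : T3 → T3, MeasurePreserving Φ volume volume → ∀ d : ℝ, 0 < d →
      d < 1 / 8 → d ≤ δ →
      ∫⁻ x in {x : X | x.2 ∉ Set.Icc d (1 - d)}, ‖fcX (u ∘ Φ) x‖ₑ ^ 2 ∂muX
        ≤ ENNReal.ofReal (e ^ 2) := by
  obtain ⟨δ, hδ, H⟩ := abs_cont (ν := I01.prod (volume : Measure T2)) hu he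
  refine ⟨δ / 2, half_pos hδ, fun Φ hΦ d hd0 hd1 hd => ?_⟩
  have hA : MeasurableSet (Set.Icc d (1 - d))ᶜ := measurableSet_Icc.compl
  have h1 := lintegral_snd (hu.comp_measurePreserving hΦ) hA
  have e1 : {x : X | x.2 ∉ Set.Icc d (1 - d)} = {x : X | x.2 ∈ (Set.Icc d (1 - d))ᶜ} := rfl
  rw [e1, h1]
  have hB : MeasurableSet {p : ℝ × T2 | p.1 ∈ (Set.Icc d (1 - d))ᶜ} := measurable_fst hA
  have h2 := H (Φ ∘ C3) (hΦ.comp mp_C3) _ hB (by
    rw [measure_offJ hd0 hd1]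
    exact ENNReal.ofReal_le_ofReal (by linarith))
  rw [← lintegral_indicator hB, ENNReal.ofReal_pow he.le]
  calc ∫⁻ p, {p : ℝ × T2 | p.1 ∈ (Set.Icc d (1 - d))ᶜ}.indicator
          (fun p => ‖(u ∘ Φ) (C3 p)‖ₑ ^ 2) p ∂(I01.prod volume)
      = ∫⁻ p, ‖{p : ℝ × T2 | p.1 ∈ (Set.Icc d (1 - d))ᶜ}.indicator (u ∘ Φ ∘ C3) p‖ₑ ^ 2
          ∂(I01.prod volume) := by
        refine lintegral_congr fun p => ?_
        by_cases hp : p ∈ {p : ℝ × T2 | p.1 ∈ (Set.Icc d (1 - d))ᶜ}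
        · rw [Set.indicator_of_mem hp, Set.indicator_of_mem hp]
          rfl
        · rw [Set.indicator_of_notMem hp, Set.indicator_of_notMem hp]
          simp
    _ = (eLpNorm ({p : ℝ × T2 | p.1 ∈ (Set.Icc d (1 - d))ᶜ}.indicator (u ∘ Φ ∘ C3)) 2
          (I01.prod volume)) ^ 2 := lintegral_two_eq _
    _ ≤ _ := by gcongr

theorem t3Stmt : T3Stmt := by
  intro t u hu e he
  obtain ⟨δ, hδ, H⟩ := offJ_small hu he
  refine ⟨∅, δ, hδ, fun K eps _ h1 h2 d => ⟨0, fun h _ _ P' _ G hG _ => ?_⟩⟩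
  exact ms_le (hu.comp_measurePreserving hG) he.le
    (H G.perm hG d.del d.del_pos d.del_lt (d.del_le.trans h2))

/-! ### the zero mode -/

theorem Dbar_eq_D (q : ℕ) (w : Word) (k : ℤ × ℤ) (m : ℕ) (x : ℝ) :
    Dbar q w k m x = Co.D (Co.wa1 q w) (Co.wa2 q w) m k 0 0 x := by
  unfold Dbar Co.D Bk Co.I Co.wa1 Co.wa2 ek
  congr 1
  refine Finset.sum_congr rfl fun i _ => ?_
  have h0 : ee (-(((0 : ℤ) : ℝ) * i / m)) = 1 := by simp [ee]
  rw [h0, one_mul]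
  congr 1
  funext s
  congr 1
  push_cast
  rw [add_comm x i]
  ring

theorem Dbar_eq_Dd {q q2 : ℕ} (hq : 0 < q) (hq2 : 0 < q2) (w : Word) (k : ℤ × ℤ)
    (hk : (q : ℤ) ∣ k.1) {N : ℤ} (hN : (q2 : ℤ) ∣ N * q - 1) (x : ℝ) :
    Dbar q w k (q * q2) x = Dd q q2 N w k 0 0 x := by
  rw [Dbar_eq_D, Co.D_eq (Co.eqv_word hq w) hq hq2 k 0 0 x (by
    rw [zero_sub]; exact (dvd_neg).2 hk) N 0 hN (by simp)]
  rfl

theorem t2' (t : TwD) (u : T3 → ℂ) (hu : MemLp u 2 volume) (hu0 : ∫ y, u y = 0) (e : ℝ)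
    (he : 0 < e) : Ev t fun _ _ d _ _ G =>
      ms {x | x.1 = 0 ∨ x.2 ∉ Set.Icc d.del (1 - d.del)} (fun y => u (G.perm y)) ≤ e := by
  obtain ⟨δ, hδ, H⟩ := offJ_small hu (half_pos he)
  obtain ⟨K0, e1, hK0, he1, HZ⟩ := zero_mode hu hu0 (half_pos he)
  refine ⟨K0, min δ e1, lt_min hδ he1, fun K eps hK heps h2 d => ⟨0, fun h _ _ P' _ G hG hGF => ?_⟩⟩
  obtain ⟨gf⟩ := hGF
  have hq : 0 < t.q := t.q_pos
  have hq2 : 0 < d.q2 := d.q2_pos
  have huG : MemLp (u ∘ G.perm) 2 volume := hu.comp_measurePreserving hG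
  have hoff := H G.perm hG d.del d.del_pos d.del_lt (d.del_le.trans (h2.trans (min_le_left _ _)))
  -- the zero mode
  have hPF : PF t.q (t.q * d.q2) d.w gf.chi gf.bet (Fp d.v d.del) G.perm := by
    intro c' t1 t2
    rw [gf.form]
    push_cast
    congr 2
    ext
    · simp
    · simp
  have hzero : eLpNorm (fc (u ∘ G.perm) 0) 2 I01 ≤ ENNReal.ofReal (e / 2) := by
    refine HZ G.perm hG t.q d.q2 hq.ne' hq2.ne' d.w gf.chi gf.bet (Fp d.v d.del) hPF gf.chi_cont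
      gf.chi_per gf.bet_cont gf.bet_per fun k hk hdvd => ?_
    have hk0 : k ≠ 0 := hK0 k hk
    have herr := d.err k (hK hk) hk0
    have h1 : ∫⁻ c in Set.Ioc (0 : ℝ) 1, ‖Dd t.q d.q2 d.N d.w k ((0 : ℕ) : ℤ) 0 c
        - d.M k ((0 : ℕ) : ℤ) 0 c‖ₑ ^ 2 ≤ ENNReal.ofReal (eps ^ 2) := by
      refine le_trans ?_ herr
      refine le_trans ?_ (Finset.single_le_sum (f := fun a : ℕ => ∑' b : ℤ,
        ∫⁻ c in Set.Ioc (0 : ℝ) 1, ‖Dd t.q d.q2 d.N d.w k a b c - d.M k a b c‖ₑ ^ 2)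
        (fun _ _ => zero_le) (Finset.mem_range.2 hq2))
      exact ENNReal.le_tsum (f := fun b : ℤ => ∫⁻ c in Set.Ioc (0 : ℝ) 1,
        ‖Dd t.q d.q2 d.N d.w k ((0 : ℕ) : ℤ) b c - d.M k ((0 : ℕ) : ℤ) b c‖ₑ ^ 2) 0
    have hM : ∀ c, d.M k ((0 : ℕ) : ℤ) 0 c = 0 := by
      intro c
      have := d.M_norm k ((0 : ℕ) : ℤ) 0 c
      have h0 : ‖d.M k ((0 : ℕ) : ℤ) 0 c‖ ^ 2 = 0 := by
        rw [this]
        by_cases hc : c ∈ {c : ℝ | ((((((0 : ℕ) : ℤ)) : ZMod d.q2), (0 : ℤ)), c) ∈ d.E}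
        · rw [Set.indicator_of_mem hc]; simp
        · rw [Set.indicator_of_notMem hc]
      simpa using h0
    simp only [hM, sub_zero] at h1
    have hD : ∀ x, Dbar t.q d.w k (t.q * d.q2) x = Dd t.q d.q2 d.N d.w k ((0 : ℕ) : ℤ) 0 x :=
      fun x => Dbar_eq_Dd hq hq2 d.w k hdvd d.hN x
    simp only [← hD] at h1
    have hmm : AEStronglyMeasurable (fun x => ‖Dbar t.q d.w k (t.q * d.q2) x‖ ^ 2) I01 :=
      ((continuous_Dbar t.q d.w k (t.q * d.q2)).norm.pow 2).aestronglyMeasurable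
    rw [← integral_I01_real, integral_eq_lintegral_of_nonneg_ae
      (Filter.Eventually.of_forall fun _ => by positivity) hmm]
    refine ENNReal.toReal_le_of_le_ofReal (by positivity) ?_
    have h3 : ENNReal.ofReal (eps ^ 2) ≤ ENNReal.ofReal (e1 ^ 2) := by
      refine ENNReal.ofReal_le_ofReal ?_
      have : eps ≤ e1 := h2.trans (min_le_right _ _)
      gcongr
    refine le_trans (le_of_eq ?_) (h1.trans h3)
    unfold I01
    congr 1
    funext x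
    rw [ENNReal.ofReal_pow (norm_nonneg _), ofReal_norm]
  refine ms_le huG he.le ?_
  have hsplit : ({x | x.1 = 0 ∨ x.2 ∉ Set.Icc d.del (1 - d.del)} : Set X)
      = {x | x.1 = 0} ∪ {x | x.2 ∉ Set.Icc d.del (1 - d.del)} := rfl
  rw [hsplit]
  refine (lintegral_union_le _ _ _).trans ?_
  have hz : ∫⁻ x in {x : X | x.1 = 0}, ‖fcX (u ∘ G.perm) x‖ₑ ^ 2 ∂muX
      ≤ ENNReal.ofReal ((e / 2) ^ 2) := by
    have hmz : MeasurableSet {x : X | x.1 = 0} := measurable_fst (measurableSet_singleton 0)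
    rw [← lintegral_indicator hmz, lintegral_muX]
    have e1 : ∀ k : ℤ × ℤ, k ≠ 0 →
        ∫⁻ c, {x : X | x.1 = 0}.indicator (fun x => ‖fcX (u ∘ G.perm) x‖ₑ ^ 2) (k, c) ∂I01 = 0 := by
      intro k hk
      have : ∀ c : ℝ, {x : X | x.1 = 0}.indicator (fun x => ‖fcX (u ∘ G.perm) x‖ₑ ^ 2) (k, c)
          = 0 := fun c => Set.indicator_of_notMem (show ((k, c) : X) ∉ {x : X | x.1 = 0} from hk) _
      simp [this]
    rw [tsum_eq_single 0 e1]
    have e2 : ∀ c : ℝ, {x : X | x.1 = 0}.indicator (fun x => ‖fcX (u ∘ G.perm) x‖ₑ ^ 2) (0, c)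
        = ‖fc (u ∘ G.perm) 0 c‖ₑ ^ 2 := fun c =>
      Set.indicator_of_mem (show ((0, c) : X) ∈ {x : X | x.1 = 0} from rfl) _
    simp only [e2]
    rw [lintegral_two_eq, ENNReal.ofReal_pow (by positivity)]
    gcongr
  calc _ ≤ ENNReal.ofReal ((e / 2) ^ 2) + ENNReal.ofReal ((e / 2) ^ 2) := add_le_add hz hoff
    _ ≤ ENNReal.ofReal (e ^ 2) := by
        rw [← ENNReal.ofReal_add (by positivity) (by positivity)]
        refine ENNReal.ofReal_le_ofReal ?_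
        nlinarith [sq_nonneg e]

theorem t2Stmt : T2Stmt := by
  intro t u hu hu0 e he
  refine (t2' t u hu hu0 e he).mono fun K eps d h P' G hh => hh.trans ?_
  have : 0 ≤ ms (offJ t) u := Real.sqrt_nonneg _
  linarith

end Crest.Agent.R081.Dt
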