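import Crest.Agent.R081.Flat4
import Crest.Agent.R081.G1

/-!
# Row 81, node FLAT, part 5: the three inputs of `G1.goal_of_stages`
-/

set_option autoImplicit false

namespace Crest.Agent.R081.Flat

open MeasureTheory Set Filter Crest.AnalysisR.Torus3 Crest.Agent.R075 Crest.Agent.R081.Cv
  Crest.Agent.R081.Fm Crest.Agent.R081.St Crest.Agent.R081.Ind Crest.Agent.R081.Sm
  Crest.Agent.R081.Tw
open scoped ENNReal

theorem flatS0 : G1.FlatS0 := fun s n => corr_gT s n

theorem flatMean : G1.FlatMean := gT_mean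

theorem flatS1 : G1.FlatS1 := by
  intro s f hf _ η hη
  obtain ⟨p, hp⟩ := dist s (hf.toLp f) hη
  refine ⟨p, ?_⟩
  have hD : s.D0 (fun x => ((hf.toLp f : HR) x : ℂ)) = s.D0 (fun x => (f x : ℂ)) := by
    unfold Stage.D0 Stage.nrm
    congr 1
    have h1 : (fun y => (((hf.toLp f : HR) (s.H.perm y) : ℝ) : ℂ)) =ᵐ[volume]
        fun y => (f (s.H.perm y) : ℂ) := by
      have h2 := (s.mpH : MeasurePreserving s.H.perm volume volume).quasiMeasurePreserving.ae_eq_comp
        hf.coeFn_toLp
      filter_upwards [h2] with y hy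
      have h3 : (hf.toLp f : HR) (s.H.perm y) = f (s.H.perm y) := hy
      rw [h3]
    refine integral_congr_ae (ae_restrict_of_ae ?_)
    filter_upwards [fc_congr h1] with x hx
    rw [hx]
  rw [hD] at hp
  have e1 : (fun x => f x - p.sum fun n a => a * s.gT ((s.T.perm ^ n) x)) =ᵐ[volume]
      (hf.toLp f - pol s.T (mpT s) p (gL s) : HR) := by
    filter_upwards [Lp.coeFn_sub (hf.toLp f) (pol s.T (mpT s) p (gL s)), pol_coe s p,
      hf.coeFn_toLp] with x a1 a2 a3
    rw [a1, Pi.sub_apply, a2, a3]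
    rfl
  rw [eLpNorm_congr_ae e1]
  have e2 : ‖(hf.toLp f - pol s.T (mpT s) p (gL s) : HR)‖ₑ =
      eLpNorm (hf.toLp f - pol s.T (mpT s) p (gL s) : HR) 2 volume := Lp.enorm_def _
  rw [← e2, ← ofReal_norm]
  exact ENNReal.ofReal_le_ofReal hp

/-- the whole row from the one-step statement and a base stage -/
theorem goal_of_StepStmt (h : StepStmt) (hb : Nonempty Stage) : Glue.Goal :=
  G1.goal_of_stages flatS0 flatMean flatS1 h hb

end Crest.Agent.R081.Flat
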