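import Crest.Agent.R081.Asm
import Crest.Agent.R081.Flat5
import Crest.Agent.R081.CvM
import Crest.Agent.R081.Dt7
import Crest.Agent.R081.BaseSt

/-! Row 81, route B (architect helper310): the assembly, remaining statements. -/

set_option autoImplicit false

namespace Crest.Agent.R081.Asm

open MeasureTheory Crest.AnalysisR.Torus3 Crest.Agent.R081.Fm
  Crest.Agent.R081.Sm Crest.Agent.R081.Tw Crest.Agent.R081.St Crest.Agent.R081.G1

theorem goal_of' (hD : DesStmt) (h1 : T1Stmt) (h0 : T0Stmt) (hGA : GAStmt) (hGP : GPStmt) :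
    Glue.Goal :=
  Flat.goal_of_StepStmt
    (stepStmt hD smoothStmt Cv.modes_stmt Dt.t3Stmt Dt.t2Stmt h1 h0 hGA hGP heStmt hfc)
    BaseSt.nonempty_stage

end Crest.Agent.R081.Asm
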