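import Crest.Agent.R081.Cv1

/-!
Row 81 (S0108), node COVER (helper451), part 2: unfolding identities (change of variables).
-/

set_option autoImplicit false

open MeasureTheory ENNReal

namespace Crest.Agent.R081.Cv

lemma lintegral_affine {s b : ℝ} (hs : s ≠ 0) {g : ℝ → ℝ≥0∞} (hg : Measurable g) :
    ∫⁻ c, g (s * c + b) * ENNReal.ofReal |s| = ∫⁻ t, g t := by
  have h1 : ∫⁻ c, g (s * c + b) = ENNReal.ofReal |s⁻¹| * ∫⁻ t, g t := by
    have e1 : ∫⁻ c, g (s * c + b) = ∫⁻ y, g (y + b) ∂(Measure.map (fun x : ℝ => s * x) volume) := by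
      rw [lintegral_map (by fun_prop) (by fun_prop)]
    rw [e1, Real.map_volume_mul_left hs, lintegral_smul_measure, smul_eq_mul,
      lintegral_add_right_eq_self g b]
  rw [lintegral_mul_const _ (by fun_prop), h1, mul_comm, ← mul_assoc,
    ← ENNReal.ofReal_mul (abs_nonneg _), ← abs_mul, mul_inv_cancel₀ hs]
  simp

/-- one affine branch -/
lemma lintegral_branch {A : Set ℝ} (hA : MeasurableSet A) {s b : ℝ} (hs : A.Nonempty → s ≠ 0)
    {f : ℝ → ℝ} (hf : ∀ c ∈ A, f c = s * c + b) {G : ℝ → ℝ≥0∞} (hG : Measurable G) :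
    ∫⁻ c in A, G (f c) * ENNReal.ofReal |s| =
      ∫⁻ t, G t * {t | (t - b) / s ∈ A ∧ A.Nonempty}.indicator (fun _ => (1 : ℝ≥0∞)) t := by
  classical
  rcases A.eq_empty_or_nonempty with hE | hne
  · subst hE; simp
  have hs' := hs hne
  have h0 : MeasurableSet {t : ℝ | (t - b) / s ∈ A ∧ A.Nonempty} := by
    have : {t : ℝ | (t - b) / s ∈ A ∧ A.Nonempty} = (fun t : ℝ => (t - b) / s) ⁻¹' A := by
      ext t; simp [hne]
    rw [this]
    exact (by fun_prop : Measurable (fun t : ℝ => (t - b) / s)) hA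
  have h1 : Measurable (fun t => G t * {t | (t - b) / s ∈ A ∧ A.Nonempty}.indicator
      (fun _ => (1 : ℝ≥0∞)) t) := hG.mul (measurable_const.indicator h0)
  rw [← lintegral_affine (b := b) hs' h1, ← lintegral_indicator hA]
  apply lintegral_congr
  intro c
  by_cases hc : c ∈ A
  · have : s * c + b ∈ {t | (t - b) / s ∈ A ∧ A.Nonempty} := by
      refine ⟨?_, hne⟩
      have : (s * c + b - b) / s = c := by field_simp; ring
      rw [this]; exact hc
    rw [Set.indicator_of_mem hc, Set.indicator_of_mem this, hf c hc, mul_one]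
  · have : s * c + b ∉ {t | (t - b) / s ∈ A ∧ A.Nonempty} := by
      rintro ⟨h, -⟩
      have h2 : (s * c + b - b) / s = c := by field_simp; ring
      rw [h2] at h; exact hc h
    rw [Set.indicator_of_notMem hc, Set.indicator_of_notMem this]
    simp

section Unfold

variable {ι : Type*} [Countable ι] {A : ι → Set ℝ} {s b : ι → ℝ} {f : ι → ℝ → ℝ}

lemma mem_branch {i : ι} (hs : (A i).Nonempty → s i ≠ 0)
    (hf : ∀ c ∈ A i, f i c = s i * c + b i) {t : ℝ} :
    t ∈ {t | (t - b i) / s i ∈ A i ∧ (A i).Nonempty} ↔ ∃ c ∈ A i, f i c = t := by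
  constructor
  · rintro ⟨h, hne⟩
    refine ⟨_, h, ?_⟩
    rw [hf _ h]
    have := hs hne
    field_simp
    ring
  · rintro ⟨c, hc, rfl⟩
    have := hs ⟨c, hc⟩
    refine ⟨?_, ⟨c, hc⟩⟩
    rw [hf c hc]
    have h2 : (s i * c + b i - b i) / s i = c := by field_simp; ring
    rw [h2]; exact hc

/-- **unfolding**: if almost every real is attained exactly once by the affine branches, the
weighted sum of the integrals over the branches is the integral over the line. -/
theorem unfold_eq (hA : ∀ i, MeasurableSet (A i)) (hs : ∀ i, (A i).Nonempty → s i ≠ 0)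
    (hf : ∀ i, ∀ c ∈ A i, f i c = s i * c + b i)
    (hU : ∀ᵐ t : ℝ, ∃! p : ι × ℝ, p.2 ∈ A p.1 ∧ f p.1 p.2 = t) {G : ℝ → ℝ≥0∞}
    (hG : Measurable G) :
    ∑' i, ∫⁻ c in A i, G (f i c) * ENNReal.ofReal |s i| = ∫⁻ t, G t := by
  classical
  have h0 : ∀ i, MeasurableSet {t : ℝ | (t - b i) / s i ∈ A i ∧ (A i).Nonempty} := by
    intro i
    rcases (A i).eq_empty_or_nonempty with hE | hne
    · simp [hE]
    · have : {t : ℝ | (t - b i) / s i ∈ A i ∧ (A i).Nonempty} = (fun t : ℝ => (t - b i) / s i) ⁻¹' (A i) := by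
        ext t; simp [hne]
      rw [this]
      exact (by fun_prop : Measurable (fun t : ℝ => (t - b i) / s i)) (hA i)
  calc ∑' i, ∫⁻ c in A i, G (f i c) * ENNReal.ofReal |s i|
      = ∑' i, ∫⁻ t, G t * {t | (t - b i) / s i ∈ A i ∧ (A i).Nonempty}.indicator
          (fun _ => (1 : ℝ≥0∞)) t := by
        congr 1; funext i
        exact lintegral_branch (hA i) (hs i) (hf i) hG
    _ = ∫⁻ t, ∑' i, G t * {t | (t - b i) / s i ∈ A i ∧ (A i).Nonempty}.indicator
          (fun _ => (1 : ℝ≥0∞)) t := by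
        rw [lintegral_tsum]
        intro i
        exact (hG.mul (measurable_const.indicator (h0 i))).aemeasurable
    _ = ∫⁻ t, G t := by
        apply lintegral_congr_ae
        filter_upwards [hU] with t ht
        rw [ENNReal.tsum_mul_left]
        obtain ⟨⟨i, c⟩, ⟨hc, hfc⟩, hu⟩ := ht
        have : ∑' i, {t | (t - b i) / s i ∈ A i ∧ (A i).Nonempty}.indicator
            (fun _ => (1 : ℝ≥0∞)) t = 1 := by
          rw [tsum_eq_single i]
          · rw [Set.indicator_of_mem]
            exact (mem_branch (hs i) (hf i)).2 ⟨c, hc, hfc⟩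
          · intro i' hi'
            rw [Set.indicator_of_notMem]
            intro hmem
            obtain ⟨c', hc', hfc'⟩ := (mem_branch (hs i') (hf i')).1 hmem
            have := hu (i', c') ⟨hc', hfc'⟩
            exact hi' (congrArg Prod.fst this)
        rw [this, mul_one]

/-- **unfolding**, inequality version: at most once. -/
theorem unfold_le (hA : ∀ i, MeasurableSet (A i)) (hs : ∀ i, (A i).Nonempty → s i ≠ 0)
    (hf : ∀ i, ∀ c ∈ A i, f i c = s i * c + b i)
    (hU : ∀ᵐ t : ℝ, ∀ p p' : ι × ℝ, p.2 ∈ A p.1 → f p.1 p.2 = t → p'.2 ∈ A p'.1 →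
      f p'.1 p'.2 = t → p = p') {G : ℝ → ℝ≥0∞}
    (hG : Measurable G) :
    ∑' i, ∫⁻ c in A i, G (f i c) * ENNReal.ofReal |s i| ≤ ∫⁻ t, G t := by
  classical
  have h0 : ∀ i, MeasurableSet {t : ℝ | (t - b i) / s i ∈ A i ∧ (A i).Nonempty} := by
    intro i
    rcases (A i).eq_empty_or_nonempty with hE | hne
    · simp [hE]
    · have : {t : ℝ | (t - b i) / s i ∈ A i ∧ (A i).Nonempty} = (fun t : ℝ => (t - b i) / s i) ⁻¹' (A i) := by
        ext t; simp [hne]
      rw [this]
      exact (by fun_prop : Measurable (fun t : ℝ => (t - b i) / s i)) (hA i)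
  calc ∑' i, ∫⁻ c in A i, G (f i c) * ENNReal.ofReal |s i|
      = ∑' i, ∫⁻ t, G t * {t | (t - b i) / s i ∈ A i ∧ (A i).Nonempty}.indicator
          (fun _ => (1 : ℝ≥0∞)) t := by
        congr 1; funext i
        exact lintegral_branch (hA i) (hs i) (hf i) hG
    _ = ∫⁻ t, ∑' i, G t * {t | (t - b i) / s i ∈ A i ∧ (A i).Nonempty}.indicator
          (fun _ => (1 : ℝ≥0∞)) t := by
        rw [lintegral_tsum]
        intro i
        exact (hG.mul (measurable_const.indicator (h0 i))).aemeasurable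
    _ ≤ ∫⁻ t, G t := by
        apply lintegral_mono_ae
        filter_upwards [hU] with t ht
        rw [ENNReal.tsum_mul_left]
        have : ∑' i, {t | (t - b i) / s i ∈ A i ∧ (A i).Nonempty}.indicator
            (fun _ => (1 : ℝ≥0∞)) t ≤ 1 := by
          by_cases hex : ∃ i, t ∈ {t | (t - b i) / s i ∈ A i ∧ (A i).Nonempty}
          · obtain ⟨i, hi⟩ := hex
            rw [tsum_eq_single i]
            · by_cases hti : t ∈ {t | (t - b i) / s i ∈ A i ∧ (A i).Nonempty}
              · rw [Set.indicator_of_mem hti]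
              · rw [Set.indicator_of_notMem hti]; exact zero_le_one
            · intro i' hi'
              rw [Set.indicator_of_notMem]
              intro hmem
              obtain ⟨c', hc', hfc'⟩ := (mem_branch (hs i') (hf i')).1 hmem
              obtain ⟨c, hc, hfc⟩ := (mem_branch (hs i) (hf i)).1 hi
              have := ht (i', c') (i, c) hc' hfc' hc hfc
              exact hi' (congrArg Prod.fst this)
          · push Not at hex
            have : ∀ i, {t | (t - b i) / s i ∈ A i ∧ (A i).Nonempty}.indicator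
              (fun _ => (1 : ℝ≥0∞)) t = 0 := fun i => Set.indicator_of_notMem (hex i) _
            simp [this]
        calc _ ≤ G t * 1 := by gcongr
          _ = G t := mul_one _

end Unfold

/-- slice of a mode set -/
def slice (S : Set Md) (k : ℤ × ℤ) : Set ℝ := {c | (k, c) ∈ S}

@[simp] lemma mem_slice {S : Set Md} {k : ℤ × ℤ} {c : ℝ} : c ∈ slice S k ↔ (k, c) ∈ S := Iff.rfl

/-- on the mode set `S` the twist profile is affine of slope `al > 0` and `k₂ ≠ 0` -/
structure Aff (al de : ℝ) (psi : ℝ → ℝ) (S : Set Md) : Prop where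
  al_pos : 0 < al
  k2 : ∀ p ∈ S, p.1.2 ≠ 0
  psi_eq : ∀ p ∈ S, psi p.2 = al * (p.2 - de)
  meas : ∀ k, MeasurableSet (slice S k)

/-- **(CV4)** change of variables on a mode set with exact cover: for a 1-periodic measurable
`φ ≥ 0`, `∑ₖ ∫_{S_k} φ(ν(k,c)) |k₂| α dc = ∫₀¹ φ`. -/
theorem cv4 {P : ℤ} {q : ℕ} {psi : ℝ → ℝ} {al de : ℝ} {S : Set Md}
    (hS : Cov (nuT P q psi) S) (hAff : Aff al de psi S) {φ : ℝ → ℝ≥0∞} (hφ : Measurable φ)
    (hper : ∀ x, ∀ m : ℤ, φ (x + m) = φ x) :
    ∑' k : ℤ × ℤ, ∫⁻ c in slice S k, φ (nuT P q psi (k, c)) * ENNReal.ofReal (|(k.2 : ℝ)| * al) =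
      ∫⁻ x in Set.Ico (0 : ℝ) 1, φ x := by
  classical
  set G : ℝ → ℝ≥0∞ := (Set.Ico (0 : ℝ) 1).indicator φ with hG
  have hGm : Measurable G := hφ.indicator measurableSet_Ico
  have hU : ∀ᵐ t : ℝ, ∃! p : ((ℤ × ℤ) × ℤ) × ℝ, p.2 ∈ slice S p.1.1 ∧
      nuT P q psi (p.1.1, p.2) - p.1.2 = t := by
    filter_upwards [hS] with t ht
    obtain ⟨p, ⟨hp, m, hm⟩, hu⟩ := ht
    refine ⟨((p.1, m), p.2), ⟨hp, by linarith⟩, ?_⟩
    rintro ⟨⟨k, m'⟩, c⟩ ⟨h1, h2⟩
    have h3 := hu (k, c) ⟨h1, m', by simp only at h2; linarith⟩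
    subst h3
    have : (m' : ℝ) = m := by simp only at h2; linarith
    have : m' = m := by exact_mod_cast this
    subst this; rfl
  have key := unfold_eq (ι := (ℤ × ℤ) × ℤ) (A := fun i => slice S i.1)
    (s := fun i => (i.1.2 : ℝ) * al)
    (b := fun i => (i.1.1 : ℝ) * P / q - (i.1.2 : ℝ) * al * de - i.2)
    (f := fun i c => nuT P q psi (i.1, c) - i.2) (fun i => hAff.meas _)
    (by
      rintro ⟨k, m⟩ ⟨c, hc⟩
      have := hAff.k2 _ hc
      have h2 : ((k.2 : ℤ) : ℝ) ≠ 0 := by exact_mod_cast this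
      exact mul_ne_zero h2 hAff.al_pos.ne')
    (by
      rintro ⟨k, m⟩ c hc
      have := hAff.psi_eq _ hc
      simp only [nuT] at this ⊢
      rw [this]; ring) hU hGm
  have e1 : ∫⁻ x in Set.Ico (0 : ℝ) 1, φ x = ∫⁻ x, G x := by
    rw [hG, lintegral_indicator measurableSet_Ico]
  rw [e1, ← key]
  have e3 := ENNReal.tsum_prod (f := fun (k : ℤ × ℤ) (m : ℤ) =>
    ∫⁻ (c : ℝ) in slice S k, G (nuT P q psi (k, c) - m) * ENNReal.ofReal |(k.2 : ℝ) * al|)
  rw [e3]
  congr 1
  funext k
  have hw : ENNReal.ofReal (|(k.2 : ℝ)| * al) = ENNReal.ofReal |(k.2 : ℝ) * al| := by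
    rw [abs_mul, abs_of_pos hAff.al_pos]
  rw [hw]
  by_cases hne : (slice S k).Nonempty
  swap
  · rw [Set.not_nonempty_iff_eq_empty] at hne
    simp [hne]
  -- the sum over m inside
  have hfm : ∀ m : ℤ, ∫⁻ c in slice S k, G (nuT P q psi (k, c) - m) * ENNReal.ofReal |(k.2 : ℝ) * al|
      = ∫⁻ c in slice S k, G ((k.2 : ℝ) * al * c + ((k.1 : ℝ) * P / q - (k.2 : ℝ) * al * de - m)) *
        ENNReal.ofReal |(k.2 : ℝ) * al| := by
    intro m
    apply setLIntegral_congr_fun (hAff.meas k)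
    intro c hc
    have := hAff.psi_eq _ hc
    have h2 : nuT P q psi (k, c) - m =
        (k.2 : ℝ) * al * c + ((k.1 : ℝ) * P / q - (k.2 : ℝ) * al * de - m) := by
      simp only [nuT] at this ⊢
      rw [this]; ring
    simp only
    rw [h2]
  simp_rw [hfm]
  rw [← lintegral_tsum]
  swap
  · intro m
    apply Measurable.aemeasurable
    apply Measurable.mul_const
    exact hGm.comp (by fun_prop)
  apply setLIntegral_congr_fun (hAff.meas k)
  intro c hc
  have h2 : ∀ m : ℤ, (k.2 : ℝ) * al * c + ((k.1 : ℝ) * P / q - (k.2 : ℝ) * al * de - m) =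
      nuT P q psi (k, c) - m := by
    intro m
    have := hAff.psi_eq _ hc
    simp only [nuT] at this ⊢
    rw [this]; ring
  simp only
  simp_rw [h2]
  rw [ENNReal.tsum_mul_right]
  congr 1
  set y := nuT P q psi (k, c) with hy
  rw [tsum_eq_single ⌊y⌋]
  · rw [hG, Set.indicator_of_mem]
    · have := hper (y - ⌊y⌋) ⌊y⌋
      rw [← this]; congr 1; ring
    · constructor
      · have := Int.floor_le y; linarith
      · have := Int.lt_floor_add_one y; linarith
  · intro m hm
    rw [hG, Set.indicator_of_notMem]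
    rintro ⟨h3, h4⟩
    apply hm
    symm
    rw [Int.floor_eq_iff]
    constructor <;> linarith

/-- **(CV4')** total mass one -/
theorem cv4_total {P : ℤ} {q : ℕ} {psi : ℝ → ℝ} {al de : ℝ} {S : Set Md}
    (hS : Cov (nuT P q psi) S) (hAff : Aff al de psi S) :
    ∑' k : ℤ × ℤ, ENNReal.ofReal (|(k.2 : ℝ)| * al) * volume (slice S k) = 1 := by
  have := cv4 hS hAff (φ := fun _ => 1) measurable_const (fun _ _ => rfl)
  simp only [one_mul, lintegral_const, MeasurableSet.univ, Measure.restrict_apply, Set.univ_inter,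
    Real.volume_Ico, sub_zero, ENNReal.ofReal_one] at this
  exact this

/-- **(CV4'')** the image measure: the weighted measure on a mode set is mapped by the frequency
modulo one to Lebesgue measure on `[0,1)`, for Bochner integrals of bounded (or integrable)
functions. -/
noncomputable def muS (al : ℝ) (S : Set Md) : Measure Md :=
  Measure.sum (fun k : ℤ × ℤ => (ENNReal.ofReal (|(k.2 : ℝ)| * al)) •
    ((volume.restrict (slice S k)).map (fun c => (k, c))))

lemma measurable_mk (k : ℤ × ℤ) : Measurable (fun c : ℝ => ((k, c) : Md)) := by fun_prop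

lemma lintegral_muS {al : ℝ} {S : Set Md} {φ : Md → ℝ≥0∞} (hφ : Measurable φ) :
    ∫⁻ p, φ p ∂(muS al S) =
      ∑' k : ℤ × ℤ, ∫⁻ c in slice S k, φ (k, c) * ENNReal.ofReal (|(k.2 : ℝ)| * al) := by
  unfold muS
  rw [lintegral_sum_measure]
  congr 1
  funext k
  have h1 : Measurable (fun c : ℝ => φ (k, c)) := hφ.comp (measurable_mk k)
  rw [lintegral_smul_measure, lintegral_map hφ (measurable_mk k),
    lintegral_mul_const _ h1, smul_eq_mul, mul_comm]

end Crest.Agent.R081.Cv
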