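import Crest.Agent.R081.StSkel
import Crest.Agent.R081.FmSum
import Crest.Agent.R081.Cv2

/-! # Row 81, route B: the new function `g₊` of the step (`GPStmt`, insurance copy, helper23) -/

set_option autoImplicit false

namespace Crest.Agent.R081.Gp

open MeasureTheory Crest.AnalysisR.Torus3 Crest.Agent.R075 Crest.Agent.R081.Fm
  Crest.Agent.R081.Sm Crest.Agent.R081.Tw Crest.Agent.R081.St
open scoped ENNReal

theorem nuT_eq (t : TwD) (p : X) : Cv.nuT t.P t.q t.psi p = t.nu p := by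
  unfold Cv.nuT TwD.nu; ring

theorem modes_cov {t : TwD} (M : Modes t) : Cv.Cov (Cv.nuT t.P t.q t.psi) M.S := by
  filter_upwards [M.full] with x hx
  obtain ⟨y, hy, n, hn⟩ := hx
  refine ⟨y, ⟨hy, n, by rw [nuT_eq]; linarith⟩, ?_⟩
  rintro z ⟨hz, m, hm⟩
  rw [nuT_eq] at hm
  exact M.inj z hz y hy ⟨m - n, by push_cast; linarith⟩

theorem modes_aff {t : TwD} (M : Modes t) : Cv.Aff t.al t.del t.psi M.S where
  al_pos := t.al_pos
  k2 := M.ne0
  psi_eq := fun p hp => t.lin _ (M.sub p hp)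
  meas := fun _ => measurable_prodMk_left M.meas

/-- the total mass of a mode set is one -/
theorem modes_mass {t : TwD} (M : Modes t) :
    ∫⁻ x, M.S.indicator (fun x : X => ENNReal.ofReal (|(x.1.2 : ℝ)| * t.al)) x ∂muX = 1 := by
  rw [Fm.lintegral_muX, ← Cv.cv4_total (modes_cov M) (modes_aff M)]
  congr 1
  funext k
  have e1 : ∀ c : ℝ, M.S.indicator (fun x : X => ENNReal.ofReal (|(x.1.2 : ℝ)| * t.al)) (k, c)
      = (Cv.slice M.S k).indicator (fun _ => ENNReal.ofReal (|(k.2 : ℝ)| * t.al)) c := by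
    intro c
    by_cases h : (k, c) ∈ M.S
    · rw [Set.indicator_of_mem h, Set.indicator_of_mem (show c ∈ Cv.slice M.S k from h)]
    · rw [Set.indicator_of_notMem h, Set.indicator_of_notMem (show c ∉ Cv.slice M.S k from h)]
  simp only [e1]
  have hm : MeasurableSet (Cv.slice M.S k) := (modes_aff M).meas k
  rw [lintegral_indicator hm, lintegral_const]
  congr 1
  rw [Measure.restrict_apply MeasurableSet.univ, Set.univ_inter, I01, Measure.restrict_apply hm]
  congr 1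
  refine Set.inter_eq_left.2 fun c hc => ?_
  have := M.sub _ hc
  have h1 := t.del_pos
  exact ⟨lt_of_lt_of_le h1 this.1, this.2.trans (by linarith)⟩

/-- squares of norms and `enorm` -/
theorem enorm_sq (z : ℂ) : ‖z‖ₑ ^ 2 = ENNReal.ofReal (‖z‖ ^ 2) := by
  rw [ENNReal.ofReal_pow (norm_nonneg _), ofReal_norm]

/-- an array with the exact modulus of the mode set has mass one -/
theorem flat_mass {t : TwD} (M : Modes t) {a : X → ℂ}
    (ha : ∀ᵐ x ∂muX, ‖a x‖ ^ 2 = M.S.indicator (fun x => |(x.1.2 : ℝ)| * t.al) x) :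
    ∫⁻ x, ‖a x‖ₑ ^ 2 ∂muX = 1 := by
  rw [← modes_mass M]
  refine lintegral_congr_ae ?_
  filter_upwards [ha] with x hx
  rw [enorm_sq, hx]
  by_cases h : x ∈ M.S
  · rw [Set.indicator_of_mem h, Set.indicator_of_mem h]
  · rw [Set.indicator_of_notMem h, Set.indicator_of_notMem h, ENNReal.ofReal_zero]

theorem flat_memLp {t : TwD} (M : Modes t) {a : X → ℂ} (hm : AEStronglyMeasurable a muX)
    (ha : ∀ᵐ x ∂muX, ‖a x‖ ^ 2 = M.S.indicator (fun x => |(x.1.2 : ℝ)| * t.al) x) :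
    MemLp a 2 muX := by
  refine memLp_two_iff.2 ⟨hm, ?_⟩
  rw [flat_mass M ha]
  exact ENNReal.one_lt_top

theorem flat_integral {t : TwD} (M : Modes t) {a : X → ℂ} (hm : AEStronglyMeasurable a muX)
    (ha : ∀ᵐ x ∂muX, ‖a x‖ ^ 2 = M.S.indicator (fun x => |(x.1.2 : ℝ)| * t.al) x) :
    ∫ x, ‖a x‖ ^ 2 ∂muX = 1 := by
  have h1 := integral_eq_lintegral_of_nonneg_ae (μ := muX) (f := fun x => ‖a x‖ ^ 2)
    (Filter.Eventually.of_forall fun x => by positivity) (hm.norm.pow 2)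
  have := flat_mass M ha
  simp only [enorm_sq] at this
  rw [h1, this, ENNReal.toReal_one]

theorem modes_symm_iff {t : TwD} (M : Modes t) (x : X) : ((-x.1, x.2) : X) ∈ M.S ↔ x ∈ M.S := by
  constructor
  · intro h
    have := M.symm _ h
    simpa using this
  · exact M.symm x

/-- **core**: a real function whose array is close to a flat symmetric array on a part `B` of a mode
set is close to a real function with the flat modulus on the whole mode set -/
theorem gp_core {t' : TwD} (M' : Modes t') {u : T3 → ℝ} (hu : MemLp u 2 volume)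
    (hu1 : ∫ x, ‖fcX (fun y => (u y : ℂ)) x‖ ^ 2 ∂muX = 1) {B : Set X} (hsub : B ⊆ M'.S) {a : X → ℂ}
    (hma : Measurable a)
    (ha : ∀ᵐ x ∂muX, ‖a x‖ ^ 2 = B.indicator (fun x => |(x.1.2 : ℝ)| * t'.al) x)
    (hasym : ∀ᵐ x ∂muX, a (-x.1, x.2) = (starRingEnd ℂ) (a x)) {e e1 : ℝ} (he1p : 0 < e1)
    (he11 : e1 ≤ 1) (he18 : e1 ≤ e ^ 2 / 8)
    (hdist : (∫ x, ‖fcX (fun y => (u y : ℂ)) x - a x‖ ^ 2 ∂muX) ≤ e1 ^ 2) :
    ∃ g' : T3 → ℝ, MemLp g' 2 volume ∧
      (∀ᵐ x ∂muX, ‖fcX (fun y => (g' y : ℂ)) x‖ ^ 2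
        = M'.S.indicator (fun x => |(x.1.2 : ℝ)| * t'.al) x) ∧
      (∫ y, (g' y - u y) ^ 2) ≤ e ^ 2 := by
  -- the support of `a`
  set A : Set X := {x | a x ≠ 0} with hA
  have hAm : MeasurableSet A := hma (measurableSet_singleton 0).compl
  set ro : X → ℝ := fun x => |(x.1.2 : ℝ)| * t'.al with hro
  have hro0 : ∀ x, 0 ≤ ro x := fun x => mul_nonneg (abs_nonneg _) t'.al_pos.le
  have hrop : ∀ x ∈ M'.S, 0 < ro x := fun x hx => by
    have h1 : (x.1.2 : ℝ) ≠ 0 := by exact_mod_cast M'.ne0 x hx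
    exact mul_pos (abs_pos.2 h1) t'.al_pos
  have hrom : Measurable ro := by
    have : Measurable (fun x : X => (x.1.2 : ℝ)) :=
      (measurable_from_top (f := fun n : ℤ => (n : ℝ))).comp (measurable_snd.comp measurable_fst)
    exact (continuous_abs.measurable.comp this).mul_const _
  have hAS : ∀ᵐ x ∂muX, (x ∈ A → x ∈ M'.S ∧ ‖a x‖ ^ 2 = ro x) := by
    filter_upwards [ha] with x hx hxA
    by_cases hxs : x ∈ B
    · rw [Set.indicator_of_mem hxs] at hx
      exact ⟨hsub hxs, hx⟩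
    · rw [Set.indicator_of_notMem hxs] at hx
      exact absurd (norm_eq_zero.1 (pow_eq_zero_iff (two_ne_zero) |>.1 hx)) hxA
  -- the completed array
  set b : X → ℂ := fun x => (M'.S \ A).indicator (fun x => ((Real.sqrt (ro x) : ℝ) : ℂ)) x with hb
  have hbm : Measurable b :=
    (Complex.measurable_ofReal.comp (hrom.sqrt)).indicator (M'.meas.diff hAm)
  set a' : X → ℂ := fun x => a x + b x with ha'
  have ha'm : Measurable a' := hma.add hbm
  have hflat : ∀ᵐ x ∂muX, ‖a' x‖ ^ 2 = M'.S.indicator (fun x => |(x.1.2 : ℝ)| * t'.al) x := by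
    filter_upwards [hAS] with x hx
    by_cases hxA : x ∈ A
    · obtain ⟨h1, h2⟩ := hx hxA
      have hb0 : b x = 0 := Set.indicator_of_notMem (fun h => h.2 hxA) _
      rw [Set.indicator_of_mem h1]
      simp only [ha', hb0, add_zero]
      exact h2
    · have ha0 : a x = 0 := by by_contra hh; exact hxA hh
      by_cases hxM : x ∈ M'.S
      · have hb1 : b x = ((Real.sqrt (ro x) : ℝ) : ℂ) := Set.indicator_of_mem (show x ∈ M'.S \ A from ⟨hxM, hxA⟩) _
        rw [Set.indicator_of_mem hxM]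
        simp only [ha', hb1, ha0, zero_add]
        rw [Complex.norm_real, Real.norm_eq_abs, sq_abs, Real.sq_sqrt (hro0 x)]
      · have hb1 : b x = 0 := Set.indicator_of_notMem (fun h => hxM h.1) _
        rw [Set.indicator_of_notMem hxM]
        simp [ha', hb1, ha0]
  have hsymm : ∀ᵐ x ∂muX, a' (-x.1, x.2) = (starRingEnd ℂ) (a' x) := by
    filter_upwards [hasym] with x hx
    have hA' : ((-x.1, x.2) : X) ∈ A ↔ x ∈ A := by
      simp only [hA, Set.mem_ofPred_eq, ne_eq, hx, map_eq_zero]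
    have hro' : ro (-x.1, x.2) = ro x := by simp [hro]
    have hb' : b (-x.1, x.2) = (starRingEnd ℂ) (b x) := by
      by_cases hxM : x ∈ M'.S \ A
      · have h1 : ((-x.1, x.2) : X) ∈ M'.S \ A :=
          ⟨(modes_symm_iff M' x).2 hxM.1, fun h => hxM.2 (hA'.1 h)⟩
        simp only [hb]
        rw [Set.indicator_of_mem h1, Set.indicator_of_mem hxM, hro', Complex.conj_ofReal]
      · have h1 : ((-x.1, x.2) : X) ∉ M'.S \ A :=
          fun h => hxM ⟨(modes_symm_iff M' x).1 h.1, fun h' => h.2 (hA'.2 h')⟩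
        simp only [hb]
        rw [Set.indicator_of_notMem h1, Set.indicator_of_notMem hxM, map_zero]
    simp only [ha', hx, hb', map_add]
  have ha'L : MemLp a' 2 muX := flat_memLp M' ha'm.aestronglyMeasurable hflat
  obtain ⟨g', hg', hfg⟩ := exists_real_of_coeff ha'L hsymm
  refine ⟨g', hg', ?_, ?_⟩
  · filter_upwards [hfg, hflat] with x h1 h2
    rw [h1, h2]
  -- the distance
  have hgGc : MemLp (fun y => (u y : ℂ)) 2 volume := hu.ofReal
  have hg'c : MemLp (fun y => (g' y : ℂ)) 2 volume := hg'.ofReal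
  set C : X → ℂ := fcX (fun y => (u y : ℂ)) with hC
  have hCL : MemLp C 2 muX := memLp_fcX hgGc
  have haL : MemLp a 2 muX := by
    refine ha'L.mono hma.aestronglyMeasurable ?_
    filter_upwards [hAS] with x hx
    by_cases hxA : x ∈ A
    · have hb0 : b x = 0 := Set.indicator_of_notMem (fun h => h.2 hxA) _
      simp [ha', hb0]
    · have ha0 : a x = 0 := by by_contra hh; exact hxA hh
      rw [ha0, norm_zero]; exact norm_nonneg _
  have e2 : ∫ y, (g' y - u y) ^ 2 = ∫ x, ‖a' x - C x‖ ^ 2 ∂muX := by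
    have h1 : ∫ y, (g' y - u y) ^ 2
        = ∫ y, ‖(fun y => (g' y : ℂ) - (u y : ℂ)) y‖ ^ 2 := by
      congr 1
      funext y
      simp only
      rw [← Complex.ofReal_sub, Complex.norm_real, Real.norm_eq_abs, sq_abs]
    have hs2 : MemLp (fun y => (g' y : ℂ) - (u y : ℂ)) 2 volume := hg'c.sub hgGc
    rw [h1, ← parseval_norm hs2]
    refine integral_congr_ae ?_
    filter_upwards [fcX_sub (hg'c.integrable (by norm_num)) (hgGc.integrable (by norm_num)), hfg]
      with x h2 h3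
    rw [h2, h3]
  rw [e2]
  have I1 : ∫ x, ‖a' x‖ ^ 2 ∂muX = 1 := flat_integral M' ha'm.aestronglyMeasurable hflat
  have I2 : ∫ x, ‖C x‖ ^ 2 ∂muX = 1 := hu1
  have J0 : Integrable (fun x => ‖a x‖ ^ 2) muX := haL.integrable_norm_pow (by norm_num)
  have J1 : Integrable (fun x => ‖a' x‖ ^ 2) muX := ha'L.integrable_norm_pow (by norm_num)
  have J2 : Integrable (fun x => ‖C x‖ ^ 2) muX := hCL.integrable_norm_pow (by norm_num)
  have J3 : Integrable (fun x => ‖C x - a x‖ ^ 2) muX :=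
    (hCL.sub haL).integrable_norm_pow (by norm_num)
  have J4 : Integrable (fun x => ‖a' x - C x‖ ^ 2) muX :=
    (ha'L.sub hCL).integrable_norm_pow (by norm_num)
  have hd1 : ∫ x, ‖C x - a x‖ ^ 2 ∂muX ≤ e1 ^ 2 := hdist
  -- mass of `a`
  have k1 : 1 ≤ (1 + e1) * ∫ x, ‖a x‖ ^ 2 ∂muX + (1 + 1 / e1) * ∫ x, ‖C x - a x‖ ^ 2 ∂muX := by
    refine I2.symm.le.trans ?_
    rw [← integral_const_mul, ← integral_const_mul,
      ← integral_add (J0.const_mul _) (J3.const_mul _)]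
    refine integral_mono J2 ((J0.const_mul _).add (J3.const_mul _)) fun x => ?_
    simp only
    have h1 : ‖C x‖ ≤ ‖a x‖ + ‖C x - a x‖ := by
      have := norm_add_le (a x) (C x - a x)
      simpa using this
    have h2 : ‖C x‖ ^ 2 ≤ (‖a x‖ + ‖C x - a x‖) ^ 2 :=
      pow_le_pow_left₀ (norm_nonneg _) h1 2
    refine h2.trans ?_
    have h3 : (1 + e1) * ‖a x‖ ^ 2 + (1 + 1 / e1) * ‖C x - a x‖ ^ 2 - (‖a x‖ + ‖C x - a x‖) ^ 2
        = (e1 * ‖a x‖ - ‖C x - a x‖) ^ 2 / e1 := by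
      field_simp
      ring
    have h4 : 0 ≤ (e1 * ‖a x‖ - ‖C x - a x‖) ^ 2 / e1 := by positivity
    linarith
  have k2 : 1 - ∫ x, ‖a x‖ ^ 2 ∂muX ≤ 2 * e1 + e1 ^ 2 := by
    have h1 : (1 + 1 / e1) * ∫ x, ‖C x - a x‖ ^ 2 ∂muX ≤ (1 + 1 / e1) * e1 ^ 2 := by gcongr
    have h2 : (1 + 1 / e1) * e1 ^ 2 = e1 ^ 2 + e1 := by field_simp
    have h3 : 0 ≤ ∫ x, ‖a x‖ ^ 2 ∂muX := integral_nonneg fun x => by positivity
    have h4 : ∫ x, ‖a x‖ ^ 2 ∂muX ≤ 1 := by
      refine le_trans ?_ I1.le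
      refine integral_mono_ae J0 J1 ?_
      filter_upwards with x
      by_cases hxA : x ∈ A
      · have hb0 : b x = 0 := Set.indicator_of_notMem (fun h => h.2 hxA) _
        simp [ha', hb0]
      · have ha0 : a x = 0 := by by_contra hh; exact hxA hh

        simp [ha0]
    nlinarith
  -- final estimate
  have k3 : ∫ x, ‖a' x - C x‖ ^ 2 ∂muX ≤
      2 * ∫ x, ‖C x - a x‖ ^ 2 ∂muX + 2 * (∫ x, ‖a' x‖ ^ 2 ∂muX - ∫ x, ‖a x‖ ^ 2 ∂muX) := by
    have J5 : Integrable (fun x => ‖a' x‖ ^ 2 - ‖a x‖ ^ 2) muX := J1.sub J0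
    rw [← integral_sub J1 J0, ← integral_const_mul, ← integral_const_mul,
      ← integral_add (J3.const_mul _) (J5.const_mul _)]
    refine integral_mono J4 ((J3.const_mul _).add (J5.const_mul _)) fun x => ?_
    simp only
    have h1 : ‖a' x‖ ^ 2 - ‖a x‖ ^ 2 = ‖b x‖ ^ 2 := by
      by_cases hxA : x ∈ A
      · have hb0 : b x = 0 := Set.indicator_of_notMem (fun h => h.2 hxA) _
        simp [ha', hb0]
      · have ha0 : a x = 0 := by by_contra hh; exact hxA hh
        simp [ha', ha0]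
    rw [h1]
    have h2 : ‖a' x - C x‖ ≤ ‖C x - a x‖ + ‖b x‖ := by
      have h3 : a' x - C x = b x - (C x - a x) := by simp only [ha']; ring
      rw [h3, add_comm]
      exact norm_sub_le _ _
    have h3 : ‖a' x - C x‖ ^ 2 ≤ (‖C x - a x‖ + ‖b x‖) ^ 2 :=
      pow_le_pow_left₀ (norm_nonneg _) h2 2
    nlinarith [sq_nonneg (‖C x - a x‖ - ‖b x‖)]
  rw [I1] at k3
  nlinarith [he1p, he11, he18, k2, k3, hd1]

theorem gp : GPStmt := by
  intro s e he
  refine ⟨min 1 (e ^ 2 / 8), by positivity, ?_⟩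
  intro K eps d h hh P' hP G hG M' hsub _ a hma ha hasym hdist
  have hgG : MemLp (fun y => s.g (G.perm y)) 2 volume := s.g_lp.comp_measurePreserving hG
  have hgGc : MemLp (fun y => (s.g (G.perm y) : ℂ)) 2 volume := hgG.ofReal
  refine gp_core M' hgG ?_ hsub hma ha hasym (by positivity) (min_le_left _ _) (min_le_right _ _)
    hdist
  rw [parseval_norm hgGc]
  have h3 : ∫ y, ‖(s.g (G.perm y) : ℂ)‖ ^ 2 = ∫ y, ‖(s.g y : ℂ)‖ ^ 2 := by
    have := hG.integral_comp' (f := ⟨G.perm, G.measurable_perm, G.measurable_perm_symm⟩)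
      (fun y => ‖(s.g y : ℂ)‖ ^ 2)
    exact this
  have h4 : MemLp (fun y => (s.g y : ℂ)) 2 volume := s.g_lp.ofReal
  rw [h3, ← parseval_norm h4]
  exact flat_integral s.M (memLp_fcX h4).aestronglyMeasurable s.flat

end Crest.Agent.R081.Gp
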