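import Mathlib
import Crest.Agent.R075.Basic

/-!
# Row 81 (helper195): Parseval in unit shifts / Plancherel on `(0,1]`
-/

set_option autoImplicit false

open MeasureTheory Set Filter Topology

namespace Crest.Agent.R081.FrPars

open Crest.Agent.R075

/-- `u ∈ L²(0,1]` -/
abbrev L2 (u : ℝ → ℂ) : Prop := MemLp u 2 (volume.restrict (Ioc (0:ℝ) 1))

/-- Fourier transform of a function on `(0,1]` -/
noncomputable def Ft (w : ℝ → ℂ) (τ : ℝ) : ℂ := ∫ c in (0:ℝ)..1, w c * ee (-(τ * c))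

lemma L2.mul_ee {u : ℝ → ℂ} (hu : L2 u) {g : ℝ → ℝ} (hg : Continuous g) :
    L2 (fun c => u c * ee (g c)) := by
  have h1 : AEStronglyMeasurable (fun c => ee (g c)) (volume.restrict (Ioc (0:ℝ) 1)) :=
    (ee_continuous.comp hg).aestronglyMeasurable
  refine hu.of_le (hu.1.mul h1) (Filter.Eventually.of_forall fun c => ?_)
  simp

lemma L2.intervalIntegrable {u : ℝ → ℂ} (hu : L2 u) : IntervalIntegrable u volume 0 1 := by
  rw [intervalIntegrable_iff_integrableOn_Ioc_of_le zero_le_one]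
  exact hu.integrable one_le_two

lemma fourier_ee (n : ℤ) (x : ℝ) : (fourier (-n) (x : AddCircle ((1:ℝ) - 0)) : ℂ) = ee (-(n * x)) := by
  rw [fourier_coe_apply]
  unfold ee
  congr 1
  push_cast
  simp
  ring

lemma hasSum_Ft {w : ℝ → ℂ} (hw : L2 w) (τ0 : ℝ) :
    HasSum (fun j : ℤ => ‖Ft w (τ0 + j)‖ ^ 2) (∫ c in (0:ℝ)..1, ‖w c‖ ^ 2) := by
  have h1 : L2 (fun c => w c * ee (-(τ0 * c))) := hw.mul_ee (by fun_prop)
  have h := hasSum_sq_fourierCoeffOn (a := 0) (b := 1) (f := fun c => w c * ee (-(τ0 * c)))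
    zero_lt_one h1
  have e1 : ∀ j : ℤ, fourierCoeffOn (zero_lt_one' ℝ) (fun c => w c * ee (-(τ0 * c))) j
      = Ft w (τ0 + j) := by
    intro j
    rw [fourierCoeffOn_eq_integral]
    unfold Ft
    simp only [sub_zero, div_one, one_smul]
    apply intervalIntegral.integral_congr
    intro c _
    have := fourier_ee j c
    simp only [smul_eq_mul]
    rw [this]
    have : ee (-((τ0 + j) * c)) = ee (-(j * c)) * ee (-(τ0 * c)) := by
      rw [← ee_add]; congr 1; ring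
    rw [this]; ring
  have e2 : (∫ c in (0:ℝ)..1, ‖w c * ee (-(τ0 * c))‖ ^ 2) = ∫ c in (0:ℝ)..1, ‖w c‖ ^ 2 := by
    apply intervalIntegral.integral_congr
    intro c _
    simp
  simp only [sub_zero, inv_one, one_smul, e2] at h
  have h' : (fun j : ℤ => ‖Ft w (τ0 + j)‖ ^ 2) = fun j : ℤ =>
      ‖fourierCoeffOn (zero_lt_one' ℝ) (fun c => w c * ee (-(τ0 * c))) j‖ ^ 2 := by
    funext j
    rw [e1 j]
  rw [h']
  exact h

lemma tsum_Ft_enorm {w : ℝ → ℂ} (hw : L2 w) (τ0 : ℝ) :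
    ∑' j : ℤ, ‖Ft w (τ0 + j)‖ₑ ^ 2 = ENNReal.ofReal (∫ c in (0:ℝ)..1, ‖w c‖ ^ 2) := by
  have h := hasSum_Ft hw τ0
  rw [← h.tsum_eq, ENNReal.ofReal_tsum_of_nonneg (fun j => by positivity) h.summable]
  congr 1
  funext j
  rw [ENNReal.ofReal_pow (norm_nonneg _), ofReal_norm]

lemma cont_Ft {w : ℝ → ℂ} (hw : L2 w) : Continuous (Ft w) := by
  unfold Ft
  apply intervalIntegral.continuous_of_dominated_interval (bound := fun c => ‖w c‖)
  · intro τ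
    have : L2 (fun c => w c * ee (-(τ * c))) := hw.mul_ee (by fun_prop)
    rw [uIoc_of_le zero_le_one]
    exact this.1
  · intro τ
    exact Filter.Eventually.of_forall fun c _ => by simp
  · exact hw.intervalIntegrable.norm
  · exact Filter.Eventually.of_forall fun c _ => by
      exact continuous_const.mul (ee_continuous.comp (by fun_prop))

/-- unfolding an integral over `ℝ` -/
lemma lintegral_unfold {g : ℝ → ENNReal} (hg : Measurable g) :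
    ∫⁻ τ, g τ = ∫⁻ τ in Ioc (0:ℝ) 1, ∑' j : ℤ, g (τ + j) := by
  rw [lintegral_tsum (μ := volume.restrict (Ioc (0:ℝ) 1)) (f := fun (j : ℤ) τ => g (τ + j))
    (fun j => (hg.comp (by fun_prop)).aemeasurable)]
  rw [← setLIntegral_univ, ← iUnion_Ioc_intCast ℝ,
    lintegral_iUnion (fun n => measurableSet_Ioc) (pairwise_disjoint_Ioc_intCast ℝ)]
  congr 1
  funext n
  have h1 : MeasurePreserving (fun x : ℝ => x + (n:ℝ)) volume volume :=
    measurePreserving_add_right volume (n:ℝ)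
  have h2 := h1.setLIntegral_comp_preimage (s := Ioc (n:ℝ) (n+1)) (f := g) measurableSet_Ioc hg
  rw [← h2]
  congr 2
  ext x
  simp only [mem_preimage, mem_Ioc]
  constructor <;> rintro ⟨h3, h4⟩ <;> constructor <;> linarith

/-- Plancherel for functions on `(0,1]` -/
lemma lintegral_Ft {w : ℝ → ℂ} (hw : L2 w) :
    ∫⁻ τ, ‖Ft w τ‖ₑ ^ 2 = ENNReal.ofReal (∫ c in (0:ℝ)..1, ‖w c‖ ^ 2) := by
  rw [lintegral_unfold ((cont_Ft hw).enorm.measurable.pow_const 2)]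
  simp only [tsum_Ft_enorm hw]
  simp

lemma lintegral_sq_eq {w : ℝ → ℂ} (hw : L2 w) :
    ENNReal.ofReal (∫ c in (0:ℝ)..1, ‖w c‖ ^ 2) = ∫⁻ c in Ioc (0:ℝ) 1, ‖w c‖ₑ ^ 2 := by
  rw [intervalIntegral.integral_of_le zero_le_one,
    ofReal_integral_eq_lintegral_ofReal ((memLp_two_iff_integrable_sq_norm hw.1).mp hw)
      (Filter.Eventually.of_forall fun c => by positivity)]
  congr 1
  funext c
  rw [ENNReal.ofReal_pow (norm_nonneg _), ofReal_norm]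

lemma sq_eLpNorm {α : Type*} [MeasurableSpace α] (f : α → ℂ) (μ : Measure α) :
    eLpNorm f 2 μ ^ 2 = ∫⁻ x, ‖f x‖ₑ ^ 2 ∂μ := by
  have h := eLpNorm_nnreal_pow_eq_lintegral (μ := μ) (f := f) (p := 2) (by norm_num)
  have e : ((2 : NNReal) : ℝ) = ((2:ℕ) : ℝ) := by norm_num
  rw [e] at h
  simp only [ENNReal.rpow_natCast] at h
  exact_mod_cast h

/-- `φ(τ) = ∫_0^1 f(c) e(λ(c-d)²/2 - τ c) dc` -/
noncomputable def phi01 (lam d : ℝ) (f : ℝ → ℂ) (τ : ℝ) : ℂ :=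
  ∫ c in (0:ℝ)..1, f c * ee (lam * (c - d) ^ 2 / 2 - τ * c)

lemma phi01_eq (lam d : ℝ) (f : ℝ → ℂ) (τ : ℝ) :
    phi01 lam d f τ = Ft (fun c => f c * ee (lam * (c - d) ^ 2 / 2)) τ := by
  unfold phi01 Ft
  apply intervalIntegral.integral_congr
  intro c _
  simp only
  rw [sub_eq_add_neg, ee_add]; ring

/-- **Parseval in unit shifts** -/
theorem hasSum_phi01 {f : ℝ → ℂ} (hf : L2 f) (lam d τ : ℝ) :
    HasSum (fun m : ℤ => ‖phi01 lam d f (τ + m)‖ ^ 2) (∫ c in (0:ℝ)..1, ‖f c‖ ^ 2) := by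
  have h := hasSum_Ft (hf.mul_ee (g := fun c => lam * (c - d) ^ 2 / 2) (by fun_prop)) τ
  simp only [phi01_eq]
  have e2 : (∫ c in (0:ℝ)..1, ‖f c * ee (lam * (c - d) ^ 2 / 2)‖ ^ 2) = ∫ c in (0:ℝ)..1, ‖f c‖ ^ 2 := by
    apply intervalIntegral.integral_congr
    intro c _
    simp
  rw [e2] at h
  exact h

theorem tsum_phi01_enorm {f : ℝ → ℂ} (hf : L2 f) (lam d τ : ℝ) :
    ∑' m : ℤ, ‖phi01 lam d f (τ + m)‖ₑ ^ 2 = ∫⁻ c in Ioc (0:ℝ) 1, ‖f c‖ₑ ^ 2 := by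
  have h := tsum_Ft_enorm (hf.mul_ee (g := fun c => lam * (c - d) ^ 2 / 2) (by fun_prop)) τ
  simp only [phi01_eq]
  rw [h, lintegral_sq_eq (hf.mul_ee (g := fun c => lam * (c - d) ^ 2 / 2) (by fun_prop))]
  congr 1
  funext c
  rw [← ofReal_norm, ← ofReal_norm]
  simp

theorem lintegral_phi01 {f : ℝ → ℂ} (hf : L2 f) (lam d : ℝ) :
    ∫⁻ τ, ‖phi01 lam d f τ‖ₑ ^ 2 = ∫⁻ c in Ioc (0:ℝ) 1, ‖f c‖ₑ ^ 2 := by
  have h := lintegral_Ft (hf.mul_ee (g := fun c => lam * (c - d) ^ 2 / 2) (by fun_prop))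
  simp only [phi01_eq]
  rw [h, lintegral_sq_eq (hf.mul_ee (g := fun c => lam * (c - d) ^ 2 / 2) (by fun_prop))]
  congr 1
  funext c
  rw [← ofReal_norm, ← ofReal_norm]
  simp

lemma continuous_phi01 {f : ℝ → ℂ} (hf : L2 f) (lam d : ℝ) : Continuous (phi01 lam d f) := by
  have : phi01 lam d f = Ft (fun c => f c * ee (lam * (c - d) ^ 2 / 2)) := by
    funext τ; exact phi01_eq lam d f τ
  rw [this]
  exact cont_Ft (hf.mul_ee (by fun_prop))

/-- whole-line form, for `f` vanishing off `(0,1]` -/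
lemma integral_eq_phi01 {f : ℝ → ℂ} (h0 : ∀ c, c ∉ Ioc (0:ℝ) 1 → f c = 0) (lam d τ : ℝ) :
    ∫ c, f c * ee (lam * (c - d) ^ 2 / 2 - τ * c) = phi01 lam d f τ := by
  unfold phi01
  rw [intervalIntegral.integral_of_le zero_le_one]
  symm
  apply setIntegral_eq_integral_of_forall_compl_eq_zero
  intro c hc
  rw [h0 c hc, zero_mul]

theorem hasSum_phi {f : ℝ → ℂ} (hf : L2 f) (h0 : ∀ c, c ∉ Ioc (0:ℝ) 1 → f c = 0) (lam d τ : ℝ) :
    HasSum (fun m : ℤ => ‖∫ c, f c * ee (lam * (c - d) ^ 2 / 2 - (τ + m) * c)‖ ^ 2)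
      (∫ c in (0:ℝ)..1, ‖f c‖ ^ 2) := by
  simp only [integral_eq_phi01 h0]
  exact hasSum_phi01 hf lam d τ

theorem tsum_phi_enorm {f : ℝ → ℂ} (hf : L2 f) (h0 : ∀ c, c ∉ Ioc (0:ℝ) 1 → f c = 0)
    (lam d τ : ℝ) :
    ∑' m : ℤ, ‖∫ c, f c * ee (lam * (c - d) ^ 2 / 2 - (τ + m) * c)‖ₑ ^ 2
      = ∫⁻ c in Ioc (0:ℝ) 1, ‖f c‖ₑ ^ 2 := by
  simp only [integral_eq_phi01 h0]
  exact tsum_phi01_enorm hf lam d τ

/-- general quadratic-free version: any continuous real phase `g` -/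
theorem hasSum_phase {f : ℝ → ℂ} (hf : L2 f) {g : ℝ → ℝ} (hg : Continuous g) (τ : ℝ) :
    HasSum (fun m : ℤ => ‖∫ c in (0:ℝ)..1, f c * ee (g c - (τ + m) * c)‖ ^ 2)
      (∫ c in (0:ℝ)..1, ‖f c‖ ^ 2) := by
  have h := hasSum_Ft (hf.mul_ee hg) τ
  have e2 : (∫ c in (0:ℝ)..1, ‖f c * ee (g c)‖ ^ 2) = ∫ c in (0:ℝ)..1, ‖f c‖ ^ 2 := by
    apply intervalIntegral.integral_congr
    intro c _
    simp
  rw [e2] at h
  have e3 : (fun m : ℤ => ‖∫ c in (0:ℝ)..1, f c * ee (g c - (τ + m) * c)‖ ^ 2)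
      = fun m : ℤ => ‖Ft (fun c => f c * ee (g c)) (τ + m)‖ ^ 2 := by
    funext m
    congr 2
    unfold Ft
    apply intervalIntegral.integral_congr
    intro c _
    simp only
    rw [sub_eq_add_neg, ee_add]; ring
  rw [e3]
  exact h

end Crest.Agent.R081.FrPars
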