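import Crest.Agent.R075.Basic

/-! Row 81 (helper478's mechanism), node COEF = (1.3) + (1.4) of note 13736 (helper935).

`m = q * q''`.  `G c z1 z2` is the function `f ∘ K` (1-periodic in each variable); for `0 ≤ c < 1`
it is given by `G c z = ∑ k, fk k c * ee (k · A (z1 - c/m, z2 - c F(m z1 - c)) + k2 χ(c))`.
Main results: `coef_formula`, `D_eq_zero`, `D_eq`, `nu_eq`, `h_nu_eq`. -/

set_option autoImplicit false

namespace Crest.Agent.R081.Co

open Crest.Agent.R075 MeasureTheory intervalIntegral Finset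

/-- splitting a period of a 1-periodic function into `m` equal pieces starting at `c'/m` -/
theorem integral_unit_eq_sum (H : ℝ → ℂ) (hper : Function.Periodic H 1) (m : ℕ) (hm : 0 < m)
    (c' : ℝ)
    (hint : ∀ i : ℕ, i < m → IntervalIntegrable (fun c => H ((c' + i + c) / m)) volume 0 1) :
    ∫ x in (0:ℝ)..1, H x
      = (1 / (m : ℂ)) * ∑ i ∈ range m, ∫ c in (0:ℝ)..1, H ((c' + i + c) / m) := by
  have hm' : (m : ℝ) ≠ 0 := by positivity
  have hm0 : (0:ℝ) < m := by positivity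
  have h1 : ∫ x in (0:ℝ)..1, H x = ∫ x in (c' / m)..(c' / m + 1), H x := by
    have := hper.intervalIntegral_add_eq 0 (c' / m)
    simpa using this
  have hsub : ∀ i : ℕ, ∫ c in (0:ℝ)..1, H ((c' + i + c) / m)
      = (m : ℝ) • ∫ x in ((c' + i) / m)..((c' + (i + 1 : ℕ)) / m), H x := by
    intro i
    have := intervalIntegral.integral_comp_mul_add (a := 0) (b := 1) (fun x => H x)
      (c := 1 / (m:ℝ)) (by positivity) ((c' + i) / m)
    have e1 : (fun c : ℝ => H ((c' + i + c) / m)) = fun c => H (1 / (m:ℝ) * c + (c' + i) / m) := by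
      funext c; congr 1; field_simp; ring
    rw [e1, this]
    have e2 : (1 / (m:ℝ))⁻¹ = m := by field_simp
    rw [e2]
    congr 2 <;> (try push_cast) <;> field_simp <;> ring
  have hii : ∀ i : ℕ, i < m → IntervalIntegrable H volume ((c' + i) / m) ((c' + (i + 1 : ℕ)) / m) := by
    intro i hi
    have h := hint i hi
    have e1 : (fun c : ℝ => H ((c' + i + c) / m)) = fun c => H (1 / (m:ℝ) * c + (c' + i) / m) := by
      funext c; congr 1; field_simp; ring
    rw [e1] at h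
    have h2 := (h.comp_mul_left (c := (m:ℝ))).comp_sub_right ((c' + i) / m)
    have e3 : (fun x : ℝ => H (1 / (m:ℝ) * (m * (x - (c' + i) / m)) + (c' + i) / m)) = H := by
      funext x; congr 1; field_simp; ring
    rw [e3] at h2
    have e4 : (0:ℝ) / m + (c' + i) / m = (c' + i) / m := by ring
    have e5 : (1:ℝ) / m + (c' + i) / m = (c' + (i + 1 : ℕ)) / m := by push_cast; ring
    rw [e4, e5] at h2
    exact h2
  have hsum : ∑ i ∈ range m, ∫ x in ((c' + i) / m)..((c' + (i + 1 : ℕ)) / m), H x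
      = ∫ x in (c' / m)..(c' / m + 1), H x := by
    have := intervalIntegral.sum_integral_adjacent_intervals (f := H) (μ := volume)
      (a := fun i : ℕ => (c' + i) / m) (n := m) (fun i hi => hii i hi)
    rw [this]
    congr 1
    · simp
    · field_simp
  rw [h1, ← hsum]
  simp_rw [hsub]
  rw [← Finset.smul_sum]
  have hmC : (m : ℂ) ≠ 0 := by exact_mod_cast hm.ne'
  rw [Complex.real_smul, ← mul_assoc]
  have : (1 / (m : ℂ)) * ((m : ℝ) : ℂ) = 1 := by
    rw [Complex.ofReal_natCast]; field_simp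
  rw [this, one_mul]

/-- the inner integral -/
noncomputable def I (a1 a2 : ℝ → ℝ → ℝ) (k : ℤ × ℤ) (b : ℤ) (y : ℝ) : ℂ :=
  ∫ t in (0:ℝ)..1, ee (k.1 * a1 y t + k.2 * a2 y t - b * t)

/-- `φ_k(τ) = ∫ f_k(c) e(k₂ χ(c) - τ c) dc` -/
noncomputable def phi (f : ℝ → ℂ) (χ : ℝ → ℝ) (k2 : ℤ) (τ : ℝ) : ℂ :=
  ∫ c in (0:ℝ)..1, f c * ee (k2 * χ c - τ * c)

/-- `D_k(j,b;c')` -/
noncomputable def D (a1 a2 : ℝ → ℝ → ℝ) (m : ℕ) (k : ℤ × ℤ) (j b : ℤ) (c' : ℝ) : ℂ :=
  (1 / (m : ℂ)) * ∑ i ∈ range m, ee (-(j * i / m)) * I a1 a2 k b ((c' + i) / m)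

/-- hypotheses on the planar map `A = (a1, a2)` (time one map of a shear isotopy in `Sh_q`) -/
structure Eqv (q : ℕ) (a1 a2 : ℝ → ℝ → ℝ) : Prop where
  cont1 : ∀ y, Continuous (a1 y)
  cont2 : ∀ y, Continuous (a2 y)
  per1 : ∀ y t, a1 y (t + 1) = a1 y t
  per2 : ∀ y t, a2 y (t + 1) = a2 y t + 1
  perq1 : ∀ y t, a1 (y + 1 / q) t = a1 y t + 1 / q
  perq2 : ∀ y t, a2 (y + 1 / q) t = a2 y t

variable {q : ℕ} {a1 a2 : ℝ → ℝ → ℝ}

theorem Eqv.perq_mul (h : Eqv q a1 a2) (n : ℕ) (y t : ℝ) :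
    a1 (y + n / q) t = a1 y t + n / q ∧ a2 (y + n / q) t = a2 y t := by
  induction n with
  | zero => simp
  | succ n ih =>
    have e : y + ((n + 1 : ℕ) : ℝ) / q = (y + n / q) + 1 / q := by push_cast; ring
    rw [e, h.perq1, h.perq2, ih.1, ih.2]
    refine ⟨by push_cast; ring, rfl⟩

theorem Eqv.per_one (h : Eqv q a1 a2) (hq : 0 < q) (y t : ℝ) :
    a1 (y + 1) t = a1 y t + 1 ∧ a2 (y + 1) t = a2 y t := by
  have := h.perq_mul q y t
  rwa [div_self (by positivity)] at this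

/-- the inner integrand is 1-periodic in `t` -/
theorem inner_periodic (h : Eqv q a1 a2) (k : ℤ × ℤ) (b : ℤ) (y : ℝ) :
    Function.Periodic (fun t : ℝ => ee (k.1 * a1 y t + k.2 * a2 y t - b * t)) 1 := by
  intro t
  simp only [h.per1, h.per2]
  have : (k.1 : ℝ) * a1 y t + k.2 * (a2 y t + 1) - b * (t + 1)
      = (k.1 * a1 y t + k.2 * a2 y t - b * t) + ((k.2 - b : ℤ) : ℝ) := by push_cast; ring
  rw [this, ee_add_int]

theorem inner_shift (h : Eqv q a1 a2) (k : ℤ × ℤ) (b : ℤ) (y s : ℝ) :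
    ∫ t in (0:ℝ)..1, ee (k.1 * a1 y (t - s) + k.2 * a2 y (t - s) - b * (t - s))
      = I a1 a2 k b y := by
  have h1 := intervalIntegral.integral_comp_sub_right (a := 0) (b := 1)
    (fun t : ℝ => ee (k.1 * a1 y t + k.2 * a2 y t - b * t)) s
  rw [h1]
  have h2 := (inner_periodic h k b y).intervalIntegral_add_eq (0 - s) 0
  have e : (0:ℝ) - s + 1 = 1 - s := by ring
  rw [e] at h2
  rw [h2]
  simp [I]

theorem I_add (h : Eqv q a1 a2) (k : ℤ × ℤ) (b : ℤ) (y : ℝ) :
    I a1 a2 k b (y + 1 / q) = ee (k.1 / q) * I a1 a2 k b y := by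
  unfold I
  rw [← intervalIntegral.integral_const_mul]
  refine intervalIntegral.integral_congr (fun t _ => ?_)
  simp only [h.perq1, h.perq2]
  rw [← ee_add]
  congr 1
  ring

theorem I_add_one (h : Eqv q a1 a2) (hq : 0 < q) (k : ℤ × ℤ) (b : ℤ) (y : ℝ) :
    I a1 a2 k b (y + 1) = I a1 a2 k b y := by
  unfold I
  refine intervalIntegral.integral_congr (fun t _ => ?_)
  simp only [(h.per_one hq y t).1, (h.per_one hq y t).2]
  have : (k.1 : ℝ) * (a1 y t + 1) + k.2 * a2 y t - b * t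
      = (k.1 * a1 y t + k.2 * a2 y t - b * t) + (k.1 : ℝ) := by ring
  rw [this, ee_add_int]

/-- the `θ₁`-integrand on the `i`-th piece -/
theorem piece (h : Eqv q a1 a2) (m : ℕ) (hm : 0 < m)
    (s : Finset (ℤ × ℤ)) (fk : ℤ × ℤ → ℝ → ℂ) (F χ : ℝ → ℝ) (hF : Function.Periodic F 1)
    (G : ℝ → ℝ → ℝ → ℂ) (hGc : ∀ c z1 z2, G (c + 1) z1 z2 = G c z1 z2)
    (hG : ∀ c, 0 ≤ c → c < 1 → ∀ z1 z2, G c z1 z2 = ∑ k ∈ s, fk k c *
      ee (k.1 * a1 (z1 - c / m) (z2 - c * F (m * z1 - c))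
        + k.2 * (χ c + a2 (z1 - c / m) (z2 - c * F (m * z1 - c)))))
    (j b : ℤ) (c' : ℝ) (i : ℕ) (c : ℝ) (hc0 : 0 ≤ c) (hc1 : c < 1) :
    ∫ θ2 in (0:ℝ)..1, G (m * ((c' + i + c) / m) - c') ((c' + i + c) / m) θ2
        * ee (-(j * ((c' + i + c) / m) + b * θ2))
      = ∑ k ∈ s, (fk k c * ee (k.2 * χ c - (j / m + b * F c') * c))
          * (ee (-(j * ((c' + i) / m))) * I a1 a2 k b ((c' + i) / m)) := by
  have hm' : (m : ℝ) ≠ 0 := by positivity
  have hGi : ∀ (n : ℕ) (c z1 z2 : ℝ), G (c + n) z1 z2 = G c z1 z2 := by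
    intro n
    induction n with
    | zero => intro c z1 z2; simp
    | succ n ih =>
      intro c z1 z2
      have : c + ((n + 1 : ℕ) : ℝ) = (c + n) + 1 := by push_cast; ring
      rw [this, hGc, ih]
  have e1 : (m : ℝ) * ((c' + i + c) / m) - c' = c + i := by field_simp; ring
  rw [e1]
  have e2 : (c' + i + c) / (m : ℝ) - c / m = (c' + i) / m := by field_simp; ring
  have e3 : (m : ℝ) * ((c' + i + c) / m) - c = c' + i := by field_simp; ring
  have e4 : F (c' + i) = F c' := by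
    have := hF.nat_mul i c'
    simpa using this
  have key : ∀ θ2 : ℝ, G (c + i) ((c' + i + c) / m) θ2 * ee (-(j * ((c' + i + c) / m) + b * θ2))
      = ∑ k ∈ s, (fk k c * ee (k.2 * χ c - (j / m + b * F c') * c)
          * ee (-(j * ((c' + i) / m))))
          * ee (k.1 * a1 ((c' + i) / m) (θ2 - c * F c') + k.2 * a2 ((c' + i) / m) (θ2 - c * F c')
              - b * (θ2 - c * F c')) := by
    intro θ2
    rw [hGi, hG c hc0 hc1, Finset.sum_mul]
    refine Finset.sum_congr rfl (fun k _ => ?_)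
    rw [e2, e3, e4]
    rw [mul_assoc, mul_assoc, mul_assoc]
    congr 1
    rw [← ee_add, ← ee_add, ← ee_add]
    congr 1
    field_simp
    ring
  simp_rw [key]
  rw [intervalIntegral.integral_finsetSum]
  · refine Finset.sum_congr rfl (fun k _ => ?_)
    rw [intervalIntegral.integral_const_mul, inner_shift h k b ((c' + i) / m) (c * F c')]
    ring
  · intro k _
    refine Continuous.intervalIntegrable ?_ _ _
    refine continuous_const.mul ?_
    refine ee_continuous.comp ?_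
    have c1 := h.cont1 ((c' + i) / m)
    have c2 := h.cont2 ((c' + i) / m)
    have c3 : Continuous (fun θ2 : ℝ => θ2 - c * F c') := by fun_prop
    exact ((continuous_const.mul (c1.comp c3)).add (continuous_const.mul (c2.comp c3))).sub
      (continuous_const.mul c3)

/-- **(1.3)**: the `(j,b)`-Fourier coefficient in `(θ₁,θ₂)` of `f ∘ K ∘ Lin` at `c'`. -/
theorem coef_formula (h : Eqv q a1 a2) (m : ℕ) (hm : 0 < m)
    (s : Finset (ℤ × ℤ)) (fk : ℤ × ℤ → ℝ → ℂ)
    (hfk : ∀ k ∈ s, IntervalIntegrable (fk k) volume 0 1)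
    (F χ : ℝ → ℝ) (hF : Function.Periodic F 1) (hχ : Measurable χ)
    (G : ℝ → ℝ → ℝ → ℂ) (hGc : ∀ c z1 z2, G (c + 1) z1 z2 = G c z1 z2)
    (hG1 : ∀ c z1 z2, G c (z1 + 1) z2 = G c z1 z2)
    (hG : ∀ c, 0 ≤ c → c < 1 → ∀ z1 z2, G c z1 z2 = ∑ k ∈ s, fk k c *
      ee (k.1 * a1 (z1 - c / m) (z2 - c * F (m * z1 - c))
        + k.2 * (χ c + a2 (z1 - c / m) (z2 - c * F (m * z1 - c)))))
    (j b : ℤ) (c' : ℝ) :
    ∫ θ1 in (0:ℝ)..1, ∫ θ2 in (0:ℝ)..1, G (m * θ1 - c') θ1 θ2 * ee (-(j * θ1 + b * θ2))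
      = ee (-(j * c' / m)) * ∑ k ∈ s, phi (fk k) χ k.2 (j / m + b * F c')
          * D a1 a2 m k j b c' := by
  have hm' : (m : ℝ) ≠ 0 := by positivity
  set H : ℝ → ℂ := fun θ1 => ∫ θ2 in (0:ℝ)..1, G (m * θ1 - c') θ1 θ2 * ee (-(j * θ1 + b * θ2))
    with hH
  have hGi : ∀ (n : ℕ) (c z1 z2 : ℝ), G (c + n) z1 z2 = G c z1 z2 := by
    intro n
    induction n with
    | zero => intro c z1 z2; simp
    | succ n ih =>
      intro c z1 z2
      have : c + ((n + 1 : ℕ) : ℝ) = (c + n) + 1 := by push_cast; ring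
      rw [this, hGc, ih]
  have hper : Function.Periodic H 1 := by
    intro x
    simp only [hH]
    refine intervalIntegral.integral_congr (fun t _ => ?_)
    have e1 : (m : ℝ) * (x + 1) - c' = (m * x - c') + m := by ring
    rw [e1, hGi, hG1]
    congr 1
    have e2 : -((j:ℝ) * (x + 1) + b * t) = -(j * x + b * t) + ((-j : ℤ) : ℝ) := by
      push_cast; ring
    rw [e2, ee_add_int]
  -- a.e. formula on the pieces
  have hpiece : ∀ i : ℕ, ∀ c ∈ Set.Ico (0:ℝ) 1, H ((c' + i + c) / m)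
      = ∑ k ∈ s, (fk k c * ee (k.2 * χ c - (j / m + b * F c') * c))
          * (ee (-(j * ((c' + i) / m))) * I a1 a2 k b ((c' + i) / m)) := by
    intro i c hc
    exact piece h m hm s fk F χ hF G hGc hG j b c' i c hc.1 hc.2
  have hfi : ∀ k ∈ s, IntervalIntegrable
      (fun c => fk k c * ee (k.2 * χ c - (j / m + b * F c') * c)) volume 0 1 := by
    intro k hk
    have hb := hfk k hk
    rw [intervalIntegrable_iff] at hb ⊢
    refine hb.mul_bdd (c := 1) ?_ ?_
    · refine (Measurable.aestronglyMeasurable ?_)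
      exact ee_continuous.measurable.comp (by fun_prop)
    · exact Filter.Eventually.of_forall (fun c => by rw [norm_ee])
  have hae : ∀ i : ℕ, ∀ᵐ c ∂(volume : Measure ℝ), c ∈ Set.uIoc (0:ℝ) 1 →
      H ((c' + i + c) / m) = ∑ k ∈ s, (fk k c * ee (k.2 * χ c - (j / m + b * F c') * c))
          * (ee (-(j * ((c' + i) / m))) * I a1 a2 k b ((c' + i) / m)) := by
    intro i
    have h1 : ∀ᵐ c ∂(volume : Measure ℝ), c ≠ 1 := by
      simp [ae_iff, measure_singleton]
    filter_upwards [h1] with c hc hc2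
    rw [Set.uIoc_of_le zero_le_one] at hc2
    exact hpiece i c ⟨hc2.1.le, lt_of_le_of_ne hc2.2 hc⟩
  have hRHSint : ∀ i : ℕ, IntervalIntegrable
      (fun c => ∑ k ∈ s, (fk k c * ee (k.2 * χ c - (j / m + b * F c') * c))
          * (ee (-(j * ((c' + i) / m))) * I a1 a2 k b ((c' + i) / m))) volume 0 1 := by
    intro i
    have := IntervalIntegrable.sum (μ := volume) (a := 0) (b := 1) s
      (f := fun k c => (fk k c * ee (k.2 * χ c - (j / m + b * F c') * c))
          * (ee (-(j * ((c' + i) / m))) * I a1 a2 k b ((c' + i) / m)))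
      (fun k hk => (hfi k hk).mul_const _)
    refine this.congr ?_
    intro c _
    simp [Finset.sum_apply]
  have hint : ∀ i : ℕ, i < m →
      IntervalIntegrable (fun c => H ((c' + i + c) / m)) volume 0 1 := by
    intro i _
    refine (hRHSint i).congr_ae ?_
    rw [Filter.EventuallyEq, ae_restrict_iff' measurableSet_uIoc]
    filter_upwards [hae i] with c hc hc2
    exact (hc hc2).symm
  rw [integral_unit_eq_sum H hper m hm c' hint]
  have hval : ∀ i : ℕ, ∫ c in (0:ℝ)..1, H ((c' + i + c) / m)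
      = ∑ k ∈ s, phi (fk k) χ k.2 (j / m + b * F c')
          * (ee (-(j * ((c' + i) / m))) * I a1 a2 k b ((c' + i) / m)) := by
    intro i
    rw [intervalIntegral.integral_congr_ae (hae i)]
    rw [intervalIntegral.integral_finsetSum (fun k hk => (hfi k hk).mul_const _)]
    refine Finset.sum_congr rfl (fun k _ => ?_)
    rw [intervalIntegral.integral_mul_const]
    rfl
  simp_rw [hval]
  rw [Finset.sum_comm, Finset.mul_sum, Finset.mul_sum]
  refine Finset.sum_congr rfl (fun k _ => ?_)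
  unfold D
  rw [← Finset.mul_sum]
  have : ∑ i ∈ range m, ee (-(j * ((c' + i) / m))) * I a1 a2 k b ((c' + i) / m)
      = ee (-(j * c' / m)) * ∑ i ∈ range m, ee (-(j * i / m)) * I a1 a2 k b ((c' + i) / m) := by
    rw [Finset.mul_sum]
    refine Finset.sum_congr rfl (fun i _ => ?_)
    rw [← mul_assoc, ← ee_add]
    congr 2
    ring
  rw [this]
  ring

end Crest.Agent.R081.Co
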