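import Crest.Agent.R081.Fresnel4
import Crest.Agent.R081.Co

/-!
# Row 81, node FRESNEL, part 5 (helper326): Parseval in unit shifts, link with `Co.phi`
-/

set_option autoImplicit false

open MeasureTheory Filter Topology Complex
open scoped ENNReal ContDiff

noncomputable section

namespace Crest.Agent.R081.Fr

open Crest.Agent.R075 (ee norm_ee ee_add ee_eq)

theorem memLp_mul_ee {α : Type*} [MeasurableSpace α] {μ : Measure α} {w : α → ℂ} {p : α → ℝ}
    (h : MemLp w 2 μ) (hp : AEMeasurable p μ) : MemLp (fun c => w c * ee (p c)) 2 μ := by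
  refine h.of_le (h.1.mul ?_) (Eventually.of_forall fun c => by simp)
  exact (continuous_ee.measurable.comp_aemeasurable hp).aestronglyMeasurable

/-- **Parseval in unit shifts** -/
theorem parseval_shift {w : ℝ → ℂ} (h : MemLp w 2 (volume.restrict (Set.Ioc 0 1))) (t0 : ℝ) :
    HasSum (fun m : ℤ => ‖∫ c in (0 : ℝ)..1, w c * ee (-((t0 + m) * c))‖ ^ 2)
      (∫ c in (0 : ℝ)..1, ‖w c‖ ^ 2) := by
  have h2 : MemLp (fun c => w c * ee (-(t0 * c))) 2 (volume.restrict (Set.Ioc 0 1)) :=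
    memLp_mul_ee h (by fun_prop)
  have H := hasSum_sq_fourierCoeffOn (a := 0) (b := 1) zero_lt_one h2
  have e1 : ∀ m : ℤ, fourierCoeffOn (zero_lt_one' ℝ) (fun c => w c * ee (-(t0 * c))) m =
      ∫ c in (0 : ℝ)..1, w c * ee (-((t0 + m) * c)) := by
    intro m
    rw [fourierCoeffOn_eq_integral]
    simp only [sub_zero, div_one, one_smul]
    refine intervalIntegral.integral_congr fun c _ => ?_
    simp only [smul_eq_mul]
    have e3 : fourier (-m) (c : AddCircle (1 - 0 : ℝ)) = ee (-(m * c)) := by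
      rw [fourier_coe_apply, ee_eq]
      congr 1
      push_cast
      ring
    rw [e3]
    have e4 : -((t0 + m) * c) = -(t0 * c) + -(m * c) := by ring
    rw [e4, ee_add]
    ring
  have e2 : ((1 : ℝ) - 0)⁻¹ • ∫ x in (0 : ℝ)..1, ‖w x * ee (-(t0 * x))‖ ^ 2 =
      ∫ c in (0 : ℝ)..1, ‖w c‖ ^ 2 := by
    simp
  rw [e2] at H
  simpa only [e1] using H

/-! ## the coefficient integral of `Co` -/

open Crest.Agent.R081.Co in
/-- Parseval for `Co.phi`, any measurable phase `χ` -/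
theorem hasSum_co_phi {f : ℝ → ℂ} (h : MemLp f 2 (volume.restrict (Set.Ioc 0 1)))
    {χ : ℝ → ℝ} (hχ : Measurable χ) (k2 : ℤ) (t0 : ℝ) :
    HasSum (fun m : ℤ => ‖Co.phi f χ k2 (t0 + m)‖ ^ 2) (∫ c in (0 : ℝ)..1, ‖f c‖ ^ 2) := by
  have h2 : MemLp (fun c => f c * ee (k2 * χ c)) 2 (volume.restrict (Set.Ioc 0 1)) :=
    memLp_mul_ee h (by fun_prop)
  have H := parseval_shift h2 t0
  have e1 : ∀ m : ℤ, (∫ c in (0 : ℝ)..1, f c * ee (k2 * χ c) * ee (-((t0 + m) * c))) =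
      Co.phi f χ k2 (t0 + m) := by
    intro m
    unfold Co.phi
    refine intervalIntegral.integral_congr fun c _ => ?_
    rw [mul_assoc, ← ee_add, ← sub_eq_add_neg]
  have e2 : ∫ c in (0 : ℝ)..1, ‖f c * ee (k2 * χ c)‖ ^ 2 = ∫ c in (0 : ℝ)..1, ‖f c‖ ^ 2 := by
    simp
  rw [e2] at H
  simpa only [e1] using H

/-- the function on `ℝ` attached to a function on `(0,1]` -/
def cut (f : ℝ → ℂ) : ℝ → ℂ := Set.indicator (Set.Ioc 0 1) f

theorem memLp_cut {f : ℝ → ℂ} (h : MemLp f 2 (volume.restrict (Set.Ioc 0 1))) :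
    MemLp (cut f) 2 := (memLp_indicator_iff_restrict measurableSet_Ioc).2 h

theorem integrable_cut {f : ℝ → ℂ} (h : MemLp f 2 (volume.restrict (Set.Ioc 0 1))) :
    Integrable (cut f) :=
  (integrable_indicator_iff measurableSet_Ioc).2 (h.integrable (by norm_num))

theorem integral_cut_sq (f : ℝ → ℂ) :
    ∫ c, ‖cut f c‖ ^ 2 = ∫ c in (0 : ℝ)..1, ‖f c‖ ^ 2 := by
  rw [intervalIntegral.integral_of_le zero_le_one, ← integral_indicator measurableSet_Ioc]
  refine integral_congr_ae (Eventually.of_forall fun c => ?_)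
  unfold cut
  by_cases hc : c ∈ Set.Ioc (0 : ℝ) 1 <;> simp [hc]

/-- `Co.phi` with an exactly quadratic phase on the support of `f` -/
theorem co_phi_eq (f : ℝ → ℂ) (χ : ℝ → ℝ) (k2 : ℤ) (ha C de : ℝ)
    (hχ : ∀ c ∈ Set.Ioc (0 : ℝ) 1, f c ≠ 0 → χ c = ha * (c - de) ^ 2 / 2 + C) (tau : ℝ) :
    Co.phi f χ k2 tau = ee (k2 * C) * phi (k2 * ha) de (cut f) tau := by
  unfold Co.phi phi cut
  rw [intervalIntegral.integral_of_le zero_le_one, ← integral_indicator measurableSet_Ioc,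
    ← integral_const_mul]
  refine integral_congr_ae (Eventually.of_forall fun c => ?_)
  simp only
  by_cases hc : c ∈ Set.Ioc (0 : ℝ) 1
  · rw [Set.indicator_of_mem hc, Set.indicator_of_mem hc]
    by_cases h0 : f c = 0
    · simp [h0]
    · rw [hχ c hc h0]
      have e : k2 * (ha * (c - de) ^ 2 / 2 + C) - tau * c =
          k2 * C + (k2 * ha * (c - de) ^ 2 / 2 - tau * c) := by ring
      rw [e, ee_add]
      ring
  · rw [Set.indicator_of_notMem hc, Set.indicator_of_notMem hc]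
    simp

/-- **(N4) for `Co.phi`**: for `f ∈ L²(0,1)`, `k2 ≠ 0`, `al > 0`: for all `h ≥ h0`, uniformly in
`de`, `C` and in the phase `χ` (quadratic on the support of `f`) -/
theorem co_phi_L2 {f : ℝ → ℂ} (h2 : MemLp f 2 (volume.restrict (Set.Ioc 0 1))) {k2 : ℤ}
    (hk : k2 ≠ 0) {al : ℝ} (hal : 0 < al) {ε : ℝ} (hε : 0 < ε) :
    ∃ h0 : ℝ, 0 < h0 ∧ ∀ h : ℝ, h0 ≤ h → ∀ (de C : ℝ) (χ : ℝ → ℝ),
      (∀ c ∈ Set.Ioc (0 : ℝ) 1, f c ≠ 0 → χ c = h * al * (c - de) ^ 2 / 2 + C) →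
      ∫ tau, ‖Co.phi f χ k2 tau - ee (k2 * C) * mainT (k2 * (h * al)) de (cut f) tau‖ ^ 2 ≤ ε := by
  obtain ⟨Lam, hL, H⟩ := phi_L2_int (integrable_cut h2) (memLp_cut h2) hε
  refine ⟨Lam / al, by positivity, fun h hh de C χ hχ => ?_⟩
  have hh0 : 0 < h := lt_of_lt_of_le (by positivity) hh
  have hk1 : (1 : ℝ) ≤ |(k2 : ℝ)| := by
    rw [← Int.cast_abs]
    exact_mod_cast Int.one_le_abs hk
  have hlam : Lam ≤ |(k2 : ℝ) * (h * al)| := by
    rw [abs_mul, abs_of_pos (by positivity : 0 < h * al)]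
    have := (div_le_iff₀ hal).1 hh
    nlinarith [mul_pos hh0 hal]
  refine le_trans (le_of_eq ?_) (H _ hlam de)
  refine integral_congr_ae (Eventually.of_forall fun tau => ?_)
  simp only
  rw [co_phi_eq f χ k2 (h * al) C de hχ, ← mul_sub, norm_mul, norm_ee, one_mul]

end Crest.Agent.R081.Fr
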