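import Mathlib
import Crest.Prelude.Def_Torus3
import Crest.Agent.R075.Basic

/-! # Row 81, route B: the FOURIER LAYER, frozen definitions (helper325)

Functions on the three-torus are expanded in the last two variables: for `k = (k1, k2)`,
`fc f k c = ∫_{(0,1]²} f(c, y1, y2) e(-(k1 y1 + k2 y2)) dy`, `c` real.
-/

set_option autoImplicit false

namespace Crest.Agent.R081.Fm

open MeasureTheory Crest.AnalysisR.Torus3 Crest.Agent.R075

/-- Lebesgue measure on `(0,1]` -/
noncomputable def I01 : Measure ℝ := volume.restrict (Set.Ioc 0 1)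

/-- the point `(c, y1, y2)` of the three-torus -/
noncomputable def P3 (p : ℝ × (ℝ × ℝ)) : T3 := proj ![p.1, p.2.1, p.2.2]

/-- the phase `e(k1 y1 + k2 y2)` -/
noncomputable def ek (k : ℤ × ℤ) (y : ℝ × ℝ) : ℂ := ee (k.1 * y.1 + k.2 * y.2)

/-- the fibre Fourier coefficient -/
noncomputable def fc (f : T3 → ℂ) (k : ℤ × ℤ) (c : ℝ) : ℂ :=
  ∫ y : ℝ × ℝ, ek (-k) y * f (P3 (c, y)) ∂(I01.prod I01)

/-- the mode space `ℤ² × (0,1]` with counting times Lebesgue measure -/
noncomputable def muX : Measure ((ℤ × ℤ) × ℝ) := Measure.count.prod I01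

/-- all the coefficients as one function on the mode space -/
noncomputable def fcX (f : T3 → ℂ) (x : (ℤ × ℤ) × ℝ) : ℂ := fc f x.1 x.2

end Crest.Agent.R081.Fm
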