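import Crest.Agent.R081.Co2
import Crest.Agent.R081.FmDefs

/-! Row 81, route B, node MAIN, part 1 (helper27): the link between the coefficient formula (1.3)
(`Co.coef_formula`) and the Fourier coefficients `Fm.fc` of `w ∘ (K ∘ Lin)` on the three-torus. -/

set_option autoImplicit false

namespace Crest.Agent.R081.Mn

open MeasureTheory Set Crest.AnalysisR.Torus3 Crest.Agent.R075 Crest.Agent.R081.Fm
  Crest.Agent.R081.Co

/-- pointwise description of `Φ = K ∘ Lin` (`m = q * q''`). -/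
structure KL (m : ℕ) (J : Set ℝ) (a1 a2 : ℝ → ℝ → ℝ) (F χ : ℝ → ℝ) (Φ : T3 → T3) : Prop where
  inJ : ∀ c' θ1 θ2 : ℝ, Int.fract (m * θ1 - c') ∈ J →
    Φ (P3 (c', (θ1, θ2))) = P3 (Int.fract (m * θ1 - c'),
      (a1 (θ1 - Int.fract (m * θ1 - c') / m) (θ2 - Int.fract (m * θ1 - c') * F c'),
       χ (Int.fract (m * θ1 - c'))
        + a2 (θ1 - Int.fract (m * θ1 - c') / m) (θ2 - Int.fract (m * θ1 - c') * F c')))
  outJ : ∀ c' θ1 θ2 : ℝ, Int.fract (m * θ1 - c') ∉ J →
    ∃ y : ℝ × ℝ, Φ (P3 (c', (θ1, θ2))) = P3 (Int.fract (m * θ1 - c'), y)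

/-- the function `G` of `coef_formula` for a single mode `u(c) e(k.y)` -/
noncomputable def GG (m : ℕ) (a1 a2 : ℝ → ℝ → ℝ) (F χ : ℝ → ℝ) (u : ℝ → ℂ) (k : ℤ × ℤ)
    (c z1 z2 : ℝ) : ℂ :=
  u (Int.fract c) * ee (k.1 * a1 (z1 - Int.fract c / m) (z2 - Int.fract c * F (m * z1 - c))
    + k.2 * (χ (Int.fract c) + a2 (z1 - Int.fract c / m) (z2 - Int.fract c * F (m * z1 - c))))

variable {q : ℕ} {a1 a2 : ℝ → ℝ → ℝ}

theorem GG_add_one (m : ℕ) (F χ : ℝ → ℝ) (hF : Function.Periodic F 1) (u : ℝ → ℂ) (k : ℤ × ℤ)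
    (c z1 z2 : ℝ) : GG m a1 a2 F χ u k (c + 1) z1 z2 = GG m a1 a2 F χ u k c z1 z2 := by
  have h1 : Int.fract (c + 1) = Int.fract c := by
    have := Int.fract_add_intCast c 1
    simpa using this
  have h2 : F (m * z1 - (c + 1)) = F (m * z1 - c) := by
    have := hF (m * z1 - (c + 1))
    rw [← this]; congr 1; ring
  unfold GG
  rw [h1, h2]

theorem GG_add_one' (h : Eqv q a1 a2) (hq : 0 < q) (m : ℕ) (F χ : ℝ → ℝ)
    (hF : Function.Periodic F 1) (u : ℝ → ℂ) (k : ℤ × ℤ)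
    (c z1 z2 : ℝ) : GG m a1 a2 F χ u k c (z1 + 1) z2 = GG m a1 a2 F χ u k c z1 z2 := by
  have h2 : F (m * (z1 + 1) - c) = F (m * z1 - c) := by
    have := hF.nat_mul m (m * z1 - c)
    rw [mul_one] at this
    rw [← this]; congr 1; ring
  have h3 : z1 + 1 - Int.fract c / m = (z1 - Int.fract c / m) + 1 := by ring
  unfold GG
  rw [h2, h3, (h.per_one hq _ _).1, (h.per_one hq _ _).2]
  congr 1
  have : ∀ x y : ℝ, (k.1 : ℝ) * (x + 1) + y = (k.1 * x + y) + ((k.1 : ℤ) : ℝ) := by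
    intro x y; ring
  rw [this, ee_add_int]

theorem GG_eq {m : ℕ} {J : Set ℝ} {F χ : ℝ → ℝ} {Φ : T3 → T3} (hK : KL m J a1 a2 F χ Φ)
    {u : ℝ → ℂ} (hu : ∀ c, c ∉ J → u c = 0) {k : ℤ × ℤ} {w : T3 → ℂ}
    (hw : ∀ (c : ℝ) (y : ℝ × ℝ), 0 ≤ c → c < 1 → w (P3 (c, y)) = u c * ek k y)
    (c' θ1 θ2 : ℝ) : w (Φ (P3 (c', (θ1, θ2)))) = GG m a1 a2 F χ u k (m * θ1 - c') θ1 θ2 := by
  have e1 : (m : ℝ) * θ1 - (m * θ1 - c') = c' := by ring
  unfold GG
  rw [e1]
  by_cases hJ : Int.fract (m * θ1 - c') ∈ J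
  · rw [hK.inJ c' θ1 θ2 hJ, hw _ _ (Int.fract_nonneg _) (Int.fract_lt_one _)]
    rfl
  · obtain ⟨y, hy⟩ := hK.outJ c' θ1 θ2 hJ
    rw [hy, hw _ _ (Int.fract_nonneg _) (Int.fract_lt_one _), hu _ hJ, zero_mul, zero_mul]

/-- integrability of `u (fract (m x - c'))` on `(0,1]` -/
theorem integrable_fract {u : ℝ → ℂ} (hui : IntervalIntegrable u volume 0 1) {m : ℕ} (hm : 0 < m)
    (c' : ℝ) : Integrable (fun x : ℝ => u (Int.fract (m * x - c'))) I01 := by
  have hg : IntervalIntegrable (fun x : ℝ => u (Int.fract x)) volume 0 1 := by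
    refine hui.congr_ae ?_
    rw [Filter.EventuallyEq, ae_restrict_iff' measurableSet_uIoc]
    have h1 : ∀ᵐ c ∂(volume : Measure ℝ), c ≠ 1 := by
      simp [ae_iff, measure_singleton]
    filter_upwards [h1] with c hc hc2
    rw [Set.uIoc_of_le zero_le_one] at hc2
    rw [Int.fract_eq_self.2 ⟨hc2.1.le, lt_of_le_of_ne hc2.2 hc⟩]
  have hp : Function.Periodic (fun x : ℝ => u (Int.fract x)) 1 := by
    intro x
    have : Int.fract (x + 1) = Int.fract x := by
      have := Int.fract_add_intCast x 1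
      simpa using this
    simp only [this]
  have hm0 : (m : ℝ) ≠ 0 := by positivity
  have h2 : IntervalIntegrable (fun x : ℝ => u (Int.fract x)) volume (0 - c') (m - c') :=
    hp.intervalIntegrable₀ one_ne_zero hg _ _
  have h3 := (h2.comp_sub_right c').comp_mul_left (c := (m : ℝ))
  have e1 : (fun x : ℝ => u (Int.fract (m * x - c')))
      = (fun x : ℝ => (fun x : ℝ => (fun x : ℝ => u (Int.fract x)) (x - c')) (m * x)) := rfl
  have e2 : (0 - c' + c') / (m : ℝ) = 0 := by simp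
  have e3 : ((m : ℝ) - c' + c') / (m : ℝ) = 1 := by field_simp; ring
  rw [e2, e3] at h3
  rw [intervalIntegrable_iff_integrableOn_Ioc_of_le zero_le_one] at h3
  exact h3

/-- **the link**: the Fourier coefficients of `w ∘ K ∘ Lin` for a single mode `w = u(c) e(k.y)` -/
theorem fc_comp (h : Eqv q a1 a2) (hq : 0 < q) {m : ℕ} (hm : 0 < m)
    (ha1 : Measurable (fun p : ℝ × ℝ => a1 p.1 p.2)) (ha2 : Measurable (fun p : ℝ × ℝ => a2 p.1 p.2))
    {J : Set ℝ} {F χ : ℝ → ℝ} (hF : Function.Periodic F 1) (hFm : Measurable F)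
    (hχ : Measurable χ) {Φ : T3 → T3} (hK : KL m J a1 a2 F χ Φ)
    {u : ℝ → ℂ} (hum : Measurable u) (hui : IntervalIntegrable u volume 0 1)
    (hu : ∀ c, c ∉ J → u c = 0) {k : ℤ × ℤ} {w : T3 → ℂ}
    (hw : ∀ (c : ℝ) (y : ℝ × ℝ), 0 ≤ c → c < 1 → w (P3 (c, y)) = u c * ek k y)
    (j b : ℤ) (c' : ℝ) :
    fc (fun t => w (Φ t)) (j, b) c'
      = ee (-(j * c' / m)) * (Co.phi u χ k.2 (j / m + b * F c') * D a1 a2 m k j b c') := by
  have hmain := coef_formula h m hm {k} (fun _ => u) (fun _ _ => hui) F χ hF hχ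
    (GG m a1 a2 F χ u k) (GG_add_one m F χ hF u k) (GG_add_one' h hq m F χ hF u k)
    (by
      intro c hc0 hc1 z1 z2
      rw [Finset.sum_singleton]
      unfold GG
      rw [Int.fract_eq_self.2 ⟨hc0, hc1⟩]) j b c'
  rw [Finset.sum_singleton] at hmain
  rw [← hmain]
  unfold fc
  have e1 : (fun y : ℝ × ℝ => ek (-(j, b)) y * w (Φ (P3 (c', y))))
      = fun y : ℝ × ℝ => GG m a1 a2 F χ u k (m * y.1 - c') y.1 y.2 * ee (-(j * y.1 + b * y.2)) := by
    funext y
    have := GG_eq hK hu hw c' y.1 y.2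
    rw [show ((y.1, y.2) : ℝ × ℝ) = y from rfl] at this
    rw [this, mul_comm]
    congr 1
    unfold ek
    congr 1
    simp only [Prod.neg_mk]
    push_cast
    ring
  rw [e1]
  have hmeas : Measurable (fun y : ℝ × ℝ =>
      GG m a1 a2 F χ u k (m * y.1 - c') y.1 y.2 * ee (-(j * y.1 + b * y.2))) := by
    unfold GG
    have hfr : Measurable (fun y : ℝ × ℝ => Int.fract ((m : ℝ) * y.1 - c')) :=
      measurable_fract.comp (by fun_prop)
    have hz1 : Measurable (fun y : ℝ × ℝ => y.1 - Int.fract ((m : ℝ) * y.1 - c') / m) :=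
      measurable_fst.sub (hfr.div_const _)
    have hz2 : Measurable (fun y : ℝ × ℝ => y.2 - Int.fract ((m : ℝ) * y.1 - c')
        * F (m * y.1 - (m * y.1 - c'))) :=
      measurable_snd.sub (hfr.mul (hFm.comp (by fun_prop)))
    refine ((hum.comp hfr).mul (ee_continuous.measurable.comp ?_)).mul
      (ee_continuous.measurable.comp (by fun_prop))
    exact ((ha1.comp (hz1.prodMk hz2)).const_mul _).add
      (((hχ.comp hfr).add (ha2.comp (hz1.prodMk hz2))).const_mul _)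
  have hint : Integrable (fun y : ℝ × ℝ =>
      GG m a1 a2 F χ u k (m * y.1 - c') y.1 y.2 * ee (-(j * y.1 + b * y.2))) (I01.prod I01) := by
    haveI : IsFiniteMeasure I01 := by unfold I01; infer_instance
    have h1 : Integrable (fun y : ℝ × ℝ => u (Int.fract (m * y.1 - c'))) (I01.prod I01) :=
      (integrable_fract hui hm c').comp_fst I01
    refine h1.mono hmeas.aestronglyMeasurable (Filter.Eventually.of_forall fun y => ?_)
    unfold GG
    rw [norm_mul, norm_mul, norm_ee, norm_ee, mul_one, mul_one]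
  haveI : IsFiniteMeasure I01 := by unfold I01; infer_instance
  rw [integral_prod _ hint]
  rw [intervalIntegral.integral_of_le zero_le_one]
  unfold I01
  refine integral_congr_ae (Filter.Eventually.of_forall fun x => ?_)
  simp only
  rw [intervalIntegral.integral_of_le zero_le_one]

end Crest.Agent.R081.Mn
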