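import Crest.Agent.R081.Co

/-! Row 81 (helper478's mechanism), node COEF, part 2 (helper935): sector selection of `D_k`,
the CRT form, and the frequency identities (1.4). -/

set_option autoImplicit false

namespace Crest.Agent.R081.Co

open Crest.Agent.R075 MeasureTheory intervalIntegral Finset

/-- summing a function on `ℤ` with period `n` over a shifted range -/
theorem sum_range_shift {f : ℤ → ℂ} {n : ℕ} (hf : ∀ i, f (i + n) = f i) (s : ℕ) :
    ∑ i ∈ range n, f (i + s) = ∑ i ∈ range n, f i := by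
  induction s with
  | zero => simp
  | succ s ih =>
    rw [← ih]
    have h1 : ∑ i ∈ range n, f (i + ((s + 1 : ℕ) : ℤ)) = ∑ i ∈ range n, f (((i + 1 : ℕ) : ℤ) + s) := by
      refine Finset.sum_congr rfl (fun i _ => ?_)
      congr 1; push_cast; ring
    rw [h1]
    have h2 := Finset.sum_range_succ' (fun i : ℕ => f ((i : ℤ) + s)) n
    have h3 := Finset.sum_range_succ (fun i : ℕ => f ((i : ℤ) + s)) n
    rw [h2] at h3
    have h4 : f ((n : ℤ) + s) = f (((0 : ℕ) : ℤ) + s) := by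
      have := hf s
      rw [add_comm] at this
      simpa using this
    rw [h4] at h3
    exact add_right_cancel h3

/-- a function on `ℤ` with period `n`, summed over `range (q*n)` -/
theorem sum_range_mul_period {f : ℤ → ℂ} {n : ℕ} (hf : ∀ i, f (i + n) = f i) (q : ℕ) :
    ∑ i ∈ range (q * n), f i = q * ∑ i ∈ range n, f i := by
  induction q with
  | zero => simp
  | succ q ih =>
    rw [Nat.succ_mul, Finset.sum_range_add, ih]
    have : ∑ x ∈ range n, f ((q * n + x : ℕ) : ℤ) = ∑ i ∈ range n, f i := by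
      have h := sum_range_shift hf (q * n)
      rw [← h]
      refine Finset.sum_congr rfl (fun i _ => ?_)
      congr 1; push_cast; ring
    rw [this]; push_cast; ring

theorem period_mul {f : ℤ → ℂ} {n : ℕ} (hf : ∀ i, f (i + n) = f i) (i r : ℤ) :
    f (i + r * n) = f i := by
  induction r using Int.induction_on with
  | zero => simp
  | succ r ih =>
    have : i + ((r : ℤ) + 1) * n = (i + r * n) + n := by ring
    rw [this, hf, ih]
  | pred r ih =>
    have : i + (-(r : ℤ)) * n = (i + (-(r : ℤ) - 1) * n) + n := by ring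
    rw [this, hf] at ih
    exact ih

variable {q q2 : ℕ} {a1 a2 : ℝ → ℝ → ℝ}

theorem ee_div_eq_one_iff (hq : 0 < q) (n : ℤ) : ee (n / q) = 1 ↔ (q : ℤ) ∣ n := by
  constructor
  · intro h
    unfold ee at h
    rw [Complex.exp_eq_one_iff] at h
    obtain ⟨k, hk⟩ := h
    have h2 : (n : ℂ) / q = k := by
      have hpi : (2 * Real.pi * Complex.I : ℂ) ≠ 0 := by
        simp [Real.pi_ne_zero]
      have : (2 * Real.pi * Complex.I : ℂ) * ((n : ℂ) / q) = (2 * Real.pi * Complex.I) * k := by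
        rw [mul_comm (2 * Real.pi * Complex.I : ℂ) k]
        rw [← hk]; push_cast; ring
      exact mul_left_cancel₀ hpi this
    have hqC : (q : ℂ) ≠ 0 := by exact_mod_cast hq.ne'
    rw [div_eq_iff hqC] at h2
    refine ⟨k, ?_⟩
    have h3 : (n : ℂ) = ((k * q : ℤ) : ℂ) := by rw [h2]; push_cast; ring
    have h4 : n = k * q := by exact_mod_cast h3
    rw [h4]; ring
  · rintro ⟨k, rfl⟩
    have : (((q : ℤ) * k : ℤ) : ℝ) / q = ((k : ℤ) : ℝ) := by
      have : (q : ℝ) ≠ 0 := by positivity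
      push_cast; field_simp
    rw [this, ee_int]

/-- the summand of `D` as a function on `ℤ` -/
noncomputable def g (a1 a2 : ℝ → ℝ → ℝ) (m : ℕ) (k : ℤ × ℤ) (j b : ℤ) (c' : ℝ) (i : ℤ) : ℂ :=
  ee (-(j * i / m)) * I a1 a2 k b ((c' + i) / m)

theorem D_eq_g (m : ℕ) (k : ℤ × ℤ) (j b : ℤ) (c' : ℝ) :
    D a1 a2 m k j b c' = (1 / (m : ℂ)) * ∑ i ∈ range m, g a1 a2 m k j b c' i := by
  unfold D g; simp

theorem g_add_m (h : Eqv q a1 a2) (hq : 0 < q) {m : ℕ} (hm : 0 < m) (k : ℤ × ℤ) (j b : ℤ)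
    (c' : ℝ) (i : ℤ) : g a1 a2 m k j b c' (i + m) = g a1 a2 m k j b c' i := by
  have hm' : (m : ℝ) ≠ 0 := by positivity
  unfold g
  have e1 : (c' + ((i + m : ℤ) : ℝ)) / m = (c' + i) / m + 1 := by push_cast; field_simp; ring
  rw [e1, I_add_one h hq]
  congr 1
  have e2 : -((j : ℝ) * ((i + m : ℤ) : ℝ) / m) = -(j * i / m) + ((-j : ℤ) : ℝ) := by
    push_cast; field_simp; ring
  rw [e2, ee_add_int]

theorem g_add_q2 (h : Eqv q a1 a2) (hq : 0 < q) (hq2 : 0 < q2) (k : ℤ × ℤ) (j b : ℤ)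
    (c' : ℝ) (i : ℤ) :
    g a1 a2 (q * q2) k j b c' (i + q2)
      = ee (((k.1 - j : ℤ) : ℝ) / q) * g a1 a2 (q * q2) k j b c' i := by
  have hq' : (q : ℝ) ≠ 0 := by positivity
  have hq2' : (q2 : ℝ) ≠ 0 := by positivity
  unfold g
  have e1 : (c' + ((i + q2 : ℤ) : ℝ)) / ((q * q2 : ℕ) : ℝ)
      = (c' + i) / ((q * q2 : ℕ) : ℝ) + 1 / q := by push_cast; field_simp; ring
  rw [e1, I_add h, ← mul_assoc, ← mul_assoc, ← ee_add, ← ee_add]
  congr 2
  push_cast
  field_simp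
  ring

/-- **(1.3), sector selection**: `D_k(j,b) = 0` unless `j ≡ k₁ mod q`. -/
theorem D_eq_zero (h : Eqv q a1 a2) (hq : 0 < q) (hq2 : 0 < q2) (k : ℤ × ℤ) (j b : ℤ) (c' : ℝ)
    (hj : ¬ (q : ℤ) ∣ (j - k.1)) : D a1 a2 (q * q2) k j b c' = 0 := by
  have hm : 0 < q * q2 := Nat.mul_pos hq hq2
  rw [D_eq_g]
  set S := ∑ i ∈ range (q * q2), g a1 a2 (q * q2) k j b c' i with hS
  have h1 : ∑ i ∈ range (q * q2), g a1 a2 (q * q2) k j b c' (i + (q2 : ℕ)) = S :=
    sum_range_shift (g_add_m h hq hm k j b c') q2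
  have h2 : ∑ i ∈ range (q * q2), g a1 a2 (q * q2) k j b c' (i + (q2 : ℕ))
      = ee (((k.1 - j : ℤ) : ℝ) / q) * S := by
    rw [hS, Finset.mul_sum]
    refine Finset.sum_congr rfl (fun i _ => ?_)
    exact g_add_q2 h hq hq2 k j b c' i
  have hne : ee (((k.1 - j : ℤ) : ℝ) / q) ≠ 1 := by
    intro he
    rw [ee_div_eq_one_iff hq] at he
    apply hj
    have : j - k.1 = -(k.1 - j) := by ring
    rw [this]
    exact (dvd_neg).2 he
  have hS0 : S = 0 := by
    have h3 : (1 - ee (((k.1 - j : ℤ) : ℝ) / q)) * S = 0 := by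
      rw [sub_mul, one_mul, ← h2, h1, sub_self]
    rcases mul_eq_zero.1 h3 with h4 | h4
    · exact absurd (sub_eq_zero.1 h4).symm hne
    · exact h4
  rw [hS0, mul_zero]

/-- **(1.3), CRT form**: for `j ≡ k₁ mod q`, `N q ≡ 1 mod q''`, `a ≡ j N mod q''`. -/
theorem D_eq (h : Eqv q a1 a2) (hq : 0 < q) (hq2 : 0 < q2) (k : ℤ × ℤ) (j b : ℤ) (c' : ℝ)
    (hj : (q : ℤ) ∣ (j - k.1)) (N a : ℤ) (hN : (q2 : ℤ) ∣ (N * q - 1))
    (ha : (q2 : ℤ) ∣ (a - j * N)) :
    D a1 a2 (q * q2) k j b c'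
      = (1 / (q2 : ℂ)) * ∑ i ∈ range q2,
          ∫ t in (0:ℝ)..1, ee (k.1 * a1 (c' / (q * q2) + N * i / q2) t
            + k.2 * a2 (c' / (q * q2) + N * i / q2) t - a * i / q2 - b * t) := by
  have hm : 0 < q * q2 := Nat.mul_pos hq hq2
  have hq' : (q : ℝ) ≠ 0 := by positivity
  have hq2' : (q2 : ℝ) ≠ 0 := by positivity
  have hqC : (q : ℂ) ≠ 0 := by exact_mod_cast hq.ne'
  have hq2C : (q2 : ℂ) ≠ 0 := by exact_mod_cast hq2.ne'
  have hper : ∀ i, g a1 a2 (q * q2) k j b c' (i + q2) = g a1 a2 (q * q2) k j b c' i := by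
    intro i
    rw [g_add_q2 h hq hq2]
    have : ee (((k.1 - j : ℤ) : ℝ) / q) = 1 := by
      rw [ee_div_eq_one_iff hq]
      have : k.1 - j = -(j - k.1) := by ring
      rw [this]; exact (dvd_neg).2 hj
    rw [this, one_mul]
  rw [D_eq_g, sum_range_mul_period hper q]
  have e1 : (1 / ((q * q2 : ℕ) : ℂ)) * (q * ∑ i ∈ range q2, g a1 a2 (q * q2) k j b c' i)
      = (1 / (q2 : ℂ)) * ∑ i ∈ range q2, g a1 a2 (q * q2) k j b c' i := by
    push_cast; field_simp
  rw [e1]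
  congr 1
  refine Finset.sum_congr rfl (fun i _ => ?_)
  obtain ⟨r, hr⟩ := hN
  obtain ⟨u, hu⟩ := ha
  have h2 : g a1 a2 (q * q2) k j b c' i = g a1 a2 (q * q2) k j b c' (q * N * i) := by
    have : (q : ℤ) * N * i = i + (r * i) * q2 := by
      have : (q : ℤ) * N = 1 + q2 * r := by linarith
      rw [this]; ring
    rw [this, period_mul hper]
  rw [h2]
  unfold g I
  rw [← intervalIntegral.integral_const_mul]
  refine intervalIntegral.integral_congr (fun t _ => ?_)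
  have e2 : (c' + (((q : ℤ) * N * i : ℤ) : ℝ)) / ((q * q2 : ℕ) : ℝ)
      = c' / (q * q2) + N * i / q2 := by push_cast; field_simp
  rw [e2, ← ee_add]
  have e3 : (a : ℝ) = j * N + q2 * u := by
    have : a = j * N + q2 * u := by linarith
    rw [this]; push_cast; ring
  have e4 : -((j : ℝ) * (((q : ℤ) * N * i : ℤ) : ℝ) / ((q * q2 : ℕ) : ℝ))
        + (k.1 * a1 (c' / (q * q2) + N * i / q2) t + k.2 * a2 (c' / (q * q2) + N * i / q2) t - b * t)
      = (k.1 * a1 (c' / (q * q2) + N * i / q2) t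
            + k.2 * a2 (c' / (q * q2) + N * i / q2) t - a * i / q2 - b * t)
          + ((u * i : ℤ) : ℝ) := by
    rw [e3]; push_cast; field_simp; ring
  rw [e4, ee_add_int]

/-- `D` is `m`-periodic in `j`. -/
theorem D_add_m {m : ℕ} (hm : 0 < m) (k : ℤ × ℤ) (j b : ℤ) (c' : ℝ) :
    D a1 a2 m k (j + m) b c' = D a1 a2 m k j b c' := by
  have hm' : (m : ℝ) ≠ 0 := by positivity
  unfold D
  congr 1
  refine Finset.sum_congr rfl (fun i _ => ?_)
  congr 1
  have : -(((j + m : ℤ) : ℝ) * i / m) = -(j * i / m) + ((-(i : ℤ) : ℤ) : ℝ) := by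
    push_cast; field_simp
    ring
  rw [this, ee_add_int]

/-- **(1.4)** `j P₊/q₊ + b F/h = j P/q + τ/h` for `q₊ = h q''`, `P₊ = (P h q'' + 1)/q`. -/
theorem nu_eq (hq : 0 < q) (hq2 : 0 < q2) (hh : ℕ) (hhp : 0 < hh) (P Pp j b : ℤ) (Fc : ℝ)
    (hP : (q : ℤ) * Pp = P * hh * q2 + 1) :
    (j : ℝ) * Pp / (hh * q2) + b * Fc / hh
      = j * P / q + (j / (q * q2) + b * Fc) / hh := by
  have hq' : (q : ℝ) ≠ 0 := by positivity
  have hq2' : (q2 : ℝ) ≠ 0 := by positivity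
  have hh' : (hh : ℝ) ≠ 0 := by positivity
  have hP' : (Pp : ℝ) = (P * hh * q2 + 1) / q := by
    have : (q : ℝ) * Pp = P * hh * q2 + 1 := by exact_mod_cast hP
    field_simp; linarith
  rw [hP']
  field_simp
  ring

/-- **(1.4)** `h ν₊ ≡ a/q'' + b F mod 1`, `a ≡ j P₊ mod q''`. -/
theorem h_nu_eq (hq2 : 0 < q2) (hh : ℕ) (hhp : 0 < hh) (Pp j a b : ℤ) (Fc : ℝ)
    (ha : (q2 : ℤ) ∣ (a - j * Pp)) :
    ∃ n : ℤ, (hh : ℝ) * (j * Pp / (hh * q2) + b * Fc / hh) = a / q2 + b * Fc + n := by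
  have hq2' : (q2 : ℝ) ≠ 0 := by positivity
  have hh' : (hh : ℝ) ≠ 0 := by positivity
  obtain ⟨u, hu⟩ := ha
  refine ⟨-u, ?_⟩
  have e3 : (a : ℝ) = j * Pp + q2 * u := by
    have : a = j * Pp + q2 * u := by linarith
    rw [this]; push_cast; ring
  rw [e3]
  push_cast
  field_simp
  ring

/-- `N = P₊` is an inverse of `q` modulo `q''`. -/
theorem N_spec (hh : ℕ) (P Pp : ℤ) (hP : (q : ℤ) * Pp = P * hh * q2 + 1) :
    (q2 : ℤ) ∣ (Pp * q - 1) := ⟨P * hh, by linarith⟩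

end Crest.Agent.R081.Co
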