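import Mathlib

/-!
# Row 81 (twists), node TRANSPORT, part 1 (helper230)

Array statements on `(j, b, c') ∈ ℤ × ℤ × ℝ`, everything in `ℝ≥0∞`:
* `tsum_class`: the sum over `j ≡ k1 mod q` is the sum over residues `r mod q2` and shifts by `q*q2`;
* `mass_le`, `mass_eq` (TP1): `∑_{j ≡ k1 (q)} P (j/(q q2) + x) W (j N) = A ∑_{a mod q2} W a`
  whenever `∑_m P (τ + m) = A` for all `τ`;
* `transport` (TP2 + TP3): `|P W - m e|` has mass `≤ A * ε1 + ε2`.
-/

set_option autoImplicit false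

namespace Crest.Agent.R081.Tp

open MeasureTheory
open scoped ENNReal

theorem tsum_mod_eq (q : ℕ) (hq : 0 < q) (k : ℤ) (G : ℤ → ℝ≥0∞) :
    ∑' j : ℤ, (if (q : ℤ) ∣ j - k then G j else 0) = ∑' i : ℤ, G (k + q * i) := by
  have hq' : (q : ℤ) ≠ 0 := by exact_mod_cast hq.ne'
  have hinj : Function.Injective (fun i : ℤ => k + (q : ℤ) * i) := by
    intro a b h
    have h' : (q : ℤ) * a = q * b := by simpa using h
    exact mul_left_cancel₀ hq' h'
  have hsupp : Function.support (fun j : ℤ => if (q : ℤ) ∣ j - k then G j else 0) ⊆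
      Set.range (fun i : ℤ => k + (q : ℤ) * i) := by
    intro j hj
    simp only [Function.mem_support, ne_eq, ite_eq_right_iff, Classical.not_imp] at hj
    obtain ⟨i, hi⟩ := hj.1
    exact ⟨i, by simp only; omega⟩
  rw [← hinj.tsum_eq hsupp]
  refine tsum_congr fun i => ?_
  have : (q : ℤ) ∣ (k + (q : ℤ) * i) - k := ⟨i, by ring⟩
  rw [if_pos this]

theorem tsum_int_split (n : ℕ) (hn : 0 < n) (G : ℤ → ℝ≥0∞) :
    ∑' i : ℤ, G i = ∑ r ∈ Finset.range n, ∑' m : ℤ, G (r + n * m) := by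
  have : NeZero n := ⟨hn.ne'⟩
  rw [← (Int.divModEquiv n).symm.tsum_eq G,
    ENNReal.tsum_prod (f := fun a b => G ((Int.divModEquiv n).symm (a, b))),
    ENNReal.tsum_comm, tsum_fintype, Finset.sum_range]
  refine Finset.sum_congr rfl fun r _ => tsum_congr fun m => ?_
  congr 1
  simp [Int.divModEquiv]
  ring

/-- the sum over `j ≡ k1 mod q` -/
theorem tsum_class (q q2 : ℕ) (hq : 0 < q) (hq2 : 0 < q2) (k1 : ℤ) (G : ℤ → ℝ≥0∞) :
    ∑' j : ℤ, (if (q : ℤ) ∣ j - k1 then G j else 0) =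
      ∑ r ∈ Finset.range q2, ∑' m : ℤ, G (k1 + q * r + (q * q2) * m) := by
  rw [tsum_mod_eq q hq, tsum_int_split q2 hq2]
  refine Finset.sum_congr rfl fun r _ => tsum_congr fun m => ?_
  congr 1
  ring

theorem per_mul {W : ℤ → ℝ≥0∞} {n : ℕ} (hW : ∀ a, W (a + n) = W a) (a m : ℤ) :
    W (a + n * m) = W a := by
  induction m using Int.induction_on with
  | zero => simp
  | succ i ih => rw [← ih, ← hW (a + n * i)]; congr 1; ring
  | pred i ih => rw [← ih, ← hW (a + n * (-(i : ℤ) - 1))]; congr 1; ring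

theorem per_eq {W : ℤ → ℝ≥0∞} {n : ℕ} (hW : ∀ a, W (a + n) = W a) {a b : ℤ}
    (h : (n : ℤ) ∣ a - b) : W a = W b := by
  obtain ⟨m, hm⟩ := h
  have : a = b + n * m := by omega
  rw [this, per_mul hW]

/-- shifting a periodic sum -/
theorem sum_range_shift {n : ℕ} (hn : 0 < n) {W : ℤ → ℝ≥0∞} (hW : ∀ a, W (a + n) = W a) (k : ℤ) :
    ∑ r ∈ Finset.range n, W (k + r) = ∑ r ∈ Finset.range n, W r := by
  have hn' : (n : ℤ) ≠ 0 := by exact_mod_cast hn.ne'
  have hn0 : (0 : ℤ) < n := by exact_mod_cast hn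
  refine Finset.sum_bij (fun r _ => ((k + (r : ℤ)) % n).toNat) ?_ ?_ ?_ ?_
  · intro r _
    rw [Finset.mem_range]
    have h1 := Int.emod_nonneg (k + r) hn'
    have h2 := Int.emod_lt_of_pos (k + r) hn0
    omega
  · intro r hr s hs h
    rw [Finset.mem_range] at hr hs
    have h1 := Int.emod_nonneg (k + r) hn'
    have h3 := Int.emod_nonneg (k + s) hn'
    have h5 : (k + (r : ℤ)) % n = (k + (s : ℤ)) % n := by
      have : (((k + (r : ℤ)) % n).toNat : ℤ) = (((k + (s : ℤ)) % n).toNat : ℤ) := by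
        exact_mod_cast h
      rwa [Int.toNat_of_nonneg h1, Int.toNat_of_nonneg h3] at this
    have h6 : (n : ℤ) ∣ (k + r) - (k + s) := Int.ModEq.dvd (h5.symm : _)
    obtain ⟨t, ht⟩ := h6
    have h7 : (r : ℤ) - s = n * t := by linarith
    have h8 : |(r : ℤ) - s| < n := by
      rw [abs_lt]; constructor <;> omega
    have h9 : t = 0 := by
      by_contra hne
      have : (1 : ℤ) ≤ |t| := Int.one_le_abs hne
      rw [h7, abs_mul, abs_of_pos hn0] at h8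
      nlinarith
    rw [h9, mul_zero] at h7
    omega
  · intro s hs
    rw [Finset.mem_range] at hs
    have h1 := Int.emod_nonneg ((s : ℤ) - k) hn'
    have h2 := Int.emod_lt_of_pos ((s : ℤ) - k) hn0
    refine ⟨(((s : ℤ) - k) % n).toNat, ?_, ?_⟩
    · rw [Finset.mem_range]; omega
    · have h3 : ((((s : ℤ) - k) % n).toNat : ℤ) = ((s : ℤ) - k) % n := Int.toNat_of_nonneg h1
      rw [h3, Int.add_emod_emod]
      have : k + ((s : ℤ) - k) = s := by ring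
      rw [this, Int.emod_eq_of_lt (by omega) (by omega)]
      simp
  · intro r _
    apply per_eq hW
    have h1 := Int.emod_nonneg (k + r) hn'
    rw [Int.toNat_of_nonneg h1]
    exact Int.dvd_self_sub_emod

/-- TP1 (inequality form). -/
theorem mass_eq (q q2 : ℕ) (hq : 0 < q) (hq2 : 0 < q2) (N : ℤ) (hN : (q2 : ℤ) ∣ q * N - 1)
    (k1 : ℤ) (P : ℝ → ℝ≥0∞) (A : ℝ≥0∞) (hP : ∀ τ : ℝ, ∑' m : ℤ, P (τ + m) = A)
    (W : ℤ → ℝ≥0∞) (hW : ∀ a, W (a + q2) = W a) (x : ℝ) :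
    ∑' j : ℤ, (if (q : ℤ) ∣ j - k1 then P (j / (q * q2) + x) * W (j * N) else 0) =
      A * ∑ a ∈ Finset.range q2, W a := by
  have hq' : (q : ℝ) ≠ 0 := by exact_mod_cast hq.ne'
  have hq2' : (q2 : ℝ) ≠ 0 := by exact_mod_cast hq2.ne'
  rw [tsum_class q q2 hq hq2 k1 (fun j => P (j / (q * q2) + x) * W (j * N)), Finset.mul_sum,
    ← Finset.mul_sum, ← sum_range_shift hq2 hW (k1 * N), Finset.mul_sum]
  refine Finset.sum_congr rfl fun r _ => ?_
  have hWr : ∀ m : ℤ, W ((k1 + q * r + (q * q2) * m) * N) = W (k1 * N + r) := by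
    intro m
    apply per_eq hW
    obtain ⟨t, ht⟩ := hN
    refine ⟨t * r + q * m * N, ?_⟩
    have : (q : ℤ) * N = 1 + q2 * t := by linarith
    linear_combination (r : ℤ) * this
  simp only [hWr]
  rw [ENNReal.tsum_mul_right]
  congr 1
  rw [← hP ((k1 + q * r) / (q * q2) + x)]
  refine tsum_congr fun m => ?_
  congr 1
  push_cast
  field_simp
  ring

/-- TP1 (inequality form). -/
theorem mass_le (q q2 : ℕ) (hq : 0 < q) (hq2 : 0 < q2) (N : ℤ) (hN : (q2 : ℤ) ∣ q * N - 1)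
    (k1 : ℤ) (P : ℝ → ℝ≥0∞) (A : ℝ≥0∞) (hP : ∀ τ : ℝ, ∑' m : ℤ, P (τ + m) ≤ A)
    (W : ℤ → ℝ≥0∞) (hW : ∀ a, W (a + q2) = W a) (x : ℝ) :
    ∑' j : ℤ, (if (q : ℤ) ∣ j - k1 then P (j / (q * q2) + x) * W (j * N) else 0) ≤
      A * ∑ a ∈ Finset.range q2, W a := by
  have hq' : (q : ℝ) ≠ 0 := by exact_mod_cast hq.ne'
  have hq2' : (q2 : ℝ) ≠ 0 := by exact_mod_cast hq2.ne'
  rw [tsum_class q q2 hq hq2 k1 (fun j => P (j / (q * q2) + x) * W (j * N)),
    ← sum_range_shift hq2 hW (k1 * N), Finset.mul_sum]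
  refine Finset.sum_le_sum fun r _ => ?_
  have hWr : ∀ m : ℤ, W ((k1 + q * r + (q * q2) * m) * N) = W (k1 * N + r) := by
    intro m
    apply per_eq hW
    obtain ⟨t, ht⟩ := hN
    refine ⟨t * r + q * m * N, ?_⟩
    have : (q : ℤ) * N = 1 + q2 * t := by linarith
    linear_combination (r : ℤ) * this
  simp only [hWr]
  rw [ENNReal.tsum_mul_right]
  gcongr
  refine le_trans (le_of_eq ?_) (hP ((k1 + q * r) / (q * q2) + x))
  refine tsum_congr fun m => ?_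
  congr 1
  push_cast
  field_simp
  ring

/-- the pointwise inequality behind the transport of masses -/
theorem ptw (P m W e : ℝ) :
    ‖P * W - m * e‖ₑ ≤ ‖P‖ₑ * ‖W - e‖ₑ + ‖e‖ₑ * ‖P - m‖ₑ := by
  have h : P * W - m * e = P * (W - e) + e * (P - m) := by ring
  rw [h, ← enorm_mul, ← enorm_mul]
  exact enorm_add_le _ _

/-- TP3 (and TP2): transport of masses.
`P = |φ|²`, `m` its Fresnel limit, `W = |D|²`, `e` the design mass. -/
theorem transport (q q2 : ℕ) (hq : 0 < q) (hq2 : 0 < q2) (N : ℤ) (hN : (q2 : ℤ) ∣ q * N - 1)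
    (k1 : ℤ) (P m : ℝ → ℝ) (A : ℝ≥0∞)
    (hP : ∀ τ : ℝ, ∑' i : ℤ, ‖P (τ + i)‖ₑ ≤ A)
    (W e : ℤ → ℤ → ℝ → ℝ) (hWp : ∀ a b c, W (a + q2) b c = W a b c)
    (hep : ∀ a b c, e (a + q2) b c = e a b c)
    (hWm : ∀ a b, Measurable (W a b)) (hem : ∀ a b, Measurable (e a b))
    (F : ℝ → ℝ) (μ : Measure ℝ) (ε1 ε2 : ℝ≥0∞)
    (h1 : ∫⁻ c, ∑' b : ℤ, ∑ a ∈ Finset.range q2, ‖W a b c - e a b c‖ₑ ∂μ ≤ ε1)
    (h2 : ∫⁻ c, ∑' b : ℤ, ∑' j : ℤ, (if (q : ℤ) ∣ j - k1 then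
      ‖e (j * N) b c‖ₑ * ‖P (j / (q * q2) + b * F c) - m (j / (q * q2) + b * F c)‖ₑ else 0) ∂μ
        ≤ ε2) :
    ∫⁻ c, ∑' b : ℤ, ∑' j : ℤ, (if (q : ℤ) ∣ j - k1 then
      ‖P (j / (q * q2) + b * F c) * W (j * N) b c - m (j / (q * q2) + b * F c) * e (j * N) b c‖ₑ
        else 0) ∂μ ≤ A * ε1 + ε2 := by
  have key : ∀ c, ∑' b : ℤ, ∑' j : ℤ, (if (q : ℤ) ∣ j - k1 then
      ‖P (j / (q * q2) + b * F c) * W (j * N) b c - m (j / (q * q2) + b * F c) * e (j * N) b c‖ₑ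
        else 0) ≤ A * (∑' b : ℤ, ∑ a ∈ Finset.range q2, ‖W a b c - e a b c‖ₑ) +
        ∑' b : ℤ, ∑' j : ℤ, (if (q : ℤ) ∣ j - k1 then
      ‖e (j * N) b c‖ₑ * ‖P (j / (q * q2) + b * F c) - m (j / (q * q2) + b * F c)‖ₑ else 0) := by
    intro c
    rw [← ENNReal.tsum_mul_left, ← ENNReal.tsum_add]
    refine ENNReal.tsum_le_tsum fun b => ?_
    have h3 := mass_le q q2 hq hq2 N hN k1 (fun τ => ‖P τ‖ₑ) A hP
      (fun a => ‖W a b c - e a b c‖ₑ) (fun a => by simp only [hWp, hep]) (b * F c)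
    refine le_trans ?_ (add_le_add_left h3 _)
    rw [← ENNReal.tsum_add]
    refine ENNReal.tsum_le_tsum fun j => ?_
    by_cases hj : (q : ℤ) ∣ j - k1
    · simp only [hj, if_true]
      exact ptw _ _ _ _
    · simp [hj]
  refine (lintegral_mono key).trans ?_
  rw [lintegral_add_left, lintegral_const_mul]
  · gcongr
  · refine Measurable.tsum fun b => ?_
    refine Finset.measurable_sum _ fun a _ => ?_
    exact ((hWm a b).sub (hem a b)).enorm
  · refine Measurable.const_mul ?_ _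
    refine Measurable.tsum fun b => ?_
    refine Finset.measurable_sum _ fun a _ => ?_
    exact ((hWm a b).sub (hem a b)).enorm

end Crest.Agent.R081.Tp
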