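import Mathlib
import Crest.Agent.R081.Tp1

/-!
# Row 81 (twists), node TRANSPORT, part 2 (helper230): the L² transport `TP-A`, `TP-B`.

`τ = j/(q q2) + b F c`, `j ≡ k1 mod q`, design cells `c ∈ E (j N) b`.
-/

set_option autoImplicit false

namespace Crest.Agent.R081.Tp

open MeasureTheory
open scoped ENNReal

/-- injectivity of `(a mod q2, b, c) ↦ a/q2 + b F c` modulo 1 on the cells `E a b` -/
def InjE (q2 : ℕ) (F : ℝ → ℝ) (E : ℤ → ℤ → Set ℝ) : Prop :=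
  ∀ (a b : ℤ) (c : ℝ) (a' b' : ℤ) (c' : ℝ), c ∈ E a b → c' ∈ E a' b' →
    (∃ n : ℤ, (a : ℝ) / q2 + b * F c = a' / q2 + b' * F c' + n) →
      (q2 : ℤ) ∣ a - a' ∧ b = b' ∧ c = c'

/-- `τ = j/(q q2) + b F c` is injective on `{j ≡ k1 mod q, c ∈ E (jN) b}` -/
theorem tau_inj {q q2 : ℕ} (hq : 0 < q) (hq2 : 0 < q2) {N : ℤ} (hN : (q2 : ℤ) ∣ q * N - 1)
    {k1 : ℤ} {F : ℝ → ℝ} {E : ℤ → ℤ → Set ℝ} (hE : InjE q2 F E)
    {j b j' b' : ℤ} {c c' : ℝ} (hj : (q : ℤ) ∣ j - k1) (hj' : (q : ℤ) ∣ j' - k1)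
    (hc : c ∈ E (j * N) b) (hc' : c' ∈ E (j' * N) b')
    (h : (j : ℝ) / (q * q2) + b * F c = j' / (q * q2) + b' * F c') :
    j = j' ∧ b = b' ∧ c = c' := by
  have hq' : (q : ℝ) ≠ 0 := by exact_mod_cast hq.ne'
  have hq2' : (q2 : ℝ) ≠ 0 := by exact_mod_cast hq2.ne'
  obtain ⟨t, ht⟩ : (q : ℤ) ∣ j - j' := by
    have := dvd_sub hj hj'
    simpa using this
  obtain ⟨s, hs⟩ := hN
  have h1 : ((j * N : ℤ) : ℝ) / q2 + b * F c = ((j' * N : ℤ) : ℝ) / q2 + b' * F c' + ((t * s : ℤ) : ℝ) := by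
    have e1 : (j : ℝ) - j' = q * t := by exact_mod_cast ht
    have e2 : (q : ℝ) * N - 1 = q2 * s := by exact_mod_cast hs
    have e3 : b * F c - b' * F c' = (j' : ℝ) / (q * q2) - j / (q * q2) := by linarith
    have e4 : b * F c = b' * F c' + ((j' : ℝ) / (q * q2) - j / (q * q2)) := by linarith
    rw [e4]
    push_cast
    field_simp
    have e5 : (j : ℝ) = j' + q * t := by linarith
    have e6 : (q : ℝ) * N = 1 + q2 * s := by linarith
    rw [e5]
    linear_combination (q * t : ℝ) * e6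
  obtain ⟨_, hb, hcc⟩ := hE _ _ _ _ _ _ hc hc' ⟨_, h1⟩
  subst hb
  subst hcc
  refine ⟨?_, rfl, rfl⟩
  have h2 : (j : ℝ) / (q * q2) = j' / (q * q2) := by linarith
  have h3 : (j : ℝ) = j' := by
    field_simp at h2
    exact h2
  exact_mod_cast h3

/-- one affine piece -/
theorem piece (G : ℝ → ℝ≥0∞) (x : ℝ) (b : ℤ) (hb : b ≠ 0) (F : ℝ → ℝ) (vs d : ℝ) (hvs : 0 < vs)
    (Y : Set ℝ) (hY : MeasurableSet Y) (hF : ∀ c ∈ Y, F c = vs * (c - d)) :
    ∫⁻ c in Y, G (x + b * F c) * ENNReal.ofReal (|(b : ℝ)| * vs) =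
      ∫⁻ τ in (fun c => x + b * F c) '' Y, G τ := by
  have hb' : (b : ℝ) ≠ 0 := by exact_mod_cast hb
  have h1 : (fun c => x + b * F c) '' Y = (fun c => x + b * (vs * (c - d))) '' Y := by
    apply Set.image_congr
    intro c hc
    rw [hF c hc]
  rw [h1, lintegral_image_eq_lintegral_abs_deriv_mul hY (f := fun c => x + b * (vs * (c - d)))
    (f' := fun _ => b * vs)]
  · refine setLIntegral_congr_fun hY fun c hc => ?_
    rw [hF c hc, abs_mul, abs_of_pos hvs, mul_comm]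
  · intro c _
    have : HasDerivAt (fun c : ℝ => x + b * (vs * (c - d))) (b * (vs * 1)) c :=
      (((hasDerivAt_id c).sub_const d).const_mul vs).const_mul (b : ℝ) |>.const_add x
    simpa using this.hasDerivWithinAt
  · intro c _ c' _ h
    have h2 : (b : ℝ) * (vs * (c - c')) = 0 := by linarith
    have h3 : vs * (c - c') = 0 := by
      rcases mul_eq_zero.1 h2 with h | h
      · exact absurd h hb'
      · exact h
    rcases mul_eq_zero.1 h3 with h | h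
    · exact absurd h hvs.ne'
    · linarith

/-- (TP-B) change of variables with multiplicity one. -/
theorem tpB (q q2 : ℕ) (hq : 0 < q) (hq2 : 0 < q2) (N : ℤ) (hN : (q2 : ℤ) ∣ q * N - 1)
    (k1 : ℤ) (G : ℝ → ℝ≥0∞) (F : ℝ → ℝ) (vs d : ℝ) (hvs : 0 < vs)
    (E : ℤ → ℤ → Set ℝ) (hEm : ∀ a b, MeasurableSet (E a b)) (hE0 : ∀ a, E a 0 = ∅)
    (hF : ∀ a b, ∀ c ∈ E a b, F c = vs * (c - d)) (hE : InjE q2 F E) :
    ∑' b : ℤ, ∑' j : ℤ, (if (q : ℤ) ∣ j - k1 then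
      ∫⁻ c in E (j * N) b, G (j / (q * q2) + b * F c) * ENNReal.ofReal (|(b : ℝ)| * vs) else 0) ≤
      ∫⁻ τ, G τ := by
  set Y : ℤ × ℤ → Set ℝ := fun p =>
    if (q : ℤ) ∣ p.2 - k1 then (fun c => (p.2 : ℝ) / (q * q2) + p.1 * F c) '' (E (p.2 * N) p.1)
      else ∅ with hYdef
  have hYm : ∀ p, MeasurableSet (Y p) := by
    intro p
    simp only [hYdef]
    split_ifs with h
    · by_cases hb : p.1 = 0
      · rw [hb, hE0]; simp
      · have h1 : (fun c => (p.2 : ℝ) / (q * q2) + p.1 * F c) '' (E (p.2 * N) p.1) =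
            (fun c => (p.2 : ℝ) / (q * q2) + p.1 * (vs * (c - d))) '' (E (p.2 * N) p.1) := by
          apply Set.image_congr
          intro c hc
          rw [hF _ _ c hc]
        rw [h1]
        apply MeasurableSet.image_of_continuousOn_injOn (hEm _ _)
        · fun_prop
        · intro c _ c' _ h
          dsimp only at h
          have hb' : (p.1 : ℝ) ≠ 0 := by exact_mod_cast hb
          have h2 : (p.1 : ℝ) * (vs * (c - c')) = 0 := by linarith
          have h3 : vs * (c - c') = 0 := by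
            rcases mul_eq_zero.1 h2 with h | h
            · exact absurd h hb'
            · exact h
          rcases mul_eq_zero.1 h3 with h | h
          · exact absurd h hvs.ne'
          · linarith
    · exact MeasurableSet.empty
  have hdisj : Pairwise (Function.onFun Disjoint Y) := by
    intro p p' hpp
    rw [Function.onFun, Set.disjoint_left]
    intro τ h h'
    simp only [hYdef] at h h'
    split_ifs at h with h1
    split_ifs at h' with h1'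
    · obtain ⟨c, hc, hτ⟩ := h
      obtain ⟨c', hc', hτ'⟩ := h'
      simp only at hτ hτ'
      obtain ⟨e1, e2, _⟩ := tau_inj hq hq2 hN hE h1 h1' hc hc' (hτ.trans hτ'.symm)
      exact hpp (Prod.ext e2 e1)
    · exact h'.elim
    · exact h.elim
  have hle : ∑' p : ℤ × ℤ, ∫⁻ τ in Y p, G τ ≤ ∫⁻ τ, G τ := by
    rw [← lintegral_iUnion hYm hdisj]
    exact setLIntegral_le_lintegral _ _
  refine le_trans (le_of_eq ?_) hle
  rw [ENNReal.tsum_prod (f := fun b j => ∫⁻ τ in Y (b, j), G τ)]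
  refine tsum_congr fun b => tsum_congr fun j => ?_
  simp only [hYdef]
  by_cases hj : (q : ℤ) ∣ j - k1
  · simp only [hj, if_true]
    by_cases hb : b = 0
    · rw [hb, hE0]; simp
    · exact piece G _ b hb F vs d hvs _ (hEm _ _) (hF _ _)
  · simp [hj]

theorem sq_le (z w x y : ℂ) :
    ‖z * w - x * y‖ₑ ^ 2 ≤ 2 * (‖z‖ₑ ^ 2 * ‖w - y‖ₑ ^ 2 + ‖z - x‖ₑ ^ 2 * ‖y‖ₑ ^ 2) := by
  have h : z * w - x * y = z * (w - y) + (z - x) * y := by ring
  have h1 : ‖z * w - x * y‖ₑ ≤ ‖z * (w - y)‖ₑ + ‖(z - x) * y‖ₑ := by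
    rw [h]; exact enorm_add_le _ _
  calc ‖z * w - x * y‖ₑ ^ 2 ≤ (‖z * (w - y)‖ₑ + ‖(z - x) * y‖ₑ) ^ 2 := by gcongr
    _ ≤ 2 * (‖z * (w - y)‖ₑ ^ 2 + ‖(z - x) * y‖ₑ ^ 2) := by
        have := ENNReal.rpow_add_le_mul_rpow_add_rpow (‖z * (w - y)‖ₑ) (‖(z - x) * y‖ₑ)
          (p := 2) (by norm_num)
        norm_num at this
        simpa using this
    _ = _ := by rw [enorm_mul, enorm_mul, mul_pow, mul_pow]

/-- (TP-A) the `L²` transport. -/
theorem tpA (q q2 : ℕ) (hq : 0 < q) (hq2 : 0 < q2) (N : ℤ) (hN : (q2 : ℤ) ∣ q * N - 1)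
    (k1 : ℤ) (phi psi : ℝ → ℂ) (hphi : Measurable phi) (hpsi : Measurable psi)
    (A e e' : ℝ≥0∞) (hA : ∀ τ : ℝ, ∑' m : ℤ, ‖phi (τ + m)‖ₑ ^ 2 ≤ A)
    (he : ∫⁻ τ, ‖phi τ - psi τ‖ₑ ^ 2 ≤ e)
    (F : ℝ → ℝ) (vs d : ℝ) (hvs : 0 < vs) (hFm : Measurable F)
    (E : ℤ → ℤ → Set ℝ) (hEm : ∀ a b, MeasurableSet (E a b)) (hE0 : ∀ a, E a 0 = ∅)
    (hF : ∀ a b, ∀ c ∈ E a b, F c = vs * (c - d)) (hE : InjE q2 F E)
    (D M : ℤ → ℤ → ℝ → ℂ) (hDp : ∀ a b c, D (a + q2) b c = D a b c)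
    (hMp : ∀ a b c, M (a + q2) b c = M a b c)
    (hDm : ∀ a b, Measurable (D a b)) (hMm : ∀ a b, Measurable (M a b))
    (hM : ∀ a b c, ‖M a b c‖ₑ ^ 2 ≤ (E a b).indicator (fun _ => ENNReal.ofReal (|(b : ℝ)| * vs)) c)
    (hDM : ∫⁻ c in Set.Ioc (0 : ℝ) 1, ∑' b : ℤ, ∑ a ∈ Finset.range q2, ‖D a b c - M a b c‖ₑ ^ 2 ≤ e') :
    ∫⁻ c in Set.Ioc (0 : ℝ) 1, ∑' b : ℤ, ∑' j : ℤ, (if (q : ℤ) ∣ j - k1 then
      ‖phi (j / (q * q2) + b * F c) * D (j * N) b c -
        psi (j / (q * q2) + b * F c) * M (j * N) b c‖ₑ ^ 2 else 0) ≤ 2 * (A * e' + e) := by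
  have key : ∀ c, ∑' b : ℤ, ∑' j : ℤ, (if (q : ℤ) ∣ j - k1 then
      ‖phi (j / (q * q2) + b * F c) * D (j * N) b c -
        psi (j / (q * q2) + b * F c) * M (j * N) b c‖ₑ ^ 2 else 0) ≤
      2 * (A * (∑' b : ℤ, ∑ a ∈ Finset.range q2, ‖D a b c - M a b c‖ₑ ^ 2) +
        ∑' b : ℤ, ∑' j : ℤ, (if (q : ℤ) ∣ j - k1 then
      (E (j * N) b).indicator (fun c => ‖phi (j / (q * q2) + b * F c) - psi (j / (q * q2) + b * F c)‖ₑ ^ 2
        * ENNReal.ofReal (|(b : ℝ)| * vs)) c else 0)) := by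
    intro c
    rw [← ENNReal.tsum_mul_left, ← ENNReal.tsum_add, ← ENNReal.tsum_mul_left]
    refine ENNReal.tsum_le_tsum fun b => ?_
    have h3 := mass_le q q2 hq hq2 N hN k1 (fun τ => ‖phi τ‖ₑ ^ 2) A hA
      (fun a => ‖D a b c - M a b c‖ₑ ^ 2) (fun a => by simp only [hDp, hMp]) (b * F c)
    refine le_trans ?_ (mul_le_mul_right (add_le_add_left h3 _) _)
    rw [← ENNReal.tsum_add, ← ENNReal.tsum_mul_left]
    refine ENNReal.tsum_le_tsum fun j => ?_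
    by_cases hj : (q : ℤ) ∣ j - k1
    · simp only [hj, if_true]
      refine (sq_le _ _ _ _).trans ?_
      gcongr
      refine (mul_le_mul_right (hM (j * N) b c) _).trans (le_of_eq ?_)
      by_cases hc : c ∈ E (j * N) b
      · simp [hc]
      · simp [hc]
    · simp [hj]
  refine (lintegral_mono key).trans ?_
  have hm1 : Measurable fun c => ∑' b : ℤ, ∑ a ∈ Finset.range q2, ‖D a b c - M a b c‖ₑ ^ 2 := by
    refine Measurable.tsum fun b => ?_
    refine Finset.measurable_sum _ fun a _ => ?_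
    exact (((hDm a b).sub (hMm a b)).enorm).pow_const 2
  have hm2 : ∀ b j : ℤ, Measurable fun c => (if (q : ℤ) ∣ j - k1 then
      (E (j * N) b).indicator (fun c => ‖phi (j / (q * q2) + b * F c) - psi (j / (q * q2) + b * F c)‖ₑ ^ 2
        * ENNReal.ofReal (|(b : ℝ)| * vs)) c else 0) := by
    intro b j
    by_cases hj : (q : ℤ) ∣ j - k1
    · simp only [hj, if_true]
      refine Measurable.indicator ?_ (hEm _ _)
      refine Measurable.mul_const ?_ _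
      refine Measurable.pow_const ?_ 2
      refine Measurable.enorm ?_
      exact (hphi.comp (measurable_const.add (hFm.const_mul _))).sub
        (hpsi.comp (measurable_const.add (hFm.const_mul _)))
    · simp [hj]
  have hm3 : Measurable fun c => ∑' b : ℤ, ∑' j : ℤ, (if (q : ℤ) ∣ j - k1 then
      (E (j * N) b).indicator (fun c => ‖phi (j / (q * q2) + b * F c) - psi (j / (q * q2) + b * F c)‖ₑ ^ 2
        * ENNReal.ofReal (|(b : ℝ)| * vs)) c else 0) :=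
    Measurable.tsum fun b => Measurable.tsum fun j => hm2 b j
  have hm4 : Measurable fun c => A * ∑' b : ℤ, ∑ a ∈ Finset.range q2, ‖D a b c - M a b c‖ₑ ^ 2 :=
    hm1.const_mul _
  have hm5 : Measurable fun c => (A * ∑' b : ℤ, ∑ a ∈ Finset.range q2, ‖D a b c - M a b c‖ₑ ^ 2) +
      ∑' b : ℤ, ∑' j : ℤ, (if (q : ℤ) ∣ j - k1 then
      (E (j * N) b).indicator (fun c => ‖phi (j / (q * q2) + b * F c) - psi (j / (q * q2) + b * F c)‖ₑ ^ 2
        * ENNReal.ofReal (|(b : ℝ)| * vs)) c else 0) := hm4.add hm3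
  rw [lintegral_const_mul 2 hm5, lintegral_add_left hm4, lintegral_const_mul _ hm1]
  gcongr
  rw [lintegral_tsum (fun b => (Measurable.tsum fun j => hm2 b j).aemeasurable)]
  refine le_trans ?_ he
  refine le_trans ?_ (tpB q q2 hq hq2 N hN k1 (fun τ => ‖phi τ - psi τ‖ₑ ^ 2) F vs d hvs E hEm hE0 hF hE)
  refine ENNReal.tsum_le_tsum fun b => ?_
  rw [lintegral_tsum (fun j => (hm2 b j).aemeasurable)]
  refine ENNReal.tsum_le_tsum fun j => ?_
  by_cases hj : (q : ℤ) ∣ j - k1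
  · simp only [hj, if_true]
    rw [← lintegral_indicator (hEm _ _)]
    exact setLIntegral_le_lintegral _ _
  · simp [hj]

end Crest.Agent.R081.Tp
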