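import Mathlib
import Crest.Agent.R081.Tp2
import Crest.Agent.R081.FmDefs
import Crest.Agent.R081.Co2

/-!
# Row 81 (twists), node TRANSPORT, part 3 (helper230): (MAIN) on the mode space `muX`.
-/

set_option autoImplicit false

namespace Crest.Agent.R081.Tp

open MeasureTheory Crest.Agent.R075
open scoped ENNReal

theorem lintegral_muX {G : (ℤ × ℤ) × ℝ → ℝ≥0∞} (hG : Measurable G) :
    ∫⁻ x, G x ∂Fm.muX = ∫⁻ c in Set.Ioc (0 : ℝ) 1, ∑' b : ℤ, ∑' j : ℤ, G ((j, b), c) := by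
  have h1 : ∀ c : ℝ, ∑' b : ℤ, ∑' j : ℤ, G ((j, b), c) = ∑' k : ℤ × ℤ, G (k, c) := by
    intro c
    rw [ENNReal.tsum_comm]
    exact (ENNReal.tsum_prod (f := fun j b => G ((j, b), c))).symm
  simp only [h1]
  unfold Fm.muX Fm.I01
  rw [lintegral_prod _ hG.aemeasurable, lintegral_count, lintegral_tsum]
  intro k
  exact (hG.comp measurable_prodMk_left).aemeasurable

/-- coefficient array of `(u e(k.y)) ∘ K ∘ Lin` (right-hand side of (1.3)) -/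
noncomputable def Carr (q q2 : ℕ) (F : ℝ → ℝ) (phi : ℝ → ℂ) (Dj : ℤ → ℤ → ℝ → ℂ)
    (x : (ℤ × ℤ) × ℝ) : ℂ :=
  ee (-(x.1.1 * x.2 / (q * q2))) * (phi (x.1.1 / (q * q2) + x.1.2 * F x.2) * Dj x.1.1 x.1.2 x.2)

/-- the main array `main(k,u)` -/
noncomputable def mainA (q q2 : ℕ) (N k1 : ℤ) (F : ℝ → ℝ) (psi : ℝ → ℂ) (M : ℤ → ℤ → ℝ → ℂ)
    (x : (ℤ × ℤ) × ℝ) : ℂ :=
  if (q : ℤ) ∣ x.1.1 - k1 then
    ee (-(x.1.1 * x.2 / (q * q2))) *
      (psi (x.1.1 / (q * q2) + x.1.2 * F x.2) * M (x.1.1 * N) x.1.2 x.2) else 0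

theorem measurable_Carr {q q2 : ℕ} {F : ℝ → ℝ} (hF : Measurable F) {phi : ℝ → ℂ}
    (hphi : Measurable phi) {Dj : ℤ → ℤ → ℝ → ℂ} (hD : ∀ j b, Measurable (Dj j b)) :
    Measurable (Carr q q2 F phi Dj) := by
  refine measurable_from_prod_countable_right fun k => ?_
  unfold Carr
  simp only
  refine Measurable.mul ?_ (Measurable.mul ?_ (hD _ _))
  · exact ee_continuous.measurable.comp (by fun_prop)
  · exact hphi.comp (measurable_const.add (hF.const_mul _))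

theorem measurable_mainA {q q2 : ℕ} {N k1 : ℤ} {F : ℝ → ℝ} (hF : Measurable F) {psi : ℝ → ℂ}
    (hpsi : Measurable psi) {M : ℤ → ℤ → ℝ → ℂ} (hM : ∀ a b, Measurable (M a b)) :
    Measurable (mainA q q2 N k1 F psi M) := by
  refine measurable_from_prod_countable_right fun k => ?_
  unfold mainA
  simp only
  by_cases hk : (q : ℤ) ∣ k.1 - k1
  · simp only [hk, if_true]
    refine Measurable.mul ?_ (Measurable.mul ?_ (hM _ _))
    · exact ee_continuous.measurable.comp (by fun_prop)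
    · exact hpsi.comp (measurable_const.add (hF.const_mul _))
  · simp [hk]

/-- **(MAIN)**, array form: `∫ |C - main|² ∂muX ≤ 2 (A e' + e)`. -/
theorem main_bound (q q2 : ℕ) (hq : 0 < q) (hq2 : 0 < q2) (N : ℤ) (hN : (q2 : ℤ) ∣ q * N - 1)
    (k1 : ℤ) (phi psi : ℝ → ℂ) (hphi : Measurable phi) (hpsi : Measurable psi)
    (A e e' : ℝ≥0∞) (hA : ∀ τ : ℝ, ∑' m : ℤ, ‖phi (τ + m)‖ₑ ^ 2 ≤ A)
    (he : ∫⁻ τ, ‖phi τ - psi τ‖ₑ ^ 2 ≤ e)
    (F : ℝ → ℝ) (vs d : ℝ) (hvs : 0 < vs) (hFm : Measurable F)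
    (E : ℤ → ℤ → Set ℝ) (hEm : ∀ a b, MeasurableSet (E a b)) (hE0 : ∀ a, E a 0 = ∅)
    (hF : ∀ a b, ∀ c ∈ E a b, F c = vs * (c - d)) (hE : InjE q2 F E)
    (D M : ℤ → ℤ → ℝ → ℂ) (hDp : ∀ a b c, D (a + q2) b c = D a b c)
    (hMp : ∀ a b c, M (a + q2) b c = M a b c)
    (hDm : ∀ a b, Measurable (D a b)) (hMm : ∀ a b, Measurable (M a b))
    (hM : ∀ a b c, ‖M a b c‖ₑ ^ 2 ≤ (E a b).indicator (fun _ => ENNReal.ofReal (|(b : ℝ)| * vs)) c)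
    (hDM : ∫⁻ c in Set.Ioc (0 : ℝ) 1, ∑' b : ℤ, ∑ a ∈ Finset.range q2, ‖D a b c - M a b c‖ₑ ^ 2 ≤ e')
    (Dj : ℤ → ℤ → ℝ → ℂ) (hDj : ∀ j b, Measurable (Dj j b))
    (hDj0 : ∀ j b c, ¬ (q : ℤ) ∣ j - k1 → Dj j b c = 0)
    (hDj1 : ∀ j b c, (q : ℤ) ∣ j - k1 → Dj j b c = D (j * N) b c) :
    ∫⁻ x, ‖Carr q q2 F phi Dj x - mainA q q2 N k1 F psi M x‖ₑ ^ 2 ∂Fm.muX ≤ 2 * (A * e' + e) := by
  have hm : Measurable fun x => ‖Carr q q2 F phi Dj x - mainA q q2 N k1 F psi M x‖ₑ ^ 2 :=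
    ((measurable_Carr hFm hphi hDj).sub (measurable_mainA hFm hpsi hMm)).enorm.pow_const 2
  rw [lintegral_muX hm]
  refine le_trans (le_of_eq ?_) (tpA q q2 hq hq2 N hN k1 phi psi hphi hpsi A e e' hA he F vs d hvs
    hFm E hEm hE0 hF hE D M hDp hMp hDm hMm hM hDM)
  refine lintegral_congr fun c => tsum_congr fun b => tsum_congr fun j => ?_
  unfold Carr mainA
  simp only
  by_cases hj : (q : ℤ) ∣ j - k1
  · simp only [hj, if_true, hDj1 j b c hj]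
    rw [← mul_sub, enorm_mul]
    have : ‖ee (-(j * c / (q * q2)))‖ₑ = 1 := by
      rw [← ofReal_norm, norm_ee]; simp
    rw [this, one_mul]
  · simp [hj, hDj0 j b c hj]

/-- the literal squared bound in `eLpNorm` form -/
theorem main_bound_eLp {f : (ℤ × ℤ) × ℝ → ℂ} {B : ℝ≥0∞}
    (h : ∫⁻ x, ‖f x‖ₑ ^ 2 ∂Fm.muX ≤ B) : eLpNorm f 2 Fm.muX ^ 2 ≤ B := by
  rw [eLpNorm_eq_lintegral_rpow_enorm_toReal (by norm_num) (by norm_num)]
  simp only [ENNReal.toReal_ofNat, ENNReal.rpow_two, one_div]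
  rw [← ENNReal.rpow_two, ← ENNReal.rpow_mul]
  simpa using h

end Crest.Agent.R081.Tp
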