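import Crest.Agent.R081.StDefs
import Crest.Agent.R081.Mn1
import Crest.Agent.R081.Tp3
import Crest.Agent.R081.Co3
import Crest.Agent.R081.Fresnel5
import Crest.Agent.R081.FrPars
import Crest.Agent.R081.FmIso

/-! Row 81, route B, node MAIN (helper27): the coefficients of `(u(c) e(k·y)) ∘ K ∘ Lin` are close in
`L²(muX)` to the explicit array `mainA`. -/

set_option autoImplicit false

namespace Crest.Agent.R081.Mn

open MeasureTheory Set Crest.AnalysisR.Torus3 Crest.Agent.R075 Crest.Agent.R081.Fm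
  Crest.Agent.R081.Co Crest.Agent.R081.St Crest.Agent.R081.Tw
open scoped ENNReal

theorem P3_add (c y1 y2 : ℝ) (l m n : ℤ) : P3 (c + l, (y1 + m, y2 + n)) = P3 (c, (y1, y2)) := by
  unfold P3
  rw [← Sm.proj_add_zv ![c, y1, y2] ![l, m, n]]
  congr 1
  funext i
  fin_cases i <;> simp

variable {t : TwD} {K : Finset (ℤ × ℤ)} {eps : ℝ}

theorem chi_add_int {f : ℝ → ℝ} (hf : ∀ c, ∃ n : ℤ, f (c + 1) = f c + n) (c : ℝ) (l : ℤ) :
    ∃ n : ℤ, f (c + l) = f c + n := by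
  induction l using Int.induction_on with
  | zero => exact ⟨0, by simp⟩
  | succ l ih =>
    obtain ⟨n, hn⟩ := ih
    obtain ⟨n', hn'⟩ := hf (c + ((l : ℤ) : ℝ))
    refine ⟨n + n', ?_⟩
    have : c + (((l : ℤ) + 1 : ℤ) : ℝ) = c + (l : ℤ) + 1 := by push_cast; ring
    rw [this, hn', hn]
    push_cast
    ring
  | pred l ih =>
    obtain ⟨n, hn⟩ := ih
    obtain ⟨n', hn'⟩ := hf (c + ((-(l : ℤ) - 1 : ℤ) : ℝ))
    refine ⟨n - n', ?_⟩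
    have : c + ((-(l : ℤ) - 1 : ℤ) : ℝ) + 1 = c + ((-(l : ℤ) : ℤ) : ℝ) := by push_cast; ring
    rw [this, hn] at hn'
    push_cast at hn' ⊢
    linarith

/-- `GForm` gives the pointwise description `KL` -/
theorem kl_of_gform (d : Des t.q K eps) {h : ℕ} {G : Sm.LD} (gf : GForm d h G) :
    KL (t.q * d.q2) (Icc t.del (1 - t.del)) (wa1 t.q d.w) (wa2 t.q d.w) (Fp d.v d.del) gf.chi
      G.perm := by
  have key : ∀ c' θ1 θ2 : ℝ, ∃ y : ℝ × ℝ, G.perm (P3 (c', (θ1, θ2)))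
      = P3 (Int.fract (((t.q * d.q2 : ℕ) : ℝ) * θ1 - c'), y) ∧
      (Int.fract (((t.q * d.q2 : ℕ) : ℝ) * θ1 - c') ∈ Icc t.del (1 - t.del) →
        y = (wa1 t.q d.w (θ1 - Int.fract (((t.q * d.q2 : ℕ) : ℝ) * θ1 - c') / ((t.q * d.q2 : ℕ) : ℝ))
              (θ2 - Int.fract (((t.q * d.q2 : ℕ) : ℝ) * θ1 - c') * Fp d.v d.del c'),
            gf.chi (Int.fract (((t.q * d.q2 : ℕ) : ℝ) * θ1 - c')) +
             wa2 t.q d.w (θ1 - Int.fract (((t.q * d.q2 : ℕ) : ℝ) * θ1 - c') / ((t.q * d.q2 : ℕ) : ℝ))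
              (θ2 - Int.fract (((t.q * d.q2 : ℕ) : ℝ) * θ1 - c') * Fp d.v d.del c'))) := by
    intro c' θ1 θ2
    have hcast : ((t.q * d.q2 : ℕ) : ℝ) = (t.q * d.q2 : ℝ) := by push_cast; ring
    rw [hcast]
    set c : ℝ := (t.q * d.q2 : ℝ) * θ1 - c' with hc
    set c0 : ℝ := Int.fract c with hc0
    have hcc : c = c0 + (⌊c⌋ : ℝ) := (Int.fract_add_floor c).symm
    obtain ⟨n, hn⟩ := chi_add_int gf.chi_per c0 ⌊c⌋
    rw [← hcc] at hn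
    have hb : gf.bet c = gf.bet c0 := by
      rw [hcc]
      exact per_int gf.bet_per ⌊c⌋ c0
    set Aw := Word.act t.q d.w (θ1 - gf.bet c / (t.q * d.q2), θ2 - gf.bet c * Fp d.v d.del c') with hAw
    refine ⟨(Aw.1, gf.chi c0 + Aw.2), ?_, ?_⟩
    · rw [gf.form c' θ1 θ2, ← hc, ← hAw, hn]
      have e1 : gf.chi c0 + (n : ℝ) + Aw.2 = gf.chi c0 + Aw.2 + (n : ℝ) := by ring
      rw [e1]
      have := P3_add c0 Aw.1 (gf.chi c0 + Aw.2) ⌊c⌋ 0 n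
      rw [← hcc] at this
      simpa using this
    · intro hJ
      have hbJ : gf.bet c = c0 := by rw [hb]; exact gf.bet_J c0 hJ
      rw [hAw, hbJ]
      rfl
  refine ⟨fun c' θ1 θ2 hJ => ?_, fun c' θ1 θ2 _ => ?_⟩
  · obtain ⟨y, h1, h2⟩ := key c' θ1 θ2
    rw [h1, h2 hJ]
  · obtain ⟨y, h1, _⟩ := key c' θ1 θ2
    exact ⟨y, h1⟩

theorem em_P3 {k : ℤ × ℤ} {u : ℝ → ℂ} {c : ℝ} (hc : c ∈ Set.Ioc (0:ℝ) 1) (y : ℝ × ℝ) :
    em k u (P3 (c, y)) = u c * ek k y := by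
  rw [← C3_Q2, em_C3 hc, mFourier_Q2]

theorem em_P3_zero {k : ℤ × ℤ} {u : ℝ → ℂ} (y : ℝ × ℝ) :
    em k u (P3 (0, y)) = u 1 * ek k y := by
  have h1 : P3 ((0:ℝ), y) = P3 (1, y) := by
    have := P3_add 0 y.1 y.2 1 0 0
    simpa using this.symm
  rw [h1]
  exact em_P3 (by simp) y

/-- the values of a single mode supported in `J` -/
theorem em_hw {δ : ℝ} (hδ : 0 < δ) {k : ℤ × ℤ} {u : ℝ → ℂ} (hu : ∀ c, c ∉ Icc δ (1 - δ) → u c = 0)
    (c : ℝ) (y : ℝ × ℝ) (h0 : 0 ≤ c) (h1 : c < 1) : em k u (P3 (c, y)) = u c * ek k y := by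
  rcases h0.eq_or_lt with h | h
  · subst h
    rw [em_P3_zero, hu 0 (fun h => by linarith [h.1]), hu 1 (fun h => by linarith [h.2])]
  · exact em_P3 ⟨h, h1.le⟩ y

theorem measurable_Fp (v : ℝ) {δ : ℝ} (hδ : 0 < δ) : Measurable (Fp v δ) :=
  (Fp_smooth v hδ).continuous.measurable

/-- the coefficients of `(u e(k·y)) ∘ G` -/
theorem fcX_em (d : Des t.q K eps) {h : ℕ} {G : Sm.LD} (gf : GForm d h G) (k : ℤ × ℤ) {u : ℝ → ℂ}
    (hum : Measurable u) (hu2 : MemLp u 2 I01) (huJ : ∀ c, c ∉ Icc t.del (1 - t.del) → u c = 0)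
    (x : (ℤ × ℤ) × ℝ) :
    fcX (fun y => em k u (G.perm y)) x
      = Tp.Carr t.q d.q2 (Fp d.v d.del) (Co.phi u gf.chi k.2)
          (fun j b c => Co.D (wa1 t.q d.w) (wa2 t.q d.w) (t.q * d.q2) k j b c) x := by
  have hm : 0 < t.q * d.q2 := Nat.mul_pos t.q_pos d.q2_pos
  have hui : IntervalIntegrable u volume 0 1 := by
    rw [intervalIntegrable_iff_integrableOn_Ioc_of_le zero_le_one]
    haveI : IsFiniteMeasure (volume.restrict (Set.Ioc (0:ℝ) 1)) := by infer_instance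
    exact hu2.integrable one_le_two
  have := fc_comp (eqv_word t.q_pos d.w) t.q_pos hm (continuous_wa1 t.q d.w).measurable
    (continuous_wa2 t.q d.w).measurable (J := Icc t.del (1 - t.del))
    (F := Fp d.v d.del) (χ := gf.chi) (fun c => Fp_per d.v d.del c) (measurable_Fp d.v d.del_pos)
    gf.chi_cont.measurable (kl_of_gform d gf) hum hui huJ (k := k) (w := em k u)
    (em_hw t.del_pos huJ) x.1.1 x.1.2 x.2
  unfold fcX
  rw [show (x.1 : ℤ × ℤ) = (x.1.1, x.1.2) from rfl, this]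
  unfold Tp.Carr
  push_cast
  rfl

/-- the lines as a family of sets -/
def Eab (d : Des t.q K eps) (a b : ℤ) : Set ℝ := {c : ℝ | (((a : ZMod d.q2), b), c) ∈ d.E}

theorem injE (d : Des t.q K eps) : Tp.InjE d.q2 (Fp d.v d.del) (Eab d) := by
  intro a b c a' b' c' hc hc' hn
  obtain ⟨n, hn⟩ := hn
  obtain ⟨h1, h2, h3⟩ := d.E_inj a b a' b' c c' hc hc' ⟨n, by linarith⟩
  refine ⟨?_, h2, h3⟩
  exact (ZMod.intCast_eq_intCast_iff_dvd_sub _ _ _).1 h1.symm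

theorem enorm_sq_eq (z : ℂ) : ‖z‖ₑ ^ 2 = ENNReal.ofReal (‖z‖ ^ 2) := by
  rw [ENNReal.ofReal_pow (norm_nonneg _), ofReal_norm]

theorem continuous_co_phi {u : ℝ → ℂ} (hu2 : MemLp u 2 I01) {χ : ℝ → ℝ} (hχ : Continuous χ) (k2 : ℤ) :
    Continuous (Co.phi u χ k2) := by
  have e1 : Co.phi u χ k2 = FrPars.Ft (fun c => u c * ee (k2 * χ c)) := by
    funext τ
    unfold Co.phi FrPars.Ft
    refine intervalIntegral.integral_congr fun c _ => ?_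
    show _ = _ * _ * _
    rw [mul_assoc, ← ee_add]
    rfl
  rw [e1]
  exact FrPars.cont_Ft (FrPars.L2.mul_ee (g := fun c => k2 * χ c) hu2 (continuous_const.mul hχ))

/-- Parseval in unit shifts -/
theorem tsum_co_phi {u : ℝ → ℂ} (hu2 : MemLp u 2 I01) {χ : ℝ → ℝ} (hχ : Continuous χ) (k2 : ℤ) (τ : ℝ) :
    ∑' m : ℤ, ‖Co.phi u χ k2 (τ + m)‖ₑ ^ 2 = ∫⁻ c, ‖u c‖ₑ ^ 2 ∂I01 := by
  have h1 := Fr.hasSum_co_phi hu2 hχ.measurable k2 τ
  have h2 : ∑' m : ℤ, ‖Co.phi u χ k2 (τ + m)‖ₑ ^ 2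
      = ENNReal.ofReal (∫ c in (0 : ℝ)..1, ‖u c‖ ^ 2) := by
    rw [← h1.tsum_eq, ENNReal.ofReal_tsum_of_nonneg (fun m => by positivity) h1.summable]
    exact tsum_congr fun m => enorm_sq_eq _
  rw [h2, FrPars.lintegral_sq_eq hu2]
  rfl

theorem Dd_eq_DD (q q2 : ℕ) (N : ℤ) (w : Word) (k : ℤ × ℤ) (a b : ℤ) (c : ℝ) :
    Dd q q2 N w k a b c = DD (wa1 q w) (wa2 q w) q q2 N k a b c := rfl

theorem Dd_per (d : Des t.q K eps) (k : ℤ × ℤ) (a b : ℤ) (c : ℝ) :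
    Dd t.q d.q2 d.N d.w k (a + d.q2) b c = Dd t.q d.q2 d.N d.w k a b c := by
  rw [Dd_eq_DD, Dd_eq_DD, DD_add_q2 d.q2_pos]

theorem D_eq_Dd (d : Des t.q K eps) (k : ℤ × ℤ) (j b : ℤ) (c : ℝ) (hj : (t.q : ℤ) ∣ j - k.1) :
    Co.D (wa1 t.q d.w) (wa2 t.q d.w) (t.q * d.q2) k j b c = Dd t.q d.q2 d.N d.w k (j * d.N) b c := by
  rw [Dd_eq_DD]
  exact D_eq_DD (eqv_word t.q_pos d.w) t.q_pos d.q2_pos k j b c hj d.N (j * d.N) d.hN (by simp)

theorem D_eq_zero' (d : Des t.q K eps) (k : ℤ × ℤ) (j b : ℤ) (c : ℝ) (hj : ¬ (t.q : ℤ) ∣ j - k.1) :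
    Co.D (wa1 t.q d.w) (wa2 t.q d.w) (t.q * d.q2) k j b c = 0 :=
  D_eq_zero (eqv_word t.q_pos d.w) t.q_pos d.q2_pos k j b c hj

theorem M_enorm (d : Des t.q K eps) (k : ℤ × ℤ) (a b : ℤ) (c : ℝ) :
    ‖d.M k a b c‖ₑ ^ 2
      = (Eab d a b).indicator (fun _ => ENNReal.ofReal (|(b : ℝ)| * (d.v / (1 - 2 * d.del)))) c := by
  rw [enorm_sq_eq, d.M_norm k a b c]
  unfold Eab
  by_cases hc : c ∈ {c : ℝ | (((a : ZMod d.q2), b), c) ∈ d.E}
  · rw [Set.indicator_of_mem hc, Set.indicator_of_mem hc]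
  · rw [Set.indicator_of_notMem hc, Set.indicator_of_notMem hc, ENNReal.ofReal_zero]

theorem Eab_zero (d : Des t.q K eps) (a : ℤ) : Eab d a 0 = ∅ := by
  ext c
  simp only [Set.mem_empty_iff_false, iff_false]
  exact fun hc => d.E_ne0 _ hc rfl

theorem Fp_Eab (d : Des t.q K eps) (a b : ℤ) (c : ℝ) (hc : c ∈ Eab d a b) :
    Fp d.v d.del c = d.v / (1 - 2 * d.del) * (c - d.del) := by
  have h1 := d.E_sub _ hc
  rw [Fp_eq d.v d.del_pos h1.1 h1.2]; ring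

theorem vs_pos (d : Des t.q K eps) : 0 < d.v / (1 - 2 * d.del) := by
  have := d.del_lt
  have := d.v_pos
  have h1 : (0 : ℝ) < 1 - 2 * d.del := by linarith
  positivity

theorem measurable_Dd (d : Des t.q K eps) (k : ℤ × ℤ) (a b : ℤ) :
    Measurable (Dd t.q d.q2 d.N d.w k a b) :=
  (continuous_DD (q := t.q) (q2 := d.q2) (continuous_wa1 t.q d.w) (continuous_wa2 t.q d.w)
      d.N k a b).measurable

theorem des_err (d : Des t.q K eps) {k : ℤ × ℤ} (hk : k ∈ K) (hk0 : k ≠ 0) :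
    ∫⁻ c in Set.Ioc (0 : ℝ) 1, ∑' b : ℤ, ∑ a ∈ Finset.range d.q2,
      ‖Dd t.q d.q2 d.N d.w k a b c - d.M k a b c‖ₑ ^ 2 ≤ ENNReal.ofReal (eps ^ 2) := by
  have hmeas : ∀ a b : ℤ, Measurable fun c => ‖Dd t.q d.q2 d.N d.w k a b c - d.M k a b c‖ₑ ^ 2 :=
    fun a b => ((measurable_Dd d k a b).sub (d.M_meas k a b)).enorm.pow_const 2
  refine le_trans (le_of_eq ?_) (d.err k hk hk0)
  rw [lintegral_tsum (f := fun (b : ℤ) (c : ℝ) => ∑ a ∈ Finset.range d.q2,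
      ‖Dd t.q d.q2 d.N d.w k a b c - d.M k a b c‖ₑ ^ 2)
    (fun b => (Finset.measurable_sum (f := fun (a : ℕ) (c : ℝ) =>
      ‖Dd t.q d.q2 d.N d.w k a b c - d.M k a b c‖ₑ ^ 2) (Finset.range d.q2)
      (fun a _ => hmeas a b)).aemeasurable)]
  have e1 : ∀ b : ℤ, ∫⁻ c in Set.Ioc (0 : ℝ) 1, ∑ a ∈ Finset.range d.q2,
      ‖Dd t.q d.q2 d.N d.w k a b c - d.M k a b c‖ₑ ^ 2
      = ∑ a ∈ Finset.range d.q2, ∫⁻ c in Set.Ioc (0 : ℝ) 1,
          ‖Dd t.q d.q2 d.N d.w k a b c - d.M k a b c‖ₑ ^ 2 := fun b =>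
    lintegral_finsetSum (f := fun (a : ℕ) (c : ℝ) =>
      ‖Dd t.q d.q2 d.N d.w k a b c - d.M k a b c‖ₑ ^ 2) _ fun a _ => hmeas a b
  simp only [e1]
  exact Summable.tsum_finsetSum (fun a _ => ENNReal.summable)

/-- **(MAIN)**, general form: `psi` any `L²` approximation of `Co.phi`. -/
theorem main_gen (d : Des t.q K eps) {h : ℕ} {G : Sm.LD} (gf : GForm d h G) {k : ℤ × ℤ}
    (hk : k ∈ K) (hk0 : k ≠ 0) {u : ℝ → ℂ}
    (hum : Measurable u) (hu2 : MemLp u 2 I01) (huJ : ∀ c, c ∉ Icc t.del (1 - t.del) → u c = 0)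
    (psi : ℝ → ℂ) (hpsi : Measurable psi) (e : ℝ≥0∞)
    (he : ∫⁻ τ, ‖Co.phi u gf.chi k.2 τ - psi τ‖ₑ ^ 2 ≤ e) :
    ∫⁻ x, ‖fcX (fun y => em k u (G.perm y)) x
        - Tp.mainA t.q d.q2 d.N k.1 (Fp d.v d.del) psi (d.M k) x‖ₑ ^ 2 ∂muX
      ≤ 2 * ((∫⁻ c, ‖u c‖ₑ ^ 2 ∂I01) * ENNReal.ofReal (eps ^ 2) + e) := by
  have hN : (d.q2 : ℤ) ∣ t.q * d.N - 1 := by
    have := d.hN
    rwa [mul_comm] at this
  have hmain := Tp.main_bound t.q d.q2 t.q_pos d.q2_pos d.N hN k.1 (Co.phi u gf.chi k.2) psi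
    (continuous_co_phi hu2 gf.chi_cont k.2).measurable hpsi (∫⁻ c, ‖u c‖ₑ ^ 2 ∂I01) e
    (ENNReal.ofReal (eps ^ 2)) (fun τ => (tsum_co_phi hu2 gf.chi_cont k.2 τ).le) he
    (Fp d.v d.del) (d.v / (1 - 2 * d.del)) d.del (vs_pos d) (measurable_Fp d.v d.del_pos)
    (Eab d) (fun a b => d.E_meas a b) (Eab_zero d) (Fp_Eab d) (injE d)
    (Dd t.q d.q2 d.N d.w k) (d.M k) (Dd_per d k) (fun a b c => d.M_per k a b c)
    (measurable_Dd d k) (d.M_meas k) (fun a b c => (M_enorm d k a b c).le) (des_err d hk hk0)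
    (fun j b c => Co.D (wa1 t.q d.w) (wa2 t.q d.w) (t.q * d.q2) k j b c)
    (fun j b => (continuous_D (continuous_wa1 t.q d.w) (continuous_wa2 t.q d.w) _ k j b).measurable)
    (D_eq_zero' d k) (D_eq_Dd d k)
  refine le_trans (le_of_eq ?_) hmain
  refine lintegral_congr fun x => ?_
  rw [fcX_em d gf k hum hu2 huJ x]

/-- **(MAIN1)**: exact phases `Co.phi`; any `k ≠ 0` in `K`. -/
theorem main1 (d : Des t.q K eps) {h : ℕ} {G : Sm.LD} (gf : GForm d h G) {k : ℤ × ℤ}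
    (hk : k ∈ K) (hk0 : k ≠ 0) {u : ℝ → ℂ}
    (hum : Measurable u) (hu2 : MemLp u 2 I01) (huJ : ∀ c, c ∉ Icc t.del (1 - t.del) → u c = 0) :
    ∫⁻ x, ‖fcX (fun y => em k u (G.perm y)) x
        - Tp.mainA t.q d.q2 d.N k.1 (Fp d.v d.del) (Co.phi u gf.chi k.2) (d.M k) x‖ₑ ^ 2 ∂muX
      ≤ 2 * ((∫⁻ c, ‖u c‖ₑ ^ 2 ∂I01) * ENNReal.ofReal (eps ^ 2)) := by
  have hphim : Measurable (Co.phi u gf.chi k.2) := (continuous_co_phi hu2 gf.chi_cont k.2).measurable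
  have := main_gen d gf hk hk0 hum hu2 huJ (Co.phi u gf.chi k.2) hphim 0 (by simp)
  simpa using this

/-- the stationary phase form of `Co.phi` -/
noncomputable def psiT (u : ℝ → ℂ) (k2 : ℤ) (h : ℕ) (al del C : ℝ) (τ : ℝ) : ℂ :=
  ee (k2 * C) * Fr.mainT (k2 * (h * al)) del (Fr.cut u) τ

theorem measurable_psiT {u : ℝ → ℂ} (hum : Measurable u) (k2 : ℤ) (h : ℕ) (al del C : ℝ) :
    Measurable (psiT u k2 h al del C) := by
  unfold psiT Fr.mainT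
  have h1 : Measurable (Fr.cut u) := hum.indicator measurableSet_Ioc
  refine Measurable.mul measurable_const (Measurable.mul (Measurable.mul measurable_const ?_) ?_)
  · exact (Fr.continuous_ze del).measurable
  · exact h1.comp (by fun_prop)

/-- **(MAIN2)**: stationary phase form; `k.2 ≠ 0`, all large `h`. -/
theorem main2 (d : Des t.q K eps) {k : ℤ × ℤ} (hk : k ∈ K) (hk2 : k.2 ≠ 0) {u : ℝ → ℂ}
    (hum : Measurable u) (hu2 : MemLp u 2 I01) (huJ : ∀ c, c ∉ Icc t.del (1 - t.del) → u c = 0)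
    {ε : ℝ} (hε : 0 < ε) :
    ∃ h0 : ℕ, 0 < h0 ∧ ∀ h : ℕ, h0 ≤ h → ∀ (G : Sm.LD) (gf : GForm d h G),
      ∫⁻ x, ‖fcX (fun y => em k u (G.perm y)) x
        - Tp.mainA t.q d.q2 d.N k.1 (Fp d.v d.del) (psiT u k.2 h t.al t.del gf.chi0) (d.M k) x‖ₑ ^ 2
          ∂muX
      ≤ 2 * ((∫⁻ c, ‖u c‖ₑ ^ 2 ∂I01) * ENNReal.ofReal (eps ^ 2) + ENNReal.ofReal ε) := by
  obtain ⟨h0, hh0, H⟩ := Fr.co_phi_L2 hu2 hk2 t.al_pos hε
  have hk0 : k ≠ 0 := fun h => hk2 (by rw [h]; rfl)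
  refine ⟨⌈h0⌉₊ + 1, Nat.succ_pos _, fun h hh G gf => ?_⟩
  have hhr : h0 ≤ (h : ℝ) := by
    have h1 := Nat.le_ceil h0
    have h2 : ((⌈h0⌉₊ + 1 : ℕ) : ℝ) ≤ h := by exact_mod_cast hh
    push_cast at h2
    linarith
  have hh1 : (0 : ℝ) < h := lt_of_lt_of_le hh0 hhr
  refine main_gen d gf hk hk0 hum hu2 huJ _ (measurable_psiT hum _ _ _ _ _) _ ?_
  have hχ : ∀ c ∈ Set.Ioc (0 : ℝ) 1, u c ≠ 0 →
      gf.chi c = h * t.al * (c - t.del) ^ 2 / 2 + gf.chi0 := by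
    intro c _ hc
    have hcJ : c ∈ Icc t.del (1 - t.del) := by
      by_contra hcJ
      exact hc (huJ c hcJ)
    rw [gf.chi_J c hcJ]; ring
  have h1 := H h hhr t.del gf.chi0 gf.chi hχ
  have hlam : (k.2 : ℝ) * (h * t.al) ≠ 0 := by
    have h2 : (k.2 : ℝ) ≠ 0 := by exact_mod_cast hk2
    have h3 := t.al_pos
    positivity
  have hmem : MemLp (fun τ => Co.phi u gf.chi k.2 τ - psiT u k.2 h t.al t.del gf.chi0 τ) 2 volume := by
    have e1 : (fun τ => Co.phi u gf.chi k.2 τ - psiT u k.2 h t.al t.del gf.chi0 τ)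
        = fun τ => ee (k.2 * gf.chi0) *
          (Fr.phi (k.2 * (h * t.al)) t.del (Fr.cut u) τ - Fr.mainT (k.2 * (h * t.al)) t.del (Fr.cut u) τ) := by
      funext τ
      rw [Fr.co_phi_eq u gf.chi k.2 (h * t.al) gf.chi0 t.del hχ τ]
      unfold psiT
      ring
    rw [e1]
    exact (Fr.memLp_phi_sub hlam t.del (Fr.integrable_cut hu2) (Fr.memLp_cut hu2)).const_mul _
  have h2 : ∫⁻ τ, ‖Co.phi u gf.chi k.2 τ - psiT u k.2 h t.al t.del gf.chi0 τ‖ₑ ^ 2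
      = ENNReal.ofReal (∫ τ, ‖Co.phi u gf.chi k.2 τ - psiT u k.2 h t.al t.del gf.chi0 τ‖ ^ 2) := by
    rw [ofReal_integral_eq_lintegral_ofReal]
    · exact lintegral_congr fun τ => enorm_sq_eq _
    · exact (memLp_two_iff_integrable_sq_norm hmem.1).1 hmem
    · exact Filter.Eventually.of_forall fun τ => by positivity
  rw [h2]
  exact ENNReal.ofReal_le_ofReal h1

end Crest.Agent.R081.Mn
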