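import Crest.Agent.R081.TrG
import Crest.Agent.R081.Mn2

/-! Row 81, route B, node TRANSITIONS (helper177), part H: the literal (T1) and (T0). -/

set_option autoImplicit false

namespace Crest.Agent.R081.Tr

open MeasureTheory Filter Crest.AnalysisR.Torus3 Crest.Agent.R075 Crest.Agent.R081.Fm
  Crest.Agent.R081.Sm Crest.Agent.R081.Tw Crest.Agent.R081.St
open scoped ENNReal Topology ContDiff

theorem mainStmt : MainStmt := by
  intro t K eps d h G hG gf k hk hk0 u hum hu2 huJ U hU hfc psi hpsi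
  have hu2' : MemLp u 2 I01 := hu2
  have hem : MemLp (em k u) 2 volume := by
    refine ⟨aesm_em k hum.aestronglyMeasurable, ?_⟩
    have h1 : eLpNorm (em k u) 2 volume ^ 2 = eLpNorm u 2 I01 ^ 2 := by
      rw [eLpNorm_two_sq, eLpNorm_two_sq]
      exact lintegral_em k hum.aestronglyMeasurable
    by_contra htop
    rw [not_lt, top_le_iff] at htop
    rw [htop] at h1
    have h2 : eLpNorm u 2 I01 ^ 2 ≠ ⊤ := ENNReal.pow_ne_top hu2'.2.ne
    exact h2 (by rw [← h1]; simp)
  have hfe : fcX (em k u) =ᵐ[muX] fcX U := by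
    have h4 : ∀ᵐ x ∂muX, fcX (em k u) x = if x.1 = k then u x.2 else 0 := by
      refine ae_muX.2 fun m => ?_
      filter_upwards [fc_em k m u] with c hc
      simpa [fcX] using hc
    filter_upwards [h4, hfc] with x e1 e2
    rw [e1, e2]
  have hUe : em k u =ᵐ[volume] U := ae_eq_of_fcX hem hU hfe
  have hUG : fcX (fun y => em k u (G.perm y)) =ᵐ[muX] fcX (fun y => U (G.perm y)) :=
    fc_congr (hG.quasiMeasurePreserving.ae_eq_comp hUe)
  have hmain := Mn.main_gen d gf hk hk0 hum hu2' huJ psi hpsi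
    (∫⁻ τ, ‖Co.phi u gf.chi k.2 τ - psi τ‖ₑ ^ 2) le_rfl
  refine le_trans (le_of_eq ?_) hmain
  refine lintegral_congr_ae ?_
  filter_upwards [hUG] with x hx
  rw [hx]

theorem T1 : T1Stmt := t1Stmt mainStmt

theorem T0 : T0Stmt := t0Stmt mainStmt

end Crest.Agent.R081.Tr
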