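import Crest.Agent.R081.Asm2
import Crest.Agent.R081.TrH
import Crest.Agent.R081.Gp23

/-! Row 81, route B (architect helper310): the assembly, remaining statements. -/

set_option autoImplicit false

namespace Crest.Agent.R081.Asm

open Crest.Agent.R081.St

theorem goal_of'' (hD : DesStmt) (hGA : GAStmt) : Glue.Goal :=
  goal_of' hD Tr.T1 Tr.T0 hGA Gp.gp

end Crest.Agent.R081.Asm
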