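import Crest.Agent.R081.Tp3
import Crest.Agent.R081.Co3
import Crest.Agent.R081.StDefs

/-!
# Row 81 (twists), node TRANSPORT, part 4 (helper230): (MAIN) for the frozen `St.Des`.
-/

set_option autoImplicit false

namespace Crest.Agent.R081.Tp

open MeasureTheory Crest.Agent.R075 Crest.Agent.R081.Tw
open scoped ENNReal

/-- the cells of the design with `a : ℤ` -/
def cellE {q : ℕ} {K : Finset (ℤ × ℤ)} {eps : ℝ} (d : St.Des q K eps) (a b : ℤ) : Set ℝ :=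
  {c | (((a : ZMod d.q2), b), c) ∈ d.E}

variable {q : ℕ} {K : Finset (ℤ × ℤ)} {eps : ℝ} (d : St.Des q K eps)

theorem one_sub_pos : 0 < 1 - 2 * d.del := by linarith [d.del_lt]

theorem vs_pos : 0 < d.v / (1 - 2 * d.del) := div_pos d.v_pos (one_sub_pos d)

theorem cellE_meas (a b : ℤ) : MeasurableSet (cellE d a b) := d.E_meas _ _

theorem cellE_zero (a : ℤ) : cellE d a 0 = ∅ := by
  ext c
  simp only [cellE, Set.mem_ofPred_eq, Set.mem_empty_iff_false, iff_false]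
  intro h
  exact d.E_ne0 _ h rfl

theorem cellE_per (a b : ℤ) : cellE d (a + d.q2) b = cellE d a b := by
  unfold cellE
  have : (((a + d.q2 : ℤ)) : ZMod d.q2) = (a : ZMod d.q2) := by push_cast; simp
  rw [this]

theorem cellE_lin {a b : ℤ} {c : ℝ} (hc : c ∈ cellE d a b) :
    Fp d.v d.del c = d.v / (1 - 2 * d.del) * (c - d.del) := by
  have h := d.E_sub _ hc
  rw [Fp_eq d.v d.del_pos h.1 h.2]
  ring

theorem injE : InjE d.q2 (Fp d.v d.del) (cellE d) := by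
  intro a b c a' b' c' hc hc' ⟨n, hn⟩
  obtain ⟨h1, h2, h3⟩ := d.E_inj a b a' b' c c' hc hc' ⟨n, by linarith⟩
  refine ⟨?_, h2, h3⟩
  rw [eq_comm, ZMod.intCast_eq_intCast_iff_dvd_sub] at h1
  exact h1

theorem measurable_Fp : Measurable (Fp d.v d.del) := (Fp_smooth d.v d.del_pos).continuous.measurable

theorem Dd_eq_DD (q2 : ℕ) (N : ℤ) (w : Word) (k : ℤ × ℤ) (a b : ℤ) (c : ℝ) :
    St.Dd q q2 N w k a b c = Co.DD (Co.wa1 q w) (Co.wa2 q w) q q2 N k a b c := rfl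

theorem measurable_Dd (k : ℤ × ℤ) (a b : ℤ) :
    Measurable (St.Dd q d.q2 d.N d.w k a b) :=
  (Co.continuous_DD (Co.continuous_wa1 q d.w) (Co.continuous_wa2 q d.w) d.N k a b).measurable

/-- the coefficient array of the word, in the `j` variable -/
noncomputable def Dj (k : ℤ × ℤ) (j b : ℤ) (c : ℝ) : ℂ :=
  Co.D (Co.wa1 q d.w) (Co.wa2 q d.w) (q * d.q2) k j b c

theorem measurable_Dj (k : ℤ × ℤ) (j b : ℤ) : Measurable (Dj d k j b) :=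
  (Co.continuous_D (Co.continuous_wa1 q d.w) (Co.continuous_wa2 q d.w) (q * d.q2) k j b).measurable

theorem hN' : (d.q2 : ℤ) ∣ q * d.N - 1 := by
  rw [mul_comm]; exact d.hN

theorem err' {k : ℤ × ℤ} (hk : k ∈ K) (hk0 : k ≠ 0) :
    ∫⁻ c in Set.Ioc (0 : ℝ) 1, ∑' b : ℤ, ∑ a ∈ Finset.range d.q2,
      ‖St.Dd q d.q2 d.N d.w k a b c - d.M k a b c‖ₑ ^ 2 ≤ ENNReal.ofReal (eps ^ 2) := by
  have hm : ∀ a b : ℤ, Measurable fun c => ‖St.Dd q d.q2 d.N d.w k a b c - d.M k a b c‖ₑ ^ 2 :=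
    fun a b => (((measurable_Dd d k a b).sub (d.M_meas k a b)).enorm).pow_const 2
  refine le_trans (le_of_eq ?_) (d.err k hk hk0)
  have hm2 : ∀ b : ℤ, Measurable fun c => ∑ a ∈ Finset.range d.q2,
      ‖St.Dd q d.q2 d.N d.w k (a : ℕ) b c - d.M k (a : ℕ) b c‖ₑ ^ 2 :=
    fun b => Finset.measurable_sum _ fun (a : ℕ) _ => hm (a : ℤ) b
  rw [lintegral_tsum (fun b => (hm2 b).aemeasurable)]
  have h1 : ∀ b : ℤ, ∫⁻ c in Set.Ioc (0 : ℝ) 1, ∑ a ∈ Finset.range d.q2,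
      ‖St.Dd q d.q2 d.N d.w k a b c - d.M k a b c‖ₑ ^ 2 =
      ∑ a ∈ Finset.range d.q2, ∫⁻ c in Set.Ioc (0 : ℝ) 1,
        ‖St.Dd q d.q2 d.N d.w k a b c - d.M k a b c‖ₑ ^ 2 := by
    intro b
    rw [lintegral_finsetSum _ (fun (a : ℕ) _ => hm (a : ℤ) b)]
  simp only [h1]
  rw [Summable.tsum_finsetSum (fun a _ => ENNReal.summable)]

theorem M_enorm (k : ℤ × ℤ) (a b : ℤ) (c : ℝ) : ‖d.M k a b c‖ₑ ^ 2 =
    (cellE d a b).indicator (fun _ => ENNReal.ofReal (|(b : ℝ)| * (d.v / (1 - 2 * d.del)))) c := by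
  have h := d.M_norm k a b c
  have h1 : ‖d.M k a b c‖ₑ ^ 2 = ENNReal.ofReal (‖d.M k a b c‖ ^ 2) := by
    rw [ENNReal.ofReal_pow (norm_nonneg _), ofReal_norm]
  rw [h1, h]
  by_cases hc : c ∈ cellE d a b
  · rw [Set.indicator_of_mem hc, Set.indicator_of_mem (show c ∈ {c : ℝ | (((a : ZMod d.q2), b), c) ∈ d.E} from hc)]
  · rw [Set.indicator_of_notMem hc, Set.indicator_of_notMem (show c ∉ {c : ℝ | (((a : ZMod d.q2), b), c) ∈ d.E} from hc)]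
    simp

theorem Dd_add (k : ℤ × ℤ) (a b : ℤ) (c : ℝ) :
    St.Dd q d.q2 d.N d.w k (a + d.q2) b c = St.Dd q d.q2 d.N d.w k a b c := by
  rw [Dd_eq_DD, Dd_eq_DD]
  exact Co.DD_add_q2 d.q2_pos d.N k a b c

theorem Dj_zero (hq : 0 < q) (k : ℤ × ℤ) (j b : ℤ) (c : ℝ) (hj : ¬ (q : ℤ) ∣ j - k.1) :
    Dj d k j b c = 0 :=
  Co.D_eq_zero (Co.eqv_word hq d.w) hq d.q2_pos k j b c hj

theorem Dj_eq (hq : 0 < q) (k : ℤ × ℤ) (j b : ℤ) (c : ℝ) (hj : (q : ℤ) ∣ j - k.1) :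
    Dj d k j b c = St.Dd q d.q2 d.N d.w k (j * d.N) b c := by
  rw [Dd_eq_DD]
  exact Co.D_eq_DD (Co.eqv_word hq d.w) hq d.q2_pos k j b c hj d.N (j * d.N) d.hN (by simp)

/-- **(MAIN) for the frozen design structure**. -/
theorem des_main (hq : 0 < q) {k : ℤ × ℤ} (hk : k ∈ K) (hk0 : k ≠ 0)
    {phi psi : ℝ → ℂ} (hphi : Measurable phi) (hpsi : Measurable psi)
    {A e : ℝ≥0∞} (hA : ∀ τ : ℝ, ∑' m : ℤ, ‖phi (τ + m)‖ₑ ^ 2 ≤ A)
    (he : ∫⁻ τ, ‖phi τ - psi τ‖ₑ ^ 2 ≤ e) :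
    ∫⁻ x, ‖Carr q d.q2 (Fp d.v d.del) phi (Dj d k) x -
      mainA q d.q2 d.N k.1 (Fp d.v d.del) psi (d.M k) x‖ₑ ^ 2 ∂Fm.muX ≤
      2 * (A * ENNReal.ofReal (eps ^ 2) + e) := by
  refine main_bound q d.q2 hq d.q2_pos d.N (hN' d) k.1 phi psi hphi hpsi A e _ hA he
    (Fp d.v d.del) (d.v / (1 - 2 * d.del)) d.del (vs_pos d) (measurable_Fp d)
    (cellE d) (cellE_meas d) (cellE_zero d) (fun a b c hc => cellE_lin d hc) (injE d)
    (fun a b c => St.Dd q d.q2 d.N d.w k a b c) (d.M k) ?_ (d.M_per k) (measurable_Dd d k)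
    (d.M_meas k) ?_ (err' d hk hk0) (Dj d k) (measurable_Dj d k) ?_ ?_
  · exact Dd_add d k
  · exact fun a b c => (M_enorm d k a b c).le
  · exact Dj_zero d hq k
  · exact Dj_eq d hq k

/-! ### exact support, modulus and symmetry of the main array -/

/-- (T1)/(T0) exact support of the main array -/
theorem mainA_ne_zero {k : ℤ × ℤ} {psi : ℝ → ℂ} {x : (ℤ × ℤ) × ℝ}
    (h : mainA q d.q2 d.N k.1 (Fp d.v d.del) psi (d.M k) x ≠ 0) :
    (q : ℤ) ∣ x.1.1 - k.1 ∧ ((((x.1.1 * d.N : ℤ) : ZMod d.q2), x.1.2), x.2) ∈ d.E ∧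
      psi (x.1.1 / (q * d.q2) + x.1.2 * Fp d.v d.del x.2) ≠ 0 := by
  unfold mainA at h
  by_cases hj : (q : ℤ) ∣ x.1.1 - k.1
  · rw [if_pos hj] at h
    have h1 := right_ne_zero_of_mul h
    refine ⟨hj, ?_, left_ne_zero_of_mul h1⟩
    have h2 := right_ne_zero_of_mul h1
    by_contra hE
    apply h2
    have h3 := d.M_norm k (x.1.1 * d.N) x.1.2 x.2
    rw [Set.indicator_of_notMem (show x.2 ∉ {c : ℝ | ((((x.1.1 * d.N : ℤ) : ZMod d.q2), x.1.2), c) ∈ d.E} from hE)] at h3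
    simpa using h3
  · rw [if_neg hj] at h
    exact absurd rfl h

/-- exact modulus of the main array -/
theorem norm_mainA_sq {k : ℤ × ℤ} {psi : ℝ → ℂ} {x : (ℤ × ℤ) × ℝ} (hj : (q : ℤ) ∣ x.1.1 - k.1)
    (hE : ((((x.1.1 * d.N : ℤ) : ZMod d.q2), x.1.2), x.2) ∈ d.E) :
    ‖mainA q d.q2 d.N k.1 (Fp d.v d.del) psi (d.M k) x‖ ^ 2 =
      ‖psi (x.1.1 / (q * d.q2) + x.1.2 * Fp d.v d.del x.2)‖ ^ 2 *
        (|(x.1.2 : ℝ)| * (d.v / (1 - 2 * d.del))) := by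
  unfold mainA
  rw [if_pos hj, norm_mul, norm_ee, one_mul, norm_mul, mul_pow, d.M_norm,
    Set.indicator_of_mem (show x.2 ∈ {c : ℝ | ((((x.1.1 * d.N : ℤ) : ZMod d.q2), x.1.2), c) ∈ d.E} from hE)]

/-- conjugation symmetry of the main array -/
theorem mainA_neg {k : ℤ × ℤ} {psi psi' : ℝ → ℂ} (hpsi : ∀ τ, psi' (-τ) = (starRingEnd ℂ) (psi τ))
    (x : (ℤ × ℤ) × ℝ) :
    mainA q d.q2 d.N (-k).1 (Fp d.v d.del) psi' (d.M (-k)) (-x.1, x.2) =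
      (starRingEnd ℂ) (mainA q d.q2 d.N k.1 (Fp d.v d.del) psi (d.M k) x) := by
  unfold mainA
  have hiff : ((q : ℤ) ∣ (-x.1).1 - (-k).1) ↔ ((q : ℤ) ∣ x.1.1 - k.1) := by
    have : (-x.1).1 - (-k).1 = -(x.1.1 - k.1) := by simp; ring
    rw [this, dvd_neg]
  by_cases hj : (q : ℤ) ∣ x.1.1 - k.1
  · simp only [hiff, hj, if_true, map_mul, ee_conj]
    have e1 : -(((-x.1).1 : ℤ) * x.2 / (q * d.q2) : ℝ) = -(-((x.1.1 : ℝ) * x.2 / (q * d.q2))) := by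
      simp only [Prod.fst_neg]; push_cast; ring
    have e2 : ((((-x.1).1 : ℤ) : ℝ) / (q * d.q2) + (((-x.1).2 : ℤ) : ℝ) * Fp d.v d.del x.2) =
        -((x.1.1 : ℝ) / (q * d.q2) + x.1.2 * Fp d.v d.del x.2) := by
      simp only [Prod.fst_neg, Prod.snd_neg]; push_cast; ring
    have e3 : (-x.1).1 * d.N = -(x.1.1 * d.N) := by simp
    have e4 : (-x.1).2 = -x.1.2 := by simp
    rw [e1, e2, hpsi, e3, e4, d.M_symm]
  · simp only [hiff, hj, if_false, map_zero]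

end Crest.Agent.R081.Tp
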