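import Crest.Agent.R081.StSkel
import Crest.Agent.R081.Mn2
import Crest.Agent.R081.Tp4
import Crest.Agent.R081.FmSum

/-! # Row 81, route B, node (GA) (helper27): the coefficients of `g ∘ G` are close to an exactly flat,
symmetric array on `stepS` -/

set_option autoImplicit false

namespace Crest.Agent.R081.Ga

open MeasureTheory Set Crest.AnalysisR.Torus3 Crest.Agent.R075 Crest.Agent.R081.Fm
  Crest.Agent.R081.Sm Crest.Agent.R081.St Crest.Agent.R081.Tw Crest.Agent.R081.Mn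
open scoped ENNReal ComplexConjugate

/-! ### part A: an exact version of the coefficients of `g` -/

section exact

variable (s : Stage)

/-- the generator as a complex function -/
noncomputable def gC (y : T3) : ℂ := (s.g y : ℂ)

theorem memLp_gC : MemLp (gC s) 2 volume := s.g_lp.ofReal

/-- a measurable representative of the coefficient -/
noncomputable def rep (k : ℤ × ℤ) : ℝ → ℂ := (aesm_fc (memLp_gC s).aestronglyMeasurable k).mk _

theorem measurable_rep (k : ℤ × ℤ) : Measurable (rep s k) :=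
  (aesm_fc (memLp_gC s).aestronglyMeasurable k).stronglyMeasurable_mk.measurable

theorem rep_ae (k : ℤ × ℤ) : fc (gC s) k =ᵐ[I01] rep s k :=
  (aesm_fc (memLp_gC s).aestronglyMeasurable k).ae_eq_mk

/-- the section of the mode set -/
def Sk (k : ℤ × ℤ) : Set ℝ := {c | ((k, c) : X) ∈ s.M.S}

theorem measurableSet_Sk (k : ℤ × ℤ) : MeasurableSet (Sk s k) :=
  s.M.meas.preimage measurable_prodMk_left

theorem Sk_neg (k : ℤ × ℤ) : Sk s (-k) = Sk s k := by
  ext c
  constructor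
  · intro h
    have := s.M.symm _ h
    simpa [Sk] using this
  · intro h
    have := s.M.symm _ h
    simpa [Sk] using this

/-- the points where the representative is exactly flat and symmetric -/
def good (k : ℤ × ℤ) : Set ℝ :=
  {c | c ∈ Sk s k ∧ ‖rep s k c‖ ^ 2 = |(k.2 : ℝ)| * s.t.al ∧ rep s (-k) c = conj (rep s k c)}

theorem measurableSet_good (k : ℤ × ℤ) : MeasurableSet (good s k) := by
  have h1 : MeasurableSet {c : ℝ | ‖rep s k c‖ ^ 2 = |(k.2 : ℝ)| * s.t.al} :=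
    measurableSet_eq_fun ((measurable_rep s k).norm.pow_const 2) measurable_const
  have h2 : MeasurableSet {c : ℝ | rep s (-k) c = conj (rep s k c)} :=
    measurableSet_eq_fun (measurable_rep s (-k))
      (Complex.continuous_conj.measurable.comp (measurable_rep s k))
  exact (measurableSet_Sk s k).inter (h1.inter h2)

theorem good_neg (k : ℤ × ℤ) : good s (-k) = good s k := by
  ext c
  unfold good
  simp only [Set.mem_ofPred_eq, Sk_neg, neg_neg, Prod.snd_neg, Int.cast_neg, abs_neg]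
  constructor
  · rintro ⟨h1, h2, h3⟩
    have h4 : rep s (-k) c = conj (rep s k c) := by rw [h3, Complex.conj_conj]
    refine ⟨h1, ?_, h4⟩
    rw [h3, RCLike.norm_conj, h2]
  · rintro ⟨h1, h2, h3⟩
    refine ⟨h1, ?_, ?_⟩
    · rw [h3, RCLike.norm_conj, h2]
    · rw [h3, Complex.conj_conj]

open Classical in
/-- the exact version of the coefficient -/
noncomputable def uu (k : ℤ × ℤ) (c : ℝ) : ℂ :=
  if c ∈ good s k then rep s k c else if c ∈ Sk s k then ((Real.sqrt (|(k.2 : ℝ)| * s.t.al) : ℝ) : ℂ)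
    else 0

theorem measurable_uu (k : ℤ × ℤ) : Measurable (uu s k) := by
  unfold uu
  exact Measurable.ite (measurableSet_good s k) (measurable_rep s k)
    (Measurable.ite (measurableSet_Sk s k) measurable_const measurable_const)

theorem uu_neg (k : ℤ × ℤ) (c : ℝ) : uu s (-k) c = conj (uu s k c) := by
  unfold uu
  rw [good_neg, Sk_neg]
  by_cases h1 : c ∈ good s k
  · rw [if_pos h1, if_pos h1]
    exact h1.2.2
  · rw [if_neg h1, if_neg h1]
    by_cases h2 : c ∈ Sk s k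
    · rw [if_pos h2, if_pos h2, Complex.conj_ofReal]
      simp
    · rw [if_neg h2, if_neg h2, map_zero]

theorem norm_uu_sq (k : ℤ × ℤ) {c : ℝ} (hc : c ∈ Sk s k) :
    ‖uu s k c‖ ^ 2 = |(k.2 : ℝ)| * s.t.al := by
  unfold uu
  have h0 : 0 ≤ |(k.2 : ℝ)| * s.t.al := mul_nonneg (abs_nonneg _) s.t.al_pos.le
  by_cases h1 : c ∈ good s k
  · rw [if_pos h1]
    exact h1.2.1
  · rw [if_neg h1, if_pos hc, Complex.norm_real, Real.norm_eq_abs, sq_abs, Real.sq_sqrt h0]

theorem uu_zero (k : ℤ × ℤ) {c : ℝ} (hc : c ∉ Sk s k) : uu s k c = 0 := by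
  unfold uu
  rw [if_neg (fun h => hc h.1), if_neg hc]

theorem uu_J (k : ℤ × ℤ) (c : ℝ) (hc : c ∉ Icc s.t.del (1 - s.t.del)) : uu s k c = 0 :=
  uu_zero s k fun h => hc (s.M.sub _ h)

theorem norm_uu_le (k : ℤ × ℤ) (c : ℝ) : ‖uu s k c‖ ≤ Real.sqrt (|(k.2 : ℝ)| * s.t.al) := by
  by_cases hc : c ∈ Sk s k
  · rw [← norm_uu_sq s k hc, Real.sqrt_sq (norm_nonneg _)]
  · rw [uu_zero s k hc, norm_zero]
    exact Real.sqrt_nonneg _

theorem memLp_uu (k : ℤ × ℤ) : MemLp (uu s k) 2 I01 :=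
  MemLp.of_bound (measurable_uu s k).aestronglyMeasurable _
    (Filter.Eventually.of_forall fun c => norm_uu_le s k c)

theorem fc_gC_neg (k : ℤ × ℤ) (c : ℝ) : fc (gC s) (-k) c = conj (fc (gC s) k c) := by
  have h := fc_conj (gC s) k c
  have h2 : (fun x => conj (gC s x)) = gC s := by
    funext x
    unfold gC
    exact Complex.conj_ofReal _
  rw [h2] at h
  rw [h, Complex.conj_conj]

theorem fc_eq_uu (k : ℤ × ℤ) : ∀ᵐ c ∂I01, fc (gC s) k c = uu s k c := by
  have h1 := ae_muX.1 s.flat k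
  filter_upwards [h1, rep_ae s k, rep_ae s (-k)] with c e1 e2 e3
  have e1' : ‖fc (gC s) k c‖ ^ 2
      = s.M.S.indicator (fun x => |(x.1.2 : ℝ)| * s.t.al) ((k, c) : X) := e1
  by_cases hc : c ∈ Sk s k
  · have hc' : ((k, c) : X) ∈ s.M.S := hc
    rw [Set.indicator_of_mem hc'] at e1'
    have hg : c ∈ good s k := by
      refine ⟨hc, ?_, ?_⟩
      · rw [← e2, e1']
      · rw [← e2, ← e3, fc_gC_neg]
    unfold uu
    rw [if_pos hg, e2]
  · have hc' : ((k, c) : X) ∉ s.M.S := hc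
    rw [Set.indicator_of_notMem hc'] at e1'
    rw [uu_zero s k hc]
    simpa using e1'

/-- the finite set of the vectors `k` that occur -/
noncomputable def KS : Finset (ℤ × ℤ) :=
  (s.M.K ∪ s.M.K.image Neg.neg).filter fun k => k.2 ≠ 0

theorem mem_KS {k : ℤ × ℤ} : k ∈ KS s ↔ (k ∈ s.M.K ∨ -k ∈ s.M.K) ∧ k.2 ≠ 0 := by
  unfold KS
  rw [Finset.mem_filter, Finset.mem_union, Finset.mem_image]
  have : (∃ a ∈ s.M.K, -a = k) ↔ -k ∈ s.M.K := by
    constructor
    · rintro ⟨a, ha, rfl⟩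
      rwa [neg_neg]
    · intro h
      exact ⟨-k, h, neg_neg k⟩
  rw [this]

theorem mem_KS_of_S {x : X} (hx : x ∈ s.M.S) : x.1 ∈ KS s :=
  (mem_KS s).2 ⟨Or.inl (s.M.memK x hx), s.M.ne0 x hx⟩

theorem neg_mem_KS {k : ℤ × ℤ} (hk : k ∈ KS s) : -k ∈ KS s := by
  rw [mem_KS] at hk ⊢
  refine ⟨?_, ?_⟩
  · rw [neg_neg]
    exact hk.1.symm
  · simpa using hk.2

theorem gC_ae : gC s =ᵐ[volume] fun y => ∑ k ∈ KS s, em k (uu s k) y := by
  refine ae_eq_of_fcX (memLp_gC s) (memLp_finsetSum _ fun k _ => memLp_em k (memLp_uu s k)) ?_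
  refine Filter.EventuallyEq.trans ?_ (fcX_sum (KS s) (fun k => em k (uu s k))
    fun k _ => (memLp_em k (memLp_uu s k)).integrable (by norm_num)).symm
  refine ae_muX.2 fun m => ?_
  have h1 : ∀ᵐ c ∂I01, ∀ k ∈ KS s, fc (em k (uu s k)) m c = if m = k then uu s k c else 0 := by
    rw [Filter.eventually_all_finset]
    exact fun k _ => fc_em k m (uu s k)
  filter_upwards [h1, fc_eq_uu s m] with c e1 e2
  show fc (gC s) m c = ∑ k ∈ KS s, fc (em k (uu s k)) m c
  rw [Finset.sum_congr rfl e1, e2, Finset.sum_ite_eq]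
  split_ifs with hm
  · rfl
  · refine uu_zero s m fun h => hm ?_
    exact mem_KS_of_S s (x := (m, c)) h

end exact

/-! ### part B: the array -/

section array

theorem kap_neg (lam : ℝ) : Fr.kap (-lam) = conj (Fr.kap lam) := by
  unfold Fr.kap
  rw [map_mul, map_div₀, map_one, abs_neg, Complex.conj_ofReal]
  have h1 : (-(Complex.I * ((-lam : ℝ) : ℂ))) = conj (-(Complex.I * (lam : ℂ))) := by
    rw [map_neg, map_mul, Complex.conj_I, Complex.conj_ofReal]
    push_cast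
    ring
  have h2 : (-(Complex.I * (lam : ℂ))).arg ≠ Real.pi := by
    intro h
    have := (Complex.arg_eq_pi_iff.1 h).1
    simp at this
  have h3 : conj (1 / 2 : ℂ) = 1 / 2 := by
    have : (1 / 2 : ℂ) = ((1 / 2 : ℝ) : ℂ) := by push_cast; rfl
    rw [this, Complex.conj_ofReal]
  have h4 := Complex.cpow_conj (-(Complex.I * (lam : ℂ))) (1 / 2) h2
  rw [h3] at h4
  rw [h1, h4, Complex.conj_conj]

theorem ze_neg (lam d tau : ℝ) : Fr.ze (-lam) d (-tau) = conj (Fr.ze lam d tau) := by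
  unfold Fr.ze
  rw [map_mul, kap_neg, ee_conj, neg_div_neg_eq]
  congr 2
  ring

variable (s : Stage) {K : Finset (ℤ × ℤ)} {eps : ℝ} (d : Des s.t.q K eps) (h : ℕ) (C : ℝ)

theorem cut_uu_neg (k : ℤ × ℤ) (c : ℝ) : Fr.cut (uu s (-k)) c = conj (Fr.cut (uu s k) c) := by
  unfold Fr.cut
  by_cases hc : c ∈ Set.Ioc (0 : ℝ) 1
  · rw [Set.indicator_of_mem hc, Set.indicator_of_mem hc, uu_neg]
  · rw [Set.indicator_of_notMem hc, Set.indicator_of_notMem hc, map_zero]

theorem psiT_neg (k : ℤ × ℤ) (τ : ℝ) :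
    psiT (uu s (-k)) (-k).2 h s.t.al s.t.del C (-τ) = conj (psiT (uu s k) k.2 h s.t.al s.t.del C τ) := by
  unfold psiT Fr.mainT
  have e1 : (((-k).2 : ℤ) : ℝ) * (h * s.t.al) = -((k.2 : ℝ) * (h * s.t.al)) := by
    rw [Prod.snd_neg]; push_cast; ring
  have e2 : (((-k).2 : ℤ) : ℝ) * C = -((k.2 : ℝ) * C) := by
    rw [Prod.snd_neg]; push_cast; ring
  rw [e1, e2, abs_neg, ze_neg, neg_div_neg_eq, cut_uu_neg, map_mul, map_mul, map_mul, ee_conj,
    Complex.conj_ofReal]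

/-- the term of `k` -/
noncomputable def term (k : ℤ × ℤ) (x : X) : ℂ :=
  Tp.mainA s.t.q d.q2 d.N k.1 (Fp d.v d.del) (psiT (uu s k) k.2 h s.t.al s.t.del C) (d.M k) x

/-- the array -/
noncomputable def arr (x : X) : ℂ := ∑ k ∈ KS s, term s d h C k x

theorem measurable_term (k : ℤ × ℤ) : Measurable (term s d h C k) :=
  Tp.measurable_mainA (Mn.measurable_Fp d.v d.del_pos) (measurable_psiT (measurable_uu s k) _ _ _ _ _)
    (d.M_meas k)

theorem measurable_arr : Measurable (arr s d h C) := by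
  unfold arr
  exact Finset.measurable_sum _ fun k _ => measurable_term s d h C k

theorem term_neg (k : ℤ × ℤ) (x : X) :
    term s d h C (-k) (-x.1, x.2) = conj (term s d h C k x) :=
  Tp.mainA_neg d (psiT_neg s h C k) x

theorem arr_neg (x : X) : arr s d h C (-x.1, x.2) = conj (arr s d h C x) := by
  unfold arr
  rw [map_sum]
  refine Finset.sum_nbij' (fun k => -k) (fun k => -k) (fun k hk => neg_mem_KS s hk)
    (fun k hk => neg_mem_KS s hk) (fun k _ => neg_neg k) (fun k _ => neg_neg k) fun k _ => ?_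
  rw [← term_neg, neg_neg]

/-- frequency variable of a mode of the next stage -/
noncomputable def tau (x : X) : ℝ := (x.1.1 : ℝ) / (s.t.q * d.q2) + x.1.2 * Fp d.v d.del x.2

theorem psiT_ne {k : ℤ × ℤ} (hh : 0 < h) (hk2 : k.2 ≠ 0) {τ : ℝ}
    (hne : psiT (uu s k) k.2 h s.t.al s.t.del C τ ≠ 0) :
    ∃ y ∈ s.M.S, y.1 = k ∧ (h : ℝ) * (y.1.2 * s.t.psi y.2) = τ := by
  unfold psiT Fr.mainT at hne
  have h1 := right_ne_zero_of_mul (right_ne_zero_of_mul hne)
  unfold Fr.cut at h1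
  have h2 := Set.mem_of_indicator_ne_zero h1
  rw [Set.indicator_of_mem h2] at h1
  set c : ℝ := s.t.del + τ / (k.2 * (h * s.t.al)) with hc
  have h3 : c ∈ Sk s k := by
    by_contra h3
    exact h1 (uu_zero s k h3)
  have h4 : ((k, c) : X) ∈ s.M.S := h3
  refine ⟨(k, c), h4, rfl, ?_⟩
  have h5 := s.t.lin c (s.M.sub _ h4)
  show (h : ℝ) * ((k.2 : ℝ) * s.t.psi c) = τ
  rw [h5, hc]
  have hh' : (h : ℝ) ≠ 0 := by positivity
  have hk' : (k.2 : ℝ) ≠ 0 := by exact_mod_cast hk2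
  have hal := s.t.al_pos.ne'
  field_simp
  ring

theorem psiT_sq (hh : 0 < h) {y : X} (hy : y ∈ s.M.S) :
    ‖psiT (uu s y.1) y.1.2 h s.t.al s.t.del C (h * (y.1.2 * s.t.psi y.2))‖ ^ 2 = 1 / h := by
  have hh' : (h : ℝ) ≠ 0 := by positivity
  have hh0 : (0 : ℝ) < h := by positivity
  have hk2 := s.M.ne0 y hy
  have hk' : (y.1.2 : ℝ) ≠ 0 := by exact_mod_cast hk2
  have hal := s.t.al_pos
  have hlam : (y.1.2 : ℝ) * (h * s.t.al) ≠ 0 := mul_ne_zero hk' (mul_ne_zero hh' hal.ne')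
  have hJ := s.M.sub y hy
  have hdel := s.t.del_pos
  unfold psiT
  rw [norm_mul, norm_ee, one_mul, Fr.norm_mainT_sq hlam]
  have e1 : s.t.del + (h : ℝ) * (y.1.2 * s.t.psi y.2) / (y.1.2 * (h * s.t.al)) = y.2 := by
    rw [s.t.lin y.2 hJ]
    field_simp
    ring
  rw [e1]
  have h2 : y.2 ∈ Set.Ioc (0 : ℝ) 1 := ⟨by linarith [hJ.1], by linarith [hJ.2]⟩
  unfold Fr.cut
  rw [Set.indicator_of_mem h2, norm_uu_sq s y.1 (c := y.2) hy, abs_mul, abs_mul,
    abs_of_pos hh0, abs_of_pos hal]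
  have hka : |(y.1.2 : ℝ)| ≠ 0 := abs_ne_zero.2 hk'
  field_simp

theorem toDe_eq {P' : ℤ} (hP : s.t.q * P' = s.t.P * h * d.q2 + 1) (x : X) :
    Cv.toDe d.q2 P' x = ((((x.1.1 * d.N : ℤ) : ZMod d.q2), x.1.2), x.2) := by
  have h1 : ((s.t.q : ZMod d.q2)) * (P' : ZMod d.q2) = 1 := by
    have := congrArg (fun z : ℤ => (z : ZMod d.q2)) hP
    push_cast at this
    simpa using this
  have h2 : (d.N : ZMod d.q2) * (s.t.q : ZMod d.q2) = 1 := by
    have := (ZMod.intCast_zmod_eq_zero_iff_dvd (d.N * s.t.q - 1) d.q2).2 d.hN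
    push_cast at this
    linear_combination this
  have h3 : (P' : ZMod d.q2) = (d.N : ZMod d.q2) := by
    calc (P' : ZMod d.q2) = ((d.N : ZMod d.q2) * (s.t.q : ZMod d.q2)) * P' := by rw [h2, one_mul]
      _ = (d.N : ZMod d.q2) * ((s.t.q : ZMod d.q2) * P') := by ring
      _ = _ := by rw [h1, mul_one]
  unfold Cv.toDe
  simp only
  push_cast
  rw [h3]

theorem term_ne (hh : 0 < h) {P' : ℤ} (hP : s.t.q * P' = s.t.P * h * d.q2 + 1) {k : ℤ × ℤ}
    (hk : k ∈ KS s) {x : X} (hne : term s d h C k x ≠ 0) :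
    x ∈ overE d P' ∧ ∃ y ∈ s.M.S, y.1 = k ∧ (s.t.q : ℤ) ∣ x.1.1 - y.1.1 ∧
      (h : ℝ) * (y.1.2 * s.t.psi y.2) = tau s d x := by
  obtain ⟨h1, h2, h3⟩ := Tp.mainA_ne_zero d hne
  obtain ⟨y, hy, hyk, hyt⟩ := psiT_ne s h C hh ((mem_KS s).1 hk).2 h3
  refine ⟨?_, y, hy, hyk, ?_, hyt⟩
  · show Cv.toDe d.q2 P' x ∈ d.E
    rw [toDe_eq s d h hP]
    exact h2
  · rw [hyk]
    exact h1

/-- at most one vector `k` -/
theorem uniq (hh : 0 < h) {x y y' : X} (hy : y ∈ s.M.S) (hy' : y' ∈ s.M.S)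
    (h1 : (s.t.q : ℤ) ∣ x.1.1 - y.1.1) (h1' : (s.t.q : ℤ) ∣ x.1.1 - y'.1.1)
    (h2 : (h : ℝ) * (y.1.2 * s.t.psi y.2) = tau s d x)
    (h2' : (h : ℝ) * (y'.1.2 * s.t.psi y'.2) = tau s d x) : y = y' := by
  refine s.M.inj y hy y' hy' ?_
  obtain ⟨m, hm⟩ := h1
  obtain ⟨m', hm'⟩ := h1'
  have hh' : (h : ℝ) ≠ 0 := by positivity
  have hq : (s.t.q : ℝ) ≠ 0 := by
    have := s.t.q_pos
    positivity
  have e1 : (y.1.2 : ℝ) * s.t.psi y.2 = y'.1.2 * s.t.psi y'.2 :=
    mul_left_cancel₀ hh' (h2.trans h2'.symm)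
  refine ⟨(m' - m) * s.t.P, ?_⟩
  unfold TwD.nu
  have e2 : (y.1.1 : ℝ) = x.1.1 - s.t.q * m := by
    have : y.1.1 = x.1.1 - s.t.q * m := by omega
    rw [this]; push_cast; ring
  have e3 : (y'.1.1 : ℝ) = x.1.1 - s.t.q * m' := by
    have : y'.1.1 = x.1.1 - s.t.q * m' := by omega
    rw [this]; push_cast; ring
  rw [e1, e2, e3]
  push_cast
  field_simp
  ring

theorem norm_arr_sq (hh : 0 < h) {P' : ℤ} (hP : s.t.q * P' = s.t.P * h * d.q2 + 1) (x : X) :
    ‖arr s d h C x‖ ^ 2 = (stepS s.M d h P').indicator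
      (fun x => |(x.1.2 : ℝ)| * (d.v / (1 - 2 * d.del) / h)) x := by
  by_cases hx : x ∈ stepS s.M d h P'
  · rw [Set.indicator_of_mem hx]
    obtain ⟨hE, y, hy, hq, ht⟩ := hx
    have hE' : ((((x.1.1 * d.N : ℤ) : ZMod d.q2), x.1.2), x.2) ∈ d.E := by
      rw [← toDe_eq s d h hP]
      exact hE
    have h1 : arr s d h C x = term s d h C y.1 x := by
      unfold arr
      refine Finset.sum_eq_single_of_mem y.1 (mem_KS_of_S s hy) fun k hk hne => ?_
      by_contra hne0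
      obtain ⟨_, y', hy', hyk, hq', ht'⟩ := term_ne s d h C hh hP hk hne0
      have := uniq s d h hh hy hy' hq hq' ht ht'
      exact hne (by rw [← hyk, ← this])
    rw [h1]
    unfold term
    rw [Tp.norm_mainA_sq d hq hE', ← ht, psiT_sq s h C hh hy]
    ring
  · rw [Set.indicator_of_notMem hx]
    have h1 : arr s d h C x = 0 := by
      unfold arr
      refine Finset.sum_eq_zero fun k hk => ?_
      by_contra hne0
      obtain ⟨hE, y, hy, _, hq', ht'⟩ := term_ne s d h C hh hP hk hne0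
      exact hx ⟨hE, y, hy, hq', ht'⟩
    rw [h1]
    simp

end array

/-! ### part C: the error -/

theorem enorm_sum_sq_le {ι : Type*} (A : Finset ι) (z : ι → ℂ) :
    ‖∑ i ∈ A, z i‖ₑ ^ 2 ≤ (A.card : ℝ≥0∞) * ∑ i ∈ A, ‖z i‖ₑ ^ 2 := by
  have h1 : ‖∑ i ∈ A, z i‖ ^ 2 ≤ (A.card : ℝ) * ∑ i ∈ A, ‖z i‖ ^ 2 := by
    calc ‖∑ i ∈ A, z i‖ ^ 2 ≤ (∑ i ∈ A, ‖z i‖) ^ 2 :=
          pow_le_pow_left₀ (norm_nonneg _) (norm_sum_le _ _) 2
      _ ≤ (A.card : ℝ) * ∑ i ∈ A, ‖z i‖ ^ 2 := sq_sum_le_card_mul_sum_sq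
  calc ‖∑ i ∈ A, z i‖ₑ ^ 2 = ENNReal.ofReal (‖∑ i ∈ A, z i‖ ^ 2) := enorm_sq_eq _
    _ ≤ ENNReal.ofReal ((A.card : ℝ) * ∑ i ∈ A, ‖z i‖ ^ 2) := ENNReal.ofReal_le_ofReal h1
    _ = (A.card : ℝ≥0∞) * ∑ i ∈ A, ‖z i‖ₑ ^ 2 := by
        rw [ENNReal.ofReal_mul (by positivity), ENNReal.ofReal_natCast,
          ENNReal.ofReal_sum_of_nonneg fun i _ => by positivity]
        congr 1
        exact Finset.sum_congr rfl fun i _ => (enorm_sq_eq _).symm

theorem integral_sq_le {F : X → ℂ} (hF : AEStronglyMeasurable F muX) {B : ℝ} (hB : 0 ≤ B)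
    (h : ∫⁻ x, ‖F x‖ₑ ^ 2 ∂muX ≤ ENNReal.ofReal B) : ∫ x, ‖F x‖ ^ 2 ∂muX ≤ B := by
  have hm : AEStronglyMeasurable (fun x => ‖F x‖ ^ 2) muX := hF.norm.pow 2
  rw [integral_eq_lintegral_of_nonneg_ae (Filter.Eventually.of_forall fun x => by positivity) hm]
  refine ENNReal.toReal_le_of_le_ofReal hB ?_
  refine le_trans (le_of_eq ?_) h
  exact lintegral_congr fun x => (enorm_sq_eq _).symm

theorem gaStmt : GAStmt := by
  intro s e he
  set n : ℝ := ((KS s).card : ℝ) with hn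
  have hn0 : 0 ≤ n := by positivity
  -- the masses
  set A : ℝ := ∑ k ∈ KS s, ∫ c, ‖uu s k c‖ ^ 2 ∂I01 with hA
  have hA0 : 0 ≤ A := Finset.sum_nonneg fun k _ => integral_nonneg fun c => by positivity
  -- the errors
  set ε : ℝ := e ^ 2 / (4 * (n + 1) ^ 2) with hε
  have hεpos : 0 < ε := by positivity
  set eps0 : ℝ := e / Real.sqrt (4 * (n + 1) * (A + 1)) with heps0
  have hs0 : 0 < 4 * (n + 1) * (A + 1) := by positivity
  have heps0pos : 0 < eps0 := div_pos he (Real.sqrt_pos.2 hs0)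
  refine ⟨KS s, eps0, heps0pos, fun K eps hK heps hle d => ?_⟩
  have hmain : ∀ k : ℤ × ℤ, ∃ h0 : ℕ, k ∈ KS s → 0 < h0 ∧ ∀ h : ℕ, h0 ≤ h → ∀ (G : LD) (gf : GForm d h G),
      ∫⁻ x, ‖fcX (fun y => em k (uu s k) (G.perm y)) x
        - Tp.mainA s.t.q d.q2 d.N k.1 (Fp d.v d.del)
          (psiT (uu s k) k.2 h s.t.al s.t.del gf.chi0) (d.M k) x‖ₑ ^ 2 ∂muX
      ≤ 2 * ((∫⁻ c, ‖uu s k c‖ₑ ^ 2 ∂I01) * ENNReal.ofReal (eps ^ 2) + ENNReal.ofReal ε) := by
    intro k
    by_cases hk : k ∈ KS s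
    · obtain ⟨h0, h1, h2⟩ := main2 d (hK hk) ((mem_KS s).1 hk).2 (measurable_uu s k) (memLp_uu s k)
        (uu_J s k) hεpos
      exact ⟨h0, fun _ => ⟨h1, h2⟩⟩
    · exact ⟨0, fun h => absurd h hk⟩
  choose h0 hh0 using hmain
  refine ⟨(KS s).sup h0, fun h hh hh1 P' hP G hG hG' => ?_⟩
  obtain ⟨gf⟩ := hG'
  refine ⟨arr s d h gf.chi0, measurable_arr s d h gf.chi0,
    Filter.Eventually.of_forall fun x => norm_arr_sq s d h gf.chi0 hh hP x,
    Filter.Eventually.of_forall fun x => arr_neg s d h gf.chi0 x, ?_⟩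
  have hMP : MeasurePreserving G.perm (volume : Measure T3) volume := hG
  have hgG : MemLp (fun y => gC s (G.perm y)) 2 volume :=
    (memLp_gC s).comp_measurePreserving hMP
  have hemG : ∀ k, MemLp (fun y => em k (uu s k) (G.perm y)) 2 volume := fun k =>
    (memLp_em k (memLp_uu s k)).comp_measurePreserving hMP
  have h1 : (fun y => gC s (G.perm y)) =ᵐ[volume]
      fun y => ∑ k ∈ KS s, em k (uu s k) (G.perm y) :=
    hMP.quasiMeasurePreserving.ae_eq_comp (gC_ae s)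
  have h2 : fcX (fun y => gC s (G.perm y)) =ᵐ[muX]
      fun x => ∑ k ∈ KS s, fcX (fun y => em k (uu s k) (G.perm y)) x :=
    (fc_congr h1).trans (fcX_sum (KS s) (fun k y => em k (uu s k) (G.perm y))
      fun k _ => (hemG k).integrable (by norm_num))
  have hFm : AEStronglyMeasurable
      (fun x => fcX (fun y => gC s (G.perm y)) x - arr s d h gf.chi0 x) muX :=
    (memLp_fcX hgG).aestronglyMeasurable.sub (measurable_arr s d h gf.chi0).aestronglyMeasurable
  refine integral_sq_le hFm (by positivity) ?_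
  have h3 : ∀ᵐ x ∂muX, ‖fcX (fun y => gC s (G.perm y)) x - arr s d h gf.chi0 x‖ₑ ^ 2
      ≤ ((KS s).card : ℝ≥0∞) * ∑ k ∈ KS s,
        ‖fcX (fun y => em k (uu s k) (G.perm y)) x - term s d h gf.chi0 k x‖ₑ ^ 2 := by
    filter_upwards [h2] with x hx
    rw [hx]
    unfold arr
    rw [← Finset.sum_sub_distrib]
    exact enorm_sum_sq_le _ _
  have hmeas : ∀ k, AEMeasurable (fun x =>
      ‖fcX (fun y => em k (uu s k) (G.perm y)) x - term s d h gf.chi0 k x‖ₑ ^ 2) muX := fun k =>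
    ((memLp_fcX (hemG k)).aestronglyMeasurable.sub
      (measurable_term s d h gf.chi0 k).aestronglyMeasurable).enorm.pow_const 2
  calc ∫⁻ x, ‖fcX (fun y => gC s (G.perm y)) x - arr s d h gf.chi0 x‖ₑ ^ 2 ∂muX
      ≤ ∫⁻ x, ((KS s).card : ℝ≥0∞) * ∑ k ∈ KS s,
        ‖fcX (fun y => em k (uu s k) (G.perm y)) x - term s d h gf.chi0 k x‖ₑ ^ 2 ∂muX :=
        lintegral_mono_ae h3
    _ = ((KS s).card : ℝ≥0∞) * ∑ k ∈ KS s, ∫⁻ x,
        ‖fcX (fun y => em k (uu s k) (G.perm y)) x - term s d h gf.chi0 k x‖ₑ ^ 2 ∂muX := by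
        rw [lintegral_const_mul' _ _ (ENNReal.natCast_ne_top _), lintegral_finsetSum' _ fun k _ => hmeas k]
    _ ≤ ((KS s).card : ℝ≥0∞) * ∑ k ∈ KS s,
        ENNReal.ofReal (2 * ((∫ c, ‖uu s k c‖ ^ 2 ∂I01) * eps ^ 2 + ε)) := by
        gcongr with k hk
        refine ((hh0 k hk).2 h ((Finset.le_sup hk).trans hh1) G gf).trans (le_of_eq ?_)
        have e1 : ∫⁻ c, ‖uu s k c‖ₑ ^ 2 ∂I01 = ENNReal.ofReal (∫ c, ‖uu s k c‖ ^ 2 ∂I01) := by
          rw [ofReal_integral_eq_lintegral_ofReal ((memLp_uu s k).integrable_norm_pow (by norm_num))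
            (Filter.Eventually.of_forall fun c => by positivity)]
          exact lintegral_congr fun c => enorm_sq_eq _
        have e0 : 0 ≤ ∫ c, ‖uu s k c‖ ^ 2 ∂I01 := integral_nonneg fun c => by positivity
        rw [e1, ← ENNReal.ofReal_mul e0, ← ENNReal.ofReal_add (by positivity) hεpos.le,
          ENNReal.ofReal_mul (by norm_num)]
        norm_num
    _ = ENNReal.ofReal (n * ∑ k ∈ KS s, (2 * ((∫ c, ‖uu s k c‖ ^ 2 ∂I01) * eps ^ 2 + ε))) := by
        rw [ENNReal.ofReal_mul hn0, hn, ENNReal.ofReal_natCast, ENNReal.ofReal_sum_of_nonneg]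
        intro k _
        have e0 : 0 ≤ ∫ c, ‖uu s k c‖ ^ 2 ∂I01 := integral_nonneg fun c => by positivity
        positivity
    _ ≤ ENNReal.ofReal (e ^ 2) := by
        refine ENNReal.ofReal_le_ofReal ?_
        have e1 : ∑ k ∈ KS s, (2 * ((∫ c, ‖uu s k c‖ ^ 2 ∂I01) * eps ^ 2 + ε))
            = 2 * (A * eps ^ 2 + n * ε) := by
          rw [← Finset.mul_sum, Finset.sum_add_distrib, ← Finset.sum_mul, Finset.sum_const,
            nsmul_eq_mul]
        rw [e1]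
        have e2 : eps ^ 2 ≤ e ^ 2 / (4 * (n + 1) * (A + 1)) := by
          calc eps ^ 2 ≤ eps0 ^ 2 := pow_le_pow_left₀ heps.le hle 2
            _ = e ^ 2 / (4 * (n + 1) * (A + 1)) := by
                rw [heps0, div_pow, Real.sq_sqrt hs0.le]
        have e3 : n * (2 * (A * eps ^ 2)) ≤ e ^ 2 / 2 := by
          calc n * (2 * (A * eps ^ 2)) ≤ n * (2 * (A * (e ^ 2 / (4 * (n + 1) * (A + 1))))) := by
                gcongr
            _ = (e ^ 2 / 2) * ((n / (n + 1)) * (A / (A + 1))) := by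
                field_simp
                ring
            _ ≤ (e ^ 2 / 2) * (1 * 1) := by
                gcongr
                · exact (div_le_one (by positivity)).2 (by linarith)
                · exact (div_le_one (by positivity)).2 (by linarith)
            _ = e ^ 2 / 2 := by ring
        have e4 : n * (2 * (n * ε)) ≤ e ^ 2 / 2 := by
          calc n * (2 * (n * ε)) = (e ^ 2 / 2) * ((n / (n + 1)) * (n / (n + 1))) := by
                rw [hε]
                field_simp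
                ring
            _ ≤ (e ^ 2 / 2) * (1 * 1) := by
                have : n / (n + 1) ≤ 1 := (div_le_one (by positivity)).2 (by linarith)
                gcongr
            _ = e ^ 2 / 2 := by ring
        calc n * (2 * (A * eps ^ 2 + n * ε)) = n * (2 * (A * eps ^ 2)) + n * (2 * (n * ε)) := by ring
          _ ≤ e ^ 2 / 2 + e ^ 2 / 2 := add_le_add e3 e4
          _ = e ^ 2 := by ring

end Crest.Agent.R081.Ga
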