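import Crest.Agent.R081.Asm3
import Crest.Agent.R081.Ga

/-! Row 81, route B (architect helper310): the assembly; only the design statement is left. -/

set_option autoImplicit false

namespace Crest.Agent.R081.Asm

open Crest.Agent.R081.St

theorem goal_of_des (hD : DesStmt) : Glue.Goal := goal_of'' hD Ga.gaStmt

end Crest.Agent.R081.Asm
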