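import Mathlib
import Crest.Agent.R075.Basic

/-!
# Row 81, route B: the LABEL STATEMENT (helper269) — definitions

`LabelDesign q Λ eps` is the output of the design in terms of labels `Λ` (a finite type).
Units: piece `p < P`, label function `lab p i θ` (`i` modulo `qq = q''`, `θ` modulo `1`),
Fourier coefficient `Dco qq f a b = (1/qq) ∑_{i<qq} ∫₀¹ f i θ e(-(a i/qq + b θ)) dθ`,
frequency of the line `(p,a,b)` at the point `s = (p+y)/P` of the piece: `a/qq + b v s`.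
-/

set_option autoImplicit false

namespace Crest.Agent.R081.Dl

open MeasureTheory Finset Crest.Agent.R075

/-- Fourier coefficient on `ℤ/qq × 𝕋`. -/
noncomputable def Dco (qq : ℕ) (f : ℤ → ℝ → ℂ) (a b : ℤ) : ℂ :=
  (1 / (qq : ℂ)) * ∑ i ∈ range qq, ∫ θ in (0:ℝ)..1, f i θ * ee (-(a * i / qq + b * θ))

/-- the main coefficient of a line. -/
noncomputable def mainC (v : ℝ) (line : ℕ → ℤ → ℤ → Prop) {Λ : Type} (ll : ℕ → ℤ → ℤ → Λ)
    (amp : ℕ → ℤ → ℤ → ℂ) (E : Λ → ℂ) (p : ℕ) (a b : ℤ) : ℂ := by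
  classical exact if line p a b then ((Real.sqrt (|(b:ℝ)| * v) : ℝ) : ℂ) * amp p a b * E (ll p a b)
    else 0

/-- scalar product of an integer vector and a real vector -/
noncomputable def dotR {n : ℕ} (t : Fin n → ℤ) (x : Fin n → ℝ) : ℝ := ∑ r, (t r : ℝ) * x r

/-- `x + v + θ e₀` -/
def shift0 {n : ℕ} (x v : Fin (n+1) → ℝ) (θ : ℝ) : Fin (n+1) → ℝ :=
  fun r => x r + v r + if r = 0 then θ else 0

/-- **SAMPLING DATA** (helper472): label function on the torus with its trigonometric main part; the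
phases `x` are chosen after the shifts `v i` (random phases), for a family `Fam` of functions. -/
structure TorusLabels (Λ : Type) (Fam : Set (Λ → ℂ)) (eps : ℝ) where
  n : ℕ
  Lam0 : (Fin (n+1) → ℝ) → Λ
  meas : ∀ s, MeasurableSet {x | Lam0 x = s}
  per : ∀ (x : Fin (n+1) → ℝ) (k : Fin (n+1) → ℤ), Lam0 (fun r => x r + k r) = Lam0 x
  T : Finset (Fin (n+1) → ℤ)
  w : (Fin (n+1) → ℤ) → ℝ
  w_pos : ∀ t ∈ T, 0 < w t
  T_pos : ∀ t ∈ T, 1 ≤ t 0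
  T_np : ∀ t ∈ T, ∀ t' ∈ T, t ≠ t' → ∃ i j, t i * t' j ≠ t j * t' i
  w_lo : 1 - eps ≤ 2 * ∑ t ∈ T, w t
  w_hi : 2 * ∑ t ∈ T, w t ≤ 1
  amp : (Fin (n+1) → ℤ) → ℂ
  amp_sq : ∀ t ∈ T, ‖amp t‖ ^ 2 = w t
  lb : (Fin (n+1) → ℤ) → Λ
  sample : ∀ N : ℕ, 0 < N → ∀ v : ℕ → Fin (n+1) → ℝ, ∃ x : Fin (n+1) → ℝ, ∀ E ∈ Fam,
    (1 / (N:ℝ)) * ∑ i ∈ range N, ∫ θ in (0:ℝ)..1,
      ‖E (Lam0 (shift0 x (v i) θ)) - ∑ t ∈ T, E (lb t) * (amp t * ee (dotR t (shift0 x (v i) θ))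
        + (starRingEnd ℂ) (amp t) * ee (-(dotR t (shift0 x (v i) θ))))‖ ^ 2 ≤ eps

/-- output of the label design. -/
structure LabelDesign (q : ℕ) (Λ : Type) [Fintype Λ] (Fam : Set (Λ → ℂ)) (eps : ℝ) where
  /-- the number `q''` -/
  qq : ℕ
  qq_pos : 0 < qq
  cop : Nat.Coprime q qq
  /-- number of pieces -/
  P : ℕ
  P_pos : 0 < P
  /-- the slope -/
  v : ℝ
  v_pos : 0 < v
  full : 1 ≤ v * qq
  /-- the label function of the piece `p` -/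
  lab : ℕ → ℤ → ℝ → Λ
  lab_meas : ∀ p i n, MeasurableSet {θ | lab p i θ = n}
  lab_per : ∀ p i θ, lab p (i + qq) θ = lab p i θ
  lab_one : ∀ p i θ, lab p i (θ + 1) = lab p i θ
  /-- the lines `(p, a, b)` -/
  line : ℕ → ℤ → ℤ → Prop
  line_lt : ∀ p a b, line p a b → p < P
  line_ne : ∀ p a b, line p a b → b ≠ 0
  /-- bound of the second frequency -/
  B : ℤ
  line_B : ∀ p a b, line p a b → |b| ≤ B
  line_per : ∀ p a b, line p (a + qq) b ↔ line p a b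
  line_symm : ∀ p a b, line p (-a) (-b) ↔ line p a b
  /-- the label of a line -/
  ll : ℕ → ℤ → ℤ → Λ
  ll_per : ∀ p a b, ll p (a + qq) b = ll p a b
  ll_symm : ∀ p a b, ll p (-a) (-b) = ll p a b
  /-- the phase of a line -/
  amp : ℕ → ℤ → ℤ → ℂ
  amp_norm : ∀ p a b, ‖amp p a b‖ = 1
  amp_per : ∀ p a b, amp p (a + qq) b = amp p a b
  amp_symm : ∀ p a b, amp p (-a) (-b) = (starRingEnd ℂ) (amp p a b)
  /-- trimming -/
  eta : ℝ
  eta_pos : 0 < eta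
  eta_half : eta < 1 / 2
  eta_eps : eta ≤ eps
  /-- single cover -/
  inj : ∀ (p p' : ℕ) (a b a' b' : ℤ), line p a b → line p' a' b' → ∀ y y' : ℝ,
    eta ≤ y → y ≤ 1 - eta → eta ≤ y' → y' ≤ 1 - eta → ∀ k : ℤ,
    (a:ℝ) / qq + b * v * ((p + y) / P) = a' / qq + b' * v * ((p' + y') / P) + k →
    p = p' ∧ b = b' ∧ y = y' ∧ (qq : ℤ) ∣ a - a'
  /-- full cover up to `eps` -/
  cover : 1 - eps ≤ (1 / (P : ℝ)) * ∑ p ∈ range P, ∑ a ∈ range qq, ∑ b ∈ Icc (-B) B,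
    (by classical exact if line p (a : ℤ) b then |(b:ℝ)| * v else 0)
  /-- distribution of the labels -/
  dist : ∀ p < P, ∑ n : Λ, |(1 / (qq : ℝ)) * ∑ i ∈ range qq,
    (volume {θ ∈ Set.Ico (0:ℝ) 1 | lab p i θ = n}).toReal - 1 / Fintype.card Λ| ≤ eps
  /-- the coefficients of `E ∘ lab` -/
  main_summable : ∀ p < P, ∀ E ∈ Fam,
    Summable (fun x : Fin qq × ℤ =>
      ‖Dco qq (fun i θ => E (lab p i θ)) x.1 x.2 - mainC v line ll amp E p x.1 x.2‖ ^ 2)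
  main : ∀ p < P, ∀ E ∈ Fam,
    ∑' x : Fin qq × ℤ,
      ‖Dco qq (fun i θ => E (lab p i θ)) x.1 x.2 - mainC v line ll amp E p x.1 x.2‖ ^ 2 ≤ eps ^ 2

end Crest.Agent.R081.Dl
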