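import Mathlib
import Crest.Agent.R081.DlDefs

/-!
# Row 81, route B: systems of lines (helper269)
-/

set_option autoImplicit false

namespace Crest.Agent.R081.Dl

open MeasureTheory Finset Crest.Agent.R075

/-- finitely many lines `(al l, bl l)` on `ℤ/n × ℤ`, symmetric, pairwise different. -/
structure LineSys (n : ℕ) (Λ ι : Type) where
  ls : Finset ι
  al : ι → ℤ
  bl : ι → ℤ
  lbl : ι → Λ
  u : ι → ℂ
  hu : ∀ l, ‖u l‖ = 1
  flip : ι → ι
  flip_mem : ∀ l ∈ ls, flip l ∈ ls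
  al_flip : ∀ l, al (flip l) = - al l
  bl_flip : ∀ l, bl (flip l) = - bl l
  lbl_flip : ∀ l, lbl (flip l) = lbl l
  u_flip : ∀ l, u (flip l) = (starRingEnd ℂ) (u l)
  uniq : ∀ l ∈ ls, ∀ l' ∈ ls, bl l = bl l' → (n:ℤ) ∣ al l - al l' → l = l'

namespace LineSys

variable {n : ℕ} {Λ ι : Type} (S : LineSys n Λ ι)

/-- `l` is the line through `(a,b)` -/
def on (l : ι) (a b : ℤ) : Prop := l ∈ S.ls ∧ S.bl l = b ∧ (n:ℤ) ∣ a - S.al l

/-- `(a,b)` is on a line -/
def line (a b : ℤ) : Prop := ∃ l, S.on l a b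

lemma on_unique {l l' : ι} {a b : ℤ} (h : S.on l a b) (h' : S.on l' a b) : l = l' := by
  refine S.uniq l h.1 l' h'.1 (h.2.1.trans h'.2.1.symm) ?_
  have := dvd_sub h'.2.2 h.2.2
  have e : a - S.al l' - (a - S.al l) = S.al l - S.al l' := by ring
  rwa [e] at this

lemma on_flip {l : ι} {a b : ℤ} (h : S.on l a b) : S.on (S.flip l) (-a) (-b) := by
  refine ⟨S.flip_mem l h.1, by rw [S.bl_flip, h.2.1], ?_⟩
  rw [S.al_flip]
  have := h.2.2.neg_right
  have e : -(a - S.al l) = -a - -S.al l := by ring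
  rwa [e] at this

lemma line_symm (a b : ℤ) : S.line (-a) (-b) ↔ S.line a b := by
  constructor
  · rintro ⟨l, hl⟩
    have := S.on_flip hl
    rw [neg_neg, neg_neg] at this
    exact ⟨_, this⟩
  · rintro ⟨l, hl⟩
    exact ⟨_, S.on_flip hl⟩

lemma on_per (l : ι) (a b : ℤ) : S.on l (a + n) b ↔ S.on l a b := by
  unfold on
  have e : a + n - S.al l = (a - S.al l) + n := by ring
  rw [e, dvd_add_self_right]

lemma line_per (a b : ℤ) : S.line (a + n) b ↔ S.line a b := by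
  unfold line
  simp only [S.on_per]

open Classical in
/-- the label at `(a,b)` -/
noncomputable def ll (d : Λ) (a b : ℤ) : Λ := if h : S.line a b then S.lbl h.choose else d

open Classical in
/-- the phase at `(a,b)` -/
noncomputable def amp (a b : ℤ) : ℂ := if h : S.line a b then S.u h.choose else 1

lemma ll_eq (d : Λ) {l : ι} {a b : ℤ} (h : S.on l a b) : S.ll d a b = S.lbl l := by
  have h' : S.line a b := ⟨l, h⟩
  rw [ll, dif_pos h', S.on_unique h'.choose_spec h]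

lemma amp_eq {l : ι} {a b : ℤ} (h : S.on l a b) : S.amp a b = S.u l := by
  have h' : S.line a b := ⟨l, h⟩
  rw [amp, dif_pos h', S.on_unique h'.choose_spec h]

lemma ll_not (d : Λ) {a b : ℤ} (h : ¬ S.line a b) : S.ll d a b = d := by
  rw [ll, dif_neg h]

lemma amp_not {a b : ℤ} (h : ¬ S.line a b) : S.amp a b = 1 := by
  rw [amp, dif_neg h]

lemma ll_per (d : Λ) (a b : ℤ) : S.ll d (a + n) b = S.ll d a b := by
  by_cases h : S.line a b
  · obtain ⟨l, hl⟩ := h
    rw [S.ll_eq d hl, S.ll_eq d ((S.on_per l a b).2 hl)]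
  · rw [S.ll_not d h, S.ll_not d (fun h' => h ((S.line_per a b).1 h'))]

lemma amp_per (a b : ℤ) : S.amp (a + n) b = S.amp a b := by
  by_cases h : S.line a b
  · obtain ⟨l, hl⟩ := h
    rw [S.amp_eq hl, S.amp_eq ((S.on_per l a b).2 hl)]
  · rw [S.amp_not h, S.amp_not (fun h' => h ((S.line_per a b).1 h'))]

lemma ll_symm (d : Λ) (a b : ℤ) : S.ll d (-a) (-b) = S.ll d a b := by
  by_cases h : S.line a b
  · obtain ⟨l, hl⟩ := h
    rw [S.ll_eq d hl, S.ll_eq d (S.on_flip hl), S.lbl_flip]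
  · rw [S.ll_not d h, S.ll_not d (fun h' => h ((S.line_symm a b).1 h'))]

lemma amp_symm (a b : ℤ) : S.amp (-a) (-b) = (starRingEnd ℂ) (S.amp a b) := by
  by_cases h : S.line a b
  · obtain ⟨l, hl⟩ := h
    rw [S.amp_eq hl, S.amp_eq (S.on_flip hl), S.u_flip]
  · rw [S.amp_not h, S.amp_not (fun h' => h ((S.line_symm a b).1 h')), map_one]

lemma amp_norm (a b : ℤ) : ‖S.amp a b‖ = 1 := by
  by_cases h : S.line a b
  · obtain ⟨l, hl⟩ := h
    rw [S.amp_eq hl, S.hu]
  · rw [S.amp_not h, norm_one]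

open Classical in
/-- at most one line contributes. -/
lemma sum_on {M : Type*} [AddCommMonoid M] (F : ι → M) {l : ι} {a b : ℤ} (h : S.on l a b) :
    ∑ l' ∈ S.ls, (if S.bl l' = b ∧ (n:ℤ) ∣ a - S.al l' then F l' else 0) = F l := by
  rw [Finset.sum_eq_single l]
  · rw [if_pos h.2]
  · intro l' hl' hne
    rw [if_neg]
    intro h'
    exact hne (S.on_unique ⟨hl', h'⟩ h)
  · intro hl; exact absurd h.1 hl

open Classical in
lemma sum_not {M : Type*} [AddCommMonoid M] (F : ι → M) {a b : ℤ} (h : ¬ S.line a b) :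
    ∑ l' ∈ S.ls, (if S.bl l' = b ∧ (n:ℤ) ∣ a - S.al l' then F l' else 0) = 0 := by
  refine Finset.sum_eq_zero fun l' hl' => ?_
  rw [if_neg]
  intro h'
  exact h ⟨l', hl', h'⟩

/-- the representative of `a` in `Fin n`. -/
lemma exists_rep (hn : 0 < n) (a : ℤ) : ∃ x : Fin n, ∀ y : Fin n, (n:ℤ) ∣ (y:ℤ) - a ↔ y = x := by
  have hn' : (0:ℤ) < n := by exact_mod_cast hn
  have h1 := Int.emod_nonneg a hn'.ne'
  have h2 := Int.emod_lt_of_pos a hn'
  refine ⟨⟨(a % n).toNat, by omega⟩, fun y => ?_⟩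
  constructor
  · intro h
    have h3 : (n:ℤ) ∣ (y:ℤ) - a % n := by
      have e : (y:ℤ) - a % n = (y - a) + (n * (a / n)) := by
        have := Int.emod_add_mul_ediv a n
        linarith
      rw [e]; exact dvd_add h (dvd_mul_right _ _)
    have h4 : ((y:ℕ):ℤ) < n := by exact_mod_cast y.2
    have h5 : (0:ℤ) ≤ (y:ℕ) := by positivity
    obtain ⟨c, hc⟩ := h3
    have h6 : c = 0 := by
      by_contra hc0
      rcases lt_or_gt_of_ne hc0 with h | h
      · nlinarith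
      · nlinarith
    rw [h6, mul_zero] at hc
    apply Fin.ext
    simp only
    omega
  · rintro rfl
    simp only
    rw [Int.toNat_of_nonneg h1]
    have e : a % n - a = n * (-(a / n)) := by
      have := Int.emod_add_mul_ediv a n
      linarith
    rw [e]; exact dvd_mul_right _ _

open Classical in
/-- summing over all `(a,b)`. -/
lemma hasSum_lines (hn : 0 < n) (F : ι → ℝ) :
    HasSum (fun x : Fin n × ℤ => ∑ l' ∈ S.ls,
      (if S.bl l' = x.2 ∧ (n:ℤ) ∣ (x.1:ℤ) - S.al l' then F l' else 0)) (∑ l ∈ S.ls, F l) := by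
  refine hasSum_sum fun l _ => ?_
  obtain ⟨x0, hx0⟩ := exists_rep hn (S.al l)
  have e : (fun x : Fin n × ℤ => (if S.bl l = x.2 ∧ (n:ℤ) ∣ (x.1:ℤ) - S.al l then F l else 0))
      = fun x : Fin n × ℤ => if x = (x0, S.bl l) then F l else 0 := by
    funext x
    have : (S.bl l = x.2 ∧ (n:ℤ) ∣ (x.1:ℤ) - S.al l) ↔ x = (x0, S.bl l) := by
      rw [hx0 x.1]
      constructor
      · rintro ⟨h1, h2⟩; exact Prod.ext h2 h1.symm
      · intro h; rw [h]; exact ⟨rfl, rfl⟩
    simp only [this]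
  rw [e]
  exact hasSum_ite_eq _ _

open Classical in
lemma sum_lines (hn : 0 < n) (B : ℤ) (hB : ∀ l ∈ S.ls, |S.bl l| ≤ B) (F : ι → ℝ) :
    ∑ a ∈ range n, ∑ b ∈ Icc (-B) B, ∑ l' ∈ S.ls,
      (if S.bl l' = b ∧ (n:ℤ) ∣ (a:ℤ) - S.al l' then F l' else 0) = ∑ l ∈ S.ls, F l := by
  have h1 : ∀ a : ℕ, ∑ b ∈ Icc (-B) B, ∑ l' ∈ S.ls,
      (if S.bl l' = b ∧ (n:ℤ) ∣ (a:ℤ) - S.al l' then F l' else 0)
      = ∑ l' ∈ S.ls, if (n:ℤ) ∣ (a:ℤ) - S.al l' then F l' else 0 := by
    intro a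
    rw [Finset.sum_comm]
    refine Finset.sum_congr rfl fun l hl => ?_
    have hmem : S.bl l ∈ Icc (-B) B := by
      rw [mem_Icc]; exact abs_le.1 (hB l hl)
    rw [Finset.sum_eq_single (S.bl l)]
    · simp
    · intro b _ hne
      rw [if_neg]; exact fun h => hne h.1.symm
    · intro h; exact absurd hmem h
  simp only [h1]
  rw [Finset.sum_comm]
  refine Finset.sum_congr rfl fun l _ => ?_
  obtain ⟨x0, hx0⟩ := exists_rep hn (S.al l)
  rw [Finset.sum_eq_single (x0 : ℕ)]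
  · rw [if_pos ((hx0 x0).2 rfl)]
  · intro a ha hne
    rw [if_neg]
    intro h
    exact hne (congrArg Fin.val ((hx0 ⟨a, mem_range.1 ha⟩).1 h))
  · intro h; exact absurd (mem_range.2 x0.2) h

end LineSys

end Crest.Agent.R081.Dl
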