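import Crest.Agent.R081.LdRound

/-!
# Row 81: lines of the rounded design, with arbitrary phases

Bridge between `LdRound` and the label statement: the chirp of the type `t` in the piece `i`, with
an arbitrary phase vector `x`, is the sum of `D_t` characters of `ℤ/(Q m)` with coefficients of
modulus `D_t^{-1/2}`, and different lines of a piece have different pairs `(a, b)`.
-/

set_option autoImplicit false

namespace Crest.Agent.R081.D

open Finset Crest.Agent.R075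

variable {R : ℕ} {T : Finset (Fin (R+1) → ℤ)} {L : Fin (R+1) → ℤ} {p : (Fin (R+1) → ℤ) → ℝ}
  {eps : ℝ} {B0 : ℕ} {D : DesignL T L p eps B0} {q : ℕ} {eta : ℝ}

namespace Rounded

/-- the torsion order `n = Q m`. -/
def n (Rd : Rounded D q eta) : ℕ := D.Q * Rd.m

lemma n_pos (Rd : Rounded D q eta) : 0 < Rd.n := Nat.mul_pos D.Q_pos Rd.m_prime.pos

/-- torsion numerator of the line `j` of type `t` in piece `i` (mod `n`). -/
def a (Rd : Rounded D q eta) (i : Fin D.P) (t : Fin (R+1) → ℤ) (j : ℕ) : ℤ :=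
  dot t (Rd.w i) + j * (D.q t * Rd.m)

/-- the phase vector (in `ℝ^{R+1}`, mod 1) of the time `l` in the piece `i`, with phase `x`. -/
noncomputable def ph (Rd : Rounded D q eta) (i : Fin D.P) (x : Fin (R+1) → ℝ) (l : ℤ)
    (r : Fin (R+1)) : ℝ :=
  x r + (Rd.w i r : ℝ) * l / Rd.n + (D.A r : ℝ) * (l : ℝ) ^ 2 / D.Q

lemma sum_ph (Rd : Rounded D q eta) (i : Fin D.P) (x : Fin (R+1) → ℝ) (l : ℤ)
    (t : Fin (R+1) → ℤ) :
    ∑ r, (t r : ℝ) * Rd.ph i x l r = ∑ r, (t r : ℝ) * x r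
      + ((dot t D.A : ℝ) * (l : ℝ) ^ 2 / D.Q + (dot t (Rd.w i) : ℝ) * l / (D.Q * Rd.m)) := by
  unfold ph dot n
  push_cast
  rw [Finset.sum_mul, Finset.sum_mul, Finset.sum_div, Finset.sum_div, ← Finset.sum_add_distrib,
    ← Finset.sum_add_distrib]
  exact Finset.sum_congr rfl fun r _ => by ring

/-- `ph` is `n`-periodic modulo integers. -/
lemma ph_period (Rd : Rounded D q eta) (i : Fin D.P) (x : Fin (R+1) → ℝ) (l : ℤ)
    (r : Fin (R+1)) :
    ∃ k : ℤ, Rd.ph i x (l + Rd.n) r = Rd.ph i x l r + k := by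
  have h4 : (0:ℝ) < D.Q := by exact_mod_cast D.Q_pos
  have h5 : (0:ℝ) < Rd.m := by exact_mod_cast Rd.m_prime.pos
  refine ⟨Rd.w i r + D.A r * (2 * l * Rd.m + D.Q * Rd.m ^ 2), ?_⟩
  unfold ph n
  push_cast
  field_simp
  ring

/-- **line formula**: both signs, arbitrary phases. -/
theorem lines (Rd : Rounded D q eta) {t : Fin (R+1) → ℤ} (ht : t ∈ T) (i : Fin D.P)
    (x : Fin (R+1) → ℝ) :
    ∃ g : ℕ → ℂ, (∀ j, ‖g j‖ ^ 2 = 1 / (D.Dt t : ℝ)) ∧
      (∀ l : ℤ, ee (∑ r, (t r : ℝ) * Rd.ph i x l r)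
        = ∑ j ∈ range (D.Dt t), g j * ee ((Rd.a i t j : ℝ) * l / Rd.n)) ∧
      (∀ l : ℤ, ee (∑ r, ((-t) r : ℤ) * Rd.ph i x l r)
        = ∑ j ∈ range (D.Dt t), (starRingEnd ℂ) (g j) * ee (((-(Rd.a i t j) : ℤ) : ℝ) * l / Rd.n))
      := by
  obtain ⟨g, hg, hg2⟩ := D.gauss_rounded Rd ht
  have hD : (0:ℝ) < D.Dt t := by exact_mod_cast D.Dt_pos t
  have key : ∀ l : ℤ, ee (∑ r, (t r : ℝ) * Rd.ph i x l r)
        = ∑ j ∈ range (D.Dt t), (ee (∑ r, (t r : ℝ) * x r) * g j) *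
          ee ((Rd.a i t j : ℝ) * l / Rd.n) := by
    intro l
    rw [Rd.sum_ph, ee_add, hg2 i l, Finset.mul_sum]
    refine Finset.sum_congr rfl fun j _ => ?_
    rw [mul_assoc]
    unfold a n
    push_cast
    rfl
  refine ⟨fun j => ee (∑ r, (t r : ℝ) * x r) * g j, fun j => ?_, key, fun l => ?_⟩
  · rw [norm_mul, norm_ee, one_mul, hg j, div_pow, Real.sq_sqrt hD.le, one_pow]
  · have e1 : (∑ r, (((-t) r : ℤ) : ℝ) * Rd.ph i x l r) = -(∑ r, (t r : ℝ) * Rd.ph i x l r) := by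
      rw [← Finset.sum_neg_distrib]
      refine Finset.sum_congr rfl fun r _ => ?_
      simp
    rw [e1, ← ee_conj, key l, map_sum]
    refine Finset.sum_congr rfl fun j _ => ?_
    rw [map_mul, ee_conj]
    congr 2
    push_cast
    ring

/-- the lines of one type in one piece have distinct torsion numerators mod `n`. -/
theorem a_incongr (Rd : Rounded D q eta) {t : Fin (R+1) → ℤ} (ht : t ∈ T) (i : Fin D.P)
    {j j' : ℕ} (hj : j < D.Dt t) (hj' : j' < D.Dt t)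
    (h : (Rd.n : ℤ) ∣ Rd.a i t j - Rd.a i t j') : j = j' := by
  have e1 : Rd.a i t j - Rd.a i t j' = ((j:ℤ) - j') * (D.q t * Rd.m) := by unfold a; ring
  have e2 : (Rd.n : ℤ) = (D.Dt t : ℤ) * (D.q t * Rd.m) := by
    unfold n; rw [D.Q_eq ht]; push_cast; ring
  have hpos : ((D.q t : ℤ) * Rd.m) ≠ 0 := by
    have := D.q_pos ht
    have := Rd.m_prime.pos
    positivity
  rw [e1, e2] at h
  have h2 : (D.Dt t : ℤ) ∣ (j:ℤ) - j' := (mul_dvd_mul_iff_right hpos).1 h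
  obtain ⟨c, hc⟩ := h2
  have hc0 : c = 0 := by
    by_contra hne
    have : 1 ≤ |c| := Int.one_le_abs hne
    have h3 : |(j:ℤ) - j'| = D.Dt t * |c| := by rw [hc, abs_mul, Nat.abs_cast]
    have h4 : |(j:ℤ) - j'| < D.Dt t := by
      rw [abs_lt]; constructor <;> omega
    nlinarith
  rw [hc0] at hc
  omega

/-- different lines of one piece have different `(a mod n, b)`. -/
theorem lines_ne (Rd : Rounded D q eta) (heta : eta ≤ 1 / 2) (i : Fin D.P)
    {t t' : Fin (R+1) → ℤ} (ht : t ∈ T) (ht' : t' ∈ T) {j j' : ℕ} (hj : j < D.Dt t)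
    (hj' : j' < D.Dt t') (hb : dot t L = dot t' L)
    (h : (Rd.n : ℤ) ∣ Rd.a i t j - Rd.a i t' j') : t = t' ∧ j = j' := by
  obtain ⟨k, hk⟩ := h
  have h4 : (0:ℝ) < D.Q := by exact_mod_cast D.Q_pos
  have h5 : (0:ℝ) < Rd.m := by exact_mod_cast Rd.m_prime.pos
  have hk' : (Rd.a i t j : ℝ) = Rd.a i t' j' + (D.Q * Rd.m : ℝ) * k := by
    have h6 : Rd.a i t j = Rd.a i t' j' + (D.Q * Rd.m : ℕ) * k := by
      have h7 := hk
      unfold n at h7
      linarith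
    rw [h6]; push_cast; ring
  have h1 := Rd.inj i i t ht t' ht' j hj j' hj' (1/2) (1/2) heta (by linarith) heta
    (by linarith) k (by
      rw [hb]
      have h8 : (((dot t (Rd.w i) + j * (D.q t * Rd.m) : ℤ) : ℝ)) / (D.Q * Rd.m)
          = ((dot t' (Rd.w i) + j' * (D.q t' * Rd.m) : ℤ) : ℝ) / (D.Q * Rd.m) + k := by
        have h9 : ((dot t (Rd.w i) + j * (D.q t * Rd.m) : ℤ) : ℝ)
            = ((dot t' (Rd.w i) + j' * (D.q t' * Rd.m) : ℤ) : ℝ) + (D.Q * Rd.m : ℝ) * k := hk'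
        rw [h9]; field_simp
      rw [h8]; ring)
  exact ⟨h1.2.1, h1.2.2.1⟩

end Rounded

end Crest.Agent.R081.D
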