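import Mathlib
import Crest.Agent.R081.DlDefs
import Crest.Agent.R081.DlLines
import Crest.Agent.R081.LdRound2

/-!
# Row 81, route B: assembly of the label design, part 1 (helper269)

The lines of one piece, and the trigonometric main part as a sum over the lines.
-/

set_option autoImplicit false

namespace Crest.Agent.R081.Dl

open MeasureTheory Finset Crest.Agent.R075 Crest.Agent.R081.D

/-- direction `e₀` -/
def e0 (R : ℕ) : Fin (R+1) → ℤ := fun r => if r = 0 then 1 else 0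

lemma dot_e0 {R : ℕ} (t : Fin (R+1) → ℤ) : dot t (e0 R) = t 0 := by simp [dot, e0]

/-- a design is a design in the direction `e₀`. -/
theorem toL {R : ℕ} {T : Finset (Fin (R+1) → ℤ)} {p : (Fin (R+1) → ℤ) → ℝ} {eps : ℝ} {B0 : ℕ}
    (D : Design T p eps B0) : Nonempty (DesignL T (e0 R) p eps B0) := by
  refine ⟨{
    P := D.P
    P_pos := D.P_pos
    h := D.h
    h_pos := D.h_pos
    q := D.q
    q_odd := D.q_odd
    q_one := D.q_one
    q_cop := D.q_cop
    q_B0 := D.q_B0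
    A := D.A
    A_dvd := D.A_dvd
    A_cop := D.A_cop
    om := D.om
    disj := ?_
    disj_mirror := ?_
    mass_lo := ?_
    mass_hi := ?_ }⟩
  · intro i i' t ht t' ht' j hj j' hj' c hc hc'
    rw [dot_e0] at hc hc'
    exact D.disj i i' t ht t' ht' j hj j' hj' c hc hc'
  · intro i i' t ht t' ht' j hj j' hj' c hc hc'
    rw [dot_e0] at hc hc'
    exact D.disj_mirror i i' t ht t' ht' j hj j' hj' c hc hc'
  · intro t ht; rw [dot_e0]; exact D.mass_lo t ht
  · intro t ht; rw [dot_e0]; exact D.mass_hi t ht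

/-- the direction of a complex number. -/
noncomputable def uu (z : ℂ) : ℂ := by
  classical exact if z = 0 then 1 else z / (‖z‖ : ℂ)

lemma norm_uu (z : ℂ) : ‖uu z‖ = 1 := by
  unfold uu
  split_ifs with h
  · exact norm_one
  · rw [norm_div, Complex.norm_real, norm_norm, div_self (norm_ne_zero_iff.2 h)]

lemma uu_mul (z : ℂ) : (‖z‖ : ℂ) * uu z = z := by
  unfold uu
  split_ifs with h
  · simp [h]
  · have : (‖z‖ : ℂ) ≠ 0 := by exact_mod_cast (norm_ne_zero_iff.2 h)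
    field_simp

section

variable {Λ : Type} {Fam : Set (Λ → ℂ)} {e1 e2 : ℝ} {B0 : ℕ} (TL : TorusLabels Λ Fam e1)
  (D : DesignL TL.T (e0 TL.n) TL.w e2 B0) {q : ℕ} {eta : ℝ} (Rd : Rounded D q eta)
  (x : Fin D.P → Fin (TL.n+1) → ℝ)

/-- Gauss coefficients of the type `t` in the piece `p`. -/
noncomputable def gg (p : Fin D.P) (t : Fin (TL.n+1) → ℤ) : ℕ → ℂ := by
  classical exact if ht : t ∈ TL.T then (Rd.lines ht p (x p)).choose else fun _ => 0

lemma gg_norm (p : Fin D.P) {t : Fin (TL.n+1) → ℤ} (ht : t ∈ TL.T) (j : ℕ) :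
    ‖gg TL D Rd x p t j‖ ^ 2 = 1 / (D.Dt t : ℝ) := by
  unfold gg
  rw [dif_pos ht]
  exact (Rd.lines ht p (x p)).choose_spec.1 j

lemma gg_sum (p : Fin D.P) {t : Fin (TL.n+1) → ℤ} (ht : t ∈ TL.T) (l : ℤ) :
    ee (∑ r, (t r : ℝ) * Rd.ph p (x p) l r)
        = ∑ j ∈ range (D.Dt t), gg TL D Rd x p t j * ee ((Rd.a p t j : ℝ) * l / Rd.n) := by
  unfold gg
  simp only [dif_pos ht]
  exact (Rd.lines ht p (x p)).choose_spec.2.1 l

/-- coefficient of the line `(t,j)` in the piece `p`. -/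
noncomputable def cc (p : Fin D.P) (t : Fin (TL.n+1) → ℤ) (j : ℕ) : ℂ :=
  TL.amp t * gg TL D Rd x p t j

lemma cc_norm (p : Fin D.P) {t : Fin (TL.n+1) → ℤ} (ht : t ∈ TL.T) (j : ℕ) :
    ‖cc TL D Rd x p t j‖ ^ 2 = TL.w t / D.Dt t := by
  unfold cc
  rw [norm_mul, mul_pow, TL.amp_sq t ht, gg_norm TL D Rd x p ht j]
  ring

/-- the lines of the piece `p`. -/
noncomputable def sys (heta : eta ≤ 1 / 2) (p : Fin D.P) :
    LineSys Rd.n Λ (Σ _ : (Fin (TL.n+1) → ℤ), ℕ × Bool) where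
  ls := TL.T.sigma fun t => range (D.Dt t) ×ˢ (univ : Finset Bool)
  al l := if l.2.2 then Rd.a p l.1 l.2.1 else -Rd.a p l.1 l.2.1
  bl l := if l.2.2 then l.1 0 else -l.1 0
  lbl l := TL.lb l.1
  u l := if l.2.2 then uu (cc TL D Rd x p l.1 l.2.1)
    else (starRingEnd ℂ) (uu (cc TL D Rd x p l.1 l.2.1))
  hu l := by
    split_ifs
    · exact norm_uu _
    · rw [RCLike.norm_conj]; exact norm_uu _
  flip l := ⟨l.1, l.2.1, !l.2.2⟩
  flip_mem l hl := by
    simp only [mem_sigma, mem_product, mem_univ, and_true] at hl ⊢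
    exact hl
  al_flip l := by
    obtain ⟨t, j, s⟩ := l
    cases s <;> simp
  bl_flip l := by
    obtain ⟨t, j, s⟩ := l
    cases s <;> simp
  lbl_flip l := rfl
  u_flip l := by
    obtain ⟨t, j, s⟩ := l
    cases s <;> simp
  uniq l hl l' hl' hb hdv := by
    obtain ⟨t, j, s⟩ := l
    obtain ⟨t', j', s'⟩ := l'
    simp only [mem_sigma, mem_product, mem_univ, and_true, mem_range] at hl hl'
    have hp := TL.T_pos t hl.1
    have hp' := TL.T_pos t' hl'.1
    cases s <;> cases s' <;> simp only [if_true, if_false, Bool.false_eq_true] at hb hdv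
    · have h1 : (Rd.n : ℤ) ∣ Rd.a p t j - Rd.a p t' j' := by
        have := hdv.neg_right
        have e : -(-Rd.a p t j - -Rd.a p t' j') = Rd.a p t j - Rd.a p t' j' := by ring
        rwa [e] at this
      obtain ⟨h2, h3⟩ := Rd.lines_ne heta p hl.1 hl'.1 hl.2 hl'.2
        (by rw [dot_e0, dot_e0]; linarith) h1
      rw [h2, h3]
    · exfalso; linarith
    · exfalso; linarith
    · obtain ⟨h2, h3⟩ := Rd.lines_ne heta p hl.1 hl'.1 hl.2 hl'.2
        (by rw [dot_e0, dot_e0]; exact hb) hdv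
      rw [h2, h3]

/-- the coefficient of a line, without the label. -/
noncomputable def cl (p : Fin D.P) (l : Σ _ : (Fin (TL.n+1) → ℤ), ℕ × Bool) : ℂ :=
  if l.2.2 then cc TL D Rd x p l.1 l.2.1 else (starRingEnd ℂ) (cc TL D Rd x p l.1 l.2.1)

lemma cl_eq (heta : eta ≤ 1 / 2) (p : Fin D.P) (l : Σ _ : (Fin (TL.n+1) → ℤ), ℕ × Bool) :
    cl TL D Rd x p l = (‖cl TL D Rd x p l‖ : ℂ) * (sys TL D Rd x heta p).u l := by
  obtain ⟨t, j, s⟩ := l
  cases s
  · simp only [cl, sys, Bool.false_eq_true, if_false]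
    rw [RCLike.norm_conj]
    conv_lhs => rw [← uu_mul (cc TL D Rd x p t j)]
    rw [map_mul, Complex.conj_ofReal]
  · simp only [cl, sys, if_true]
    rw [uu_mul]

lemma cl_norm (heta : eta ≤ 1 / 2) (p : Fin D.P) {l : Σ _ : (Fin (TL.n+1) → ℤ), ℕ × Bool}
    (hl : l ∈ (sys TL D Rd x heta p).ls) :
    ‖cl TL D Rd x p l‖ ^ 2 = TL.w l.1 / D.Dt l.1 := by
  obtain ⟨t, j, s⟩ := l
  have hl2 : (⟨t, j, s⟩ : Σ _ : (Fin (TL.n+1) → ℤ), ℕ × Bool)
      ∈ TL.T.sigma fun t => range (D.Dt t) ×ˢ (univ : Finset Bool) := hl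
  simp only [mem_sigma, mem_product, mem_univ, and_true, mem_range] at hl2
  cases s
  · simp only [cl, Bool.false_eq_true, if_false]
    rw [RCLike.norm_conj, cc_norm TL D Rd x p hl2.1]
  · simp only [cl, if_true]
    rw [cc_norm TL D Rd x p hl2.1]

/-- the phase at `(i, θ)` -/
noncomputable def XX (p : Fin D.P) (i : ℤ) (θ : ℝ) : Fin (TL.n+1) → ℝ :=
  fun r => Rd.ph p (x p) i r + if r = 0 then θ else 0

lemma dotR_XX (p : Fin D.P) (i : ℤ) (θ : ℝ) (t : Fin (TL.n+1) → ℤ) :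
    dotR t (XX TL D Rd x p i θ) = (∑ r, (t r : ℝ) * Rd.ph p (x p) i r) + t 0 * θ := by
  unfold dotR XX
  simp only [mul_add, Finset.sum_add_distrib, mul_ite, mul_zero]
  simp

lemma ee_XX (p : Fin D.P) (i : ℤ) (θ : ℝ) {t : Fin (TL.n+1) → ℤ} (ht : t ∈ TL.T) :
    TL.amp t * ee (dotR t (XX TL D Rd x p i θ))
      = ∑ j ∈ range (D.Dt t), cc TL D Rd x p t j * ee ((Rd.a p t j : ℝ) * i / Rd.n + t 0 * θ) := by
  rw [dotR_XX, ee_add, gg_sum TL D Rd x p ht i, Finset.sum_mul, Finset.mul_sum]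
  refine Finset.sum_congr rfl fun j _ => ?_
  unfold cc
  rw [ee_add]
  ring

/-- the trigonometric main part as a sum over the lines. -/
theorem main_eq (heta : eta ≤ 1 / 2) (p : Fin D.P) (i : ℤ) (θ : ℝ) (E : Λ → ℂ) :
    ∑ t ∈ TL.T, E (TL.lb t) * (TL.amp t * ee (dotR t (XX TL D Rd x p i θ))
        + (starRingEnd ℂ) (TL.amp t) * ee (-(dotR t (XX TL D Rd x p i θ))))
      = ∑ l ∈ (sys TL D Rd x heta p).ls, (E ((sys TL D Rd x heta p).lbl l) * cl TL D Rd x p l) *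
          ee (((sys TL D Rd x heta p).al l : ℝ) * i / Rd.n + (sys TL D Rd x heta p).bl l * θ) := by
  have hs : (sys TL D Rd x heta p).ls
      = TL.T.sigma fun t => range (D.Dt t) ×ˢ (univ : Finset Bool) := rfl
  rw [hs, Finset.sum_sigma]
  refine Finset.sum_congr rfl fun t ht => ?_
  rw [Finset.sum_product]
  have h1 := ee_XX TL D Rd x p i θ ht
  have h2 : (starRingEnd ℂ) (TL.amp t) * ee (-(dotR t (XX TL D Rd x p i θ)))
      = ∑ j ∈ range (D.Dt t), (starRingEnd ℂ) (cc TL D Rd x p t j)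
        * ee (-((Rd.a p t j : ℝ) * i / Rd.n + t 0 * θ)) := by
    rw [← ee_conj, ← map_mul, h1, map_sum]
    refine Finset.sum_congr rfl fun j _ => ?_
    rw [map_mul, ee_conj]
  rw [h1, h2, ← Finset.sum_add_distrib, Finset.mul_sum]
  refine Finset.sum_congr rfl fun j _ => ?_
  rw [Fintype.sum_bool]
  simp only [sys, cl, if_true, Bool.false_eq_true, if_false]
  push_cast
  rw [show -((Rd.a p t j : ℝ) * i / Rd.n + t 0 * θ)
    = (-(Rd.a p t j : ℝ)) * i / Rd.n + (-(t 0 : ℝ)) * θ by ring]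
  ring

end

end Crest.Agent.R081.Dl
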