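import Crest.Agent.R081.DlC2
import Crest.Agent.R081.DlDefs

/-!
# Row 81, route B, node DL-C (helper919), part 3: `dco_lines` in the form of `DlDefs.lean`
-/

set_option autoImplicit false

namespace Crest.Agent.R081.DlC

open MeasureTheory Finset Crest.Agent.R075

lemma Dco_eq_coef (n : ℕ) (W : ℤ → ℝ → ℂ) (a b : ℤ) : Dl.Dco n W a b = coef n W a b := by
  unfold Dl.Dco coef
  congr 1
  refine sum_congr rfl fun i _ => ?_
  congr 1
  funext t
  congr 2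
  ring

/-- nonnegative functions on `Fin n × ℤ` with bounded partial sums over boxes -/
lemma summable_box {n : ℕ} (f : Fin n × ℤ → ℝ) (hf : ∀ x, 0 ≤ f x) {e : ℝ}
    (h : ∀ Bs : Finset ℤ, ∑ a : Fin n, ∑ b ∈ Bs, f (a, b) ≤ e) :
    Summable f ∧ ∑' x, f x ≤ e := by
  classical
  have h1 : ∀ s : Finset (Fin n × ℤ), ∑ x ∈ s, f x ≤ e := by
    intro s
    refine le_trans ?_ (h (s.image Prod.snd))
    rw [← sum_product']
    refine sum_le_sum_of_subset_of_nonneg (fun x hx => ?_) fun x _ _ => hf x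
    rw [mem_product]
    exact ⟨mem_univ _, mem_image_of_mem _ hx⟩
  have hs : Summable f := summable_of_sum_le hf h1
  exact ⟨hs, hs.tsum_le_of_sum_le h1⟩

/-- **C1 in `Dco` form** (for helper269): if `U` is `L²` close to a finite sum of lines, its coefficients are
`ℓ²` close to the coefficients of the lines. -/
theorem dco_lines {n : ℕ} (hn : 0 < n) {ι : Type*} [DecidableEq ι] (ls : Finset ι) (al bl : ι → ℤ) (cl : ι → ℂ)
    (U : ℤ → ℝ → ℂ) (hm : ∀ i, Measurable (U i)) {C : ℝ} (hb : ∀ i θ, ‖U i θ‖ ≤ C) {e1 : ℝ}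
    (hL2 : (1 / (n : ℝ)) * ∑ i ∈ range n, ∫ θ in (0:ℝ)..1,
      ‖U i θ - ∑ l ∈ ls, cl l * ee (al l * i / n + bl l * θ)‖ ^ 2 ≤ e1) :
    Summable (fun x : Fin n × ℤ => ‖Dl.Dco n U x.1 x.2
        - ∑ l ∈ ls, (if bl l = x.2 ∧ (n : ℤ) ∣ (x.1 : ℤ) - al l then cl l else 0)‖ ^ 2) ∧
      ∑' x : Fin n × ℤ, ‖Dl.Dco n U x.1 x.2
        - ∑ l ∈ ls, (if bl l = x.2 ∧ (n : ℤ) ∣ (x.1 : ℤ) - al l then cl l else 0)‖ ^ 2 ≤ e1 := by
  classical
  apply summable_box _ (fun x => by positivity)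
  intro Bs
  have h := lines_close hn hm hb ls cl al bl (e := e1) hL2 Bs
  rw [Finset.sum_range] at h
  refine le_trans (le_of_eq ?_) h
  refine sum_congr rfl fun a _ => sum_congr rfl fun b _ => ?_
  rw [Dco_eq_coef]
  congr 3
  unfold mainC
  refine sum_congr rfl fun l _ => ?_
  simp only [eq_comm (a := bl l) (b := b)]

/-- Bessel in `Dco` form -/
theorem dco_bessel {n : ℕ} (hn : 0 < n) (U : ℤ → ℝ → ℂ) (hm : ∀ i, Measurable (U i)) {C : ℝ}
    (hb : ∀ i θ, ‖U i θ‖ ≤ C) :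
    Summable (fun x : Fin n × ℤ => ‖Dl.Dco n U x.1 x.2‖ ^ 2) ∧
      ∑' x : Fin n × ℤ, ‖Dl.Dco n U x.1 x.2‖ ^ 2
        ≤ (1 / (n : ℝ)) * ∑ i ∈ range n, ∫ θ in (0:ℝ)..1, ‖U i θ‖ ^ 2 := by
  apply summable_box _ (fun x => by positivity)
  intro Bs
  have h := bessel hn hm hb Bs
  rw [Finset.sum_range] at h
  simpa only [Dco_eq_coef] using h

/-- value of the main part on a line, for lines with distinct `(a, b)` -/
lemma lines_value {n : ℕ} {ι : Type*} [DecidableEq ι] (ls : Finset ι) (al bl : ι → ℤ) (cl : ι → ℂ)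
    (hne : ∀ l ∈ ls, ∀ l' ∈ ls, bl l = bl l' → (n : ℤ) ∣ al l - al l' → l = l') {l : ι} (hl : l ∈ ls)
    {a b : ℤ} (h1 : bl l = b) (h2 : (n : ℤ) ∣ a - al l) :
    ∑ l' ∈ ls, (if bl l' = b ∧ (n : ℤ) ∣ a - al l' then cl l' else 0) = cl l := by
  rw [sum_eq_single l]
  · rw [if_pos ⟨h1, h2⟩]
  · intro l' hl' hn'
    rw [if_neg]
    rintro ⟨h3, h4⟩
    apply hn'
    refine hne l' hl' l hl (by rw [h3, h1]) ?_
    have := dvd_sub h2 h4
    have e : a - al l - (a - al l') = al l' - al l := by ring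
    rwa [e] at this
  · intro h; exact absurd hl h

/-- the main part vanishes outside the lines -/
lemma lines_off {n : ℕ} {ι : Type*} (ls : Finset ι) (al bl : ι → ℤ) (cl : ι → ℂ) {a b : ℤ}
    (h : ∀ l ∈ ls, bl l = b → ¬ (n : ℤ) ∣ a - al l) :
    ∑ l' ∈ ls, (if bl l' = b ∧ (n : ℤ) ∣ a - al l' then cl l' else 0) = 0 :=
  sum_eq_zero fun l hl => if_neg (fun h' => h l hl h'.1 h'.2)

end Crest.Agent.R081.DlC
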