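import Mathlib
import Crest.Agent.R081.DlAsm1
import Crest.Agent.R081.DlC3

/-!
# Row 81, route B: assembly of the label design, part 2 (helper269)

Amplitudes, cover, injectivity.
-/

set_option autoImplicit false

namespace Crest.Agent.R081.Dl

open MeasureTheory Finset Crest.Agent.R075 Crest.Agent.R081.D

section

variable {Λ : Type} {Fam : Set (Λ → ℂ)} {e1 e2 : ℝ} {B0 : ℕ} (TL : TorusLabels Λ Fam e1)
  (D : DesignL TL.T (e0 TL.n) TL.w e2 B0) {q : ℕ} {eta : ℝ} (Rd : Rounded D q eta)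
  (x : Fin D.P → Fin (TL.n+1) → ℝ)

/-- the slope -/
noncomputable def vv : ℝ := (D.P : ℝ) / (D.h * D.Q)

lemma vv_pos : 0 < vv TL D := by
  have h1 : (0:ℝ) < D.P := by exact_mod_cast D.P_pos
  have h2 : (0:ℝ) < D.h := by exact_mod_cast D.h_pos
  have h3 : (0:ℝ) < D.Q := by exact_mod_cast D.Q_pos
  unfold vv; positivity

lemma mem_ls (heta : eta ≤ 1 / 2) (p : Fin D.P) (l : Σ _ : (Fin (TL.n+1) → ℤ), ℕ × Bool) :
    l ∈ (sys TL D Rd x heta p).ls ↔ l.1 ∈ TL.T ∧ l.2.1 < D.Dt l.1 := by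
  have : (sys TL D Rd x heta p).ls
      = TL.T.sigma fun t => range (D.Dt t) ×ˢ (univ : Finset Bool) := rfl
  rw [this]
  simp only [mem_sigma, mem_product, mem_univ, and_true, mem_range]

lemma abs_bl (heta : eta ≤ 1 / 2) (p : Fin D.P) {l : Σ _ : (Fin (TL.n+1) → ℤ), ℕ × Bool}
    (hl : l ∈ (sys TL D Rd x heta p).ls) : |(sys TL D Rd x heta p).bl l| = l.1 0 := by
  have h1 := TL.T_pos l.1 ((mem_ls TL D Rd x heta p l).1 hl).1
  obtain ⟨t, j, s⟩ := l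
  simp only at h1
  cases s
  · simp only [sys, Bool.false_eq_true, if_false]
    rw [abs_neg, abs_of_pos (by linarith)]
  · simp only [sys, if_true]
    rw [abs_of_pos (by linarith)]

lemma bl_ne (heta : eta ≤ 1 / 2) (p : Fin D.P) {l : Σ _ : (Fin (TL.n+1) → ℤ), ℕ × Bool}
    (hl : l ∈ (sys TL D Rd x heta p).ls) : (sys TL D Rd x heta p).bl l ≠ 0 := by
  have h1 := TL.T_pos l.1 ((mem_ls TL D Rd x heta p l).1 hl).1
  have h2 := abs_bl TL D Rd x heta p hl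
  intro h
  rw [h, abs_zero] at h2
  linarith

/-- sum over the lines of a piece -/
lemma sum_ls (heta : eta ≤ 1 / 2) (p : Fin D.P) (F : (Fin (TL.n+1) → ℤ) → ℝ) :
    ∑ l ∈ (sys TL D Rd x heta p).ls, F l.1 = 2 * ∑ t ∈ TL.T, (D.Dt t : ℝ) * F t := by
  have : (sys TL D Rd x heta p).ls
      = TL.T.sigma fun t => range (D.Dt t) ×ˢ (univ : Finset Bool) := rfl
  rw [this, Finset.sum_sigma, Finset.mul_sum]
  refine Finset.sum_congr rfl fun t _ => ?_
  simp only [sum_const, card_product, card_range, card_univ, Fintype.card_bool, nsmul_eq_mul]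
  push_cast
  ring

lemma sum_mass (heta : eta ≤ 1 / 2) (p : Fin D.P) :
    ∑ l ∈ (sys TL D Rd x heta p).ls, ‖cl TL D Rd x p l‖ ^ 2 ≤ 1 := by
  have h1 : ∑ l ∈ (sys TL D Rd x heta p).ls, ‖cl TL D Rd x p l‖ ^ 2
      = ∑ l ∈ (sys TL D Rd x heta p).ls, (fun t => TL.w t / D.Dt t) l.1 :=
    Finset.sum_congr rfl fun l hl => cl_norm TL D Rd x heta p hl
  rw [h1, sum_ls TL D Rd x heta p (fun t => TL.w t / D.Dt t)]
  have h2 : ∑ t ∈ TL.T, (D.Dt t : ℝ) * (TL.w t / D.Dt t) = ∑ t ∈ TL.T, TL.w t := by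
    refine Finset.sum_congr rfl fun t _ => ?_
    have : (0:ℝ) < D.Dt t := by exact_mod_cast D.Dt_pos t
    field_simp
  rw [h2]
  exact TL.w_hi

lemma cl_lo (heta : eta ≤ 1 / 2) (p : Fin D.P) {l : Σ _ : (Fin (TL.n+1) → ℤ), ℕ × Bool}
    (hl : l ∈ (sys TL D Rd x heta p).ls) :
    |((sys TL D Rd x heta p).bl l : ℝ)| * vv TL D ≤ ‖cl TL D Rd x p l‖ ^ 2 := by
  rw [cl_norm TL D Rd x heta p hl, ← Int.cast_abs, abs_bl TL D Rd x heta p hl]
  have h := D.line_lo ((mem_ls TL D Rd x heta p l).1 hl).1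
  rw [dot_e0] at h
  refine le_trans (le_of_eq ?_) h
  unfold vv; ring

lemma cl_hi (heta : eta ≤ 1 / 2) (p : Fin D.P) {l : Σ _ : (Fin (TL.n+1) → ℤ), ℕ × Bool}
    (hl : l ∈ (sys TL D Rd x heta p).ls) :
    ‖cl TL D Rd x p l‖ ^ 2 ≤ (1 + e2) * (|((sys TL D Rd x heta p).bl l : ℝ)| * vv TL D) := by
  rw [cl_norm TL D Rd x heta p hl, ← Int.cast_abs, abs_bl TL D Rd x heta p hl]
  have h := D.line_hi ((mem_ls TL D Rd x heta p l).1 hl).1
  rw [dot_e0] at h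
  refine le_trans h (le_of_eq ?_)
  unfold vv; ring

lemma amp_close {a b e : ℝ} (ha : 0 ≤ a) (hb : 0 ≤ b) (h1 : b ≤ a ^ 2) (h2 : a ^ 2 ≤ (1 + e) * b)
    (he : 0 ≤ e) : (a - Real.sqrt b) ^ 2 ≤ e * a ^ 2 := by
  have h3 := Real.sq_sqrt hb
  have h4 := Real.sqrt_nonneg b
  have h5 : Real.sqrt b ≤ a := Real.sqrt_le_iff.2 ⟨ha, h1⟩
  nlinarith

/-- total length of the lines of a piece -/
lemma cover_piece (he1 : 0 ≤ e1) (he2 : 0 < e2) (he : e1 + e2 ≤ 1) (heta : eta ≤ 1 / 2)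
    (p : Fin D.P) :
    1 - (e1 + e2) ≤ ∑ l ∈ (sys TL D Rd x heta p).ls,
      |((sys TL D Rd x heta p).bl l : ℝ)| * vv TL D := by
  have h1 : ∑ l ∈ (sys TL D Rd x heta p).ls, |((sys TL D Rd x heta p).bl l : ℝ)| * vv TL D
      = ∑ l ∈ (sys TL D Rd x heta p).ls, (fun t : Fin (TL.n+1) → ℤ => (t 0 : ℝ) * vv TL D) l.1 :=
    Finset.sum_congr rfl fun l hl => by
      rw [← Int.cast_abs, abs_bl TL D Rd x heta p hl]
  rw [h1, sum_ls TL D Rd x heta p (fun t : Fin (TL.n+1) → ℤ => (t 0 : ℝ) * vv TL D)]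
  have h2 := D.cover
  have h3 := TL.w_lo
  have h4 : ∑ t ∈ TL.T, (D.P : ℝ) * D.Dt t * dot t (e0 TL.n) / (D.h * D.Q)
      = ∑ t ∈ TL.T, (D.Dt t : ℝ) * ((t 0 : ℝ) * vv TL D) := by
    refine Finset.sum_congr rfl fun t _ => ?_
    rw [dot_e0]; unfold vv; ring
  rw [h4] at h2
  have h5 : (1 + e2) * (1 - (e1 + e2)) ≤ 1 - e1 := by nlinarith
  have h6 : (1 + e2) * (1 - (e1 + e2))
      ≤ (1 + e2) * (2 * ∑ t ∈ TL.T, (D.Dt t : ℝ) * ((t 0 : ℝ) * vv TL D)) := by linarith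
  exact le_of_mul_le_mul_left h6 (by linarith)

/-- point of the circle -/
noncomputable def pos (p : Fin D.P) (t : Fin (TL.n+1) → ℤ) (j : ℕ) (y : ℝ) : ℝ :=
  ((dot t (Rd.w p) + j * (D.q t * Rd.m) : ℤ) : ℝ) / (D.Q * Rd.m)
    + dot t (e0 TL.n) * ((p : ℕ) + y) / (D.h * D.Q)

lemma point_eq (heta : eta ≤ 1 / 2) (p : Fin D.P) {l : Σ _ : (Fin (TL.n+1) → ℤ), ℕ × Bool}
    {a b : ℤ} (hl : (sys TL D Rd x heta p).on l a b) (y : ℝ) :
    ∃ z : ℤ, (a : ℝ) / Rd.n + b * vv TL D * (((p : ℕ) + y) / D.P)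
      = (if l.2.2 then 1 else -1) * pos TL D Rd p l.1 l.2.1 y + z := by
  obtain ⟨hls, hb, z, hz⟩ := hl
  have h1 : (0:ℝ) < D.P := by exact_mod_cast D.P_pos
  have h2 : (0:ℝ) < D.h := by exact_mod_cast D.h_pos
  have h3 : (0:ℝ) < D.Q := by exact_mod_cast D.Q_pos
  have h5 : (0:ℝ) < Rd.m := by exact_mod_cast Rd.m_prime.pos
  have hn : (Rd.n : ℝ) = D.Q * Rd.m := by unfold Rounded.n; push_cast; ring
  refine ⟨z, ?_⟩
  have ha : (a : ℝ) = (sys TL D Rd x heta p).al l + Rd.n * z := by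
    have : a = (sys TL D Rd x heta p).al l + Rd.n * z := by linarith
    exact_mod_cast this
  rw [ha, ← hb]
  obtain ⟨t, j, s⟩ := l
  cases s
  · simp only [sys, Bool.false_eq_true, if_false, pos, vv, Rounded.a, dot_e0]
    rw [hn]
    push_cast
    field_simp
    ring
  · simp only [sys, if_true, pos, vv, Rounded.a, dot_e0]
    rw [hn]
    push_cast
    field_simp
    ring

theorem inj_main (heta : eta ≤ 1 / 2) (p p' : Fin D.P)
    {l l' : Σ _ : (Fin (TL.n+1) → ℤ), ℕ × Bool} {a b a' b' : ℤ}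
    (hl : (sys TL D Rd x heta p).on l a b) (hl' : (sys TL D Rd x heta p').on l' a' b')
    {y y' : ℝ} (hy : eta ≤ y) (hy2 : y ≤ 1 - eta) (hy' : eta ≤ y') (hy2' : y' ≤ 1 - eta) {k : ℤ}
    (h : (a : ℝ) / Rd.n + b * vv TL D * (((p : ℕ) + y) / D.P)
      = (a' : ℝ) / Rd.n + b' * vv TL D * (((p' : ℕ) + y') / D.P) + k) :
    p = p' ∧ b = b' ∧ y = y' ∧ (Rd.n : ℤ) ∣ a - a' := by
  obtain ⟨z, hz⟩ := point_eq TL D Rd x heta p hl y
  obtain ⟨z', hz'⟩ := point_eq TL D Rd x heta p' hl' y'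
  rw [hz, hz'] at h
  have hm := (mem_ls TL D Rd x heta p l).1 hl.1
  have hm' := (mem_ls TL D Rd x heta p' l').1 hl'.1
  have hfin : p = p' → l = l' → y = y' → p = p' ∧ b = b' ∧ y = y' ∧ (Rd.n : ℤ) ∣ a - a' := by
    intro hp hll hyy
    subst hp
    subst hll
    refine ⟨rfl, hl.2.1.symm.trans hl'.2.1, hyy, ?_⟩
    have := dvd_sub hl.2.2 hl'.2.2
    have e : a - (sys TL D Rd x heta p).al l - (a' - (sys TL D Rd x heta p).al l) = a - a' := by
      ring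
    rwa [e] at this
  obtain ⟨t, j, s⟩ := l
  obtain ⟨t', j', s'⟩ := l'
  cases s <;> cases s' <;>
    simp only [if_true, if_false, Bool.false_eq_true, one_mul, neg_one_mul] at h hm hm'
  · obtain ⟨h1, h2, h3, h4⟩ := Rd.inj p p' t hm.1 t' hm'.1 j hm.2 j' hm'.2 y y' hy hy2 hy' hy2'
      (z - z' - k) (by
        change pos TL D Rd p t j y = pos TL D Rd p' t' j' y' + _
        push_cast
        linarith)
    exact hfin h1 (by rw [h2, h3]) h4
  · exact (Rd.inj_mirror p p' t hm.1 t' hm'.1 j hm.2 j' hm'.2 y y' hy hy2 hy' hy2'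
      (z - z' - k) (by
        change pos TL D Rd p t j y = -(pos TL D Rd p' t' j' y') + _
        push_cast
        linarith)).elim
  · exact (Rd.inj_mirror p p' t hm.1 t' hm'.1 j hm.2 j' hm'.2 y y' hy hy2 hy' hy2'
      (z' + k - z) (by
        change pos TL D Rd p t j y = -(pos TL D Rd p' t' j' y') + _
        push_cast
        linarith)).elim
  · obtain ⟨h1, h2, h3, h4⟩ := Rd.inj p p' t hm.1 t' hm'.1 j hm.2 j' hm'.2 y y' hy hy2 hy' hy2'
      (z' + k - z) (by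
        change pos TL D Rd p t j y = pos TL D Rd p' t' j' y' + _
        push_cast
        linarith)
    exact hfin h1 (by rw [h2, h3]) h4

end

end Crest.Agent.R081.Dl
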