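import Mathlib
import Crest.Agent.R081.BLab

/-!
# Row 81, label design: near equidistribution of the labels from the flatness bound

`LabelOut.dist` follows from the smallness of the `(0,0)` coefficients of all nontrivial characters.
-/

set_option autoImplicit false

namespace Crest.Agent.R081.DlDist

open MeasureTheory Crest.Agent.R075 Finset Crest.Agent.R081.B

lemma ee_div_eq_one {n : ℕ} (hn : 0 < n) (d : ℤ) (h : ee ((d : ℝ) / n) = 1) : (n : ℤ) ∣ d := by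
  unfold ee at h
  rw [Complex.exp_eq_one_iff] at h
  obtain ⟨k, hk⟩ := h
  have h3 : (2 * (Real.pi : ℂ) * Complex.I) ≠ 0 := by
    simp [Real.pi_ne_zero, Complex.I_ne_zero]
  have h4 : (((d : ℝ) / n : ℝ) : ℂ) = (k : ℂ) := by
    apply mul_left_cancel₀ h3
    rw [hk]; ring
  have h5 : ((d : ℝ) / n) = (k : ℝ) := by exact_mod_cast h4
  have hn' : (n : ℝ) ≠ 0 := by exact_mod_cast hn.ne'
  rw [div_eq_iff hn'] at h5
  refine ⟨k, ?_⟩
  have : (d : ℝ) = ((n : ℤ) * k : ℤ) := by rw [h5]; push_cast; ring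
  exact_mod_cast this

lemma sum_ee_range {n : ℕ} (hn : 0 < n) (d : ℤ) :
    ∑ a ∈ range n, ee (a * d / n) = if (n : ℤ) ∣ d then (n : ℂ) else 0 := by
  have hn' : (n : ℝ) ≠ 0 := by exact_mod_cast hn.ne'
  have e1 : ∀ a ∈ range n, ee (a * d / n) = ee ((d : ℝ) / n) ^ a := by
    intro a _
    rw [← ee_mul_nat]; congr 1; ring
  rw [Finset.sum_congr rfl e1]
  split_ifs with hd
  · obtain ⟨k, rfl⟩ := hd
    have : ee ((((n : ℤ) * k : ℤ) : ℝ) / n) = 1 := by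
      rw [← ee_int k]; congr 1; push_cast; field_simp
    rw [this]; simp
  · have hne : ee ((d : ℝ) / n) ≠ 1 := fun h => hd (ee_div_eq_one hn d h)
    rw [geom_sum_eq hne]
    have : ee ((d : ℝ) / n) ^ n = 1 := by
      rw [← ee_mul_nat]
      have : (n : ℝ) * ((d : ℝ) / n) = (d : ℤ) := by field_simp
      rw [this, ee_int]
    rw [this]; simp

lemma sum_zmod {M : ℕ} [NeZero M] (f : ℕ → ℂ) : ∑ κ : ZMod M, f κ.val = ∑ a ∈ range M, f a := by
  refine Finset.sum_nbij' (fun κ : ZMod M => κ.val) (fun k : ℕ => (k : ZMod M)) ?_ ?_ ?_ ?_ ?_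
  · intro κ _; exact mem_range.2 (ZMod.val_lt κ)
  · intro k _; exact mem_univ _
  · intro κ _; exact ZMod.natCast_zmod_val κ
  · intro k hk; exact ZMod.val_cast_of_lt (mem_range.1 hk)
  · intro κ _; rfl

lemma orth1 (M : ℕ) [NeZero M] (x y : ZMod M) :
    ∑ κ : ZMod M, ee (κ.val * (x.val : ℝ) / M) * ee (-(κ.val * (y.val : ℝ) / M))
      = if x = y then (M : ℂ) else 0 := by
  have hM : 0 < M := Nat.pos_of_ne_zero (NeZero.ne M)
  rw [sum_zmod (M := M) (fun k => ee (k * (x.val : ℝ) / M) * ee (-(k * (y.val : ℝ) / M)))]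
  have e1 : ∀ a ∈ range M, ee (a * (x.val : ℝ) / M) * ee (-(a * (y.val : ℝ) / M))
      = ee (a * (((x.val : ℤ) - (y.val : ℤ) : ℤ) : ℝ) / M) := by
    intro a _
    rw [← ee_add]; congr 1; push_cast; ring
  rw [Finset.sum_congr rfl e1, sum_ee_range hM]
  have hiff : ((M : ℤ) ∣ (x.val : ℤ) - (y.val : ℤ)) ↔ x = y := by
    constructor
    · intro h
      have h1 : |(x.val : ℤ) - y.val| < M := by
        have := ZMod.val_lt x
        have := ZMod.val_lt y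
        rw [abs_lt]; omega
      have h2 := Int.eq_zero_of_abs_lt_dvd h h1
      apply ZMod.val_injective
      omega
    · rintro rfl; simp
  by_cases h : x = y
  · rw [if_pos h, if_pos (hiff.2 h)]
  · rw [if_neg h, if_neg (fun h' => h (hiff.1 h'))]

/-- the integer representatives of a character. -/
def kk {M1 M2 : ℕ} (κ : ZMod M1 × ZMod M2) : ℤ × ℤ := (κ.1.val, κ.2.val)

lemma Ek_kk {M1 M2 : ℕ} (κ s : ZMod M1 × ZMod M2) :
    Ek M1 M2 (kk κ) s = ee (κ.1.val * (s.1.val : ℝ) / M1) * ee (κ.2.val * (s.2.val : ℝ) / M2) := by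
  unfold Ek kk
  rw [← ee_add]
  push_cast
  rfl

lemma Ek_zero {M1 M2 : ℕ} (s : ZMod M1 × ZMod M2) [NeZero M1] [NeZero M2] :
    Ek M1 M2 (kk (0 : ZMod M1 × ZMod M2)) s = 1 := by
  rw [Ek_kk]
  simp

lemma norm_Ek (M1 M2 : ℕ) (k : ℤ × ℤ) (s : ZMod M1 × ZMod M2) : ‖Ek M1 M2 k s‖ = 1 := by
  unfold Ek; exact norm_ee _

lemma orth2 (M1 M2 : ℕ) [NeZero M1] [NeZero M2] (x y : ZMod M1 × ZMod M2) :
    ∑ κ : ZMod M1 × ZMod M2, Ek M1 M2 (kk κ) x * (starRingEnd ℂ) (Ek M1 M2 (kk κ) y)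
      = if x = y then ((M1 * M2 : ℕ) : ℂ) else 0 := by
  have e1 : ∀ κ : ZMod M1 × ZMod M2, Ek M1 M2 (kk κ) x * (starRingEnd ℂ) (Ek M1 M2 (kk κ) y)
      = (ee (κ.1.val * (x.1.val : ℝ) / M1) * ee (-(κ.1.val * (y.1.val : ℝ) / M1)))
        * (ee (κ.2.val * (x.2.val : ℝ) / M2) * ee (-(κ.2.val * (y.2.val : ℝ) / M2))) := by
    intro κ
    rw [Ek_kk, Ek_kk, map_mul, ee_conj, ee_conj]
    ring
  rw [Finset.sum_congr rfl (fun κ _ => e1 κ), Fintype.sum_prod_type]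
  simp only
  have e2 : ∀ a : ZMod M1, ∑ b : ZMod M2,
      (ee (a.val * (x.1.val : ℝ) / M1) * ee (-(a.val * (y.1.val : ℝ) / M1)))
        * (ee (b.val * (x.2.val : ℝ) / M2) * ee (-(b.val * (y.2.val : ℝ) / M2)))
      = (ee (a.val * (x.1.val : ℝ) / M1) * ee (-(a.val * (y.1.val : ℝ) / M1)))
        * (if x.2 = y.2 then (M2 : ℂ) else 0) := by
    intro a
    rw [← Finset.mul_sum, orth1]
  rw [Finset.sum_congr rfl (fun a _ => e2 a), ← Finset.sum_mul, orth1]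
  by_cases h1 : x.1 = y.1
  · by_cases h2 : x.2 = y.2
    · rw [if_pos h1, if_pos h2, if_pos (Prod.ext h1 h2)]; push_cast; ring
    · rw [if_neg h2, if_neg (fun h : x = y => h2 (congrArg Prod.snd h))]; simp
  · rw [if_neg h1, if_neg (fun h : x = y => h1 (congrArg Prod.fst h))]; simp

/-- **abstract equidistribution.** -/
theorem dist_abs (M1 M2 : ℕ) [NeZero M1] [NeZero M2] (fr : ZMod M1 × ZMod M2 → ℝ)
    (hsum : ∑ s, fr s = 1) (δ : ℝ) (hδ : 0 ≤ δ)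
    (hD : ∀ κ : ZMod M1 × ZMod M2, κ ≠ 0 → ‖∑ s, Ek M1 M2 (kk κ) s * (fr s : ℂ)‖ ≤ δ) :
    ∑ s, |fr s - 1 / (M1 * M2)| ≤ M1 * M2 * δ := by
  classical
  have hM1 : (0 : ℝ) < M1 := by exact_mod_cast Nat.pos_of_ne_zero (NeZero.ne M1)
  have hM2 : (0 : ℝ) < M2 := by exact_mod_cast Nat.pos_of_ne_zero (NeZero.ne M2)
  have hcard : Fintype.card (ZMod M1 × ZMod M2) = M1 * M2 := by
    rw [Fintype.card_prod, ZMod.card, ZMod.card]
  set D : ZMod M1 × ZMod M2 → ℂ := fun κ => ∑ s, Ek M1 M2 (kk κ) s * (fr s : ℂ) with hDdef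
  have hD0 : D 0 = 1 := by
    simp only [hDdef, Ek_zero, one_mul]
    rw [← Complex.ofReal_sum, hsum]; simp
  have hinv : ∀ s0 : ZMod M1 × ZMod M2, ∑ κ : ZMod M1 × ZMod M2,
      (starRingEnd ℂ) (Ek M1 M2 (kk κ) s0) * D κ = ((M1 * M2 : ℕ) : ℂ) * fr s0 := by
    intro s0
    simp only [hDdef, Finset.mul_sum]
    rw [Finset.sum_comm]
    have : ∀ s : ZMod M1 × ZMod M2, ∑ κ : ZMod M1 × ZMod M2,
        (starRingEnd ℂ) (Ek M1 M2 (kk κ) s0) * (Ek M1 M2 (kk κ) s * (fr s : ℂ))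
        = (if s = s0 then ((M1 * M2 : ℕ) : ℂ) else 0) * fr s := by
      intro s
      rw [← orth2 M1 M2 s s0, Finset.sum_mul]
      exact Finset.sum_congr rfl (fun κ _ => by ring)
    rw [Finset.sum_congr rfl (fun s _ => this s)]
    simp
  have hone : ∀ s0, |fr s0 - 1 / (M1 * M2)| ≤ δ := by
    intro s0
    have h1 := hinv s0
    rw [← Finset.add_sum_erase univ _ (mem_univ (0 : ZMod M1 × ZMod M2)), Ek_zero, hD0] at h1
    have h2 : ((M1 * M2 : ℝ) * (fr s0 - 1 / (M1 * M2)) : ℝ)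
        = (∑ κ ∈ univ.erase (0 : ZMod M1 × ZMod M2), (starRingEnd ℂ) (Ek M1 M2 (kk κ) s0) * D κ) := by
      have h3 : ((M1 * M2 : ℝ) * (fr s0 - 1 / (M1 * M2)) : ℝ) = M1 * M2 * fr s0 - 1 := by
        field_simp
      rw [h3]
      push_cast at h1 ⊢
      rw [← h1]
      simp
    have h4 : ‖∑ κ ∈ univ.erase (0 : ZMod M1 × ZMod M2), (starRingEnd ℂ) (Ek M1 M2 (kk κ) s0) * D κ‖
        ≤ M1 * M2 * δ := by
      refine (norm_sum_le _ _).trans ?_
      calc ∑ κ ∈ univ.erase (0 : ZMod M1 × ZMod M2), ‖(starRingEnd ℂ) (Ek M1 M2 (kk κ) s0) * D κ‖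
          ≤ ∑ κ ∈ univ.erase (0 : ZMod M1 × ZMod M2), δ := by
            refine Finset.sum_le_sum (fun κ hκ => ?_)
            rw [norm_mul, RCLike.norm_conj, norm_Ek, one_mul]
            exact hD κ (Finset.ne_of_mem_erase hκ)
        _ ≤ M1 * M2 * δ := by
            rw [Finset.sum_const, nsmul_eq_mul]
            refine mul_le_mul_of_nonneg_right ?_ hδ
            have : (univ.erase (0 : ZMod M1 × ZMod M2)).card ≤ M1 * M2 := by
              rw [← hcard, ← Finset.card_univ]; exact Finset.card_erase_le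
            exact_mod_cast this
    rw [← h2, Complex.norm_real, Real.norm_eq_abs, abs_mul, abs_of_pos (mul_pos hM1 hM2)] at h4
    exact le_of_mul_le_mul_left h4 (mul_pos hM1 hM2)
  calc ∑ s, |fr s - 1 / (M1 * M2)| ≤ ∑ _s : ZMod M1 × ZMod M2, δ :=
        Finset.sum_le_sum (fun s _ => hone s)
    _ = M1 * M2 * δ := by
        rw [Finset.sum_const, nsmul_eq_mul, Finset.card_univ, hcard]; push_cast; ring

/-! ### integrals of functions of a label -/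

section int
variable {G : Type} [Fintype G]

lemma int2 (lab : ℝ → ℝ → G) (hm : ∀ s, MeasurableSet {p : ℝ × ℝ | lab p.1 p.2 = s}) (g : G → ℂ) :
    ∫ c in (0:ℝ)..1, ∫ t in (0:ℝ)..1, g (lab c t)
      = ∑ s, g s * ((volume {p : ℝ × ℝ | p ∈ Set.Ico (0:ℝ) 1 ×ˢ Set.Ico (0:ℝ) 1 ∧
          lab p.1 p.2 = s}).toReal : ℂ) := by
  letI : MeasurableSpace G := ⊤
  haveI : MeasurableSingletonClass G := ⟨fun _ => trivial⟩
  set lb : ℝ × ℝ → G := fun p => lab p.1 p.2 with hlb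
  have hlm : Measurable lb := measurable_to_countable' (fun s => hm s)
  have hgm : Measurable g := measurable_from_top
  have hF : Measurable (fun p => g (lb p)) := hgm.comp hlm
  obtain ⟨C, hC⟩ : ∃ C : ℝ, ∀ s, ‖g s‖ ≤ C := ⟨∑ s, ‖g s‖, fun s =>
    Finset.single_le_sum (f := fun s => ‖g s‖) (fun _ _ => norm_nonneg _) (mem_univ s)⟩
  have hfin : volume (Set.Ico (0:ℝ) 1 ×ˢ Set.Ico (0:ℝ) 1) ≠ ⊤ := by
    rw [Measure.volume_eq_prod, Measure.prod_prod]; simp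
  haveI : IsFiniteMeasure ((volume : Measure (ℝ × ℝ)).restrict (Set.Ico (0:ℝ) 1 ×ˢ Set.Ico (0:ℝ) 1)) :=
    ⟨by rw [Measure.restrict_apply_univ]; exact hfin.lt_top⟩
  have hI : IntegrableOn (fun p => g (lb p)) (Set.Ico (0:ℝ) 1 ×ˢ Set.Ico (0:ℝ) 1) volume :=
    Integrable.of_bound hF.aestronglyMeasurable C (Filter.Eventually.of_forall (fun p => hC _))
  have h1 : ∫ c in (0:ℝ)..1, ∫ t in (0:ℝ)..1, g (lab c t)
      = ∫ p in Set.Ico (0:ℝ) 1 ×ˢ Set.Ico (0:ℝ) 1, g (lb p) := by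
    rw [Measure.volume_eq_prod] at hI ⊢
    rw [setIntegral_prod _ hI, intervalIntegral.integral_of_le zero_le_one,
      ← integral_Ico_eq_integral_Ioc]
    refine integral_congr_ae (Filter.Eventually.of_forall (fun c => ?_))
    simp only
    rw [intervalIntegral.integral_of_le zero_le_one, ← integral_Ico_eq_integral_Ioc]
  rw [h1]
  have h2 : ∫ p in Set.Ico (0:ℝ) 1 ×ˢ Set.Ico (0:ℝ) 1, g (lb p)
      = ∫ s, g s ∂(Measure.map lb ((volume : Measure (ℝ × ℝ)).restrict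
          (Set.Ico (0:ℝ) 1 ×ˢ Set.Ico (0:ℝ) 1))) := by
    rw [integral_map hlm.aemeasurable hgm.aestronglyMeasurable]
  haveI : IsFiniteMeasure (Measure.map lb ((volume : Measure (ℝ × ℝ)).restrict
          (Set.Ico (0:ℝ) 1 ×ˢ Set.Ico (0:ℝ) 1))) := Measure.isFiniteMeasure_map _ _
  rw [h2, integral_fintype (Integrable.of_bound hgm.aestronglyMeasurable C
    (Filter.Eventually.of_forall hC))]
  refine Finset.sum_congr rfl (fun s _ => ?_)
  rw [Measure.real, Measure.map_apply hlm (measurableSet_singleton s),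
    Measure.restrict_apply (hlm (measurableSet_singleton s)), Complex.real_smul, mul_comm]
  congr 4
  ext p
  simp only [Set.mem_inter_iff, Set.mem_preimage, Set.mem_singleton_iff, Set.mem_ofPred_eq, hlb]
  tauto

lemma int1 (lab : ℝ → G) (hm : ∀ s, MeasurableSet {t : ℝ | lab t = s}) (g : G → ℂ) :
    ∫ t in (0:ℝ)..1, g (lab t)
      = ∑ s, g s * ((volume {t : ℝ | t ∈ Set.Ico (0:ℝ) 1 ∧ lab t = s}).toReal : ℂ) := by
  letI : MeasurableSpace G := ⊤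
  haveI : MeasurableSingletonClass G := ⟨fun _ => trivial⟩
  have hlm : Measurable lab := measurable_to_countable' (fun s => hm s)
  have hgm : Measurable g := measurable_from_top
  obtain ⟨C, hC⟩ : ∃ C : ℝ, ∀ s, ‖g s‖ ≤ C := ⟨∑ s, ‖g s‖, fun s =>
    Finset.single_le_sum (f := fun s => ‖g s‖) (fun _ _ => norm_nonneg _) (mem_univ s)⟩
  rw [intervalIntegral.integral_of_le zero_le_one, ← integral_Ico_eq_integral_Ioc]
  have h2 : ∫ p in Set.Ico (0:ℝ) 1, g (lab p)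
      = ∫ s, g s ∂(Measure.map lab ((volume : Measure ℝ).restrict (Set.Ico (0:ℝ) 1))) := by
    rw [integral_map hlm.aemeasurable hgm.aestronglyMeasurable]
  haveI : IsFiniteMeasure (Measure.map lab ((volume : Measure ℝ).restrict (Set.Ico (0:ℝ) 1))) :=
    Measure.isFiniteMeasure_map _ _
  rw [h2, integral_fintype (Integrable.of_bound hgm.aestronglyMeasurable C
    (Filter.Eventually.of_forall hC))]
  refine Finset.sum_congr rfl (fun s _ => ?_)
  rw [Measure.real, Measure.map_apply hlm (measurableSet_singleton s),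
    Measure.restrict_apply (hlm (measurableSet_singleton s)), Complex.real_smul, mul_comm]
  congr 4
  ext p
  simp only [Set.mem_inter_iff, Set.mem_preimage, Set.mem_singleton_iff, Set.mem_ofPred_eq]
  tauto

end int

variable {M1 M2 : ℕ} [NeZero M1] [NeZero M2]

/-- the frequencies of the labels. -/
noncomputable def fr2 (n : ℕ) (lab : ℝ → ℤ → ℝ → ZMod M1 × ZMod M2) (s : ZMod M1 × ZMod M2) : ℝ :=
  (1 / (n : ℝ)) * ∑ i ∈ Finset.range n,
        (volume {p : ℝ × ℝ | p ∈ Set.Ico (0:ℝ) 1 ×ˢ Set.Ico (0:ℝ) 1 ∧ lab p.1 i p.2 = s}).toReal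

lemma meas_lab (lab : ℝ → ℤ → ℝ → ZMod M1 × ZMod M2)
    (hm : ∀ (i : ℤ) (s : ZMod M1 × ZMod M2), MeasurableSet {p : ℝ × ℝ | lab p.1 i p.2 = s})
    (g : ZMod M1 × ZMod M2 → ℂ) (i : ℤ) : Measurable (fun p : ℝ × ℝ => g (lab p.1 i p.2)) := by
  letI : MeasurableSpace (ZMod M1 × ZMod M2) := ⊤
  haveI : MeasurableSingletonClass (ZMod M1 × ZMod M2) := ⟨fun _ => trivial⟩
  exact measurable_from_top.comp (measurable_to_countable' (f := fun p : ℝ × ℝ => lab p.1 i p.2)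
    (fun s => hm i s))

lemma Dlab_zero (n : ℕ) (lab : ℤ → ℝ → ZMod M1 × ZMod M2) (g : ZMod M1 × ZMod M2 → ℂ) :
    Dlab n lab g 0 0 = (1 / (n : ℂ)) * ∑ i ∈ Finset.range n, ∫ t in (0:ℝ)..1, g (lab i t) := by
  unfold Dlab
  congr 1
  refine Finset.sum_congr rfl (fun i _ => ?_)
  refine intervalIntegral.integral_congr (fun t _ => ?_)
  simp

lemma sm_inner (lab : ℝ → ℤ → ℝ → ZMod M1 × ZMod M2)
    (hm : ∀ (i : ℤ) (s : ZMod M1 × ZMod M2), MeasurableSet {p : ℝ × ℝ | lab p.1 i p.2 = s})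
    (g : ZMod M1 × ZMod M2 → ℂ) (i : ℤ) :
    StronglyMeasurable (fun c : ℝ => ∫ t in (0:ℝ)..1, g (lab c i t)) := by
  have h := (meas_lab lab hm g i).stronglyMeasurable.integral_prod_right'
    (ν := (volume : Measure ℝ).restrict (Set.Ioc 0 1))
  simpa only [intervalIntegral.integral_of_le (zero_le_one' ℝ)] using h

lemma bound_inner (lab : ℝ → ℤ → ℝ → ZMod M1 × ZMod M2) (g : ZMod M1 × ZMod M2 → ℂ)
    (hg : ∀ s, ‖g s‖ ≤ 1) (c : ℝ) (i : ℤ) : ‖∫ t in (0:ℝ)..1, g (lab c i t)‖ ≤ 1 := by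
  have := intervalIntegral.norm_integral_le_of_norm_le_const (a := (0:ℝ)) (b := 1) (C := 1)
    (f := fun t => g (lab c i t)) (fun t _ => hg _)
  simpa using this

lemma sm_Dlab (n : ℕ) (lab : ℝ → ℤ → ℝ → ZMod M1 × ZMod M2)
    (hm : ∀ (i : ℤ) (s : ZMod M1 × ZMod M2), MeasurableSet {p : ℝ × ℝ | lab p.1 i p.2 = s})
    (g : ZMod M1 × ZMod M2 → ℂ) : StronglyMeasurable (fun c : ℝ => Dlab n (lab c) g 0 0) := by
  simp only [Dlab_zero]
  refine StronglyMeasurable.const_mul (Finset.stronglyMeasurable_fun_sum _ (fun i _ => ?_)) _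
  exact sm_inner lab hm g i

lemma bound_Dlab {n : ℕ} (hn : 0 < n) (lab : ℤ → ℝ → ZMod M1 × ZMod M2)
    (g : ZMod M1 × ZMod M2 → ℂ) (hg : ∀ s, ‖g s‖ ≤ 1) : ‖Dlab n lab g 0 0‖ ≤ 1 := by
  rw [Dlab_zero, norm_mul, norm_div, norm_one, Complex.norm_natCast]
  have h1 : ‖∑ i ∈ range n, ∫ t in (0:ℝ)..1, g (lab i t)‖ ≤ n := by
    refine (norm_sum_le _ _).trans ?_
    calc _ ≤ ∑ i ∈ range n, (1:ℝ) := Finset.sum_le_sum
            (fun i _ => bound_inner (fun _ => lab) g hg 0 i)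
      _ = n := by simp
  have hn' : (0:ℝ) < n := by exact_mod_cast hn
  rw [one_div, inv_mul_le_iff₀ hn']
  linarith

/-- the mean of `Dlab 0 0` in `c` is the character sum of the frequencies. -/
lemma int_Dlab (n : ℕ) (lab : ℝ → ℤ → ℝ → ZMod M1 × ZMod M2)
    (hm : ∀ (i : ℤ) (s : ZMod M1 × ZMod M2), MeasurableSet {p : ℝ × ℝ | lab p.1 i p.2 = s})
    (g : ZMod M1 × ZMod M2 → ℂ) :
    ∫ c in (0:ℝ)..1, Dlab n (lab c) g 0 0 = ∑ s, g s * (fr2 n lab s : ℂ) := by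
  simp only [Dlab_zero]
  rw [intervalIntegral.integral_const_mul, intervalIntegral.integral_finsetSum]
  · simp only [fr2]
    push_cast
    simp only [Finset.mul_sum]
    rw [Finset.sum_comm]
    refine Finset.sum_congr rfl (fun i _ => ?_)
    rw [int2 (fun c t => lab c i t) (fun s => hm i s) g, Finset.mul_sum]
    refine Finset.sum_congr rfl (fun s _ => ?_)
    ring
  · intro i _
    obtain ⟨C, hC⟩ : ∃ C : ℝ, ∀ s, ‖g s‖ ≤ C := ⟨∑ s, ‖g s‖, fun s =>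
      Finset.single_le_sum (f := fun s => ‖g s‖) (fun _ _ => norm_nonneg _) (mem_univ s)⟩
    rw [intervalIntegrable_iff_integrableOn_Ioc_of_le zero_le_one]
    refine Integrable.of_bound (sm_inner lab hm g i).aestronglyMeasurable C
      (Filter.Eventually.of_forall (fun c => ?_))
    have := intervalIntegral.norm_integral_le_of_norm_le_const (a := (0:ℝ)) (b := 1) (C := C)
      (f := fun t => g (lab c i t)) (fun t _ => hC _)
    simpa using this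

lemma fr2_sum {n : ℕ} (hn : 0 < n) (lab : ℝ → ℤ → ℝ → ZMod M1 × ZMod M2)
    (hm : ∀ (i : ℤ) (s : ZMod M1 × ZMod M2), MeasurableSet {p : ℝ × ℝ | lab p.1 i p.2 = s}) :
    ∑ s, fr2 n lab s = 1 := by
  have h := int_Dlab n lab hm (fun _ => 1)
  simp only [Dlab_zero, one_mul] at h
  have hn' : (n : ℂ) ≠ 0 := by exact_mod_cast hn.ne'
  have h2 : ((∑ s, fr2 n lab s : ℝ) : ℂ) = 1 := by
    push_cast
    rw [← h]
    simp [hn']
  exact_mod_cast h2

/-- **(D1)** `LabelOut.dist` from the mean coefficients. -/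
theorem dist_of_coef {n : ℕ} (hn : 0 < n) (lab : ℝ → ℤ → ℝ → ZMod M1 × ZMod M2)
    (hm : ∀ (i : ℤ) (s : ZMod M1 × ZMod M2), MeasurableSet {p : ℝ × ℝ | lab p.1 i p.2 = s})
    (δ : ℝ) (hδ : 0 ≤ δ)
    (hD : ∀ κ : ZMod M1 × ZMod M2, κ ≠ 0 →
      ‖∫ c in (0:ℝ)..1, Dlab n (lab c) (Ek M1 M2 (kk κ)) 0 0‖ ≤ δ) :
    ∑ s : ZMod M1 × ZMod M2,
    |(1 / (n : ℝ)) * ∑ i ∈ Finset.range n,
        (volume {p : ℝ × ℝ | p ∈ Set.Ico (0:ℝ) 1 ×ˢ Set.Ico (0:ℝ) 1 ∧ lab p.1 i p.2 = s}).toReal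
      - 1 / (M1 * M2)| ≤ M1 * M2 * δ := by
  refine dist_abs M1 M2 (fr2 n lab) (fr2_sum hn lab hm) δ hδ (fun κ hκ => ?_)
  rw [← int_Dlab n lab hm]
  exact hD κ hκ

/-- **(D2)** `LabelOut.dist` from the flatness bound at `(a, b) = (0, 0)`. -/
theorem dist_of_flat {n : ℕ} (hn : 0 < n) (lab : ℝ → ℤ → ℝ → ZMod M1 × ZMod M2)
    (hm : ∀ (i : ℤ) (s : ZMod M1 × ZMod M2), MeasurableSet {p : ℝ × ℝ | lab p.1 i p.2 = s})
    (e : ℝ) (he : 0 ≤ e)
    (hD : ∀ κ : ZMod M1 × ZMod M2, κ ≠ 0 →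
      ∫ c in (0:ℝ)..1, ‖Dlab n (lab c) (Ek M1 M2 (kk κ)) 0 0‖ ^ 2 ≤ e) :
    ∑ s : ZMod M1 × ZMod M2,
    |(1 / (n : ℝ)) * ∑ i ∈ Finset.range n,
        (volume {p : ℝ × ℝ | p ∈ Set.Ico (0:ℝ) 1 ×ˢ Set.Ico (0:ℝ) 1 ∧ lab p.1 i p.2 = s}).toReal
      - 1 / (M1 * M2)| ≤ M1 * M2 * Real.sqrt e := by
  refine dist_of_coef hn lab hm _ (Real.sqrt_nonneg e) (fun κ hκ => ?_)
  set D : ℝ → ℂ := fun c => Dlab n (lab c) (Ek M1 M2 (kk κ)) 0 0 with hDd
  have hsm : StronglyMeasurable D := sm_Dlab n lab hm _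
  have hb : ∀ c, ‖D c‖ ≤ 1 := fun c => bound_Dlab hn _ _ (fun s => (norm_Ek M1 M2 _ s).le)
  have hi1 : IntervalIntegrable (fun c => ‖D c‖) volume 0 1 := by
    rw [intervalIntegrable_iff_integrableOn_Ioc_of_le zero_le_one]
    exact Integrable.of_bound hsm.norm.aestronglyMeasurable 1
      (Filter.Eventually.of_forall (fun c => by rw [norm_norm]; exact hb c))
  have hi2 : IntervalIntegrable (fun c => ‖D c‖ ^ 2) volume 0 1 := by
    rw [intervalIntegrable_iff_integrableOn_Ioc_of_le zero_le_one]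
    exact Integrable.of_bound (hsm.norm.pow 2).aestronglyMeasurable 1
      (Filter.Eventually.of_forall (fun c => by
        rw [Real.norm_eq_abs, abs_of_nonneg (by positivity)]
        exact pow_le_one₀ (norm_nonneg _) (hb c)))
  have h1 : ‖∫ c in (0:ℝ)..1, D c‖ ≤ ∫ c in (0:ℝ)..1, ‖D c‖ :=
    intervalIntegral.norm_integral_le_integral_norm zero_le_one
  set I := ∫ c in (0:ℝ)..1, ‖D c‖ with hI
  have hI0 : 0 ≤ I := intervalIntegral.integral_nonneg zero_le_one (fun c _ => norm_nonneg _)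
  have h2 : 0 ≤ ∫ c in (0:ℝ)..1, (‖D c‖ - I) ^ 2 :=
    intervalIntegral.integral_nonneg zero_le_one (fun c _ => sq_nonneg _)
  have h3 : ∫ c in (0:ℝ)..1, (‖D c‖ - I) ^ 2 = (∫ c in (0:ℝ)..1, ‖D c‖ ^ 2) - I ^ 2 := by
    have e1 : ∀ c, (‖D c‖ - I) ^ 2 = ‖D c‖ ^ 2 - (2 * I) * ‖D c‖ + I ^ 2 := fun c => by ring
    simp only [e1]
    rw [intervalIntegral.integral_add (hi2.sub (hi1.const_mul _)) intervalIntegrable_const,
      intervalIntegral.integral_sub hi2 (hi1.const_mul _), intervalIntegral.integral_const_mul,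
      intervalIntegral.integral_const, ← hI]
    simp only [sub_zero, smul_eq_mul, one_mul]
    ring
  have h4 : I ^ 2 ≤ e := by
    have := hD κ hκ
    linarith
  exact h1.trans (Real.le_sqrt_of_sq_le h4)

/-- **(D3)** the version for one piece. -/
theorem dist_piece {n : ℕ} (hn : 0 < n) (lab : ℤ → ℝ → ZMod M1 × ZMod M2)
    (hm : ∀ (i : ℤ) (s : ZMod M1 × ZMod M2), MeasurableSet {t : ℝ | lab i t = s})
    (δ : ℝ) (hδ : 0 ≤ δ)
    (hD : ∀ κ : ZMod M1 × ZMod M2, κ ≠ 0 → ‖Dlab n lab (Ek M1 M2 (kk κ)) 0 0‖ ≤ δ) :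
    ∑ s : ZMod M1 × ZMod M2,
    |(1 / (n : ℝ)) * ∑ i ∈ Finset.range n,
        (volume {t : ℝ | t ∈ Set.Ico (0:ℝ) 1 ∧ lab i t = s}).toReal
      - 1 / (M1 * M2)| ≤ M1 * M2 * δ := by
  set fr : ZMod M1 × ZMod M2 → ℝ := fun s => (1 / (n : ℝ)) * ∑ i ∈ Finset.range n,
        (volume {t : ℝ | t ∈ Set.Ico (0:ℝ) 1 ∧ lab i t = s}).toReal with hfr
  have key : ∀ g : ZMod M1 × ZMod M2 → ℂ, Dlab n lab g 0 0 = ∑ s, g s * (fr s : ℂ) := by
    intro g
    rw [Dlab_zero]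
    simp only [hfr]
    push_cast
    simp only [Finset.mul_sum]
    rw [Finset.sum_comm]
    refine Finset.sum_congr rfl (fun i _ => ?_)
    rw [int1 (fun t => lab i t) (fun s => hm i s) g, Finset.mul_sum]
    refine Finset.sum_congr rfl (fun s _ => ?_)
    ring
  refine dist_abs M1 M2 fr ?_ δ hδ (fun κ hκ => ?_)
  · have h := key (fun _ => 1)
    rw [Dlab_zero] at h
    simp only [one_mul] at h
    have hn' : (n : ℂ) ≠ 0 := by exact_mod_cast hn.ne'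
    have h2 : ((∑ s, fr s : ℝ) : ℂ) = 1 := by
      push_cast
      rw [← h]
      simp [hn']
    exact_mod_cast h2
  · rw [← key]
    exact hD κ hκ

/-- a nonzero character is not divisible by `(M1, M2)`. -/
lemma kk_not_dvd {κ : ZMod M1 × ZMod M2} (hκ : κ ≠ 0) :
    ¬ ((M1 : ℤ) ∣ (kk κ).1 ∧ (M2 : ℤ) ∣ (kk κ).2) := by
  rintro ⟨h1, h2⟩
  apply hκ
  have e1 : κ.1 = 0 := by
    have := (ZMod.intCast_zmod_eq_zero_iff_dvd (κ.1.val : ℤ) M1).2 h1
    rw [Int.cast_natCast, ZMod.natCast_zmod_val] at this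
    exact this
  have e2 : κ.2 = 0 := by
    have := (ZMod.intCast_zmod_eq_zero_iff_dvd (κ.2.val : ℤ) M2).2 h2
    rw [Int.cast_natCast, ZMod.natCast_zmod_val] at this
    exact this
  exact Prod.ext e1 e2

/-- a character which is nonzero modulo `(M1, M2)` has sum zero. -/
lemma sum_Ek {k : ℤ × ℤ} (hk : ¬ ((M1 : ℤ) ∣ k.1 ∧ (M2 : ℤ) ∣ k.2)) :
    ∑ s, Ek M1 M2 k s = 0 := by
  have hM1 : 0 < M1 := Nat.pos_of_ne_zero (NeZero.ne M1)
  have hM2 : 0 < M2 := Nat.pos_of_ne_zero (NeZero.ne M2)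
  have e1 : ∀ s : ZMod M1 × ZMod M2, Ek M1 M2 k s
      = ee (s.1.val * (k.1 : ℝ) / M1) * ee (s.2.val * (k.2 : ℝ) / M2) := by
    intro s
    unfold Ek
    rw [← ee_add]; congr 1; ring
  rw [Finset.sum_congr rfl (fun s _ => e1 s), Fintype.sum_prod_type]
  simp only [← Finset.mul_sum]
  rw [← Finset.sum_mul, sum_zmod (M := M1) (fun a => ee (a * (k.1 : ℝ) / M1)),
    sum_zmod (M := M2) (fun a => ee (a * (k.2 : ℝ) / M2)), sum_ee_range hM1, sum_ee_range hM2]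
  by_cases h1 : (M1 : ℤ) ∣ k.1
  · rw [if_neg (fun h2 => hk ⟨h1, h2⟩), mul_zero]
  · rw [if_neg h1, zero_mul]

end Crest.Agent.R081.DlDist
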