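import Mathlib
import Crest.Agent.R081.DlDefs
import Crest.Agent.R081.DlDist

/-!
# Row 81, label design: equidistribution of the labels for an arbitrary finite label set
-/

set_option autoImplicit false

namespace Crest.Agent.R081.DlDist

open MeasureTheory Crest.Agent.R075 Finset Crest.Agent.R081.Dl

section
variable {Λ : Type} [Fintype Λ]

/-- the characters of a finite label set (enumerated by `Fintype.equivFin`). -/
noncomputable def chi (κ : ℕ) (s : Λ) : ℂ :=
  ee (κ * ((Fintype.equivFin Λ s).val : ℝ) / (Fintype.card Λ : ℝ))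

lemma norm_chi (κ : ℕ) (s : Λ) : ‖chi κ s‖ = 1 := norm_ee _

lemma chi_zero (s : Λ) : chi 0 s = 1 := by
  unfold chi; simp

lemma sum_chi {κ : ℕ} (h0 : 0 < κ) (h1 : κ < Fintype.card Λ) : ∑ s : Λ, chi κ s = 0 := by
  have hM : 0 < Fintype.card Λ := by omega
  have e0 : ∑ s : Λ, chi κ s
      = ∑ k : Fin (Fintype.card Λ), ee (κ * ((k.val : ℕ) : ℝ) / (Fintype.card Λ : ℝ)) := by
    rw [← Equiv.sum_comp (Fintype.equivFin Λ)]
    rfl
  rw [e0, Fin.sum_univ_eq_sum_range
    (fun k : ℕ => ee (κ * (k : ℝ) / (Fintype.card Λ : ℝ))) (Fintype.card Λ)]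
  have e1 : ∀ a ∈ range (Fintype.card Λ), ee (κ * (a : ℝ) / (Fintype.card Λ : ℝ))
      = ee (a * ((κ : ℤ) : ℝ) / (Fintype.card Λ : ℝ)) := by
    intro a _
    congr 1; push_cast; ring
  rw [Finset.sum_congr rfl e1, sum_ee_range hM, if_neg]
  intro hd
  have := Int.le_of_dvd (by exact_mod_cast h0) hd
  omega

lemma orth_chi [DecidableEq Λ] (x y : Λ) :
    ∑ κ ∈ range (Fintype.card Λ), chi κ x * (starRingEnd ℂ) (chi κ y)
      = if x = y then (Fintype.card Λ : ℂ) else 0 := by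
  have hM : 0 < Fintype.card Λ := Fintype.card_pos_iff.2 ⟨x⟩
  set X := (Fintype.equivFin Λ x).val with hX
  set Y := (Fintype.equivFin Λ y).val with hY
  have hXl : X < Fintype.card Λ := (Fintype.equivFin Λ x).isLt
  have hYl : Y < Fintype.card Λ := (Fintype.equivFin Λ y).isLt
  have e1 : ∀ a ∈ range (Fintype.card Λ), chi a x * (starRingEnd ℂ) (chi a y)
      = ee (a * (((X : ℤ) - (Y : ℤ) : ℤ) : ℝ) / (Fintype.card Λ : ℝ)) := by
    intro a _
    unfold chi
    rw [ee_conj, ← ee_add]; congr 1; push_cast; ring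
  rw [Finset.sum_congr rfl e1, sum_ee_range hM]
  have hiff : ((Fintype.card Λ : ℤ) ∣ (X : ℤ) - (Y : ℤ)) ↔ x = y := by
    constructor
    · intro h
      have h1 : |(X : ℤ) - Y| < Fintype.card Λ := by
        rw [abs_lt]; omega
      have h2 := Int.eq_zero_of_abs_lt_dvd h h1
      apply (Fintype.equivFin Λ).injective
      apply Fin.ext
      omega
    · rintro rfl; simp [hX, hY]
  by_cases h : x = y
  · rw [if_pos h, if_pos (hiff.2 h)]
  · rw [if_neg h, if_neg (fun h' => h (hiff.1 h'))]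

/-- **abstract equidistribution.** -/
theorem dist_abs' (fr : Λ → ℝ) (hsum : ∑ s, fr s = 1) (δ : ℝ) (hδ : 0 ≤ δ)
    (hD : ∀ κ : ℕ, 0 < κ → κ < Fintype.card Λ → ‖∑ s, chi κ s * (fr s : ℂ)‖ ≤ δ) :
    ∑ s, |fr s - 1 / (Fintype.card Λ : ℝ)| ≤ (Fintype.card Λ : ℝ) * δ := by
  classical
  rcases isEmpty_or_nonempty Λ with hE | hE
  · simp
  have hMn : 0 < Fintype.card Λ := Fintype.card_pos
  have hM : (0 : ℝ) < Fintype.card Λ := by exact_mod_cast hMn
  set M := Fintype.card Λ with hMdef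
  set D : ℕ → ℂ := fun κ => ∑ s, chi κ s * (fr s : ℂ) with hDdef
  have hD0 : D 0 = 1 := by
    simp only [hDdef, chi_zero, one_mul]
    rw [← Complex.ofReal_sum, hsum]; simp
  have hinv : ∀ s0 : Λ, ∑ κ ∈ range M, (starRingEnd ℂ) (chi κ s0) * D κ = (M : ℂ) * fr s0 := by
    intro s0
    simp only [hDdef, Finset.mul_sum]
    rw [Finset.sum_comm]
    have : ∀ s : Λ, ∑ κ ∈ range M, (starRingEnd ℂ) (chi κ s0) * (chi κ s * (fr s : ℂ))
        = (if s = s0 then (M : ℂ) else 0) * fr s := by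
      intro s
      rw [← orth_chi s s0, Finset.sum_mul]
      exact Finset.sum_congr rfl (fun κ _ => by ring)
    rw [Finset.sum_congr rfl (fun s _ => this s)]
    simp
  have h0mem : 0 ∈ range M := mem_range.2 hMn
  have hone : ∀ s0, |fr s0 - 1 / (M : ℝ)| ≤ δ := by
    intro s0
    have h1 := hinv s0
    rw [← Finset.add_sum_erase (range M) _ h0mem, chi_zero, hD0] at h1
    have h2 : (((M : ℝ) * (fr s0 - 1 / (M : ℝ)) : ℝ) : ℂ)
        = (∑ κ ∈ (range M).erase 0, (starRingEnd ℂ) (chi κ s0) * D κ) := by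
      have h3 : ((M : ℝ) * (fr s0 - 1 / (M : ℝ)) : ℝ) = M * fr s0 - 1 := by
        field_simp
      rw [h3]
      push_cast at h1 ⊢
      rw [← h1]
      simp
    have h4 : ‖∑ κ ∈ (range M).erase 0, (starRingEnd ℂ) (chi κ s0) * D κ‖ ≤ M * δ := by
      refine (norm_sum_le _ _).trans ?_
      calc ∑ κ ∈ (range M).erase 0, ‖(starRingEnd ℂ) (chi κ s0) * D κ‖
          ≤ ∑ κ ∈ (range M).erase 0, δ := by
            refine Finset.sum_le_sum (fun κ hκ => ?_)
            rw [norm_mul, RCLike.norm_conj, norm_chi, one_mul]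
            exact hD κ (Nat.pos_of_ne_zero (Finset.ne_of_mem_erase hκ))
              (mem_range.1 (Finset.mem_of_mem_erase hκ))
        _ ≤ M * δ := by
            rw [Finset.sum_const, nsmul_eq_mul]
            refine mul_le_mul_of_nonneg_right ?_ hδ
            have : ((range M).erase 0).card ≤ M := by
              refine Finset.card_erase_le.trans ?_
              rw [card_range]
            exact_mod_cast this
    rw [← h2, Complex.norm_real, Real.norm_eq_abs, abs_mul, abs_of_pos hM] at h4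
    exact le_of_mul_le_mul_left h4 hM
  calc ∑ s, |fr s - 1 / (M : ℝ)| ≤ ∑ _s : Λ, δ :=
        Finset.sum_le_sum (fun s _ => hone s)
    _ = M * δ := by
        rw [Finset.sum_const, nsmul_eq_mul, Finset.card_univ]

lemma Dco_zero (n : ℕ) (f : ℤ → ℝ → ℂ) :
    Dco n f 0 0 = (1 / (n : ℂ)) * ∑ i ∈ Finset.range n, ∫ t in (0:ℝ)..1, f i t := by
  unfold Dco
  congr 1
  refine Finset.sum_congr rfl (fun i _ => ?_)
  refine intervalIntegral.integral_congr (fun t _ => ?_)
  simp

/-- **(D3')** near equidistribution of the labels of one piece, for an arbitrary finite label set. -/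
theorem dist_piece' {n : ℕ} (hn : 0 < n) (lab : ℤ → ℝ → Λ)
    (hm : ∀ (i : ℤ) (s : Λ), MeasurableSet {θ : ℝ | lab i θ = s})
    (d : ℝ) (hd : 0 ≤ d)
    (hD : ∀ κ : ℕ, 0 < κ → κ < Fintype.card Λ → ‖Dco n (fun i θ => chi κ (lab i θ)) 0 0‖ ≤ d) :
    ∑ s : Λ, |(1 / (n : ℝ)) * ∑ i ∈ Finset.range n,
        (volume {θ ∈ Set.Ico (0:ℝ) 1 | lab i θ = s}).toReal - 1 / (Fintype.card Λ : ℝ)|
      ≤ (Fintype.card Λ : ℝ) * d := by
  set fr : Λ → ℝ := fun s => (1 / (n : ℝ)) * ∑ i ∈ Finset.range n,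
        (volume {θ ∈ Set.Ico (0:ℝ) 1 | lab i θ = s}).toReal with hfr
  have key : ∀ g : Λ → ℂ, Dco n (fun i θ => g (lab i θ)) 0 0 = ∑ s, g s * (fr s : ℂ) := by
    intro g
    rw [Dco_zero]
    simp only [hfr]
    push_cast
    simp only [Finset.mul_sum]
    rw [Finset.sum_comm]
    refine Finset.sum_congr rfl (fun i _ => ?_)
    rw [int1 (fun t => lab i t) (fun s => hm i s) g, Finset.mul_sum]
    refine Finset.sum_congr rfl (fun s _ => ?_)
    ring
  refine dist_abs' fr ?_ d hd (fun κ h0 h1 => ?_)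
  · have h := key (fun _ => 1)
    rw [Dco_zero] at h
    simp only [one_mul] at h
    have hn' : (n : ℂ) ≠ 0 := by exact_mod_cast hn.ne'
    have h2 : ((∑ s, fr s : ℝ) : ℂ) = 1 := by
      push_cast
      rw [← h]
      simp [hn']
    exact_mod_cast h2
  · rw [← key (chi κ)]
    exact hD κ h0 h1

end

end Crest.Agent.R081.DlDist
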