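import Crest.Agent.R081.LdMain
import Crest.Agent.R081.DlDefs

/-!
# Row 81, route B: `TorusLabels` from the spread labels (helper472)
-/

set_option autoImplicit false

namespace Crest.Agent.R081.Spread

open MeasureTheory Finset Crest.Agent.R075 Crest.Agent.R081.Dl

lemma SData.trig_TT {ε : ℝ} {Q0 : ℕ} (S : SData ε Q0) (E : ℕ → ℂ) (φ : Fin (S.n + 1) → ℝ) :
    trig S.TT (S.mc E) φ = ∑ t ∈ S.T, E (S.lab t) * (am S.p S.Q t * ee (dt t φ)
        + (starRingEnd ℂ) (am S.p S.Q t) * ee (-(dt t φ))) := by
  classical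
  unfold trig SData.TT
  rw [sum_union, sum_image]
  · rw [← sum_add_distrib]
    refine sum_congr rfl fun t ht => ?_
    unfold SData.mc
    rw [S.lb_T ht, S.lb_neg ht, am_neg, dt_neg]
    ring
  · intro a _ b _ h
    exact neg_injective h
  · rw [disjoint_left]
    intro t ht h
    rw [mem_image] at h
    obtain ⟨s, hs, rfl⟩ := h
    exact S.not_mem_neg hs ht

theorem exists_torusLabels (Λ : Type) [Fintype Λ] [Nonempty Λ] (Fam : Set (Λ → ℂ)) (hfin : Fam.Finite)
    (hE : ∀ E ∈ Fam, ∀ s, ‖E s‖ = 1) (h0 : ∀ E ∈ Fam, ∑ s, E s = 0) (eps : ℝ) (heps : 0 < eps) :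
    Nonempty (TorusLabels Λ Fam eps) := by
  classical
  obtain ⟨ε', he0, hle, Q0, S, hS⟩ := exists_SC Λ hfin.toFinset (fun E : Λ → ℂ => E)
    (fun E h => hE E (hfin.mem_toFinset.1 h)) (fun E h => h0 E (hfin.mem_toFinset.1 h)) eps heps eps heps
  have hpf : Fact S.p.Prime := ⟨S.hp⟩
  refine ⟨{ n := S.n
            Lam0 := fun φ => Gl Λ (S.g0 (fun i => cell S.p (φ i)))
            meas := ?_
            per := ?_
            T := S.T
            w := fun t => wmass S.p t
            w_pos := S.wpos
            T_pos := S.one_le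
            T_np := S.nonpar
            w_lo := by have := S.low; linarith
            w_hi := S.up
            amp := fun t => am S.p S.Q t
            amp_sq := fun t _ => S.am_sq t
            lb := fun t => Gl Λ (S.lab t)
            sample := ?_ }⟩
  · intro s
    have h1 : Measurable (fun φ : Fin (S.n + 1) → ℝ => fun i => cell S.p (φ i)) :=
      measurable_pi_lambda _ fun i => (measurable_cell S.p).comp (measurable_pi_apply i)
    exact h1 (MeasurableSet.of_discrete (s := {u : Fin (S.n + 1) → ZMod S.p | Gl Λ (S.g0 u) = s}))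
  · intro x k
    congr 2
    funext i
    exact cell_add_int S.p (x i) (k i)
  · intro N hN v
    obtain ⟨x, hx⟩ := hS N hN v (Pi.single 0 1)
    refine ⟨x, fun E hEF => ?_⟩
    have h1 := hx E (hfin.mem_toFinset.2 hEF)
    have hsh : ∀ (l : ℕ) (θ : ℝ), x + (v l + θ • (Pi.single 0 1 : Fin (S.n + 1) → ℝ)) = shift0 x (v l) θ := by
      intro l θ
      funext r
      unfold shift0
      by_cases hr : r = 0
      · subst hr
        simp [add_assoc]
      · simp [hr]
    simp only [hsh, S.trig_TT] at h1
    exact h1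

end Crest.Agent.R081.Spread
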