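import Mathlib
import Crest.Agent.R081.DlAsm2
import Crest.Agent.R081.DlDist2
import Crest.Agent.R081.TlW1

/-!
# Row 81, route B: the label design (helper269), final assembly

`exists_labelDesign`, from 472's sampling data, 287's design, 342's rounding, 919's coefficient
estimate and 332's distribution lemma.
-/

set_option autoImplicit false

namespace Crest.Agent.R081.Dl

open MeasureTheory Finset Crest.Agent.R075 Crest.Agent.R081.D

lemma meas_comp {Λ : Type} [Finite Λ] (f : ℝ → Λ) (hf : ∀ s, MeasurableSet {θ | f θ = s})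
    (E : Λ → ℂ) : Measurable (fun θ => E (f θ)) := by
  letI : MeasurableSpace Λ := ⊤
  have h1 : Measurable f := measurable_to_countable' hf
  exact (measurable_from_top (f := E)).comp h1

section

variable {Λ : Type} {Fam : Set (Λ → ℂ)} {e1 e2 : ℝ} {B0 : ℕ} (TL : TorusLabels Λ Fam e1)
  (D : DesignL TL.T (e0 TL.n) TL.w e2 B0) {q : ℕ} {eta : ℝ} (Rd : Rounded D q eta)
  (x : Fin D.P → Fin (TL.n+1) → ℝ)

lemma measurable_XX (p : Fin D.P) (i : ℤ) : Measurable (XX TL D Rd x p i) := by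
  refine measurable_pi_lambda _ fun r => ?_
  unfold XX
  by_cases hr : r = 0
  · simp only [hr, if_true]
    exact measurable_const.add measurable_id
  · simp only [hr, if_false]
    exact measurable_const

/-- the label function of the piece `p`. -/
noncomputable def labP (p : Fin D.P) (i : ℤ) (θ : ℝ) : Λ := TL.Lam0 (XX TL D Rd x p i θ)

lemma labP_meas (p : Fin D.P) (i : ℤ) (s : Λ) : MeasurableSet {θ | labP TL D Rd x p i θ = s} :=
  measurable_XX TL D Rd x p i (TL.meas s)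

lemma labP_one (p : Fin D.P) (i : ℤ) (θ : ℝ) :
    labP TL D Rd x p i (θ + 1) = labP TL D Rd x p i θ := by
  unfold labP
  rw [← TL.per (XX TL D Rd x p i θ) (fun r => if r = 0 then 1 else 0)]
  congr 1
  funext r
  unfold XX
  by_cases hr : r = 0
  · simp only [hr, if_true]; push_cast; ring
  · simp only [hr, if_false]; push_cast; ring

lemma labP_per (p : Fin D.P) (i : ℤ) (θ : ℝ) :
    labP TL D Rd x p (i + Rd.n) θ = labP TL D Rd x p i θ := by
  unfold labP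
  have h := Rd.ph_period p (x p) i
  choose k hk using h
  rw [← TL.per (XX TL D Rd x p i θ) k]
  congr 1
  funext r
  unfold XX
  rw [hk r]
  ring

/-- the sampling property at the phases of the piece `p`. -/
lemma exists_x (hn : 0 < Rd.n) (p : Fin D.P) : ∃ x0 : Fin (TL.n+1) → ℝ, ∀ E ∈ Fam,
    (1 / (Rd.n:ℝ)) * ∑ i ∈ range Rd.n, ∫ θ in (0:ℝ)..1,
      ‖E (TL.Lam0 (fun r => Rd.ph p x0 (i:ℤ) r + if r = 0 then θ else 0))
        - ∑ t ∈ TL.T, E (TL.lb t) * (TL.amp t *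
            ee (dotR t (fun r => Rd.ph p x0 (i:ℤ) r + if r = 0 then θ else 0))
          + (starRingEnd ℂ) (TL.amp t) *
            ee (-(dotR t (fun r => Rd.ph p x0 (i:ℤ) r + if r = 0 then θ else 0))))‖ ^ 2 ≤ e1 := by
  obtain ⟨x0, hx0⟩ := TL.sample Rd.n hn
    (fun i r => (Rd.w p r : ℝ) * ((i:ℤ):ℝ) / Rd.n + (D.A r : ℝ) * (((i:ℤ):ℝ)) ^ 2 / D.Q)
  refine ⟨x0, fun E hE => ?_⟩
  have h1 := hx0 E hE
  have h2 : ∀ (i : ℕ) (θ : ℝ), shift0 x0
      (fun r => (Rd.w p r : ℝ) * ((i:ℤ):ℝ) / Rd.n + (D.A r : ℝ) * (((i:ℤ):ℝ)) ^ 2 / D.Q) θ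
      = fun r => Rd.ph p x0 (i:ℤ) r + if r = 0 then θ else 0 := by
    intro i θ
    funext r
    unfold shift0 Rounded.ph
    ring
  simp only [h2] at h1
  exact h1

open Classical in
/-- the coefficients of the labels of one piece. -/
theorem main_piece [Finite Λ] (heta : eta ≤ 1 / 2) (he2 : 0 ≤ e2) (p : Fin D.P)
    (hx : ∀ E ∈ Fam, (1 / (Rd.n:ℝ)) * ∑ i ∈ range Rd.n, ∫ θ in (0:ℝ)..1,
      ‖E (labP TL D Rd x p i θ)
        - ∑ t ∈ TL.T, E (TL.lb t) * (TL.amp t * ee (dotR t (XX TL D Rd x p i θ))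
          + (starRingEnd ℂ) (TL.amp t) * ee (-(dotR t (XX TL D Rd x p i θ))))‖ ^ 2 ≤ e1)
    (d0 : Λ) (E : Λ → ℂ) (hE : E ∈ Fam) (hE1 : ∀ s, ‖E s‖ = 1) :
    Summable (fun y : Fin Rd.n × ℤ => ‖Dco Rd.n (fun i θ => E (labP TL D Rd x p i θ)) y.1 y.2
        - (if (sys TL D Rd x heta p).line y.1 y.2 then
            ((Real.sqrt (|(y.2:ℝ)| * vv TL D) : ℝ) : ℂ) * (sys TL D Rd x heta p).amp y.1 y.2
              * E ((sys TL D Rd x heta p).ll d0 y.1 y.2) else 0)‖ ^ 2) ∧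
      ∑' y : Fin Rd.n × ℤ, ‖Dco Rd.n (fun i θ => E (labP TL D Rd x p i θ)) y.1 y.2
        - (if (sys TL D Rd x heta p).line y.1 y.2 then
            ((Real.sqrt (|(y.2:ℝ)| * vv TL D) : ℝ) : ℂ) * (sys TL D Rd x heta p).amp y.1 y.2
              * E ((sys TL D Rd x heta p).ll d0 y.1 y.2) else 0)‖ ^ 2 ≤ 2 * e1 + 2 * e2 := by
  set S := sys TL D Rd x heta p with hS
  have hn := Rd.n_pos
  have hv := vv_pos TL D
  have hC1 := DlC.dco_lines hn S.ls S.al S.bl (fun l => E (S.lbl l) * cl TL D Rd x p l)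
    (fun i θ => E (labP TL D Rd x p i θ))
    (fun i => meas_comp _ (labP_meas TL D Rd x p i) E) (C := 1)
    (fun i θ => (hE1 _).le) (e1 := e1) (by
      have h := hx E hE
      simp only [main_eq TL D Rd x heta p] at h
      exact h)
  obtain ⟨hs1, ht1⟩ := hC1
  -- the second error
  set F : (Σ _ : (Fin (TL.n+1) → ℤ), ℕ × Bool) → ℝ :=
    fun l => (‖cl TL D Rd x p l‖ - Real.sqrt (|(S.bl l : ℝ)| * vv TL D)) ^ 2 with hF
  have hsum2 := S.hasSum_lines hn F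
  have hFle : ∑ l ∈ S.ls, F l ≤ e2 := by
    calc ∑ l ∈ S.ls, F l ≤ ∑ l ∈ S.ls, e2 * ‖cl TL D Rd x p l‖ ^ 2 := by
          refine Finset.sum_le_sum fun l hl => ?_
          exact amp_close (norm_nonneg _) (by positivity) (cl_lo TL D Rd x heta p hl)
            (cl_hi TL D Rd x heta p hl) he2
      _ = e2 * ∑ l ∈ S.ls, ‖cl TL D Rd x p l‖ ^ 2 := by rw [Finset.mul_sum]
      _ ≤ e2 * 1 := mul_le_mul_of_nonneg_left (sum_mass TL D Rd x heta p) he2
      _ = e2 := mul_one _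
  have hpt : ∀ a b : ℤ, ‖(∑ l ∈ S.ls, (if S.bl l = b ∧ (Rd.n : ℤ) ∣ a - S.al l then
        E (S.lbl l) * cl TL D Rd x p l else 0))
        - (if S.line a b then ((Real.sqrt (|(b:ℝ)| * vv TL D) : ℝ) : ℂ) * S.amp a b
              * E (S.ll d0 a b) else 0)‖ ^ 2
      = ∑ l ∈ S.ls, (if S.bl l = b ∧ (Rd.n:ℤ) ∣ a - S.al l then F l else 0) := by
    intro a b
    by_cases h : S.line a b
    · obtain ⟨l, hl⟩ := h
      rw [S.sum_on (fun l => E (S.lbl l) * cl TL D Rd x p l) hl, S.sum_on F hl,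
        if_pos ⟨l, hl⟩, S.amp_eq hl, S.ll_eq d0 hl]
      have hc := cl_eq TL D Rd x heta p l
      rw [← hS] at hc
      have e : E (S.lbl l) * cl TL D Rd x p l
          - ((Real.sqrt (|(b:ℝ)| * vv TL D) : ℝ) : ℂ) * S.u l * E (S.lbl l)
          = ((‖cl TL D Rd x p l‖ - Real.sqrt (|(b:ℝ)| * vv TL D) : ℝ) : ℂ)
            * (S.u l * E (S.lbl l)) := by
        conv_lhs => rw [hc]
        push_cast
        ring
      rw [e, norm_mul, norm_mul, S.hu, hE1, mul_one, mul_one, Complex.norm_real, Real.norm_eq_abs,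
        sq_abs]
      simp only [hF]
      rw [hl.2.1]
    · rw [S.sum_not _ h, S.sum_not _ h, if_neg h]
      simp
  have hs2 : Summable (fun y : Fin Rd.n × ℤ =>
      ‖(∑ l ∈ S.ls, (if S.bl l = y.2 ∧ (Rd.n : ℤ) ∣ (y.1:ℤ) - S.al l then
        E (S.lbl l) * cl TL D Rd x p l else 0))
        - (if S.line y.1 y.2 then ((Real.sqrt (|(y.2:ℝ)| * vv TL D) : ℝ) : ℂ) * S.amp y.1 y.2
              * E (S.ll d0 y.1 y.2) else 0)‖ ^ 2) := by
    simp only [hpt]
    exact hsum2.summable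
  have ht2 : ∑' y : Fin Rd.n × ℤ,
      ‖(∑ l ∈ S.ls, (if S.bl l = y.2 ∧ (Rd.n : ℤ) ∣ (y.1:ℤ) - S.al l then
        E (S.lbl l) * cl TL D Rd x p l else 0))
        - (if S.line y.1 y.2 then ((Real.sqrt (|(y.2:ℝ)| * vv TL D) : ℝ) : ℂ) * S.amp y.1 y.2
              * E (S.ll d0 y.1 y.2) else 0)‖ ^ 2 ≤ e2 := by
    simp only [hpt]
    rw [hsum2.tsum_eq]
    exact hFle
  have hle : ∀ y : Fin Rd.n × ℤ, ‖Dco Rd.n (fun i θ => E (labP TL D Rd x p i θ)) y.1 y.2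
        - (if S.line y.1 y.2 then
            ((Real.sqrt (|(y.2:ℝ)| * vv TL D) : ℝ) : ℂ) * S.amp y.1 y.2
              * E (S.ll d0 y.1 y.2) else 0)‖ ^ 2
      ≤ 2 * ‖Dco Rd.n (fun i θ => E (labP TL D Rd x p i θ)) y.1 y.2
          - ∑ l ∈ S.ls, (if S.bl l = y.2 ∧ (Rd.n : ℤ) ∣ (y.1 : ℤ) - S.al l then
              E (S.lbl l) * cl TL D Rd x p l else 0)‖ ^ 2
        + 2 * ‖(∑ l ∈ S.ls, (if S.bl l = y.2 ∧ (Rd.n : ℤ) ∣ (y.1:ℤ) - S.al l then
        E (S.lbl l) * cl TL D Rd x p l else 0))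
        - (if S.line y.1 y.2 then ((Real.sqrt (|(y.2:ℝ)| * vv TL D) : ℝ) : ℂ) * S.amp y.1 y.2
              * E (S.ll d0 y.1 y.2) else 0)‖ ^ 2 := by
    intro y
    have h := norm_sub_le_norm_sub_add_norm_sub
      (Dco Rd.n (fun i θ => E (labP TL D Rd x p i θ)) y.1 y.2)
      (∑ l ∈ S.ls, (if S.bl l = y.2 ∧ (Rd.n : ℤ) ∣ (y.1 : ℤ) - S.al l then
              E (S.lbl l) * cl TL D Rd x p l else 0))
      (if S.line y.1 y.2 then ((Real.sqrt (|(y.2:ℝ)| * vv TL D) : ℝ) : ℂ) * S.amp y.1 y.2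
              * E (S.ll d0 y.1 y.2) else 0)
    have hsq : ∀ A B C : ℝ, 0 ≤ A → A ≤ B + C → A ^ 2 ≤ 2 * B ^ 2 + 2 * C ^ 2 := by
      intro A B C hA h
      nlinarith [sq_nonneg (B - C)]
    exact hsq _ _ _ (norm_nonneg _) h
  have hs3 := (hs1.mul_left 2).add (hs2.mul_left 2)
  have hs : Summable (fun y : Fin Rd.n × ℤ =>
      ‖Dco Rd.n (fun i θ => E (labP TL D Rd x p i θ)) y.1 y.2
        - (if S.line y.1 y.2 then
            ((Real.sqrt (|(y.2:ℝ)| * vv TL D) : ℝ) : ℂ) * S.amp y.1 y.2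
              * E (S.ll d0 y.1 y.2) else 0)‖ ^ 2) :=
    Summable.of_nonneg_of_le (fun _ => by positivity) hle hs3
  refine ⟨hs, ?_⟩
  refine (hs.tsum_le_tsum hle hs3).trans ?_
  rw [(hs1.mul_left 2).tsum_add (hs2.mul_left 2), tsum_mul_left, tsum_mul_left]
  linarith

end

end Crest.Agent.R081.Dl
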