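import Mathlib
import Crest.Agent.R081.DlMain

/-!
# Row 81, route B: `exists_labelDesign` (helper269)
-/

set_option autoImplicit false

namespace Crest.Agent.R081.Dl

open MeasureTheory Finset Crest.Agent.R075 Crest.Agent.R081.D

open Classical in
/-- **the label design** exists. -/
theorem exists_labelDesign (q : ℕ) (hq : 0 < q) (Λ : Type) [Fintype Λ] [Nonempty Λ]
    (Fam : Set (Λ → ℂ)) (hfin : Fam.Finite) (hE : ∀ E ∈ Fam, ∀ s, ‖E s‖ = 1)
    (h0 : ∀ E ∈ Fam, ∑ s, E s = 0) (eps : ℝ) (heps : 0 < eps) :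
    Nonempty (LabelDesign q Λ Fam eps) := by
  -- the enlarged family
  set M : ℕ := Fintype.card Λ with hM
  have hM0 : 0 < M := Fintype.card_pos
  have hM1 : (0:ℝ) < M := by exact_mod_cast hM0
  set Fam' : Set (Λ → ℂ) := Fam ∪ (fun κ : ℕ => (DlDist.chi κ : Λ → ℂ)) '' {κ | 0 < κ ∧ κ < M}
    with hFam'
  have hfin' : Fam'.Finite := by
    refine hfin.union (Set.Finite.image _ ?_)
    exact (Set.finite_lt_nat M).subset fun κ hκ => hκ.2
  have hE' : ∀ E ∈ Fam', ∀ s, ‖E s‖ = 1 := by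
    rintro E (h | ⟨κ, -, rfl⟩) s
    · exact hE E h s
    · exact DlDist.norm_chi κ s
  have h0' : ∀ E ∈ Fam', ∑ s, E s = 0 := by
    rintro E (h | ⟨κ, hκ, rfl⟩)
    · exact h0 E h
    · exact DlDist.sum_chi hκ.1 hκ.2
  -- constants
  set d : ℝ := eps / (M + 1) with hd
  have hd0 : 0 < d := by positivity
  have hdeps : d ≤ eps := div_le_self heps.le (by linarith)
  have hMd : (M:ℝ) * d ≤ eps := by
    rw [hd, mul_div_assoc', div_le_iff₀ (by positivity)]
    nlinarith
  set e : ℝ := min (d ^ 2 / 4) (min eps 1 / 2) with he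
  have he0 : 0 < e := by
    apply lt_min (by positivity)
    have : 0 < min eps 1 := lt_min heps one_pos
    positivity
  have he1 : 2 * e + 2 * e ≤ d ^ 2 := by
    have := min_le_left (d ^ 2 / 4) (min eps 1 / 2)
    rw [← he] at this
    linarith
  have he2 : e + e ≤ min eps 1 := by
    have := min_le_right (d ^ 2 / 4) (min eps 1 / 2)
    rw [← he] at this
    linarith
  have he3 : e + e ≤ eps := he2.trans (min_le_left _ _)
  have he4 : e + e ≤ 1 := he2.trans (min_le_right _ _)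
  set eta : ℝ := min eps 1 / 4 with heta
  have heta0 : 0 < eta := by
    have : 0 < min eps 1 := lt_min heps one_pos
    positivity
  have heta1 : eta < 1 / 2 := by
    have := min_le_right eps 1
    rw [heta]; linarith
  have heta2 : eta ≤ eps := by
    have := min_le_left eps 1
    have h3 : 0 < min eps 1 := lt_min heps one_pos
    rw [heta]; linarith
  -- data
  obtain ⟨TL⟩ := Spread.exists_torusLabels Λ Fam' hfin' hE' h0' e he0
  obtain ⟨D0⟩ := exists_design TL.T TL.T_pos TL.T_np TL.w TL.w_pos TL.w_hi e he0 q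
  obtain ⟨D⟩ := toL D0
  obtain ⟨Rd, hRd⟩ := D.exists_rounded
    (by intro t ht; rw [dot_e0]; exact TL.T_pos t ht) q hq le_rfl eta heta0 D.h
  have hn := Rd.n_pos
  choose x hx using exists_x TL D Rd hn
  have hv := vv_pos TL D
  have hP : (0:ℝ) < D.P := by exact_mod_cast D.P_pos
  have hh : (0:ℝ) < D.h := by exact_mod_cast D.h_pos
  have hQ : (0:ℝ) < D.Q := by exact_mod_cast D.Q_pos
  have hmain := fun (p : Fin D.P) (E : Λ → ℂ) (hEF : E ∈ Fam') =>
    main_piece TL D Rd x heta1.le he0.le p (fun E hE => hx p E hE) (Classical.arbitrary Λ) E hEF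
      (hE' E hEF)
  set d0 : Λ := Classical.arbitrary Λ with hd0'
  -- the structure
  let lab : ℕ → ℤ → ℝ → Λ := fun p i θ =>
    if h : p < D.P then labP TL D Rd x ⟨p, h⟩ i θ else d0
  let line : ℕ → ℤ → ℤ → Prop := fun p a b =>
    ∃ h : p < D.P, (sys TL D Rd x heta1.le ⟨p, h⟩).line a b
  let ll : ℕ → ℤ → ℤ → Λ := fun p a b =>
    if h : p < D.P then (sys TL D Rd x heta1.le ⟨p, h⟩).ll d0 a b else d0
  let amp : ℕ → ℤ → ℤ → ℂ := fun p a b =>
    if h : p < D.P then (sys TL D Rd x heta1.le ⟨p, h⟩).amp a b else 1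
  have hlab : ∀ (p : ℕ) (h : p < D.P), lab p = labP TL D Rd x ⟨p, h⟩ := by
    intro p h; funext i θ; simp only [lab, dif_pos h]
  have hll : ∀ (p : ℕ) (h : p < D.P), ll p = (sys TL D Rd x heta1.le ⟨p, h⟩).ll d0 := by
    intro p h; funext a b; simp only [ll, dif_pos h]
  have hamp : ∀ (p : ℕ) (h : p < D.P), amp p = (sys TL D Rd x heta1.le ⟨p, h⟩).amp := by
    intro p h; funext a b; simp only [amp, dif_pos h]
  have hline : ∀ (p : ℕ) (h : p < D.P) (a b : ℤ),
      line p a b ↔ (sys TL D Rd x heta1.le ⟨p, h⟩).line a b := by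
    intro p h a b
    exact ⟨fun ⟨_, h2⟩ => h2, fun h2 => ⟨h, h2⟩⟩
  have hmainC : ∀ (p : ℕ) (h : p < D.P) (E : Λ → ℂ) (a b : ℤ),
      mainC (vv TL D) line ll amp E p a b
        = (if (sys TL D Rd x heta1.le ⟨p, h⟩).line a b then
            ((Real.sqrt (|(b:ℝ)| * vv TL D) : ℝ) : ℂ) * (sys TL D Rd x heta1.le ⟨p, h⟩).amp a b
              * E ((sys TL D Rd x heta1.le ⟨p, h⟩).ll d0 a b) else 0) := by
    intro p h E a b
    unfold mainC
    by_cases hl : line p a b
    · rw [if_pos hl, if_pos ((hline p h a b).1 hl), hll p h, hamp p h]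
    · rw [if_neg hl, if_neg (fun h' => hl ((hline p h a b).2 h'))]
  have hBound : ∀ (p : Fin D.P), ∀ l ∈ (sys TL D Rd x heta1.le p).ls,
      |(sys TL D Rd x heta1.le p).bl l| ≤ ∑ t ∈ TL.T, t 0 := by
    intro p l hl
    rw [abs_bl TL D Rd x heta1.le p hl]
    exact Finset.single_le_sum (f := fun t : Fin (TL.n+1) → ℤ => t 0)
      (fun t ht => by have := TL.T_pos t ht; linarith)
      ((mem_ls TL D Rd x heta1.le p l).1 hl).1
  have hMain2 : ∀ p < D.P, ∀ E ∈ Fam', Summable (fun x : Fin Rd.n × ℤ =>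
      ‖Dco Rd.n (fun i θ => E (lab p i θ)) x.1 x.2
        - mainC (vv TL D) line ll amp E p x.1 x.2‖ ^ 2) ∧
      ∑' x : Fin Rd.n × ℤ, ‖Dco Rd.n (fun i θ => E (lab p i θ)) x.1 x.2
        - mainC (vv TL D) line ll amp E p x.1 x.2‖ ^ 2 ≤ d ^ 2 := by
    intro p hp E hEF
    obtain ⟨h1, h2⟩ := hmain ⟨p, hp⟩ E hEF
    simp only [hmainC p hp, hlab p hp]
    exact ⟨h1, h2.trans he1⟩
  refine ⟨{
    qq := Rd.n
    qq_pos := hn
    cop := Rd.cop
    P := D.P
    P_pos := D.P_pos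
    v := vv TL D
    v_pos := hv
    full := ?_
    lab := lab
    lab_meas := ?_
    lab_per := ?_
    lab_one := ?_
    line := line
    line_lt := fun p a b h => h.1
    line_ne := ?_
    B := ∑ t ∈ TL.T, t 0
    line_B := ?_
    line_per := ?_
    line_symm := ?_
    ll := ll
    ll_per := ?_
    ll_symm := ?_
    amp := amp
    amp_norm := ?_
    amp_per := ?_
    amp_symm := ?_
    eta := eta
    eta_pos := heta0
    eta_half := heta1
    eta_eps := heta2
    inj := ?_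
    cover := ?_
    dist := ?_
    main_summable := fun p hp E hEF => (hMain2 p hp E (Or.inl hEF)).1
    main := fun p hp E hEF => (hMain2 p hp E (Or.inl hEF)).2.trans
      (pow_le_pow_left₀ hd0.le hdeps 2) }⟩
  · -- full
    have h1 : vv TL D * (Rd.n : ℝ) = D.P * Rd.m / D.h := by
      unfold vv Rounded.n; push_cast; field_simp
    rw [h1, le_div_iff₀ hh, one_mul]
    have h2 : (D.h : ℝ) ≤ Rd.m := by exact_mod_cast hRd
    have h3 : (1:ℝ) ≤ D.P := by exact_mod_cast D.P_pos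
    nlinarith
  · -- lab_meas
    intro p i n
    by_cases h : p < D.P
    · rw [hlab p h]
      exact labP_meas TL D Rd x ⟨p, h⟩ i n
    · have : lab p = fun _ _ => d0 := by funext i θ; simp only [lab, dif_neg h]
      rw [this]
      exact MeasurableSet.const _
  · intro p i θ
    by_cases h : p < D.P
    · rw [hlab p h]; exact labP_per TL D Rd x ⟨p, h⟩ i θ
    · simp only [lab, dif_neg h]
  · intro p i θ
    by_cases h : p < D.P
    · rw [hlab p h]; exact labP_one TL D Rd x ⟨p, h⟩ i θ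
    · simp only [lab, dif_neg h]
  · -- line_ne
    rintro p a b ⟨h, l, hl⟩
    rw [← hl.2.1]
    exact bl_ne TL D Rd x heta1.le ⟨p, h⟩ hl.1
  · -- line_B
    rintro p a b ⟨h, l, hl⟩
    rw [← hl.2.1]
    exact hBound ⟨p, h⟩ l hl.1
  · intro p a b
    exact exists_congr fun h => (sys TL D Rd x heta1.le ⟨p, h⟩).line_per a b
  · intro p a b
    exact exists_congr fun h => (sys TL D Rd x heta1.le ⟨p, h⟩).line_symm a b
  · intro p a b
    by_cases h : p < D.P
    · rw [hll p h]; exact (sys TL D Rd x heta1.le ⟨p, h⟩).ll_per d0 a b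
    · simp only [ll, dif_neg h]
  · intro p a b
    by_cases h : p < D.P
    · rw [hll p h]; exact (sys TL D Rd x heta1.le ⟨p, h⟩).ll_symm d0 a b
    · simp only [ll, dif_neg h]
  · intro p a b
    by_cases h : p < D.P
    · rw [hamp p h]; exact (sys TL D Rd x heta1.le ⟨p, h⟩).amp_norm a b
    · simp only [amp, dif_neg h]; exact norm_one
  · intro p a b
    by_cases h : p < D.P
    · rw [hamp p h]; exact (sys TL D Rd x heta1.le ⟨p, h⟩).amp_per a b
    · simp only [amp, dif_neg h]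
  · intro p a b
    by_cases h : p < D.P
    · rw [hamp p h]; exact (sys TL D Rd x heta1.le ⟨p, h⟩).amp_symm a b
    · simp only [amp, dif_neg h]; exact (map_one _).symm
  · -- inj
    rintro p p' a b a' b' ⟨hp, l, hl⟩ ⟨hp', l', hl'⟩ y y' hy hy2 hy' hy2' k h
    obtain ⟨h1, h2, h3, h4⟩ := inj_main TL D Rd x heta1.le ⟨p, hp⟩ ⟨p', hp'⟩ hl hl' hy hy2 hy' hy2'
      (k := k) h
    exact ⟨congrArg Fin.val h1, h2, h3, h4⟩
  · -- cover
    have h1 : ∀ p ∈ range D.P, 1 - eps ≤ ∑ a ∈ range Rd.n, ∑ b ∈ Icc (-(∑ t ∈ TL.T, t 0))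
        (∑ t ∈ TL.T, t 0), (if line p (a : ℤ) b then |(b:ℝ)| * vv TL D else 0) := by
      intro p hp
      have hp' := mem_range.1 hp
      set S := sys TL D Rd x heta1.le ⟨p, hp'⟩ with hS
      have h2 := S.sum_lines hn (∑ t ∈ TL.T, t 0) (hBound ⟨p, hp'⟩)
        (fun l => |(S.bl l : ℝ)| * vv TL D)
      have h3 : ∀ a b : ℤ, (if line p a b then |(b:ℝ)| * vv TL D else 0)
          = ∑ l' ∈ S.ls, (if S.bl l' = b ∧ (Rd.n:ℤ) ∣ a - S.al l' then
              |(S.bl l' : ℝ)| * vv TL D else 0) := by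
        intro a b
        by_cases hl : S.line a b
        · obtain ⟨l, hl⟩ := hl
          rw [S.sum_on (fun l => |(S.bl l : ℝ)| * vv TL D) hl,
            if_pos ((hline p hp' a b).2 ⟨l, hl⟩), hl.2.1]
        · rw [S.sum_not (fun l => |(S.bl l : ℝ)| * vv TL D) hl,
            if_neg (fun h => hl ((hline p hp' a b).1 h))]
      simp only [h3]
      rw [h2]
      have h4 := cover_piece TL D Rd x he0.le he0 he4 heta1.le ⟨p, hp'⟩
      rw [← hS] at h4
      linarith
    have h5 : (D.P : ℝ) * (1 - eps) ≤ ∑ p ∈ range D.P, ∑ a ∈ range Rd.n,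
        ∑ b ∈ Icc (-(∑ t ∈ TL.T, t 0)) (∑ t ∈ TL.T, t 0),
        (if line p (a : ℤ) b then |(b:ℝ)| * vv TL D else 0) := by
      have := Finset.sum_le_sum h1
      rwa [sum_const, card_range, nsmul_eq_mul] at this
    have h6 : 1 - eps ≤ (1 / (D.P:ℝ)) * ∑ p ∈ range D.P, ∑ a ∈ range Rd.n,
        ∑ b ∈ Icc (-(∑ t ∈ TL.T, t 0)) (∑ t ∈ TL.T, t 0),
        (if line p (a : ℤ) b then |(b:ℝ)| * vv TL D else 0) := by
      rw [one_div, inv_mul_eq_div, le_div_iff₀ hP, mul_comm]
      exact h5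
    refine h6.trans (le_of_eq ?_)
    congr 1
    refine sum_congr rfl fun p _ => sum_congr rfl fun a _ => sum_congr rfl fun b _ => ?_
    split_ifs <;> rfl
  · -- dist
    intro p hp
    refine le_trans (DlDist.dist_piece' hn (lab p) (fun i s => ?_) d hd0.le ?_) hMd
    · rw [hlab p hp]; exact labP_meas TL D Rd x ⟨p, hp⟩ i s
    · intro κ hκ0 hκ1
      obtain ⟨h1, h2⟩ := hMain2 p hp (DlDist.chi κ) (Or.inr ⟨κ, ⟨hκ0, hκ1⟩, rfl⟩)
      have h3 := h1.le_tsum (⟨0, hn⟩, 0) (fun y _ => by positivity)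
      have h4 : mainC (vv TL D) line ll amp (DlDist.chi κ) p
          (((⟨0, hn⟩ : Fin Rd.n) : ℕ) : ℤ) 0 = 0 := by
        rw [hmainC p hp, if_neg]
        rintro ⟨l, hl⟩
        exact bl_ne TL D Rd x heta1.le ⟨p, hp⟩ hl.1 hl.2.1
      simp only at h3
      rw [h4, sub_zero] at h3
      have h5 := h3.trans h2
      have h6 := abs_le_of_sq_le_sq h5 hd0.le
      have h7 : ((((⟨0, hn⟩ : Fin Rd.n) : ℕ)) : ℤ) = 0 := rfl
      rw [h7] at h6
      exact (le_abs_self _).trans h6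

end Crest.Agent.R081.Dl
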