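import Crest.Agent.R081.Dg9
import Crest.Agent.R081.DlFinal

/-! Row 81, route B, node DGLUE: `St.DesStmt`. -/

set_option autoImplicit false

namespace Crest.Agent.R081.Dg

/-- **the design exists** -/
theorem desStmt : St.DesStmt :=
  desStmt_of (fun q hq M1 M2 _ _ Fam hfin huni hsum e he =>
    Dl.exists_labelDesign q hq (ZMod M1 × ZMod M2) Fam hfin huni hsum e he)

end Crest.Agent.R081.Dg
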