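import Crest.Agent.R081.Asm4
import Crest.Agent.R081.DgFin

/-! Row 81, route B (architect helper310): S0108. -/

set_option autoImplicit false

namespace Crest.Agent.R081.Asm

/-- the literal conclusion of S0108 -/
theorem goal : Glue.Goal := goal_of_des Dg.desStmt

end Crest.Agent.R081.Asm
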