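import Mathlib

/-! Row 81: uniform `C^∞` calculus for families of smooth maps. -/

set_option autoImplicit false

namespace Crest.Agent.R081.Fam

open scoped ContDiff

noncomputable section

variable {Θ : Type} {E F G K : Type}
  [NormedAddCommGroup E] [NormedSpace ℝ E] [NormedAddCommGroup F] [NormedSpace ℝ F]
  [NormedAddCommGroup G] [NormedSpace ℝ G] [NormedAddCommGroup K] [NormedSpace ℝ K]

/-- The family `f θ` is smooth and all its derivatives (of order `≥ 0`) are `O(δ θ)` uniformly. -/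
def Bd (δ : Θ → ℝ) (f : Θ → E → F) : Prop :=
  (∀ θ, ContDiff ℝ ∞ (f θ)) ∧
    ∀ k : ℕ, ∃ C : ℝ, 0 ≤ C ∧ ∀ θ x, ‖iteratedFDeriv ℝ k (f θ) x‖ ≤ C * δ θ

/-- The family is smooth and all its derivatives of order `≥ 1` are uniformly bounded. -/
def UB (f : Θ → E → F) : Prop :=
  (∀ θ, ContDiff ℝ ∞ (f θ)) ∧ Bd (fun _ => (1 : ℝ)) (fun θ => fderiv ℝ (f θ))

theorem Bd.smooth {δ : Θ → ℝ} {f : Θ → E → F} (h : Bd δ f) (θ : Θ) : ContDiff ℝ ∞ (f θ) := h.1 θ

theorem UB.smooth {f : Θ → E → F} (h : UB f) (θ : Θ) : ContDiff ℝ ∞ (f θ) := h.1 θ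

theorem Bd.bound_le {δ : Θ → ℝ} {f : Θ → E → F} (h : Bd δ f) (hδ : ∀ θ, 0 ≤ δ θ) (n : ℕ) :
    ∃ C : ℝ, 0 ≤ C ∧ ∀ θ x, ∀ k ≤ n, ‖iteratedFDeriv ℝ k (f θ) x‖ ≤ C * δ θ := by
  induction n with
  | zero =>
    obtain ⟨C, hC, h'⟩ := h.2 0
    refine ⟨C, hC, fun θ x k hk => ?_⟩
    obtain rfl : k = 0 := by omega
    exact h' θ x
  | succ n ih =>
    obtain ⟨C, hC, h1⟩ := ih
    obtain ⟨C', hC', h2⟩ := h.2 (n + 1)
    refine ⟨C + C', by positivity, fun θ x k hk => ?_⟩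
    have hd := hδ θ
    rcases Nat.lt_or_ge k (n + 1) with hk' | hk'
    · refine (h1 θ x k (by omega)).trans ?_
      nlinarith [mul_nonneg hC' hd]
    · obtain rfl : k = n + 1 := by omega
      refine (h2 θ x).trans ?_
      nlinarith [mul_nonneg hC hd]

theorem contDiff_fderiv {f : E → F} (hf : ContDiff ℝ ∞ f) : ContDiff ℝ ∞ (fderiv ℝ f) :=
  hf.fderiv_right (m := ∞) (by simp)

theorem Bd.fd {δ : Θ → ℝ} {f : Θ → E → F} (h : Bd δ f) : Bd δ (fun θ => fderiv ℝ (f θ)) := by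
  refine ⟨fun θ => contDiff_fderiv (h.1 θ), fun k => ?_⟩
  obtain ⟨C, hC, h'⟩ := h.2 (k + 1)
  refine ⟨C, hC, fun θ x => ?_⟩
  rw [norm_iteratedFDeriv_fderiv]
  exact h' θ x

theorem Bd.of_fderiv {δ : Θ → ℝ} {f : Θ → E → F} (hf : ∀ θ, ContDiff ℝ ∞ (f θ))
    (h0 : ∃ C : ℝ, 0 ≤ C ∧ ∀ θ x, ‖f θ x‖ ≤ C * δ θ) (h : Bd δ (fun θ => fderiv ℝ (f θ))) : Bd δ f := by
  refine ⟨hf, fun k => ?_⟩
  cases k with
  | zero =>
    obtain ⟨C, hC, h'⟩ := h0
    exact ⟨C, hC, fun θ x => by rw [norm_iteratedFDeriv_zero]; exact h' θ x⟩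
  | succ k =>
    obtain ⟨C, hC, h'⟩ := h.2 k
    refine ⟨C, hC, fun θ x => ?_⟩
    rw [← norm_iteratedFDeriv_fderiv]
    exact h' θ x

theorem Bd.norm_le {δ : Θ → ℝ} {f : Θ → E → F} (h : Bd δ f) :
    ∃ C : ℝ, 0 ≤ C ∧ ∀ θ x, ‖f θ x‖ ≤ C * δ θ := by
  obtain ⟨C, hC, h'⟩ := h.2 0
  exact ⟨C, hC, fun θ x => by have := h' θ x; rwa [norm_iteratedFDeriv_zero] at this⟩

theorem Bd.mono {δ δ' : Θ → ℝ} {f : Θ → E → F} (h : Bd δ f) {c : ℝ} (hc : 0 ≤ c) (hd : ∀ θ, δ θ ≤ c * δ' θ) :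
    Bd δ' f := by
  refine ⟨h.1, fun k => ?_⟩
  obtain ⟨C, hC, h'⟩ := h.2 k
  refine ⟨C * c, by positivity, fun θ x => (h' θ x).trans ?_⟩
  have := mul_le_mul_of_nonneg_left (hd θ) hC
  linarith

theorem Bd.congr {δ : Θ → ℝ} {f g : Θ → E → F} (h : Bd δ f) (e : ∀ θ x, g θ x = f θ x) : Bd δ g := by
  have : g = f := by funext θ x; exact e θ x
  rw [this]; exact h

theorem UB.congr {f g : Θ → E → F} (h : UB f) (e : ∀ θ x, g θ x = f θ x) : UB g := by
  have : g = f := by funext θ x; exact e θ x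
  rw [this]; exact h

theorem Bd.reindex {Θ' : Type} {δ : Θ → ℝ} {f : Θ → E → F} (h : Bd δ f) (u : Θ' → Θ) :
    Bd (fun t => δ (u t)) (fun t => f (u t)) :=
  ⟨fun t => h.1 (u t), fun k => by
    obtain ⟨C, hC, h'⟩ := h.2 k
    exact ⟨C, hC, fun t x => h' (u t) x⟩⟩

theorem UB.reindex {Θ' : Type} {f : Θ → E → F} (h : UB f) (u : Θ' → Θ) : UB (fun t => f (u t)) :=
  ⟨fun t => h.1 (u t), h.2.reindex u⟩

theorem Bd.add {δ : Θ → ℝ} {f g : Θ → E → F} (hf : Bd δ f) (hg : Bd δ g) :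
    Bd δ (fun θ x => f θ x + g θ x) := by
  refine ⟨fun θ => (hf.1 θ).add (hg.1 θ), fun k => ?_⟩
  obtain ⟨C, hC, h1⟩ := hf.2 k
  obtain ⟨C', hC', h2⟩ := hg.2 k
  refine ⟨C + C', by positivity, fun θ x => ?_⟩
  have e : iteratedFDeriv ℝ k (fun x => f θ x + g θ x) x
      = iteratedFDeriv ℝ k (f θ) x + iteratedFDeriv ℝ k (g θ) x := by
    have := iteratedFDeriv_add_apply (𝕜 := ℝ) (i := k) (x := x) (f := f θ) (g := g θ)
      (((hf.1 θ).of_le (by exact_mod_cast le_top)).contDiffAt)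
      (((hg.1 θ).of_le (by exact_mod_cast le_top)).contDiffAt)
    exact this
  rw [e]
  refine (norm_add_le _ _).trans ?_
  have a := h1 θ x
  have b := h2 θ x
  linarith

theorem Bd.neg {δ : Θ → ℝ} {f : Θ → E → F} (hf : Bd δ f) : Bd δ (fun θ x => - f θ x) := by
  refine ⟨fun θ => (hf.1 θ).neg, fun k => ?_⟩
  obtain ⟨C, hC, h1⟩ := hf.2 k
  refine ⟨C, hC, fun θ x => ?_⟩
  have e : iteratedFDeriv ℝ k (fun x => - f θ x) x = - iteratedFDeriv ℝ k (f θ) x := by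
    have := iteratedFDeriv_neg_apply (𝕜 := ℝ) (i := k) (x := x) (f := f θ)
    exact this
  rw [e, norm_neg]
  exact h1 θ x

theorem Bd.sub {δ : Θ → ℝ} {f g : Θ → E → F} (hf : Bd δ f) (hg : Bd δ g) :
    Bd δ (fun θ x => f θ x - g θ x) :=
  (hf.add hg.neg).congr fun θ x => by rw [sub_eq_add_neg]

theorem Bd.zero {δ : Θ → ℝ} (hδ : ∀ θ, 0 ≤ δ θ) : Bd δ (fun (_ : Θ) (_ : E) => (0 : F)) := by
  refine ⟨fun θ => contDiff_const, fun k => ⟨0, le_rfl, fun θ x => ?_⟩⟩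
  have : iteratedFDeriv ℝ k (fun (_ : E) => (0 : F)) x = 0 := by
    rw [iteratedFDeriv_fun_zero]; rfl
  show ‖iteratedFDeriv ℝ k (fun (_ : E) => (0 : F)) x‖ ≤ 0 * δ θ
  rw [this]
  simp

theorem Bd.const {δ : Θ → ℝ} (c : Θ → F) {C : ℝ} (hC : 0 ≤ C) (hc : ∀ θ, ‖c θ‖ ≤ C * δ θ)
    (hδ : ∀ θ, 0 ≤ δ θ) : Bd δ (fun (θ : Θ) (_ : E) => c θ) := by
  refine Bd.of_fderiv (fun θ => contDiff_const) ⟨C, hC, fun θ x => hc θ⟩ ?_
  refine (Bd.zero hδ).congr fun θ x => ?_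
  simp

/-- Bilinear products. -/
theorem Bd.bilin {δ δ' : Θ → ℝ} (B : F →L[ℝ] G →L[ℝ] K) {f : Θ → E → F} {g : Θ → E → G}
    (hf : Bd δ f) (hg : Bd δ' g) (hδ : ∀ θ, 0 ≤ δ θ) (hδ' : ∀ θ, 0 ≤ δ' θ) :
    Bd (fun θ => δ θ * δ' θ) (fun θ x => B (f θ x) (g θ x)) := by
  refine ⟨fun θ => (B.isBoundedBilinearMap.contDiff.comp ((hf.1 θ).prodMk (hg.1 θ))), fun k => ?_⟩
  obtain ⟨C, hC, h1⟩ := hf.bound_le hδ k
  obtain ⟨C', hC', h2⟩ := hg.bound_le hδ' k
  refine ⟨‖B‖ * (∑ i ∈ Finset.range (k + 1), (k.choose i : ℝ) * C * C'), by positivity, fun θ x => ?_⟩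
  refine (B.norm_iteratedFDeriv_le_of_bilinear (hf.1 θ) (hg.1 θ) x
    (n := k) (by exact_mod_cast le_top)).trans ?_
  rw [mul_assoc, Finset.sum_mul]
  refine mul_le_mul_of_nonneg_left (Finset.sum_le_sum fun i hi => ?_) (norm_nonneg B)
  have hi' : i ≤ k := by simpa [Nat.lt_succ_iff] using hi
  have a := h1 θ x i hi'
  have b := h2 θ x (k - i) (Nat.sub_le _ _)
  have hd := hδ θ
  have hd' := hδ' θ
  calc (k.choose i : ℝ) * ‖iteratedFDeriv ℝ i (f θ) x‖ * ‖iteratedFDeriv ℝ (k - i) (g θ) x‖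
      ≤ (k.choose i : ℝ) * (C * δ θ) * (C' * δ' θ) := by gcongr
    _ = (k.choose i : ℝ) * C * C' * (δ θ * δ' θ) := by ring

theorem Bd.clm {δ : Θ → ℝ} (L : F →L[ℝ] G) {f : Θ → E → F} (hf : Bd δ f) :
    Bd δ (fun θ x => L (f θ x)) := by
  refine ⟨fun θ => L.contDiff.comp (hf.1 θ), fun k => ?_⟩
  obtain ⟨C, hC, h1⟩ := hf.2 k
  refine ⟨‖L‖ * C, by positivity, fun θ x => ?_⟩
  have := L.norm_iteratedFDeriv_comp_left (f := f θ) (x := x) (n := k) (N := ∞)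
    (hf.1 θ).contDiffAt (by exact_mod_cast le_top)
  refine this.trans ?_
  rw [mul_assoc]
  exact mul_le_mul_of_nonneg_left (h1 θ x) (norm_nonneg _)

/-- Right composition. -/
theorem Bd.comp {δ : Θ → ℝ} (hδ : ∀ θ, 0 ≤ δ θ) {f : Θ → F → G} (hf : Bd δ f) {g : Θ → E → F} (hg : UB g) :
    Bd δ (fun θ x => f θ (g θ x)) := by
  refine ⟨fun θ => (hf.1 θ).comp (hg.1 θ), fun k => ?_⟩
  obtain ⟨C, hC, h1⟩ := hf.bound_le hδ k
  obtain ⟨D, hD, h2⟩ := hg.2.bound_le (fun _ => zero_le_one) k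
  refine ⟨k.factorial * C * (D + 1) ^ k, by positivity, fun θ x => ?_⟩
  have := norm_iteratedFDeriv_comp_le (𝕜 := ℝ) (g := f θ) (f := g θ) (n := k) (N := ∞) (hf.1 θ) (hg.1 θ)
    (by exact_mod_cast le_top) x (C := C * δ θ) (D := D + 1) (fun i hi => h1 θ (g θ x) i hi) ?_
  · refine (this).trans (le_of_eq ?_)
    ring
  · intro i hi1 hik
    obtain ⟨j, rfl⟩ : ∃ j, i = j + 1 := ⟨i - 1, by omega⟩
    rw [← norm_iteratedFDeriv_fderiv]
    have := h2 θ x j (by omega)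
    rw [mul_one] at this
    refine this.trans ?_
    have h1' : (1 : ℝ) ≤ D + 1 := by linarith
    calc D ≤ (D + 1) ^ 1 := by rw [pow_one]; linarith
      _ ≤ (D + 1) ^ (j + 1) := pow_le_pow_right₀ h1' (by omega)

theorem UB.comp {f : Θ → F → G} (hf : UB f) {g : Θ → E → F} (hg : UB g) :
    UB (fun θ x => f θ (g θ x)) := by
  refine ⟨fun θ => (hf.1 θ).comp (hg.1 θ), ?_⟩
  have h := (hf.2.comp (fun _ => zero_le_one) hg).bilin (ContinuousLinearMap.compL ℝ E F G) hg.2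
    (fun _ => zero_le_one) (fun _ => zero_le_one)
  refine (h.mono (δ' := fun _ => 1) (c := 1) zero_le_one (fun θ => by norm_num)).congr fun θ x => ?_
  have := fderiv_comp x (((hf.1 θ).differentiable (by simp)) (g θ x)) (((hg.1 θ).differentiable (by simp)) x)
  exact this

theorem Bd.ub {δ : Θ → ℝ} {f : Θ → E → F} (h : Bd δ f) {c : ℝ} (hc : 0 ≤ c) (hd : ∀ θ, δ θ ≤ c) : UB f :=
  ⟨h.1, h.fd.mono hc (fun θ => by simpa using hd θ)⟩

theorem UB.add {f g : Θ → E → F} (hf : UB f) (hg : UB g) : UB (fun θ x => f θ x + g θ x) := by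
  refine ⟨fun θ => (hf.1 θ).add (hg.1 θ), (hf.2.add hg.2).congr fun θ x => ?_⟩
  exact fderiv_fun_add (((hf.1 θ).differentiable (by simp)) x) (((hg.1 θ).differentiable (by simp)) x)

theorem UB.sub {f g : Θ → E → F} (hf : UB f) (hg : UB g) : UB (fun θ x => f θ x - g θ x) := by
  refine ⟨fun θ => (hf.1 θ).sub (hg.1 θ), (hf.2.sub hg.2).congr fun θ x => ?_⟩
  exact fderiv_fun_sub (((hf.1 θ).differentiable (by simp)) x) (((hg.1 θ).differentiable (by simp)) x)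

theorem UB.clm (L : Θ → E →L[ℝ] F) {C : ℝ} (hC : 0 ≤ C) (hL : ∀ θ, ‖L θ‖ ≤ C) : UB (fun θ x => L θ x) := by
  refine ⟨fun θ => (L θ).contDiff, ?_⟩
  refine (Bd.const (δ := fun _ => (1:ℝ)) L hC (fun θ => by simpa using hL θ) (fun _ => zero_le_one)).congr
    fun θ x => ?_
  exact (L θ).fderiv

theorem UB.const (c : Θ → F) : UB (fun (θ : Θ) (_ : E) => c θ) := by
  refine ⟨fun θ => contDiff_const, ?_⟩
  refine (Bd.zero (δ := fun _ => (1:ℝ)) (fun _ => zero_le_one)).congr fun θ x => ?_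
  simp

/-- Left composition of a difference. -/
theorem Bd.comp_left_aux {δ : Θ → ℝ} (hδ : ∀ θ, 0 ≤ δ θ) {f g : Θ → E → F} (hf : UB f) (hg : UB g)
    (hfg : Bd δ (fun θ x => f θ x - g θ x)) (k : ℕ) :
    ∀ (G : Type) [NormedAddCommGroup G] [NormedSpace ℝ G] (H : Θ → F → G), UB H →
      ∃ C : ℝ, 0 ≤ C ∧ ∀ θ x, ‖iteratedFDeriv ℝ k (fun x => H θ (f θ x) - H θ (g θ x)) x‖ ≤ C * δ θ := by
  induction k using Nat.strong_induction_on with
  | _ k ih =>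
    intro G _ _ H hH
    cases k with
    | zero =>
      obtain ⟨C, hC, h1⟩ := hfg.norm_le
      obtain ⟨D, hD, h2⟩ := hH.2.norm_le
      refine ⟨D * C, by positivity, fun θ x => ?_⟩
      rw [norm_iteratedFDeriv_zero]
      have hl : ‖H θ (f θ x) - H θ (g θ x)‖ ≤ D * ‖f θ x - g θ x‖ := by
        refine Convex.norm_image_sub_le_of_norm_fderiv_le (𝕜 := ℝ) (s := Set.univ) (f := H θ)
          (fun y _ => ((hH.1 θ).differentiable (by simp)) y) (fun y _ => ?_) convex_univ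
          (Set.mem_univ _) (Set.mem_univ _)
        simpa using h2 θ y
      refine hl.trans ?_
      rw [mul_assoc]
      exact mul_le_mul_of_nonneg_left (h1 θ x) hD
    | succ k =>
      have hHf : ∀ θ, Differentiable ℝ (H θ) := fun θ => (hH.1 θ).differentiable (by simp)
      have hff : ∀ θ, Differentiable ℝ (f θ) := fun θ => (hf.1 θ).differentiable (by simp)
      have hgg : ∀ θ, Differentiable ℝ (g θ) := fun θ => (hg.1 θ).differentiable (by simp)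
      -- the derivative of the difference
      have key : ∀ θ, fderiv ℝ (fun x => H θ (f θ x) - H θ (g θ x)) = fun x =>
          ContinuousLinearMap.compL ℝ E F G (fderiv ℝ (H θ) (f θ x) - fderiv ℝ (H θ) (g θ x)) (fderiv ℝ (f θ) x)
          + ContinuousLinearMap.compL ℝ E F G (fderiv ℝ (H θ) (g θ x))
            (fderiv ℝ (fun y => f θ y - g θ y) x) := by
        intro θ
        funext x
        have e0 : fderiv ℝ (fun x => H θ (f θ x) - H θ (g θ x)) x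
            = fderiv ℝ (fun x => H θ (f θ x)) x - fderiv ℝ (fun x => H θ (g θ x)) x :=
          fderiv_fun_sub (f := fun x => H θ (f θ x)) (g := fun x => H θ (g θ x))
            ((hHf θ).comp (hff θ) x) ((hHf θ).comp (hgg θ) x)
        rw [e0]
        have e1 : fderiv ℝ (fun x => H θ (f θ x)) x = (fderiv ℝ (H θ) (f θ x)).comp (fderiv ℝ (f θ) x) :=
          fderiv_comp x ((hHf θ) _) ((hff θ) x)
        have e2 : fderiv ℝ (fun x => H θ (g θ x)) x = (fderiv ℝ (H θ) (g θ x)).comp (fderiv ℝ (g θ) x) :=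
          fderiv_comp x ((hHf θ) _) ((hgg θ) x)
        rw [e1, e2, fderiv_fun_sub ((hff θ) x) ((hgg θ) x)]
        simp only [ContinuousLinearMap.compL_apply]
        ext v
        simp [ContinuousLinearMap.comp_apply]
      -- first term: strong induction
      have hDH : UB (fun θ => fderiv ℝ (H θ)) := hH.2.ub (c := 1) zero_le_one (fun _ => le_rfl)
      have hA : ∃ C : ℝ, 0 ≤ C ∧ ∀ θ x, ∀ i ≤ k,
          ‖iteratedFDeriv ℝ i (fun x => fderiv ℝ (H θ) (f θ x) - fderiv ℝ (H θ) (g θ x)) x‖ ≤ C * δ θ := by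
        have hall : ∀ i, i ≤ k → ∃ C : ℝ, 0 ≤ C ∧ ∀ θ x,
            ‖iteratedFDeriv ℝ i (fun x => fderiv ℝ (H θ) (f θ x) - fderiv ℝ (H θ) (g θ x)) x‖ ≤ C * δ θ :=
          fun i hi => ih i (by omega) (F →L[ℝ] G) (fun θ => fderiv ℝ (H θ)) hDH
        choose! c hc0 hc using hall
        refine ⟨∑ i ∈ Finset.range (k + 1), |c i|, Finset.sum_nonneg fun _ _ => abs_nonneg _,
          fun θ x i hi => (hc i hi θ x).trans ?_⟩
        refine mul_le_mul_of_nonneg_right ?_ (hδ θ)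
        exact (le_abs_self _).trans (Finset.single_le_sum (f := fun i => |c i|) (fun _ _ => abs_nonneg _)
          (Finset.mem_range.2 (by omega)))
      obtain ⟨C₁, hC₁, h₁⟩ := hA
      obtain ⟨C₂, hC₂, h₂⟩ := hf.2.bound_le (fun _ => zero_le_one) k
      have hB := ((hH.2.comp (fun _ => zero_le_one) hg).bilin (ContinuousLinearMap.compL ℝ E F G) hfg.fd
        (fun _ => zero_le_one) hδ)
      obtain ⟨C₃, hC₃, h₃⟩ := hB.2 k
      refine ⟨(∑ i ∈ Finset.range (k + 1), (k.choose i : ℝ) * C₁ * C₂)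
        + C₃, by positivity, fun θ x => ?_⟩
      rw [← norm_iteratedFDeriv_fderiv, key θ]
      have sA : ContDiff ℝ ∞ (fun x => fderiv ℝ (H θ) (f θ x) - fderiv ℝ (H θ) (g θ x)) :=
        ((contDiff_fderiv (hH.1 θ)).comp (hf.1 θ)).sub ((contDiff_fderiv (hH.1 θ)).comp (hg.1 θ))
      have sf : ContDiff ℝ ∞ (fderiv ℝ (f θ)) := contDiff_fderiv (hf.1 θ)
      have s1 : ContDiff ℝ ∞ (fun x => ContinuousLinearMap.compL ℝ E F G
          (fderiv ℝ (H θ) (f θ x) - fderiv ℝ (H θ) (g θ x)) (fderiv ℝ (f θ) x)) :=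
        (ContinuousLinearMap.compL ℝ E F G).isBoundedBilinearMap.contDiff.comp (sA.prodMk sf)
      have e : iteratedFDeriv ℝ k (fun x =>
          ContinuousLinearMap.compL ℝ E F G (fderiv ℝ (H θ) (f θ x) - fderiv ℝ (H θ) (g θ x)) (fderiv ℝ (f θ) x)
          + ContinuousLinearMap.compL ℝ E F G (fderiv ℝ (H θ) (g θ x))
            (fderiv ℝ (fun y => f θ y - g θ y) x)) x
          = iteratedFDeriv ℝ k (fun x => ContinuousLinearMap.compL ℝ E F G
              (fderiv ℝ (H θ) (f θ x) - fderiv ℝ (H θ) (g θ x)) (fderiv ℝ (f θ) x)) x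
            + iteratedFDeriv ℝ k (fun x => ContinuousLinearMap.compL ℝ E F G (fderiv ℝ (H θ) (g θ x))
            (fderiv ℝ (fun y => f θ y - g θ y) x)) x := by
        have := iteratedFDeriv_add_apply (𝕜 := ℝ) (i := k) (x := x)
          (f := fun x => ContinuousLinearMap.compL ℝ E F G
              (fderiv ℝ (H θ) (f θ x) - fderiv ℝ (H θ) (g θ x)) (fderiv ℝ (f θ) x))
          (g := fun x => ContinuousLinearMap.compL ℝ E F G (fderiv ℝ (H θ) (g θ x))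
            (fderiv ℝ (fun y => f θ y - g θ y) x))
          ((s1.of_le (by exact_mod_cast le_top)).contDiffAt)
          (((hB.1 θ).of_le (by exact_mod_cast le_top)).contDiffAt)
        exact this
      rw [e]
      refine (norm_add_le _ _).trans ?_
      rw [add_mul]
      refine add_le_add ?_ (by have := h₃ θ x; simpa using this)
      refine ((ContinuousLinearMap.compL ℝ E F G).norm_iteratedFDeriv_le_of_bilinear_of_le_one sA sf x
        (n := k) (by exact_mod_cast le_top) (ContinuousLinearMap.norm_compL_le ℝ E F G)).trans ?_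
      rw [Finset.sum_mul]
      refine Finset.sum_le_sum fun i hi => ?_
      have hi' : i ≤ k := by simpa [Nat.lt_succ_iff] using hi
      have a := h₁ θ x i hi'
      have b := h₂ θ x (k - i) (Nat.sub_le _ _)
      rw [mul_one] at b
      have hd := hδ θ
      calc (k.choose i : ℝ) * ‖iteratedFDeriv ℝ i (fun x => fderiv ℝ (H θ) (f θ x) - fderiv ℝ (H θ) (g θ x)) x‖
            * ‖iteratedFDeriv ℝ (k - i) (fderiv ℝ (f θ)) x‖
          ≤ (k.choose i : ℝ) * (C₁ * δ θ) * C₂ := by gcongr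
        _ = (k.choose i : ℝ) * C₁ * C₂ * δ θ := by ring

theorem Bd.comp_left {δ : Θ → ℝ} (hδ : ∀ θ, 0 ≤ δ θ) {f g : Θ → E → F} (hf : UB f) (hg : UB g)
    (hfg : Bd δ (fun θ x => f θ x - g θ x)) {H : Θ → F → G} (hH : UB H) :
    Bd δ (fun θ x => H θ (f θ x) - H θ (g θ x)) :=
  ⟨fun θ => ((hH.1 θ).comp (hf.1 θ)).sub ((hH.1 θ).comp (hg.1 θ)),
    fun k => Bd.comp_left_aux hδ hf hg hfg k G H hH⟩

/-- Conjugation-type estimate. -/
theorem Bd.conj {δ : Θ → ℝ} (hδ : ∀ θ, 0 ≤ δ θ) {f g : Θ → E → E} (hf : UB f) (hg : UB g)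
    (hfg : Bd δ (fun θ x => f θ x - g θ x)) {H K : Θ → E → E} (hH : UB H) (hK : UB K) :
    Bd δ (fun θ x => H θ (f θ (K θ x)) - H θ (g θ (K θ x))) :=
  (Bd.comp_left hδ hf hg hfg hH).comp hδ hK

end

end Crest.Agent.R081.Fam
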