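import Crest.Agent.R081.Calc

/-! Row 81: more family calculus (gluing, scaling, periodic / compactly supported profiles). -/

set_option autoImplicit false

namespace Crest.Agent.R081.Fam

open scoped ContDiff Topology

noncomputable section

variable {Θ : Type} {E F G K : Type}
  [NormedAddCommGroup E] [NormedSpace ℝ E] [NormedAddCommGroup F] [NormedSpace ℝ F]
  [NormedAddCommGroup G] [NormedSpace ℝ G] [NormedAddCommGroup K] [NormedSpace ℝ K]

/-- Local gluing: near every point `f θ` coincides with some member of a uniformly bounded family. -/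
theorem Bd.glue {I : Type} {δ : Θ → ℝ} {f : Θ → E → F} {g : Θ × I → E → F}
    (hg : Bd (fun p => δ p.1) g) (h : ∀ θ x, ∃ i, f θ =ᶠ[𝓝 x] g (θ, i)) : Bd δ f := by
  refine ⟨fun θ => ?_, fun k => ?_⟩
  · rw [contDiff_iff_contDiffAt]
    intro x
    obtain ⟨i, hi⟩ := h θ x
    exact ((hg.1 (θ, i)).contDiffAt).congr_of_eventuallyEq hi
  · obtain ⟨C, hC, h'⟩ := hg.2 k
    refine ⟨C, hC, fun θ x => ?_⟩
    obtain ⟨i, hi⟩ := h θ x
    have : iteratedFDeriv ℝ k (f θ) x = iteratedFDeriv ℝ k (g (θ, i)) x :=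
      (hi.iteratedFDeriv ℝ k).eq_of_nhds
    rw [this]
    exact h' (θ, i) x

theorem Bd.smul_fun {δ : Θ → ℝ} {f : Θ → E → F} (hf : Bd δ f) (c : Θ → ℝ) :
    Bd (fun θ => |c θ| * δ θ) (fun θ x => c θ • f θ x) := by
  refine ⟨fun θ => contDiff_const.smul (hf.1 θ), fun k => ?_⟩
  obtain ⟨C, hC, h1⟩ := hf.2 k
  refine ⟨C, hC, fun θ x => ?_⟩
  have e : iteratedFDeriv ℝ k (fun x => c θ • f θ x) x = c θ • iteratedFDeriv ℝ k (f θ) x := by
    have := iteratedFDeriv_const_smul_apply (𝕜 := ℝ) (i := k) (x := x) (a := c θ) (f := f θ)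
      (((hf.1 θ).of_le (by exact_mod_cast le_top)).contDiffAt)
    exact this
  rw [e, norm_smul, Real.norm_eq_abs]
  have := mul_le_mul_of_nonneg_left (h1 θ x) (abs_nonneg (c θ))
  linarith [mul_left_comm |c θ| C (δ θ)]

/-- real multiplication -/
theorem Bd.mul {δ δ' : Θ → ℝ} {f g : Θ → E → ℝ} (hf : Bd δ f) (hg : Bd δ' g) (hδ : ∀ θ, 0 ≤ δ θ)
    (hδ' : ∀ θ, 0 ≤ δ' θ) : Bd (fun θ => δ θ * δ' θ) (fun θ x => f θ x * g θ x) :=
  hf.bilin (ContinuousLinearMap.mul ℝ ℝ) hg hδ hδ'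

/-- scalar times a fixed vector -/
theorem Bd.smul_vec {δ : Θ → ℝ} {f : Θ → E → ℝ} (hf : Bd δ f) (v : Θ → F) {C : ℝ} (hC : 0 ≤ C)
    (hv : ∀ θ, ‖v θ‖ ≤ C) (hδ : ∀ θ, 0 ≤ δ θ) : Bd δ (fun θ x => f θ x • v θ) := by
  have h1 : Bd (fun _ => (1 : ℝ)) (fun (θ : Θ) (_ : E) => v θ) :=
    Bd.const v hC (by simpa using hv) (fun _ => zero_le_one)
  have h2 := hf.bilin (ContinuousLinearMap.lsmul ℝ ℝ) h1 hδ (fun _ => zero_le_one)
  exact (h2.mono (δ' := δ) zero_le_one (fun θ => by simp))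

theorem Bd.le_const {δ : Θ → ℝ} {f : Θ → E → F} (h : Bd δ f) {c : ℝ} (hc : 0 ≤ c) (hd : ∀ θ, δ θ ≤ c) :
    Bd (fun _ => (1 : ℝ)) f := h.mono hc (fun θ => by simpa using hd θ)

/-- A single smooth function all of whose derivatives are bounded. -/
theorem Bd.of_bounded {f : E → F} (hf : ContDiff ℝ ∞ f)
    (h : ∀ k : ℕ, ∃ C : ℝ, ∀ x, ‖iteratedFDeriv ℝ k f x‖ ≤ C) :
    Bd (fun _ => (1 : ℝ)) (fun _ : Θ => f) := by
  refine ⟨fun _ => hf, fun k => ?_⟩
  obtain ⟨C, hC⟩ := h k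
  exact ⟨|C|, abs_nonneg _, fun _ x => by
    rw [mul_one]; exact (hC x).trans (le_abs_self C)⟩

/-- Smooth periodic functions of one variable. -/
theorem Bd.of_periodic {f : ℝ → F} (hf : ContDiff ℝ ∞ f) (hp : ∀ x, f (x + 1) = f x) :
    Bd (fun _ => (1 : ℝ)) (fun _ : Θ => f) := by
  refine Bd.of_bounded hf fun k => ?_
  have hper : Function.Periodic (fun x => iteratedFDeriv ℝ k f x) 1 := by
    intro x
    have h1 : (fun z => f (z + 1)) = f := funext hp
    have h2 := iteratedFDeriv_comp_add_right (𝕜 := ℝ) (f := f) k (1 : ℝ) x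
    show iteratedFDeriv ℝ k f (x + 1) = iteratedFDeriv ℝ k f x
    rw [← h2, h1]
  have hc : Continuous (iteratedFDeriv ℝ k f) := hf.continuous_iteratedFDeriv (by exact_mod_cast le_top)
  obtain ⟨C, hC⟩ := (isCompact_Icc (a := (0:ℝ)) (b := 1)).exists_bound_of_continuousOn hc.continuousOn
  refine ⟨C, fun x => ?_⟩
  have h3 : iteratedFDeriv ℝ k f (Int.fract x) = iteratedFDeriv ℝ k f x := by
    have h4 := hper.sub_zsmul_eq ⌊x⌋ (x := x)
    have h5 : x - ⌊x⌋ • (1:ℝ) = Int.fract x := by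
      rw [zsmul_eq_mul, mul_one]; rfl
    rw [h5] at h4
    exact h4
  rw [← h3]
  exact hC _ ⟨Int.fract_nonneg x, (Int.fract_lt_one x).le⟩

/-- Smooth compactly supported functions. -/
theorem Bd.of_compact {f : E → F} (hf : ContDiff ℝ ∞ f) (hc : HasCompactSupport f) :
    Bd (fun _ => (1 : ℝ)) (fun _ : Θ => f) := by
  refine Bd.of_bounded hf fun k => ?_
  have hc' := hc.iteratedFDeriv (𝕜 := ℝ) k
  exact hc'.exists_bound_of_continuous (hf.continuous_iteratedFDeriv (by exact_mod_cast le_top))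

/-- Bounded smooth functions whose derivative has compact support. -/
theorem Bd.of_compact_fderiv {f : E → F} (hf : ContDiff ℝ ∞ f) {B : ℝ} (hB : ∀ x, ‖f x‖ ≤ B)
    (hc : HasCompactSupport (fderiv ℝ f)) :
    Bd (fun _ => (1 : ℝ)) (fun _ : Θ => f) := by
  refine Bd.of_fderiv (fun _ => hf) ⟨|B|, abs_nonneg _, fun _ x => by
    rw [mul_one]; exact (hB x).trans (le_abs_self B)⟩ ?_
  exact Bd.of_compact (contDiff_fderiv hf) hc

theorem UB.id : UB (fun (_ : Θ) (x : E) => x) := by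
  have := UB.clm (Θ := Θ) (fun _ => ContinuousLinearMap.id ℝ E) (C := ‖ContinuousLinearMap.id ℝ E‖)
    (norm_nonneg _) (fun _ => le_rfl)
  exact this

theorem UB.add_const {f : Θ → E → F} (h : UB f) (c : Θ → F) : UB (fun θ x => f θ x + c θ) :=
  h.add (UB.const c)

end

end Crest.Agent.R081.Fam
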