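import Mathlib
import Crest.Agent.R075.Basic

/-!
# Row 81, node CHIRP (helper845)

`|N^{-1/2} ∑_{l<N} e(ω l + λ l²/(2N) - θ l)|²` is close in `L²(dθ)` to `λ⁻¹ 1_{[ω, ω+λ)}`, uniformly
in `ω` and in `λ ∈ [λ0, 1-λ0]`. Proof by Parseval.
-/

set_option autoImplicit false

open MeasureTheory Finset Crest.Agent.R075

namespace Crest.Agent.R081.Chirp

lemma norm_ee_sub_one_le (x : ℝ) : ‖ee x - 1‖ ≤ 2 * Real.pi * |x| := by
  rw [ee_eq]
  have h := Real.norm_exp_I_mul_ofReal_sub_one_le (x := 2 * Real.pi * x)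
  rw [mul_comm Complex.I] at h
  refine h.trans ?_
  rw [Real.norm_eq_abs, abs_mul, abs_of_pos (by positivity : (0 : ℝ) < 2 * Real.pi)]

lemma norm_ee_sub_ee_le (x y : ℝ) : ‖ee x - ee y‖ ≤ 2 * Real.pi * |x - y| := by
  have h : ee x - ee y = ee y * (ee (x - y) - 1) := by
    rw [mul_sub, ← ee_add]; ring_nf
  rw [h, norm_mul, norm_ee, one_mul]
  exact norm_ee_sub_one_le _

lemma norm_ee_sub_one_ge {v : ℝ} (hv : |v| ≤ 1 / 2) : 4 * |v| ≤ ‖ee v - 1‖ := by
  have e1 : ‖ee v - 1‖ = 2 * |Real.sin (Real.pi * v)| := by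
    rw [ee_eq]
    have h := Complex.norm_exp_I_mul_ofReal_sub_one (2 * Real.pi * v)
    rw [mul_comm Complex.I] at h
    rw [h]
    have : 2 * Real.pi * v / 2 = Real.pi * v := by ring
    rw [this, norm_mul, Real.norm_eq_abs, Real.norm_eq_abs, abs_of_pos (by norm_num : (0:ℝ) < 2)]
  rw [e1]
  have h2 : 2 * |v| ≤ |Real.sin (Real.pi * v)| := by
    have h3 := Real.mul_le_sin (x := Real.pi * |v|) (by positivity) (by nlinarith [Real.pi_pos])
    have h4 : 2 / Real.pi * (Real.pi * |v|) = 2 * |v| := by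
      field_simp
    rw [h4] at h3
    have h5 : |Real.sin (Real.pi * v)| = |Real.sin (Real.pi * |v|)| := by
      rcases abs_cases v with ⟨h, _⟩ | ⟨h, _⟩
      · rw [h]
      · rw [h, mul_neg, Real.sin_neg, abs_neg]
    rw [h5]
    exact h3.trans (le_abs_self _)
  linarith

/-- normalised chirp sum -/
noncomputable def Ch (N : ℕ) (om lam th : ℝ) : ℂ :=
  ((Real.sqrt N : ℝ) : ℂ)⁻¹ *
    ∑ l ∈ range N, ee (om * l + lam * (l : ℝ) ^ 2 / (2 * N) - th * l)

lemma Ch_shift (N : ℕ) (om lam th : ℝ) : Ch N om lam th = Ch N 0 lam (th - om) := by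
  unfold Ch
  congr 1
  refine sum_congr rfl fun l _ => ?_
  congr 1; ring

lemma Ch_add_one (N : ℕ) (om lam th : ℝ) : Ch N om lam (th + 1) = Ch N om lam th := by
  unfold Ch
  congr 1
  refine sum_congr rfl fun l _ => ?_
  have : om * l + lam * (l : ℝ) ^ 2 / (2 * N) - (th + 1) * l
      = (om * l + lam * (l : ℝ) ^ 2 / (2 * N) - th * l) + ((-(l : ℤ) : ℤ) : ℝ) := by
    push_cast; ring
  rw [this, ee_add_int]

lemma Ch_continuous (N : ℕ) (om lam : ℝ) : Continuous (Ch N om lam) := by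
  unfold Ch
  refine continuous_const.mul (continuous_finsetSum _ fun l _ => ?_)
  exact ee_continuous.comp (by fun_prop)

lemma Ch_neg (N : ℕ) (om lam th : ℝ) :
    (starRingEnd ℂ) (Ch N om lam th) = Ch N (-om) (-lam) (-th) := by
  unfold Ch
  rw [map_mul, map_sum]
  congr 1
  · simp
  · refine sum_congr rfl fun l _ => ?_
    rw [ee_conj]
    congr 1; ring

lemma norm_Ch_neg (N : ℕ) (om lam th : ℝ) :
    ‖Ch N (-om) (-lam) (-th)‖ = ‖Ch N om lam th‖ := by
  rw [← Ch_neg]; exact RCLike.norm_conj _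

lemma sq_norm_Ch {N : ℕ} (lam th : ℝ) :
    ((‖Ch N 0 lam th‖ ^ 2 : ℝ) : ℂ) = (1 / (N : ℂ)) *
      ∑ l ∈ range N, ∑ l' ∈ range N, ee (lam * ((l : ℝ) ^ 2 - (l' : ℝ) ^ 2) / (2 * N)) *
        ee (((l' - l : ℤ) : ℝ) * th) := by
  have h := Complex.mul_conj' (Ch N 0 lam th)
  push_cast
  rw [← h, Ch_neg]
  unfold Ch
  have hs : ((Real.sqrt N : ℝ) : ℂ)⁻¹ * ((Real.sqrt N : ℝ) : ℂ)⁻¹ = 1 / (N : ℂ) := by
    rw [← mul_inv, ← Complex.ofReal_mul, Real.mul_self_sqrt (Nat.cast_nonneg _), one_div]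
    simp
  rw [mul_mul_mul_comm, hs, sum_mul_sum]
  congr 1
  refine sum_congr rfl fun l _ => sum_congr rfl fun l' _ => ?_
  rw [← ee_add, ← ee_add]
  congr 1
  ring

lemma int_ee (k : ℤ) : (∫ v in (0 : ℝ)..1, ee (k * v)) = if k = 0 then 1 else 0 := by
  split_ifs with h
  · subst h; simp
  · have hk : (k : ℝ) ≠ 0 := by exact_mod_cast h
    have hc : (2 * Real.pi * Complex.I * k : ℂ) ≠ 0 := by
      simp [Real.pi_ne_zero, h]
    have e : ∀ v : ℝ, ee (k * v) = Complex.exp ((2 * Real.pi * Complex.I * k : ℂ) * v) := by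
      intro v; unfold ee; congr 1; push_cast; ring
    simp only [e]
    rw [integral_exp_mul_complex hc]
    have e1 : Complex.exp ((2 * Real.pi * Complex.I * k : ℂ) * ((1 : ℝ) : ℂ)) = 1 := by
      have := ee_int k
      unfold ee at this
      rw [← this]; congr 1; push_cast; ring
    rw [e1]; simp

/-- the autocorrelation coefficient -/
noncomputable def Rr (N : ℕ) (lam : ℝ) (h : ℕ) : ℂ :=
  (1 / (N : ℂ)) * ∑ l ∈ range (N - h), ee (lam * ((l : ℝ) ^ 2 - ((l + h : ℕ) : ℝ) ^ 2) / (2 * N))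

lemma coef_Ch (N : ℕ) (lam : ℝ) (h : ℕ) :
    (∫ v in (0 : ℝ)..1, ee (-(h * v)) * ((‖Ch N 0 lam v‖ ^ 2 : ℝ) : ℂ)) = Rr N lam h := by
  have e1 : ∀ v : ℝ, ee (-(h * v)) * ((‖Ch N 0 lam v‖ ^ 2 : ℝ) : ℂ)
      = ∑ l ∈ range N, ∑ l' ∈ range N,
        ((1 / (N : ℂ)) * ee (lam * ((l : ℝ) ^ 2 - (l' : ℝ) ^ 2) / (2 * N))) *
        ee (((l' - l - h : ℤ) : ℝ) * v) := by
    intro v
    rw [sq_norm_Ch, mul_sum, mul_sum]
    refine sum_congr rfl fun l _ => ?_
    rw [mul_sum, mul_sum]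
    refine sum_congr rfl fun l' _ => ?_
    have : ee (((l' - l - h : ℤ) : ℝ) * v) = ee (-(h * v)) * ee (((l' - l : ℤ) : ℝ) * v) := by
      rw [← ee_add]; congr 1; push_cast; ring
    rw [this]; ring
  simp only [e1]
  have hcont : ∀ k : ℤ, Continuous fun v : ℝ => ee ((k : ℝ) * v) := fun k =>
    ee_continuous.comp (by fun_prop)
  rw [intervalIntegral.integral_finsetSum]
  · have e2 : ∀ l ∈ range N, (∫ v in (0 : ℝ)..1, ∑ l' ∈ range N,
        ((1 / (N : ℂ)) * ee (lam * ((l : ℝ) ^ 2 - (l' : ℝ) ^ 2) / (2 * N))) *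
        ee (((l' - l - h : ℤ) : ℝ) * v))
        = if l + h < N then (1 / (N : ℂ)) *
          ee (lam * ((l : ℝ) ^ 2 - ((l + h : ℕ) : ℝ) ^ 2) / (2 * N)) else 0 := by
      intro l _
      rw [intervalIntegral.integral_finsetSum]
      · have e3 : ∀ l' ∈ range N, (∫ v in (0 : ℝ)..1,
            ((1 / (N : ℂ)) * ee (lam * ((l : ℝ) ^ 2 - (l' : ℝ) ^ 2) / (2 * N))) *
            ee (((l' - l - h : ℤ) : ℝ) * v)) = if l' = l + h then
              (1 / (N : ℂ)) * ee (lam * ((l : ℝ) ^ 2 - ((l + h : ℕ) : ℝ) ^ 2) / (2 * N))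
              else 0 := by
          intro l' _
          rw [intervalIntegral.integral_const_mul, int_ee]
          by_cases hl : l' = l + h
          · subst hl
            rw [if_pos (by push_cast; ring), if_pos rfl, mul_one]
          · rw [if_neg (by omega), if_neg hl, mul_zero]
        rw [sum_congr rfl e3, sum_ite_eq']
        simp only [mem_range]
      · intro l' _
        exact (continuous_const.mul (hcont _)).intervalIntegrable _ _
    rw [sum_congr rfl e2, ← sum_filter]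
    unfold Rr
    rw [mul_sum]
    refine sum_congr ?_ fun _ _ => rfl
    ext l
    simp only [mem_filter, mem_range]
    omega
  · intro l _
    exact (continuous_finsetSum _ fun l' _ => continuous_const.mul (hcont _)).intervalIntegrable _ _

lemma Rr_eq (N : ℕ) (lam : ℝ) (h : ℕ) :
    Rr N lam h = (1 / (N : ℂ)) * (ee (-(lam * h ^ 2 / (2 * N))) *
      ∑ l ∈ range (N - h), ee (-(lam * h / N) * l)) := by
  unfold Rr
  rcases Nat.eq_zero_or_pos N with hN | hN
  · subst hN; simp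
  have hN' : (N : ℝ) ≠ 0 := by exact_mod_cast hN.ne'
  congr 1
  rw [mul_sum]
  refine sum_congr rfl fun l _ => ?_
  rw [← ee_add]
  congr 1
  push_cast
  field_simp
  ring

lemma norm_geom_le (x : ℝ) (hx : ee x ≠ 1) (n : ℕ) :
    ‖∑ l ∈ range n, ee (x * l)‖ ≤ 2 / ‖ee x - 1‖ := by
  have e : ∀ l : ℕ, ee (x * l) = ee x ^ l := by
    intro l; rw [← ee_mul_nat]; congr 1; ring
  simp only [e]
  rw [geom_sum_eq hx, norm_div]
  apply div_le_div_of_nonneg_right _ (norm_nonneg _)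
  calc ‖ee x ^ n - 1‖ ≤ ‖ee x ^ n‖ + ‖(1 : ℂ)‖ := norm_sub_le _ _
    _ = 2 := by rw [norm_pow, norm_ee]; norm_num

lemma norm_ee_neg_sub_one_ge {lam0 x : ℝ} (h0 : 0 < lam0) (h1 : lam0 ≤ 1 / 2) (hx : 0 < x)
    (hx' : x ≤ 1 - lam0) : 4 * lam0 * x ≤ ‖ee (-x) - 1‖ := by
  rcases le_or_gt x (1 / 2) with h | h
  · have := norm_ee_sub_one_ge (v := -x) (by rw [abs_neg, abs_of_pos hx]; exact h)
    rw [abs_neg, abs_of_pos hx] at this
    nlinarith
  · have e : ee (-x) = ee (1 - x) := by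
      have := ee_add_int (-x) 1
      rw [← this]; congr 1; push_cast; ring
    rw [e]
    have := norm_ee_sub_one_ge (v := 1 - x) (by rw [abs_of_nonneg (by linarith)]; linarith)
    rw [abs_of_nonneg (by linarith)] at this
    nlinarith

lemma norm_Rr_le {lam0 lam : ℝ} (h0 : 0 < lam0) (h1 : lam0 ≤ lam) (h2 : lam ≤ 1 - lam0)
    (N h : ℕ) (hh : 1 ≤ h) : ‖Rr N lam h‖ ≤ 1 / (2 * lam0 ^ 2) / h := by
  have hlam : 0 < lam := h0.trans_le h1
  have hl0 : lam0 ≤ 1 / 2 := by linarith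
  have hh' : (1 : ℝ) ≤ h := by exact_mod_cast hh
  rcases le_or_gt N h with hN | hN
  · have : N - h = 0 := by omega
    unfold Rr
    rw [this]; simp; positivity
  · have hNp : (0 : ℝ) < N := by exact_mod_cast (by omega : 0 < N)
    have hNh : (h : ℝ) < N := by exact_mod_cast hN
    have hx : 0 < lam * h / N := by positivity
    have hx' : lam * h / N ≤ 1 - lam0 := by
      rw [div_le_iff₀ hNp]
      have : lam * h ≤ (1 - lam0) * h := mul_le_mul_of_nonneg_right h2 (by positivity)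
      have : (1 - lam0) * h ≤ (1 - lam0) * N := mul_le_mul_of_nonneg_left hNh.le (by linarith)
      linarith
    have hge := norm_ee_neg_sub_one_ge h0 hl0 hx hx'
    have hpos : 0 < 4 * lam0 * (lam * h / N) := by positivity
    have hne : ee (-(lam * h / N)) ≠ 1 := by
      intro hcon
      rw [hcon, sub_self, norm_zero] at hge
      linarith
    rw [Rr_eq, norm_mul, norm_mul, norm_ee, one_mul, norm_div, norm_one, Complex.norm_natCast]
    have hg := norm_geom_le _ hne (N - h)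
    have hg2 : 2 / ‖ee (-(lam * h / N)) - 1‖ ≤ 2 / (4 * lam0 * (lam * h / N)) :=
      div_le_div_of_nonneg_left (by norm_num) hpos hge
    calc 1 / (N : ℝ) * ‖∑ l ∈ range (N - h), ee (-(lam * h / N) * l)‖
        ≤ 1 / (N : ℝ) * (2 / (4 * lam0 * (lam * h / N))) :=
          mul_le_mul_of_nonneg_left (hg.trans hg2) (by positivity)
      _ = 1 / (2 * lam0 * lam) / h := by field_simp; norm_num
      _ ≤ 1 / (2 * lam0 ^ 2) / h := by
          apply div_le_div_of_nonneg_right _ (by positivity)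
          apply div_le_div_of_nonneg_left (by norm_num) (by positivity)
          nlinarith

/-- `∫₀¹ e(-c x) dx`. -/
lemma norm_int_ee_le {c : ℝ} (hc : 0 < c) : ‖∫ x in (0 : ℝ)..1, ee (-c * x)‖ ≤ 1 / c := by
  have hc' : (2 * Real.pi * Complex.I * (-c) : ℂ) ≠ 0 := by
    simp [Real.pi_ne_zero, hc.ne']
  have e : ∀ v : ℝ, ee (-c * v) = Complex.exp ((2 * Real.pi * Complex.I * (-c) : ℂ) * v) := by
    intro v; unfold ee; congr 1; push_cast; ring
  have e1 : Complex.exp ((2 * Real.pi * Complex.I * (-c) : ℂ) * ((1 : ℝ) : ℂ)) = ee (-c) := by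
    unfold ee; congr 1; push_cast; ring
  simp only [e]
  rw [integral_exp_mul_complex hc', e1, norm_div]
  have e2 : ‖(2 * Real.pi * Complex.I * (-c) : ℂ)‖ = 2 * Real.pi * c := by
    simp [abs_of_pos hc, abs_of_pos Real.pi_pos]
  rw [e2]
  have e3 : ‖ee (-c) - Complex.exp ((2 * Real.pi * Complex.I * (-c) : ℂ) * ((0 : ℝ) : ℂ))‖ ≤ 2 := by
    refine (norm_sub_le _ _).trans ?_
    rw [norm_ee]; simp; norm_num
  calc _ ≤ 2 / (2 * Real.pi * c) := div_le_div_of_nonneg_right e3 (by positivity)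
    _ ≤ 1 / c := by
        rw [div_le_div_iff₀ (by positivity) hc]
        nlinarith [Real.pi_gt_three]

/-- Riemann sums. -/
lemma riemann (c : ℝ) (hc : 0 ≤ c) (N : ℕ) (hN : 0 < N) :
    ‖(1 / (N : ℂ)) * ∑ l ∈ range N, ee (-(c / N) * l) - ∫ x in (0 : ℝ)..1, ee (-c * x)‖
      ≤ 2 * Real.pi * c / N := by
  have hNp : (0 : ℝ) < N := by exact_mod_cast hN
  have hcont : Continuous fun x : ℝ => ee (-c * x) := ee_continuous.comp (by fun_prop)
  have hsplit : (∫ x in (0 : ℝ)..1, ee (-c * x))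
      = ∑ l ∈ range N, ∫ x in ((l : ℝ) / N)..(((l + 1 : ℕ) : ℝ) / N), ee (-c * x) := by
    have := intervalIntegral.sum_integral_adjacent_intervals (μ := volume)
      (f := fun x : ℝ => ee (-c * x)) (a := fun l : ℕ => (l : ℝ) / N) (n := N)
      (fun k _ => hcont.intervalIntegrable _ _)
    rw [this]
    congr 1
    · simp
    · field_simp
  rw [hsplit, mul_sum, ← sum_sub_distrib]
  have hterm : ∀ l ∈ range N, ‖(1 / (N : ℂ)) * ee (-(c / N) * l)
      - ∫ x in ((l : ℝ) / N)..(((l + 1 : ℕ) : ℝ) / N), ee (-c * x)‖ ≤ 2 * Real.pi * c / N / N := by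
    intro l _
    have hle : (l : ℝ) / N ≤ ((l + 1 : ℕ) : ℝ) / N := by
      apply div_le_div_of_nonneg_right _ hNp.le
      push_cast; linarith
    have e1 : (1 / (N : ℂ)) * ee (-(c / N) * l)
        = ∫ x in ((l : ℝ) / N)..(((l + 1 : ℕ) : ℝ) / N), ee (-(c / N) * l) := by
      rw [intervalIntegral.integral_const]
      have : (((l + 1 : ℕ) : ℝ) / N) - (l : ℝ) / N = 1 / N := by
        push_cast; field_simp; ring
      rw [this, Complex.real_smul]; push_cast; ring
    rw [e1, ← intervalIntegral.integral_sub (intervalIntegrable_const)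
      (hcont.intervalIntegrable _ _)]
    have hb := intervalIntegral.norm_integral_le_of_norm_le_const
      (a := (l : ℝ) / N) (b := ((l + 1 : ℕ) : ℝ) / N)
      (f := fun x : ℝ => ee (-(c / N) * l) - ee (-c * x)) (C := 2 * Real.pi * (c / N)) ?_
    · refine hb.trans (le_of_eq ?_)
      have : (((l + 1 : ℕ) : ℝ) / N) - (l : ℝ) / N = 1 / N := by
        push_cast; field_simp; ring
      rw [this, abs_of_pos (by positivity)]
      field_simp
    · intro x hx
      rw [Set.uIoc_of_le hle] at hx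
      refine (norm_ee_sub_ee_le _ _).trans ?_
      apply mul_le_mul_of_nonneg_left _ (by positivity)
      have e2 : -(c / N) * l - -c * x = c * (x - l / N) := by ring
      rw [e2, abs_mul, abs_of_nonneg hc, abs_of_nonneg (by linarith [hx.1])]
      have h3 : x - l / N ≤ 1 / N := by
        have h4 := hx.2
        have : (((l + 1 : ℕ) : ℝ) / N) = (l : ℝ) / N + 1 / N := by
          push_cast; field_simp
        linarith
      calc c * (x - l / N) ≤ c * (1 / N) := mul_le_mul_of_nonneg_left h3 hc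
        _ = c / N := by ring
  calc _ ≤ ∑ l ∈ range N, 2 * Real.pi * c / N / N := norm_sum_le_of_le _ hterm
    _ = 2 * Real.pi * c / N := by
        rw [sum_const, card_range, nsmul_eq_mul]; field_simp

end Crest.Agent.R081.Chirp
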