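import Crest.Agent.R081.Chirp

/-!
# Row 81, node CHIRP, part 2 (helper845): `L²` flatness of one chirp (CH1)
-/

set_option autoImplicit false

open MeasureTheory Finset Crest.Agent.R075

namespace Crest.Agent.R081.Chirp

lemma norm_Rr_sub_le {lam : ℝ} (h0 : 0 ≤ lam) (h1 : lam ≤ 1) (N h : ℕ) (hN : 0 < N)
    (hh : 1 ≤ h) :
    ‖Rr N lam h - ∫ x in (0 : ℝ)..1, ee (-(lam * h) * x)‖ ≤ 12 * (h : ℝ) ^ 2 / N := by
  have hNp : (0 : ℝ) < N := by exact_mod_cast hN
  have hh' : (1 : ℝ) ≤ h := by exact_mod_cast hh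
  rcases le_or_gt N h with hNh | hNh
  · have : N - h = 0 := by omega
    unfold Rr
    rw [this]
    simp only [range_zero, sum_empty, mul_zero, zero_sub, norm_neg]
    have hb := intervalIntegral.norm_integral_le_of_norm_le_const (a := 0) (b := 1)
      (f := fun x : ℝ => ee (-(lam * h) * x)) (C := 1) (fun x _ => (norm_ee _).le)
    refine hb.trans ?_
    have hNh' : (N : ℝ) ≤ h := by exact_mod_cast hNh
    rw [sub_zero, abs_one, mul_one, le_div_iff₀ hNp]
    nlinarith
  · have hr := riemann (lam * h) (by positivity) N hN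
    have hNh' : (h : ℝ) < N := by exact_mod_cast hNh
    rw [Rr_eq]
    set S1 := ∑ l ∈ range (N - h), ee (-(lam * h / N) * l) with hS1
    set S2 := ∑ l ∈ range N, ee (-(lam * h / N) * l) with hS2
    set J := ∫ x in (0 : ℝ)..1, ee (-(lam * h) * x) with hJ
    set b := ee (-(lam * h ^ 2 / (2 * N))) with hb
    have n1 : ‖S1‖ ≤ N := by
      refine (norm_sum_le _ _).trans ?_
      simp only [norm_ee, sum_const, card_range, nsmul_eq_mul, mul_one]
      exact_mod_cast Nat.sub_le _ _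
    have n2 : ‖S1 - S2‖ ≤ h := by
      have hs := Finset.sum_range_add_sum_Ico (fun l : ℕ => ee (-(lam * h / N) * l))
        (Nat.sub_le N h)
      rw [← hS1, ← hS2] at hs
      rw [← hs, sub_add_cancel_left, norm_neg]
      refine (norm_sum_le _ _).trans ?_
      simp only [norm_ee, sum_const, Nat.card_Ico, nsmul_eq_mul, mul_one]
      exact_mod_cast (by omega : N - (N - h) ≤ h)
    have n3 : ‖b - 1‖ ≤ 4 * (h : ℝ) ^ 2 / N := by
      refine (norm_ee_sub_one_le _).trans ?_
      rw [abs_neg, abs_of_nonneg (by positivity)]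
      have : lam * (h : ℝ) ^ 2 / (2 * N) ≤ (h : ℝ) ^ 2 / (2 * N) := by
        apply div_le_div_of_nonneg_right _ (by positivity)
        nlinarith [sq_nonneg (h : ℝ)]
      calc 2 * Real.pi * (lam * (h : ℝ) ^ 2 / (2 * N)) ≤ 2 * Real.pi * ((h : ℝ) ^ 2 / (2 * N)) :=
            mul_le_mul_of_nonneg_left this (by positivity)
        _ ≤ 2 * 4 * ((h : ℝ) ^ 2 / (2 * N)) := by
            apply mul_le_mul_of_nonneg_right _ (by positivity)
            linarith [Real.pi_lt_four]
        _ = 4 * (h : ℝ) ^ 2 / N := by field_simp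
    have e : (1 / (N : ℂ)) * (b * S1) - J = (1 / (N : ℂ)) * ((b - 1) * S1)
        + (1 / (N : ℂ)) * (S1 - S2) + ((1 / (N : ℂ)) * S2 - J) := by ring
    rw [e]
    have m1 : ‖(1 / (N : ℂ)) * ((b - 1) * S1)‖ ≤ 4 * (h : ℝ) ^ 2 / N := by
      rw [norm_mul, norm_mul, norm_div, norm_one, Complex.norm_natCast]
      calc 1 / (N : ℝ) * (‖b - 1‖ * ‖S1‖) ≤ 1 / (N : ℝ) * (4 * (h : ℝ) ^ 2 / N * N) := by
            apply mul_le_mul_of_nonneg_left _ (by positivity)
            exact mul_le_mul n3 n1 (norm_nonneg _) (by positivity)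
        _ = 4 * (h : ℝ) ^ 2 / N := by field_simp
    have m2 : ‖(1 / (N : ℂ)) * (S1 - S2)‖ ≤ h / N := by
      rw [norm_mul, norm_div, norm_one, Complex.norm_natCast]
      calc 1 / (N : ℝ) * ‖S1 - S2‖ ≤ 1 / (N : ℝ) * h :=
            mul_le_mul_of_nonneg_left n2 (by positivity)
        _ = h / N := by ring
    have m3 : ‖(1 / (N : ℂ)) * S2 - J‖ ≤ 7 * h / N := by
      refine hr.trans ?_
      apply div_le_div_of_nonneg_right _ hNp.le
      have : 2 * Real.pi ≤ 7 := by linarith [Real.pi_lt_d2]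
      calc 2 * Real.pi * (lam * h) ≤ 7 * (1 * h) := by
            apply mul_le_mul this _ (by positivity) (by norm_num)
            exact mul_le_mul_of_nonneg_right h1 (by positivity)
        _ = 7 * h := by ring
    calc _ ≤ 4 * (h : ℝ) ^ 2 / N + h / N + 7 * h / N :=
          (norm_add_le _ _).trans (add_le_add ((norm_add_le _ _).trans (add_le_add m1 m2)) m3)
      _ = (4 * (h : ℝ) ^ 2 + 8 * h) / N := by ring
      _ ≤ 12 * (h : ℝ) ^ 2 / N := by
          apply div_le_div_of_nonneg_right _ hNp.le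
          nlinarith

/-- the density of the arc `[0, lam)` -/
noncomputable def wd (lam v : ℝ) : ℝ := if v < lam then lam⁻¹ else 0

lemma wd_meas (lam : ℝ) : Measurable (wd lam) :=
  Measurable.ite measurableSet_Iio measurable_const measurable_const

lemma wd_bound {lam : ℝ} (h : 0 < lam) (v : ℝ) : ‖(wd lam v : ℂ)‖ ≤ lam⁻¹ := by
  unfold wd
  split_ifs
  · rw [Complex.norm_real, Real.norm_of_nonneg (by positivity)]
  · simp; positivity

lemma wd_intervalIntegrable {lam : ℝ} (h : 0 < lam) (c : ℝ) (a b : ℝ) :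
    IntervalIntegrable (fun v => ee (c * v) * (wd lam v : ℂ)) volume a b := by
  have hm : Measurable fun v : ℝ => ee (c * v) * (wd lam v : ℂ) :=
    (ee_continuous.comp (by fun_prop)).measurable.mul
      (Complex.measurable_ofReal.comp (wd_meas lam))
  refine (intervalIntegrable_const (c := lam⁻¹)).mono_fun' hm.aestronglyMeasurable ?_
  filter_upwards with v
  rw [norm_mul, norm_ee, one_mul]
  exact wd_bound h v

/-- Fourier coefficients of the density of the arc. -/
lemma coef_wd {lam : ℝ} (h0 : 0 < lam) (h1 : lam ≤ 1) (c : ℝ) :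
    (∫ v in (0 : ℝ)..1, ee (-c * v) * (wd lam v : ℂ)) = ∫ x in (0 : ℝ)..1, ee (-(lam * c) * x) := by
  rw [← intervalIntegral.integral_add_adjacent_intervals (b := lam)
    (wd_intervalIntegrable h0 _ _ _) (wd_intervalIntegrable h0 _ _ _)]
  have e1 : (∫ v in (0 : ℝ)..lam, ee (-c * v) * (wd lam v : ℂ))
      = ∫ v in (0 : ℝ)..lam, ee (-c * v) * ((lam⁻¹ : ℝ) : ℂ) := by
    apply intervalIntegral.integral_congr_ae
    have : ∀ᵐ v : ℝ ∂volume, v ≠ lam := by
      simp [ae_iff]
    filter_upwards [this] with v hv hv2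
    rw [Set.uIoc_of_le h0.le] at hv2
    have : v < lam := lt_of_le_of_ne hv2.2 hv
    simp [wd, this]
  have e2 : (∫ v in lam..1, ee (-c * v) * (wd lam v : ℂ)) = 0 := by
    have : (∫ v in lam..1, ee (-c * v) * (wd lam v : ℂ)) = ∫ v in lam..1, (0 : ℂ) := by
      apply intervalIntegral.integral_congr
      intro v hv
      rw [Set.uIcc_of_le h1] at hv
      simp [wd, not_lt.2 hv.1]
    rw [this]; simp
  rw [e1, e2, add_zero, intervalIntegral.integral_mul_const]
  have e3 := intervalIntegral.integral_comp_mul_left (a := 0) (b := 1)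
    (fun v : ℝ => ee (-c * v)) h0.ne'
  have e4 : (∫ x in (0 : ℝ)..1, ee (-(lam * c) * x)) = ∫ x in (0 : ℝ)..1, ee (-c * (lam * x)) := by
    apply intervalIntegral.integral_congr
    intro x _
    simp only
    congr 1; ring
  rw [e4, e3, mul_zero, mul_one, Complex.real_smul, mul_comm]

/-- CH1 at `ω = 0`. -/
theorem flat_zero {lam0 ε : ℝ} (h0 : 0 < lam0) (hε : 0 < ε) : ∃ N0 : ℕ, ∀ N : ℕ, N0 ≤ N →
    ∀ lam : ℝ, lam0 ≤ lam → lam ≤ 1 - lam0 →
      ∫ v in (0 : ℝ)..1, (‖Ch N 0 lam v‖ ^ 2 - wd lam v) ^ 2 ≤ ε := by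
  set C : ℝ := 1 / (2 * lam0 ^ 2) + 1 / lam0 with hC
  have hCp : 0 < C := by positivity
  have hsum : Summable fun n : ℤ => C ^ 2 * (1 / (n : ℝ) ^ 2) :=
    (Real.summable_one_div_int_pow.2 one_lt_two).mul_left _
  obtain ⟨s, hs⟩ := (summable_iff_vanishing_norm.1 hsum) (ε / 2) (by linarith)
  set K : ℝ := ∑ n ∈ s, (12 * (n : ℝ) ^ 2) ^ 2 with hK
  have hK0 : 0 ≤ K := sum_nonneg fun n _ => by positivity
  obtain ⟨N0, hN0⟩ := exists_nat_gt (Real.sqrt (2 * K / ε) + 1)
  refine ⟨N0, fun N hN lam hl1 hl2 => ?_⟩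
  have hlam : 0 < lam := h0.trans_le hl1
  have hlam1 : lam ≤ 1 := by linarith
  have hNr : Real.sqrt (2 * K / ε) + 1 < N := hN0.trans_le (by exact_mod_cast hN)
  have hNp : (0 : ℝ) < N := by linarith [Real.sqrt_nonneg (2 * K / ε)]
  have hNpos : 0 < N := by exact_mod_cast hNp
  set f : ℝ → ℝ := fun v => ‖Ch N 0 lam v‖ ^ 2 - wd lam v with hf
  have hfm : Measurable f :=
    ((Ch_continuous N 0 lam).norm.pow 2).measurable.sub (wd_meas lam)
  have hChb : ∀ v, ‖Ch N 0 lam v‖ ≤ Real.sqrt N := by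
    intro v
    unfold Ch
    rw [norm_mul]
    have e1 : ‖∑ l ∈ range N, ee (0 * l + lam * (l : ℝ) ^ 2 / (2 * N) - v * l)‖ ≤ N := by
      refine (norm_sum_le _ _).trans ?_
      simp only [norm_ee, sum_const, card_range, nsmul_eq_mul, mul_one]
      exact le_refl _
    have e2 : ‖((Real.sqrt N : ℝ) : ℂ)⁻¹‖ = (Real.sqrt N)⁻¹ := by
      rw [norm_inv, Complex.norm_real, Real.norm_of_nonneg (Real.sqrt_nonneg _)]
    rw [e2]
    calc (Real.sqrt N)⁻¹ * _ ≤ (Real.sqrt N)⁻¹ * N :=
          mul_le_mul_of_nonneg_left e1 (by positivity)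
      _ = Real.sqrt N := by
          have h3 : Real.sqrt N ≠ 0 := (Real.sqrt_pos.2 hNp).ne'
          field_simp
          rw [Real.sq_sqrt hNp.le]
  have hbd : ∀ v, ‖((f v : ℝ) : ℂ)‖ ≤ N + lam⁻¹ := by
    intro v
    rw [hf]
    simp only
    push_cast
    refine (norm_sub_le _ _).trans (add_le_add ?_ (wd_bound hlam v))
    rw [norm_pow, Complex.norm_real, norm_norm]
    calc ‖Ch N 0 lam v‖ ^ 2 ≤ (Real.sqrt N) ^ 2 :=
          pow_le_pow_left₀ (norm_nonneg _) (hChb v) 2
      _ = N := Real.sq_sqrt hNp.le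
  have hmem : MemLp (fun v => ((f v : ℝ) : ℂ)) 2 (volume.restrict (Set.Ioc (0 : ℝ) 1)) :=
    MemLp.of_bound (Complex.measurable_ofReal.comp hfm).aestronglyMeasurable (N + lam⁻¹)
      (Filter.Eventually.of_forall hbd)
  have hpars := hasSum_sq_fourierCoeffOn (zero_lt_one' ℝ) hmem
  -- the coefficients
  set c : ℤ → ℂ := fun n => fourierCoeffOn (zero_lt_one' ℝ) (fun v => ((f v : ℝ) : ℂ)) n with hc
  have hcint : ∀ n : ℤ, c n = ∫ v in (0 : ℝ)..1, ee (-(n : ℝ) * v) * ((f v : ℝ) : ℂ) := by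
    intro n
    rw [hc]
    simp only
    rw [fourierCoeffOn_eq_integral]
    simp only [sub_zero, div_one, one_smul]
    apply intervalIntegral.integral_congr
    intro v _
    simp only [fourier_coe_apply, smul_eq_mul]
    congr 1
    unfold ee
    congr 1
    push_cast
    ring
  have hII : ∀ n : ℤ, IntervalIntegrable (fun v : ℝ => ee (-(n : ℝ) * v) *
      ((‖Ch N 0 lam v‖ ^ 2 : ℝ) : ℂ)) volume 0 1 := by
    intro n
    apply Continuous.intervalIntegrable
    refine (ee_continuous.comp (by fun_prop)).mul ?_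
    exact Complex.continuous_ofReal.comp ((Ch_continuous N 0 lam).norm.pow 2)
  have hcnat : ∀ h : ℕ, 1 ≤ h → c h = Rr N lam h - ∫ x in (0 : ℝ)..1, ee (-(lam * h) * x) := by
    intro h hh
    rw [hcint, ← coef_Ch, ← coef_wd hlam hlam1 (h : ℝ), ← intervalIntegral.integral_sub]
    · apply intervalIntegral.integral_congr
      intro v _
      simp only [hf]
      push_cast
      have : ee (-(↑h * v)) = ee (-(h : ℝ) * v) := by congr 1; ring
      rw [this]; ring
    · have := hII h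
      refine this.congr ?_
      intro v _
      simp only
      congr 2
      push_cast; ring
    · exact wd_intervalIntegrable hlam _ _ _
  have hc0 : c 0 = 0 := by
    have e1 : c 0 = Rr N lam 0 - ∫ x in (0 : ℝ)..1, ee (-(lam * (0 : ℕ)) * x) := by
      rw [hcint, ← coef_Ch, ← coef_wd hlam hlam1 ((0 : ℕ) : ℝ), ← intervalIntegral.integral_sub]
      · apply intervalIntegral.integral_congr
        intro v _
        simp only [hf]
        push_cast
        have : ee (-(0 * v)) = ee (-(0 : ℝ) * v) := by congr 1; ring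
        rw [this]; ring
      · have := hII 0
        refine this.congr ?_
        intro v _
        simp only
        congr 2
        push_cast; ring
      · exact wd_intervalIntegrable hlam _ _ _
    rw [e1]
    unfold Rr
    simp
    rw [inv_mul_cancel₀ (by exact_mod_cast hNpos.ne'), sub_self]
  have hconj : ∀ n : ℤ, ‖c (-n)‖ = ‖c n‖ := by
    intro n
    have : c (-n) = (starRingEnd ℂ) (c n) := by
      rw [hcint, hcint, intervalIntegral.integral_of_le zero_le_one,
        intervalIntegral.integral_of_le zero_le_one, ← integral_conj]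
      apply integral_congr_ae
      filter_upwards with v
      rw [map_mul, ee_conj, Complex.conj_ofReal]
      congr 2
      push_cast; ring
    rw [this]; exact RCLike.norm_conj _
  have hA : ∀ n : ℤ, ‖c n‖ ^ 2 ≤ (12 * (n : ℝ) ^ 2) ^ 2 / (N : ℝ) ^ 2 := by
    intro n
    have key : ∀ h : ℕ, ‖c h‖ ^ 2 ≤ (12 * (h : ℝ) ^ 2) ^ 2 / (N : ℝ) ^ 2 := by
      intro h
      rcases Nat.eq_zero_or_pos h with rfl | hh
      · simp [hc0]
      · rw [hcnat h hh, ← div_pow]
        exact pow_le_pow_left₀ (norm_nonneg _) (norm_Rr_sub_le hlam.le hlam1 N h hNpos hh) 2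
    obtain ⟨h, rfl | rfl⟩ := n.eq_nat_or_neg
    · rw [Int.cast_natCast]; exact key h
    · rw [hconj]
      have := key h
      have e : ((-(h : ℤ) : ℤ) : ℝ) ^ 2 = (h : ℝ) ^ 2 := by push_cast; ring
      rw [e]; exact this
  have hB : ∀ n : ℤ, ‖c n‖ ^ 2 ≤ C ^ 2 * (1 / (n : ℝ) ^ 2) := by
    intro n
    have key : ∀ h : ℕ, ‖c h‖ ^ 2 ≤ C ^ 2 * (1 / (h : ℝ) ^ 2) := by
      intro h
      rcases Nat.eq_zero_or_pos h with rfl | hh
      · simp [hc0]
      · have hh' : (1 : ℝ) ≤ h := by exact_mod_cast hh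
        have e : C ^ 2 * (1 / (h : ℝ) ^ 2) = (C / h) ^ 2 := by rw [div_pow]; ring
        rw [hcnat h hh, e]
        apply pow_le_pow_left₀ (norm_nonneg _)
        refine (norm_sub_le _ _).trans ?_
        have h1 := norm_Rr_le h0 hl1 hl2 N h hh
        have h2 := norm_int_ee_le (c := lam * h) (by positivity)
        have h3 : 1 / (lam * h) ≤ 1 / lam0 / h := by
          rw [div_div]
          apply div_le_div_of_nonneg_left (by norm_num) (by positivity)
          exact mul_le_mul_of_nonneg_right hl1 (by positivity)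
        rw [hC, add_div]
        exact add_le_add h1 (h2.trans h3)
    obtain ⟨h, rfl | rfl⟩ := n.eq_nat_or_neg
    · rw [Int.cast_natCast]; exact key h
    · rw [hconj]
      have := key h
      have e : ((-(h : ℤ) : ℤ) : ℝ) ^ 2 = (h : ℝ) ^ 2 := by push_cast; ring
      rw [e]; exact this
  -- conclusion
  have hfin : (1 - 0 : ℝ)⁻¹ • ∫ x in (0 : ℝ)..1, ‖((f x : ℝ) : ℂ)‖ ^ 2 ≤ ε := by
    refine hasSum_le_of_sum_le hpars fun t => ?_
    rw [← Finset.sum_inter_add_sum_sdiff t s]
    have p1 : ∑ i ∈ t ∩ s, ‖c i‖ ^ 2 ≤ ε / 2 := by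
      calc ∑ i ∈ t ∩ s, ‖c i‖ ^ 2 ≤ ∑ i ∈ s, ‖c i‖ ^ 2 :=
            sum_le_sum_of_subset_of_nonneg inter_subset_right fun _ _ _ => by positivity
        _ ≤ ∑ i ∈ s, (12 * (i : ℝ) ^ 2) ^ 2 / (N : ℝ) ^ 2 := sum_le_sum fun i _ => hA i
        _ = K / (N : ℝ) ^ 2 := by rw [hK, sum_div]
        _ ≤ ε / 2 := by
            have h1 : Real.sqrt (2 * K / ε) ≤ N := by linarith
            have h2 : 2 * K / ε ≤ (N : ℝ) ^ 2 := by
              rw [← Real.sqrt_le_left (by positivity)]
              exact h1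
            rw [div_le_iff₀ (by positivity)]
            rw [div_le_iff₀ hε] at h2
            linarith
    have p2 : ∑ i ∈ t \ s, ‖c i‖ ^ 2 ≤ ε / 2 := by
      have h1 := hs (t \ s) sdiff_disjoint
      have h2 : ∑ i ∈ t \ s, ‖c i‖ ^ 2 ≤ ∑ i ∈ t \ s, C ^ 2 * (1 / (i : ℝ) ^ 2) :=
        sum_le_sum fun i _ => hB i
      exact h2.trans ((le_abs_self _).trans h1.le)
    linarith
  have e : (∫ v in (0 : ℝ)..1, f v ^ 2) = ∫ x in (0 : ℝ)..1, ‖((f x : ℝ) : ℂ)‖ ^ 2 := by
    apply intervalIntegral.integral_congr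
    intro v _
    simp only
    rw [Complex.norm_real, Real.norm_eq_abs, sq_abs]
  have : (∫ v in (0 : ℝ)..1, f v ^ 2) ≤ ε := by
    rw [e]; simpa using hfin
  exact this

end Crest.Agent.R081.Chirp
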