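import Crest.Agent.R081.Chirp2

/-!
# Row 81, node CHIRP, part 3 (helper845): all frequencies, both signs (CH1, CH2), and the
combination lemma for finitely many lines with disjoint arcs (CH3)
-/

set_option autoImplicit false

open MeasureTheory Finset Crest.Agent.R075

namespace Crest.Agent.R081.Chirp

/-- periodic density of the arc swept by a chirp with initial frequency `om` and sweep `lam ≠ 0`:
`1/|lam|` on `[om, om+lam)` resp. `(om+lam, om]` mod 1. -/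
noncomputable def arcd (om lam v : ℝ) : ℝ :=
  if 0 < lam then wd lam (Int.fract (v - om)) else wd (-lam) (Int.fract (om - v))

lemma arcd_meas (om lam : ℝ) : Measurable (arcd om lam) := by
  unfold arcd
  by_cases h : 0 < lam
  · simp only [h, if_true]
    exact (wd_meas lam).comp (measurable_fract.comp (by fun_prop))
  · simp only [h, if_false]
    exact (wd_meas (-lam)).comp (measurable_fract.comp (by fun_prop))

lemma arcd_nonneg (om lam v : ℝ) : 0 ≤ arcd om lam v := by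
  unfold arcd wd
  split_ifs with h1 h2 h3
  · positivity
  · exact le_refl _
  · have := Int.fract_nonneg (om - v)
    apply inv_nonneg.2; linarith
  · exact le_refl _

lemma arcd_le {lam0 : ℝ} (h0 : 0 < lam0) {lam : ℝ} (h : lam0 ≤ |lam|) (om v : ℝ) :
    arcd om lam v ≤ lam0⁻¹ := by
  have h0' : 0 ≤ lam0⁻¹ := by positivity
  unfold arcd wd
  split_ifs with h1 h2 h3
  · rw [abs_of_pos h1] at h
    exact inv_anti₀ h0 h
  · exact h0'
  · rw [abs_of_nonpos (not_lt.1 h1)] at h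
    exact inv_anti₀ h0 h
  · exact h0'

/-- periodic functions may be integrated over any shifted period. -/
lemma int_shift {G : ℝ → ℝ} (hG : ∀ v, G (v + 1) = G v) (c : ℝ) :
    (∫ v in (0 : ℝ)..1, G (v - c)) = ∫ v in (0 : ℝ)..1, G v := by
  have h1 := intervalIntegral.integral_comp_sub_right (a := 0) (b := 1) G c
  rw [h1]
  have hp : Function.Periodic G 1 := hG
  have h2 := hp.intervalIntegral_add_eq (0 - c) 0
  have e1 : 0 - c + 1 = 1 - c := by ring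
  rw [e1, zero_add] at h2
  exact h2

lemma int_refl {G : ℝ → ℝ} (hG : ∀ v, G (v + 1) = G v) :
    (∫ v in (0 : ℝ)..1, G (-v)) = ∫ v in (0 : ℝ)..1, G v := by
  rw [intervalIntegral.integral_comp_neg]
  have hp : Function.Periodic G 1 := hG
  have h2 := hp.intervalIntegral_add_eq (-1) 0
  have e1 : (-1 : ℝ) + 1 = -0 := by ring
  rw [e1, zero_add] at h2
  exact h2

lemma fract_add_one' (v c : ℝ) : Int.fract (v + 1 - c) = Int.fract (v - c) := by
  have : v + 1 - c = v - c + 1 := by ring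
  rw [this, Int.fract_add_one]

lemma flat_pos_aux (N : ℕ) (om : ℝ) {lam : ℝ} (h : 0 < lam) :
    (∫ v in (0 : ℝ)..1, (‖Ch N om lam v‖ ^ 2 - arcd om lam v) ^ 2)
      = ∫ v in (0 : ℝ)..1, (‖Ch N 0 lam v‖ ^ 2 - wd lam v) ^ 2 := by
  set G : ℝ → ℝ := fun v => (‖Ch N 0 lam v‖ ^ 2 - wd lam (Int.fract v)) ^ 2 with hG
  have hper : ∀ v, G (v + 1) = G v := by
    intro v
    simp only [hG]
    rw [Ch_add_one, Int.fract_add_one]
  have e1 : (∫ v in (0 : ℝ)..1, (‖Ch N om lam v‖ ^ 2 - arcd om lam v) ^ 2)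
      = ∫ v in (0 : ℝ)..1, G (v - om) := by
    apply intervalIntegral.integral_congr
    intro v _
    simp only [hG, arcd, h, if_true]
    rw [Ch_shift]
  rw [e1, int_shift hper]
  apply intervalIntegral.integral_congr_ae
  have : ∀ᵐ v : ℝ ∂volume, v ≠ 1 := by simp [ae_iff]
  filter_upwards [this] with v hv hv2
  rw [Set.uIoc_of_le zero_le_one] at hv2
  have h1 : Int.fract v = v := by
    rw [Int.fract_eq_self]
    exact ⟨hv2.1.le, lt_of_le_of_ne hv2.2 hv⟩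
  simp only [hG, h1]

lemma flat_neg_aux (N : ℕ) (om : ℝ) {lam : ℝ} (h : 0 < lam) :
    (∫ v in (0 : ℝ)..1, (‖Ch N om (-lam) v‖ ^ 2 - arcd om (-lam) v) ^ 2)
      = ∫ v in (0 : ℝ)..1, (‖Ch N 0 lam v‖ ^ 2 - wd lam v) ^ 2 := by
  rw [← flat_pos_aux N (-om) h]
  set G : ℝ → ℝ := fun v => (‖Ch N (-om) lam v‖ ^ 2 - arcd (-om) lam v) ^ 2 with hG
  have hper : ∀ v, G (v + 1) = G v := by
    intro v
    simp only [hG]
    rw [Ch_add_one]
    simp only [arcd, h, if_true]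
    rw [fract_add_one']
  rw [← int_refl hper]
  apply intervalIntegral.integral_congr
  intro v _
  simp only [hG]
  have e1 : ‖Ch N (-om) lam (-v)‖ = ‖Ch N om (-lam) v‖ := by
    have := norm_Ch_neg N om (-lam) v
    rw [neg_neg] at this
    exact this
  rw [e1]
  congr 2
  have hn : ¬ (0 < -lam) := by linarith
  simp only [arcd, hn, h, if_true, if_false, neg_neg]
  congr 2; ring

/-- **CH1.** -/
theorem flat {lam0 ε : ℝ} (h0 : 0 < lam0) (hε : 0 < ε) : ∃ N0 : ℕ, ∀ N : ℕ, N0 ≤ N →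
    ∀ om lam : ℝ, lam0 ≤ |lam| → |lam| ≤ 1 - lam0 →
      ∫ v in (0 : ℝ)..1, (‖Ch N om lam v‖ ^ 2 - arcd om lam v) ^ 2 ≤ ε := by
  obtain ⟨N0, hN0⟩ := flat_zero h0 hε
  refine ⟨N0, fun N hN om lam h1 h2 => ?_⟩
  rcases lt_or_ge 0 lam with h | h
  · rw [abs_of_pos h] at h1 h2
    rw [flat_pos_aux N om h]
    exact hN0 N hN lam h1 h2
  · rw [abs_of_nonpos h] at h1 h2
    have := flat_neg_aux N om (lam := -lam) (by linarith)
    rw [neg_neg] at this
    rw [this]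
    exact hN0 N hN (-lam) h1 h2

/-- Parseval: unit mass. -/
theorem mass_Ch {N : ℕ} (hN : 0 < N) (om lam : ℝ) :
    (∫ v in (0 : ℝ)..1, ‖Ch N om lam v‖ ^ 2) = 1 := by
  have e1 : (∫ v in (0 : ℝ)..1, ‖Ch N om lam v‖ ^ 2) = ∫ v in (0 : ℝ)..1, ‖Ch N 0 lam v‖ ^ 2 := by
    rw [← int_shift (G := fun v => ‖Ch N 0 lam v‖ ^ 2) (fun v => by rw [Ch_add_one]) om]
    apply intervalIntegral.integral_congr
    intro v _
    simp only
    rw [Ch_shift]
  rw [e1]
  have h := coef_Ch N lam 0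
  have h2 : Rr N lam 0 = 1 := by
    unfold Rr
    simp
    exact inv_mul_cancel₀ (by exact_mod_cast hN.ne')
  rw [h2] at h
  have h3 : (∫ v in (0 : ℝ)..1, ee (-((0 : ℕ) * v)) * ((‖Ch N 0 lam v‖ ^ 2 : ℝ) : ℂ))
      = ((∫ v in (0 : ℝ)..1, ‖Ch N 0 lam v‖ ^ 2 : ℝ) : ℂ) := by
    rw [← intervalIntegral.integral_ofReal]
    apply intervalIntegral.integral_congr
    intro v _
    simp
  rw [h3] at h
  exact_mod_cast h

/-! ### CH3: combination of lines -/

lemma pointwise {K : Type*} [DecidableEq K] (s : Finset K) (a a' S : K → ℂ) (W : K → ℝ) {t : ℝ}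
    (ht : 0 < t) (hd : ∀ k ∈ s, ∀ k' ∈ s, k ≠ k' → W k = 0 ∨ W k' = 0) :
    ‖(∑ k ∈ s, a' k * S k) * (starRingEnd ℂ) (∑ k ∈ s, a k * S k)
        - ∑ k ∈ s, a' k * (starRingEnd ℂ) (a k) * W k‖
      ≤ ∑ k ∈ s, ∑ k' ∈ s, ‖a' k‖ * ‖a k'‖ * (t / 2 * (‖S k‖ ^ 2 + ‖S k'‖ ^ 2)
        + 1 / (2 * t) * (|‖S k‖ ^ 2 - W k| + |‖S k'‖ ^ 2 - W k'|) + |‖S k‖ ^ 2 - W k|) := by
  have e : (∑ k ∈ s, a' k * S k) * (starRingEnd ℂ) (∑ k ∈ s, a k * S k)
      - ∑ k ∈ s, a' k * (starRingEnd ℂ) (a k) * W k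
      = ∑ k ∈ s, ∑ k' ∈ s, a' k * (starRingEnd ℂ) (a k') *
        (S k * (starRingEnd ℂ) (S k') - if k' = k then (W k : ℂ) else 0) := by
    rw [map_sum, sum_mul_sum, ← sum_sub_distrib]
    refine sum_congr rfl fun k hk => ?_
    have e2 : ∑ k' ∈ s, a' k * (starRingEnd ℂ) (a k') *
        (S k * (starRingEnd ℂ) (S k') - if k' = k then (W k : ℂ) else 0)
        = ∑ k' ∈ s, a' k * S k * (starRingEnd ℂ) (a k' * S k')
          - ∑ k' ∈ s, (if k' = k then a' k * (starRingEnd ℂ) (a k) * (W k : ℂ) else 0) := by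
      rw [← sum_sub_distrib]
      refine sum_congr rfl fun k' _ => ?_
      rw [map_mul]
      split_ifs with h
      · subst h; ring
      · ring
    rw [e2, sum_ite_eq', if_pos hk]
  rw [e]
  refine (norm_sum_le _ _).trans (sum_le_sum fun k hk => ?_)
  refine (norm_sum_le _ _).trans (sum_le_sum fun k' hk' => ?_)
  rw [norm_mul, norm_mul, RCLike.norm_conj]
  apply mul_le_mul_of_nonneg_left _ (by positivity)
  have hD : 0 ≤ |‖S k‖ ^ 2 - W k| := abs_nonneg _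
  have hD' : 0 ≤ |‖S k'‖ ^ 2 - W k'| := abs_nonneg _
  by_cases h : k' = k
  · rw [if_pos h]
    subst h
    have e3 : S k' * (starRingEnd ℂ) (S k') - (W k' : ℂ) = ((‖S k'‖ ^ 2 - W k' : ℝ) : ℂ) := by
      rw [Complex.mul_conj']; push_cast; ring
    rw [e3, Complex.norm_real, Real.norm_eq_abs]
    have h1 : 0 ≤ t / 2 * (‖S k'‖ ^ 2 + ‖S k'‖ ^ 2) := by positivity
    have h2 : 0 ≤ 1 / (2 * t) * (|‖S k'‖ ^ 2 - W k'| + |‖S k'‖ ^ 2 - W k'|) := by positivity
    linarith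
  · rw [if_neg h, sub_zero, norm_mul, RCLike.norm_conj]
    have hx := norm_nonneg (S k)
    have hy := norm_nonneg (S k')
    have amgm : ∀ x y : ℝ, 0 ≤ x → 0 ≤ y → x * y ≤ t / 2 * x ^ 2 + 1 / (2 * t) * y ^ 2 := by
      intro x y _ _
      have h1 : 0 ≤ 1 / (2 * t) * (t * x - y) ^ 2 := by positivity
      have h2 : 1 / (2 * t) * (t * x - y) ^ 2 = t / 2 * x ^ 2 + 1 / (2 * t) * y ^ 2 - x * y := by
        field_simp; ring
      linarith
    have hh1 : 0 ≤ 1 / (2 * t) := by positivity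
    rcases hd k hk k' hk' (fun h' => h h'.symm) with h0 | h0
    · have h1 := amgm ‖S k'‖ ‖S k‖ hy hx
      have h2 : |‖S k‖ ^ 2 - W k| = ‖S k‖ ^ 2 := by
        rw [h0, sub_zero, abs_of_nonneg (by positivity)]
      have h3 : 0 ≤ t / 2 * ‖S k‖ ^ 2 := by positivity
      have h4 : 0 ≤ 1 / (2 * t) * |‖S k'‖ ^ 2 - W k'| := by positivity
      rw [h2]
      nlinarith
    · have h1 := amgm ‖S k‖ ‖S k'‖ hx hy
      have h2 : |‖S k'‖ ^ 2 - W k'| = ‖S k'‖ ^ 2 := by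
        rw [h0, sub_zero, abs_of_nonneg (by positivity)]
      have h3 : 0 ≤ t / 2 * ‖S k'‖ ^ 2 := by positivity
      have h4 : 0 ≤ 1 / (2 * t) * |‖S k‖ ^ 2 - W k| := by positivity
      rw [h2]
      nlinarith

/-- **CH3.** Finitely many lines `S_k` (continuous, mass `≤ 1`, `|S_k|²` within `δ²` of `W_k` in
`L²`), `W_k` with pairwise disjoint supports. -/
theorem combine {K : Type*} [DecidableEq K] (s : Finset K) (a a' : K → ℂ) (S : K → ℝ → ℂ)
    (W : K → ℝ → ℝ) {δ B : ℝ} (hδ : 0 < δ) (hδ1 : δ ≤ 1)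
    (hS : ∀ k ∈ s, Continuous (S k)) (hW : ∀ k ∈ s, Measurable (W k))
    (hWB : ∀ k ∈ s, ∀ v, |W k v| ≤ B)
    (hd : ∀ v, ∀ k ∈ s, ∀ k' ∈ s, k ≠ k' → W k v = 0 ∨ W k' v = 0)
    (hm : ∀ k ∈ s, ∫ v in (0 : ℝ)..1, ‖S k v‖ ^ 2 ≤ 1)
    (hf : ∀ k ∈ s, ∫ v in (0 : ℝ)..1, (‖S k v‖ ^ 2 - W k v) ^ 2 ≤ δ ^ 4) :
    ∫ v in (0 : ℝ)..1, ‖(∑ k ∈ s, a' k * S k v) * (starRingEnd ℂ) (∑ k ∈ s, a k * S k v)
        - ∑ k ∈ s, a' k * (starRingEnd ℂ) (a k) * W k v‖
      ≤ 3 * δ * ((∑ k ∈ s, ‖a' k‖) * ∑ k ∈ s, ‖a k‖) := by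
  have hWi : ∀ k ∈ s, IntervalIntegrable (W k) volume 0 1 := by
    intro k hk
    refine (intervalIntegrable_const (c := B)).mono_fun' (hW k hk).aestronglyMeasurable ?_
    filter_upwards with v
    rw [Real.norm_eq_abs]; exact hWB k hk v
  have hSi : ∀ k ∈ s, IntervalIntegrable (fun v => ‖S k v‖ ^ 2) volume 0 1 := fun k hk =>
    ((hS k hk).norm.pow 2).intervalIntegrable _ _
  have hDi : ∀ k ∈ s, IntervalIntegrable (fun v => |‖S k v‖ ^ 2 - W k v|) volume 0 1 :=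
    fun k hk => ((hSi k hk).sub (hWi k hk)).abs
  have hD2i : ∀ k ∈ s, IntervalIntegrable (fun v => (‖S k v‖ ^ 2 - W k v) ^ 2) volume 0 1 := by
    intro k hk
    have e : (fun v => (‖S k v‖ ^ 2 - W k v) ^ 2)
        = fun v => (‖S k v‖ ^ 2) ^ 2 - 2 * ‖S k v‖ ^ 2 * W k v + W k v ^ 2 := by
      ext v; ring
    rw [e]
    refine ((((hS k hk).norm.pow 2).pow 2).intervalIntegrable _ _).sub ?_ |>.add ?_
    · exact (hWi k hk).continuousOn_mul
        ((continuous_const.mul ((hS k hk).norm.pow 2)).continuousOn)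
    · refine (intervalIntegrable_const (c := B ^ 2)).mono_fun'
        ((hW k hk).pow_const 2).aestronglyMeasurable ?_
      filter_upwards with v
      rw [Real.norm_eq_abs, abs_pow]
      exact pow_le_pow_left₀ (abs_nonneg _) (hWB k hk v) 2
  have hDint : ∀ k ∈ s, (∫ v in (0 : ℝ)..1, |‖S k v‖ ^ 2 - W k v|) ≤ δ ^ 2 := by
    intro k hk
    have hδ2 : 0 < δ ^ 2 := by positivity
    have h1 : (∫ v in (0 : ℝ)..1, |‖S k v‖ ^ 2 - W k v|)
        ≤ ∫ v in (0 : ℝ)..1, (δ ^ 2 / 2 + 1 / (2 * δ ^ 2) * (‖S k v‖ ^ 2 - W k v) ^ 2) := by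
      apply intervalIntegral.integral_mono_on zero_le_one (hDi k hk)
        (intervalIntegrable_const.add ((hD2i k hk).const_mul _))
      intro v _
      have h2 : 0 ≤ 1 / (2 * δ ^ 2) * (|‖S k v‖ ^ 2 - W k v| - δ ^ 2) ^ 2 := by positivity
      have h3 : 1 / (2 * δ ^ 2) * (|‖S k v‖ ^ 2 - W k v| - δ ^ 2) ^ 2
          = δ ^ 2 / 2 + 1 / (2 * δ ^ 2) * |‖S k v‖ ^ 2 - W k v| ^ 2 - |‖S k v‖ ^ 2 - W k v| := by
        field_simp; ring
      rw [sq_abs] at h3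
      linarith
    rw [intervalIntegral.integral_add intervalIntegrable_const ((hD2i k hk).const_mul _),
      intervalIntegral.integral_const, intervalIntegral.integral_const_mul] at h1
    have h4 : 1 / (2 * δ ^ 2) * (∫ v in (0 : ℝ)..1, (‖S k v‖ ^ 2 - W k v) ^ 2)
        ≤ 1 / (2 * δ ^ 2) * δ ^ 4 := mul_le_mul_of_nonneg_left (hf k hk) (by positivity)
    have h5 : 1 / (2 * δ ^ 2) * δ ^ 4 = δ ^ 2 / 2 := by field_simp
    have h6 : (1 - 0 : ℝ) • (δ ^ 2 / 2) = δ ^ 2 / 2 := by simp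
    rw [h6] at h1
    linarith
  -- the bound
  have hrhs : IntervalIntegrable (fun v => ∑ k ∈ s, ∑ k' ∈ s, ‖a' k‖ * ‖a k'‖ *
      (δ / 2 * (‖S k v‖ ^ 2 + ‖S k' v‖ ^ 2)
        + 1 / (2 * δ) * (|‖S k v‖ ^ 2 - W k v| + |‖S k' v‖ ^ 2 - W k' v|)
        + |‖S k v‖ ^ 2 - W k v|)) volume 0 1 := by
    have : (fun v => ∑ k ∈ s, ∑ k' ∈ s, ‖a' k‖ * ‖a k'‖ *
      (δ / 2 * (‖S k v‖ ^ 2 + ‖S k' v‖ ^ 2)
        + 1 / (2 * δ) * (|‖S k v‖ ^ 2 - W k v| + |‖S k' v‖ ^ 2 - W k' v|)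
        + |‖S k v‖ ^ 2 - W k v|)) = ∑ k ∈ s, ∑ k' ∈ s, fun v => ‖a' k‖ * ‖a k'‖ *
      (δ / 2 * (‖S k v‖ ^ 2 + ‖S k' v‖ ^ 2)
        + 1 / (2 * δ) * (|‖S k v‖ ^ 2 - W k v| + |‖S k' v‖ ^ 2 - W k' v|)
        + |‖S k v‖ ^ 2 - W k v|) := by
      ext v; simp [Finset.sum_apply]
    rw [this]
    refine IntervalIntegrable.sum _ fun k hk => IntervalIntegrable.sum _ fun k' hk' => ?_
    exact ((((hSi k hk).add (hSi k' hk')).const_mul _).add
      (((hDi k hk).add (hDi k' hk')).const_mul _) |>.add (hDi k hk)).const_mul _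
  have hlhs : IntervalIntegrable (fun v => ‖(∑ k ∈ s, a' k * S k v) *
      (starRingEnd ℂ) (∑ k ∈ s, a k * S k v)
        - ∑ k ∈ s, a' k * (starRingEnd ℂ) (a k) * W k v‖) volume 0 1 := by
    refine IntervalIntegrable.norm ?_
    refine IntervalIntegrable.sub ?_ ?_
    · apply Continuous.intervalIntegrable
      refine (continuous_finsetSum _ fun k hk => continuous_const.mul (hS k hk)).mul ?_
      exact Complex.continuous_conj.comp
        (continuous_finsetSum _ fun k hk => continuous_const.mul (hS k hk))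
    · have : (fun v => ∑ k ∈ s, a' k * (starRingEnd ℂ) (a k) * (W k v : ℂ))
          = ∑ k ∈ s, fun v => a' k * (starRingEnd ℂ) (a k) * (W k v : ℂ) := by
        ext v; simp [Finset.sum_apply]
      rw [this]
      refine IntervalIntegrable.sum _ fun k hk => ?_
      refine (intervalIntegrable_const (c := ‖a' k * (starRingEnd ℂ) (a k)‖ * B)).mono_fun'
        (measurable_const.mul (Complex.measurable_ofReal.comp (hW k hk))).aestronglyMeasurable ?_
      filter_upwards with v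
      rw [norm_mul]
      apply mul_le_mul_of_nonneg_left _ (norm_nonneg _)
      rw [Complex.norm_real, Real.norm_eq_abs]
      exact hWB k hk v
  refine (intervalIntegral.integral_mono_on zero_le_one hlhs hrhs fun v _ =>
    pointwise s a a' (fun k => S k v) (fun k => W k v) hδ (hd v)).trans ?_
  rw [intervalIntegral.integral_finsetSum]
  swap
  · intro k hk
    have : (fun v => ∑ k' ∈ s, ‖a' k‖ * ‖a k'‖ *
      (δ / 2 * (‖S k v‖ ^ 2 + ‖S k' v‖ ^ 2)
        + 1 / (2 * δ) * (|‖S k v‖ ^ 2 - W k v| + |‖S k' v‖ ^ 2 - W k' v|)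
        + |‖S k v‖ ^ 2 - W k v|)) = ∑ k' ∈ s, fun v => ‖a' k‖ * ‖a k'‖ *
      (δ / 2 * (‖S k v‖ ^ 2 + ‖S k' v‖ ^ 2)
        + 1 / (2 * δ) * (|‖S k v‖ ^ 2 - W k v| + |‖S k' v‖ ^ 2 - W k' v|)
        + |‖S k v‖ ^ 2 - W k v|) := by
      ext v; simp [Finset.sum_apply]
    rw [this]
    refine IntervalIntegrable.sum _ fun k' hk' => ?_
    exact ((((hSi k hk).add (hSi k' hk')).const_mul _).add
      (((hDi k hk).add (hDi k' hk')).const_mul _) |>.add (hDi k hk)).const_mul _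
  rw [sum_mul_sum, mul_sum]
  refine sum_le_sum fun k hk => ?_
  rw [intervalIntegral.integral_finsetSum, mul_sum]
  swap
  · intro k' hk'
    exact ((((hSi k hk).add (hSi k' hk')).const_mul _).add
      (((hDi k hk).add (hDi k' hk')).const_mul _) |>.add (hDi k hk)).const_mul _
  refine sum_le_sum fun k' hk' => ?_
  rw [intervalIntegral.integral_const_mul, intervalIntegral.integral_add
    ((((hSi k hk).add (hSi k' hk')).const_mul _).add
      (((hDi k hk).add (hDi k' hk')).const_mul _)) (hDi k hk),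
    intervalIntegral.integral_add (((hSi k hk).add (hSi k' hk')).const_mul _)
      (((hDi k hk).add (hDi k' hk')).const_mul _),
    intervalIntegral.integral_const_mul, intervalIntegral.integral_const_mul,
    intervalIntegral.integral_add (hSi k hk) (hSi k' hk'),
    intervalIntegral.integral_add (hDi k hk) (hDi k' hk')]
  have b1 := hm k hk
  have b2 := hm k' hk'
  have b3 := hDint k hk
  have b4 := hDint k' hk'
  have hc : 0 ≤ ‖a' k‖ * ‖a k'‖ := by positivity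
  have h1 : δ / 2 * ((∫ v in (0 : ℝ)..1, ‖S k v‖ ^ 2) + ∫ v in (0 : ℝ)..1, ‖S k' v‖ ^ 2) ≤ δ := by
    nlinarith
  have h2 : 1 / (2 * δ) * ((∫ v in (0 : ℝ)..1, |‖S k v‖ ^ 2 - W k v|) +
      ∫ v in (0 : ℝ)..1, |‖S k' v‖ ^ 2 - W k' v|) ≤ δ := by
    calc _ ≤ 1 / (2 * δ) * (δ ^ 2 + δ ^ 2) :=
          mul_le_mul_of_nonneg_left (add_le_add b3 b4) (by positivity)
      _ = δ := by field_simp; norm_num
  have h3 : (∫ v in (0 : ℝ)..1, |‖S k v‖ ^ 2 - W k v|) ≤ δ := by nlinarith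
  calc _ ≤ ‖a' k‖ * ‖a k'‖ * (δ + δ + δ) :=
        mul_le_mul_of_nonneg_left (add_le_add (add_le_add h1 h2) h3) hc
    _ = 3 * δ * (‖a' k‖ * ‖a k'‖) := by ring

end Crest.Agent.R081.Chirp
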