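import Crest.Agent.R081.SmLimit
import Crest.Agent.R081.Glue

/-! Row 81: CLOSE lemma.  Uniformly close volume preserving lifted diffeomorphisms have close
Koopman operators on a fixed function, for a bounded range of powers. -/

set_option autoImplicit false

namespace Crest.Agent.R081.Close

open scoped ContDiff Topology
open Crest.AnalysisR.Torus3 Filter MeasureTheory
open Crest.Agent.R081.Sm

/-- one function -/
theorem close_fun {E : Type} [NormedAddCommGroup E] [NormedSpace ℝ E] (A : LD)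
    {u : T3 → E} (hu : MemLp u 2 (volume : Measure T3)) (K : ℕ) {η : ℝ} (hη : 0 < η) :
    ∃ δ : ℝ, 0 < δ ∧ ∀ B : LD, MeasurePreserving B.perm (volume : Measure T3) volume →
      (∀ x, ‖B.F x - A.F x‖ ≤ δ ∧ ‖B.H x - A.H x‖ ≤ δ) →
      ∀ k : ℤ, |k| ≤ K →
        eLpNorm (fun y => u ((B.perm ^ k) y) - u ((A.perm ^ k) y)) 2 (volume : Measure T3)
          ≤ ENNReal.ofReal η := by
  by_contra hcon
  push Not at hcon
  have hδ : ∀ n : ℕ, (0 : ℝ) < 1 / ((n : ℝ) + 1) := fun n => by positivity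
  choose B hB using fun n : ℕ => hcon (1 / ((n : ℝ) + 1)) (hδ n)
  have hmp : ∀ n, MeasurePreserving (B n).perm (volume : Measure T3) volume := fun n => (hB n).1
  have hcl : ∀ n x, ‖(B n).F x - A.F x‖ ≤ 1 / ((n : ℝ) + 1) ∧
      ‖(B n).H x - A.H x‖ ≤ 1 / ((n : ℝ) + 1) := fun n => (hB n).2.1
  have hConv : Conv B A := ⟨fun n => 1 / ((n : ℝ) + 1), tendsto_one_div_add_atTop_nhds_zero_nat,
    fun n x => hcl n x⟩
  have hev : ∀ k ∈ Finset.Icc (-(K : ℤ)) K, ∀ᶠ n in atTop,
      eLpNorm (fun y => u (((B n).perm ^ k) y) - u ((A.perm ^ k) y)) 2 (volume : Measure T3)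
        ≤ ENNReal.ofReal η := by
    intro k _
    have := hConv.l2 hmp k hu
    exact (ENNReal.tendsto_nhds_zero.1 this) _ (by simpa using hη)
  have hall : ∀ᶠ n in atTop, ∀ k ∈ Finset.Icc (-(K : ℤ)) K,
      eLpNorm (fun y => u (((B n).perm ^ k) y) - u ((A.perm ^ k) y)) 2 (volume : Measure T3)
        ≤ ENNReal.ofReal η := by
    rw [Filter.eventually_all_finset]
    exact hev
  obtain ⟨n, hn⟩ := hall.exists
  obtain ⟨k, hk, hlt⟩ := (hB n).2.2
  have hk' : k ∈ Finset.Icc (-(K : ℤ)) K := by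
    rw [Finset.mem_Icc]
    exact abs_le.1 hk
  exact absurd (hn k hk') (not_le.2 hlt)

/-- a finite family of functions -/
theorem close_finset {E : Type} [NormedAddCommGroup E] [NormedSpace ℝ E] (A : LD)
    {ι : Type} (s : Finset ι) (u : ι → T3 → E)
    (hu : ∀ i ∈ s, MemLp (u i) 2 (volume : Measure T3)) (K : ℕ) {η : ℝ} (hη : 0 < η) :
    ∃ δ : ℝ, 0 < δ ∧ ∀ B : LD, MeasurePreserving B.perm (volume : Measure T3) volume →
      (∀ x, ‖B.F x - A.F x‖ ≤ δ ∧ ‖B.H x - A.H x‖ ≤ δ) →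
      ∀ i ∈ s, ∀ k : ℤ, |k| ≤ K →
        eLpNorm (fun y => u i ((B.perm ^ k) y) - u i ((A.perm ^ k) y)) 2 (volume : Measure T3)
          ≤ ENNReal.ofReal η := by
  classical
  induction s using Finset.induction_on with
  | empty => exact ⟨1, one_pos, fun B _ _ i hi => by simp at hi⟩
  | insert a s ha ih =>
    obtain ⟨δ₁, h1, h2⟩ := ih (fun i hi => hu i (Finset.mem_insert_of_mem hi))
    obtain ⟨δ₂, h3, h4⟩ := close_fun A (hu a (Finset.mem_insert_self a s)) K hη
    refine ⟨min δ₁ δ₂, lt_min h1 h3, fun B hB hc i hi k hk => ?_⟩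
    rcases Finset.mem_insert.1 hi with rfl | hi'
    · exact h4 B hB (fun x => ⟨(hc x).1.trans (min_le_right _ _), (hc x).2.trans (min_le_right _ _)⟩)
        k hk
    · exact h2 B hB (fun x => ⟨(hc x).1.trans (min_le_left _ _), (hc x).2.trans (min_le_left _ _)⟩)
        i hi' k hk

/-- `Bd 0 δ` gives the sup-closeness used above -/
theorem sup_of_bd {r : ℕ} {δ : ℝ} {F G : E3 → E3} (h : Bd r δ (fun x => F x - G x)) (x : E3) :
    ‖F x - G x‖ ≤ δ := by
  have := h 0 (Nat.zero_le _) x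
  rwa [norm_iteratedFDeriv_zero] at this

/-- **CLOSE**, in terms of the Koopman operators `Glue.koop` on real `L²`. -/
theorem close_koop (A : LD) (hA : MeasurePreserving A.perm (volume : Measure T3) volume)
    (hA' : MeasurePreserving A.perm.symm (volume : Measure T3) volume)
    (s : Finset (Lp ℝ 2 (volume : Measure T3))) (K : ℕ) {η : ℝ} (hη : 0 < η) :
    ∃ δ : ℝ, 0 < δ ∧ ∀ (B : LD) (hB : MeasurePreserving B.perm (volume : Measure T3) volume)
      (hB' : MeasurePreserving B.perm.symm (volume : Measure T3) volume),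
      (∀ x, ‖B.F x - A.F x‖ ≤ δ ∧ ‖B.H x - A.H x‖ ≤ δ) →
      ∀ u ∈ s, ∀ k : ℤ, |k| ≤ K →
        ‖((Glue.koop B.perm hB hB') ^ k) u - ((Glue.koop A.perm hA hA') ^ k) u‖ ≤ η := by
  classical
  obtain ⟨δ, h1, h2⟩ := close_finset A s (fun u => (u : T3 → ℝ))
    (fun u _ => Lp.memLp u) K hη
  refine ⟨δ, h1, fun B hB hB' hc u hu k hk => ?_⟩
  have h3 := h2 B hB hc u hu k hk
  have h4 : eLpNorm (⇑(((Glue.koop B.perm hB hB') ^ k) u - ((Glue.koop A.perm hA hA') ^ k) u)) 2
      (volume : Measure T3) ≤ ENNReal.ofReal η := by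
    refine le_trans (le_of_eq ?_) h3
    refine eLpNorm_congr_ae ?_
    filter_upwards [Lp.coeFn_sub (((Glue.koop B.perm hB hB') ^ k) u)
      (((Glue.koop A.perm hA hA') ^ k) u), Glue.coeFn_koop_zpow B.perm hB hB' k u,
      Glue.coeFn_koop_zpow A.perm hA hA' k u] with y e1 e2 e3
    rw [e1, Pi.sub_apply, e2, e3]
    rfl
  rw [Lp.norm_def]
  exact ENNReal.toReal_le_of_le_ofReal hη.le h4

/-- volume preserving inverse -/
theorem mp_symm {A : LD} (hA : MeasurePreserving A.perm (volume : Measure T3) volume) :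
    MeasurePreserving A.perm.symm (volume : Measure T3) volume := by
  let e : T3 ≃ᵐ T3 := ⟨A.perm, A.measurable_perm, A.measurable_perm_symm⟩
  exact MeasurePreserving.symm e hA

end Crest.Agent.R081.Close
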