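import Mathlib

/-!
# Row 81: the cells of the comb design (note 13832)

All digits are integers.  The circle is `ℤ/N`, `N = U3 * (L * l)`, `U2 = 2 Λ L`, `V = L U2`,
`U3 = 2 K D V`, `D = ∏ q_t`.  The line `(t,l1,l2)` of the piece `i` starts at
`X = U3 s_{i,t} + V (t1 K D + t1 a_i + q_t l1) + U2 t1 r2_i + L (t1 Λ + l2) + t1 r3_i`
and has `t1` cells.
-/

set_option autoImplicit false

namespace Crest.Agent.R081.Comb

open Finset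

/-- uniqueness of a digit -/
lemma digit {b A A' F F' : ℤ} (hF0 : 0 ≤ F) (hF : F < b) (hF0' : 0 ≤ F') (hF' : F' < b)
    (h : b * A + F = b * A' + F') : A = A' ∧ F = F' := by
  have hb : 0 < b := lt_of_le_of_lt hF0 hF
  have h1 : A = A' := by
    have e1 : (b * A + F) / b = A := by
      rw [add_comm, Int.add_mul_ediv_left _ _ hb.ne', Int.ediv_eq_zero_of_lt hF0 hF, zero_add]
    have e2 : (b * A' + F') / b = A' := by
      rw [add_comm, Int.add_mul_ediv_left _ _ hb.ne', Int.ediv_eq_zero_of_lt hF0' hF', zero_add]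
    rw [← e1, ← e2, h]
  subst h1
  exact ⟨rfl, by linarith⟩

/-- `c` lies in the arc `[X, X + len)` of `ℤ / N`. -/
def InZ (N X len c : ℤ) : Prop := ∃ k : ℤ, X ≤ c + k * N ∧ c + k * N < X + len

lemma InZ.shift {N X X' len c : ℤ} (h : InZ N X len c) (e : ∃ m : ℤ, X' = X + N * m) :
    InZ N X' len c := by
  obtain ⟨k, h1, h2⟩ := h
  obtain ⟨m, rfl⟩ := e
  exact ⟨k + m, by linarith [add_mul k m N], by linarith [add_mul k m N]⟩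

/-- combinatorial data of the comb design. -/
structure CB (ι Pc : Type) [Fintype ι] [DecidableEq ι] where
  L : ℤ
  l : ℤ
  K : ℤ
  Lam : ℤ
  L_pos : 0 < L
  l_pos : 0 < l
  K_pos : 0 < K
  Lam_pos : 0 < Lam
  t1 : ι → ℤ
  t1_pos : ∀ t, 0 < t1 t
  t1_dvd : ∀ t, t1 t ∣ L
  tau : ℤ → Option ι
  tau_symm : ∀ B, 0 ≤ B → B < l → ∀ t, tau B = some t → tau (l - 1 - B) = none
  s : Pc → ι → ℤ
  s_blk : ∀ i t, ∃ B a0, 0 ≤ B ∧ B < l ∧ 0 ≤ a0 ∧ t1 t * a0 + t1 t ≤ L ∧ s i t = L * B + t1 t * a0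
    ∧ tau B = some t
  q : ι → ℤ
  q_pos : ∀ t, 0 < q t
  a : Pc → ℤ
  a_nonneg : ∀ i, 0 ≤ a i
  a_lt : ∀ i, a i < ∏ t, q t
  r2 : Pc → ℤ
  r2_nonneg : ∀ i, 0 ≤ r2 i
  r2_lt : ∀ i, r2 i < L
  r3 : Pc → ℤ
  r3_nonneg : ∀ i, 0 ≤ r3 i
  r3_lt : ∀ i, r3 i < L
  inj : ∀ t i i', s i t = s i' t → t1 t * r2 i % L = t1 t * r2 i' % L →
    t1 t * r3 i % L = t1 t * r3 i' % L →
    t1 t * r2 i / L + t1 t * a i ≡ t1 t * r2 i' / L + t1 t * a i' [ZMOD q t] → i = i'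

namespace CB

variable {ι Pc : Type} [Fintype ι] [DecidableEq ι] (C : CB ι Pc)

def D : ℤ := ∏ t, C.q t
def Dt (t : ι) : ℤ := ∏ t' ∈ univ.erase t, C.q t'
def U2 : ℤ := 2 * C.Lam * C.L
def V : ℤ := C.L * C.U2
def U3 : ℤ := 2 * C.K * C.D * C.V
def N : ℤ := C.U3 * (C.L * C.l)

lemma D_eq (t : ι) : C.D = C.q t * C.Dt t := by
  unfold D Dt
  rw [Finset.mul_prod_erase _ _ (mem_univ t)]

lemma D_pos : 0 < C.D := Finset.prod_pos fun t _ => C.q_pos t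
lemma Dt_pos (t : ι) : 0 < C.Dt t := Finset.prod_pos fun t _ => C.q_pos t
lemma U2_pos : 0 < C.U2 := by
  have := C.Lam_pos; have := C.L_pos; unfold U2; positivity
lemma V_pos : 0 < C.V := by
  have := C.U2_pos; have := C.L_pos; unfold V; positivity
lemma U3_pos : 0 < C.U3 := by
  have := C.K_pos; have := C.D_pos; have := C.V_pos; unfold U3; positivity
lemma N_pos : 0 < C.N := by
  have := C.U3_pos; have := C.L_pos; have := C.l_pos; unfold N; positivity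

/-- start of the arc of the line `(t,l1,l2)` of the piece `i`. -/
def X (i : Pc) (t : ι) (l1 l2 : ℤ) : ℤ :=
  C.U3 * C.s i t + C.V * (C.t1 t * C.K * C.D + C.t1 t * C.a i + C.q t * l1)
    + C.U2 * (C.t1 t * C.r2 i) + C.L * (C.t1 t * C.Lam + l2) + C.t1 t * C.r3 i

/-- the `V`-digit -/
def AA (i : Pc) (t : ι) (l1 : ℤ) : ℤ :=
  C.t1 t * C.K * C.D + C.t1 t * C.a i + C.q t * l1 + C.t1 t * C.r2 i / C.L

/-- the `L`-digit -/
def BB (i : Pc) (t : ι) (l2 : ℤ) : ℤ := C.t1 t * C.Lam + l2 + C.t1 t * C.r3 i / C.L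

lemma emod_form (t : ι) {r : ℤ} (h0 : 0 ≤ r) (h1 : r < C.L) :
    ∃ b : ℤ, C.t1 t * r % C.L = C.t1 t * b ∧ 0 ≤ b ∧ C.t1 t * b + C.t1 t ≤ C.L ∧
      0 ≤ C.t1 t * r / C.L ∧ C.t1 t * r / C.L ≤ C.t1 t - 1 ∧
      C.t1 t * r = C.L * (C.t1 t * r / C.L) + C.t1 t * b := by
  obtain ⟨w, hw⟩ := C.t1_dvd t
  have ht := C.t1_pos t
  have hL := C.L_pos
  have key : ∀ d : ℤ, C.L * d = C.t1 t * (w * d) := by intro d; rw [hw]; ring
  refine ⟨r - w * (C.t1 t * r / C.L), ?_, ?_, ?_, ?_, ?_, ?_⟩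
  · rw [Int.emod_def]
    rw [key]; ring
  all_goals
    have e1 : C.t1 t * r % C.L = C.t1 t * (r - w * (C.t1 t * r / C.L)) := by
      rw [Int.emod_def]
      rw [key]; ring
    have e2 := Int.emod_nonneg (C.t1 t * r) hL.ne'
    have e3 := Int.emod_lt_of_pos (C.t1 t * r) hL
    have e4 := Int.emod_add_mul_ediv (C.t1 t * r) C.L
  · rw [e1] at e2
    exact nonneg_of_mul_nonneg_right e2 ht
  · rw [e1] at e3
    set b := r - w * (C.t1 t * r / C.L)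
    rw [hw] at e3 ⊢
    have : b < w := lt_of_mul_lt_mul_left e3 ht.le
    have h5 : C.t1 t * (b + 1) ≤ C.t1 t * w := mul_le_mul_of_nonneg_left (by omega) ht.le
    linarith [mul_add (C.t1 t) b 1]
  · exact Int.ediv_nonneg (mul_nonneg ht.le h0) hL.le
  · have h6 : C.t1 t * r / C.L < C.t1 t := by
      apply Int.ediv_lt_of_lt_mul hL
      exact mul_lt_mul_of_pos_left h1 ht
    omega
  · rw [e1] at e4
    linarith

/-- the complete digit expansion of a cell of an arc. -/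
def Dig (i : Pc) (t : ι) (l1 l2 x : ℤ) (B a0 b2 b3 r : ℤ) : Prop :=
  (0 ≤ B ∧ B < C.l ∧ C.tau B = some t ∧ C.s i t = C.L * B + C.t1 t * a0 ∧ 0 ≤ a0 ∧
    C.t1 t * a0 + C.t1 t ≤ C.L) ∧
  (C.t1 t * C.r2 i % C.L = C.t1 t * b2 ∧ 0 ≤ b2 ∧ C.t1 t * b2 + C.t1 t ≤ C.L) ∧
  (C.t1 t * C.r3 i % C.L = C.t1 t * b3 ∧ 0 ≤ b3 ∧ C.t1 t * b3 + C.t1 t ≤ C.L) ∧
  (0 ≤ r ∧ r < C.t1 t) ∧
  x = (C.U3 * C.L) * B + ((C.U3 * C.t1 t) * a0 + (C.V * C.AA i t l1 +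
    ((C.t1 t * C.U2) * b2 + (C.L * C.BB i t l2 + (C.t1 t * b3 + r)))))

lemma exists_dig {i : Pc} {t : ι} {l1 l2 x : ℤ} (hx : C.X i t l1 l2 ≤ x)
    (hx' : x < C.X i t l1 l2 + C.t1 t) :
    ∃ B a0 b2 b3 r, C.Dig i t l1 l2 x B a0 b2 b3 r := by
  obtain ⟨B, a0, hB0, hB, ha0, ha, hs, htau⟩ := C.s_blk i t
  obtain ⟨b2, c1, c2, c3, -, -, c6⟩ := C.emod_form t (C.r2_nonneg i) (C.r2_lt i)
  obtain ⟨b3, d1, d2, d3, -, -, d6⟩ := C.emod_form t (C.r3_nonneg i) (C.r3_lt i)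
  refine ⟨B, a0, b2, b3, x - C.X i t l1 l2, ⟨hB0, hB, htau, hs, ha0, ha⟩, ⟨c1, c2, c3⟩,
    ⟨d1, d2, d3⟩, ⟨by linarith, by linarith⟩, ?_⟩
  unfold X AA BB
  rw [hs]
  have e1 : C.U2 * (C.t1 t * C.r2 i) = C.V * (C.t1 t * C.r2 i / C.L) + (C.t1 t * C.U2) * b2 := by
    conv_lhs => rw [c6]
    unfold V; ring
  have e2 := d6
  linear_combination e1 + e2

lemma AA_bd {i : Pc} {t : ι} {l1 : ℤ} (h : |l1| ≤ C.Dt t * C.t1 t * (C.K - 1)) :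
    0 ≤ C.AA i t l1 ∧ C.AA i t l1 + 1 ≤ 2 * C.K * C.D * C.t1 t := by
  obtain ⟨b2, -, -, -, c4, c5, -⟩ := C.emod_form t (C.r2_nonneg i) (C.r2_lt i)
  have hq := C.q_pos t
  have ht := C.t1_pos t
  have ha := C.a_nonneg i
  have ha' : C.a i + 1 ≤ C.D := C.a_lt i
  obtain ⟨h1, h2⟩ := abs_le.mp h
  have e1 : C.q t * l1 ≤ C.D * C.t1 t * (C.K - 1) := by
    rw [C.D_eq t]
    calc C.q t * l1 ≤ C.q t * (C.Dt t * C.t1 t * (C.K - 1)) := mul_le_mul_of_nonneg_left h2 hq.le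
      _ = _ := by ring
  have e2 : -(C.D * C.t1 t * (C.K - 1)) ≤ C.q t * l1 := by
    rw [C.D_eq t]
    calc -(C.q t * C.Dt t * C.t1 t * (C.K - 1)) = C.q t * (-(C.Dt t * C.t1 t * (C.K - 1))) := by ring
      _ ≤ _ := mul_le_mul_of_nonneg_left h1 hq.le
  have e3 : 0 ≤ C.t1 t * C.a i := mul_nonneg ht.le ha
  have e4 : C.t1 t * C.a i + C.t1 t ≤ C.t1 t * C.D := by
    calc C.t1 t * C.a i + C.t1 t = C.t1 t * (C.a i + 1) := by ring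
      _ ≤ _ := mul_le_mul_of_nonneg_left ha' ht.le
  have e5 : 0 < C.D * C.t1 t := mul_pos C.D_pos ht
  unfold AA
  constructor
  · nlinarith
  · nlinarith

lemma BB_bd {i : Pc} {t : ι} {l2 : ℤ} (h : |l2| ≤ C.t1 t * (C.Lam - 1)) :
    0 ≤ C.BB i t l2 ∧ C.BB i t l2 + 1 ≤ 2 * C.t1 t * C.Lam := by
  obtain ⟨b3, -, -, -, c4, c5, -⟩ := C.emod_form t (C.r3_nonneg i) (C.r3_lt i)
  obtain ⟨h1, h2⟩ := abs_le.mp h
  have ht := C.t1_pos t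
  unfold BB
  constructor <;> nlinarith

/-- bounds of the tails of the digit expansion. -/
lemma Dig.bds {i : Pc} {t : ι} {l1 l2 x B a0 b2 b3 r : ℤ} (h : C.Dig i t l1 l2 x B a0 b2 b3 r)
    (h1 : |l1| ≤ C.Dt t * C.t1 t * (C.K - 1)) (h2 : |l2| ≤ C.t1 t * (C.Lam - 1)) :
    (0 ≤ C.t1 t * b3 + r ∧ C.t1 t * b3 + r < C.L) ∧
    (0 ≤ C.L * C.BB i t l2 + (C.t1 t * b3 + r) ∧
      C.L * C.BB i t l2 + (C.t1 t * b3 + r) < C.t1 t * C.U2) ∧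
    (0 ≤ (C.t1 t * C.U2) * b2 + (C.L * C.BB i t l2 + (C.t1 t * b3 + r)) ∧
      (C.t1 t * C.U2) * b2 + (C.L * C.BB i t l2 + (C.t1 t * b3 + r)) < C.V) ∧
    (0 ≤ C.V * C.AA i t l1 + ((C.t1 t * C.U2) * b2 + (C.L * C.BB i t l2 + (C.t1 t * b3 + r))) ∧
      C.V * C.AA i t l1 + ((C.t1 t * C.U2) * b2 + (C.L * C.BB i t l2 + (C.t1 t * b3 + r)))
        < C.U3 * C.t1 t) ∧
    (0 ≤ (C.U3 * C.t1 t) * a0 + (C.V * C.AA i t l1 +
        ((C.t1 t * C.U2) * b2 + (C.L * C.BB i t l2 + (C.t1 t * b3 + r)))) ∧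
      (C.U3 * C.t1 t) * a0 + (C.V * C.AA i t l1 +
        ((C.t1 t * C.U2) * b2 + (C.L * C.BB i t l2 + (C.t1 t * b3 + r)))) < C.U3 * C.L) ∧
    (0 ≤ x ∧ x < C.N) := by
  obtain ⟨⟨hB0, hB, -, -, ha0, ha⟩, ⟨-, g1, g2⟩, ⟨-, k1, k2⟩, ⟨r0, r1⟩, hx⟩ := h
  obtain ⟨A0, A1⟩ := C.AA_bd (i := i) h1
  obtain ⟨B0, B1⟩ := C.BB_bd (i := i) h2
  have ht := C.t1_pos t
  have hL := C.L_pos
  have hU2 := C.U2_pos
  have hV := C.V_pos
  have hU3 := C.U3_pos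
  set G3 := C.t1 t * b3 + r with hG3
  have z3 : 0 ≤ G3 := by have := mul_nonneg ht.le k1; linarith
  have y3 : G3 < C.L := by linarith
  set G2 := C.L * C.BB i t l2 + G3 with hG2
  have z2 : 0 ≤ G2 := by have := mul_nonneg hL.le B0; linarith
  have y2 : G2 < C.t1 t * C.U2 := by
    have e1 : C.L * (C.BB i t l2 + 1) ≤ C.L * (2 * C.t1 t * C.Lam) :=
      mul_le_mul_of_nonneg_left B1 hL.le
    have e2 : C.L * (2 * C.t1 t * C.Lam) = C.t1 t * C.U2 := by unfold U2; ring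
    rw [e2] at e1
    linarith [mul_add C.L (C.BB i t l2) 1]
  set G1 := (C.t1 t * C.U2) * b2 + G2 with hG1
  have ht2 : 0 < C.t1 t * C.U2 := mul_pos ht hU2
  have z1 : 0 ≤ G1 := by have := mul_nonneg ht2.le g1; linarith
  have y1 : G1 < C.V := by
    have e1 : C.U2 * (C.t1 t * b2 + C.t1 t) ≤ C.U2 * C.L := mul_le_mul_of_nonneg_left g2 hU2.le
    have e2 : C.V = C.U2 * C.L := by unfold V; ring
    rw [e2]
    have e3 : C.U2 * (C.t1 t * b2 + C.t1 t) = (C.t1 t * C.U2) * b2 + C.t1 t * C.U2 := by ring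
    linarith
  set G0 := C.V * C.AA i t l1 + G1 with hG0
  have z0 : 0 ≤ G0 := by have := mul_nonneg hV.le A0; linarith
  have y0 : G0 < C.U3 * C.t1 t := by
    have e1 : C.V * (C.AA i t l1 + 1) ≤ C.V * (2 * C.K * C.D * C.t1 t) :=
      mul_le_mul_of_nonneg_left A1 hV.le
    have e2 : C.V * (2 * C.K * C.D * C.t1 t) = C.U3 * C.t1 t := by unfold U3; ring
    rw [e2] at e1
    linarith [mul_add C.V (C.AA i t l1) 1]
  set H0 := (C.U3 * C.t1 t) * a0 + G0 with hH0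
  have ht3 : 0 < C.U3 * C.t1 t := mul_pos hU3 ht
  have zz : 0 ≤ H0 := by have := mul_nonneg ht3.le ha0; linarith
  have yy : H0 < C.U3 * C.L := by
    have e1 : C.U3 * (C.t1 t * a0 + C.t1 t) ≤ C.U3 * C.L := mul_le_mul_of_nonneg_left ha hU3.le
    have e3 : C.U3 * (C.t1 t * a0 + C.t1 t) = (C.U3 * C.t1 t) * a0 + C.U3 * C.t1 t := by ring
    linarith
  refine ⟨⟨z3, y3⟩, ⟨z2, y2⟩, ⟨z1, y1⟩, ⟨z0, y0⟩, ⟨zz, yy⟩, ?_, ?_⟩
  · rw [hx]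
    have hUL : 0 < C.U3 * C.L := mul_pos hU3 hL
    have := mul_nonneg hUL.le hB0
    linarith
  · rw [hx]
    have hUL : 0 < C.U3 * C.L := mul_pos hU3 hL
    have e1 : (C.U3 * C.L) * (B + 1) ≤ (C.U3 * C.L) * C.l :=
      mul_le_mul_of_nonneg_left (by omega) hUL.le
    have e2 : C.N = (C.U3 * C.L) * C.l := by unfold N; ring
    rw [e2]
    linarith [mul_add (C.U3 * C.L) B 1]

/-- **the arcs are pairwise disjoint** (representatives in `[0,N)`). -/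
lemma uniq {i i' : Pc} {t t' : ι} {l1 l2 l1' l2' x B a0 b2 b3 r B' a0' b2' b3' r' : ℤ}
    (h : C.Dig i t l1 l2 x B a0 b2 b3 r) (h' : C.Dig i' t' l1' l2' x B' a0' b2' b3' r')
    (h1 : |l1| ≤ C.Dt t * C.t1 t * (C.K - 1)) (h2 : |l2| ≤ C.t1 t * (C.Lam - 1))
    (h1' : |l1'| ≤ C.Dt t' * C.t1 t' * (C.K - 1)) (h2' : |l2'| ≤ C.t1 t' * (C.Lam - 1)) :
    i = i' ∧ t = t' ∧ l1 = l1' ∧ l2 = l2' := by
  obtain ⟨p3, p2, p1, p0, pH, -⟩ := h.bds C h1 h2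
  obtain ⟨p3', p2', p1', p0', pH', -⟩ := h'.bds C h1' h2'
  obtain ⟨⟨-, -, htau, hs, -, -⟩, ⟨g0, -, -⟩, ⟨k0, -, -⟩, ⟨r0, r1⟩, hx⟩ := h
  obtain ⟨⟨-, -, htau', hs', -, -⟩, ⟨g0', -, -⟩, ⟨k0', -, -⟩, ⟨r0', r1'⟩, hx'⟩ := h'
  have hxx := hx.symm.trans hx'
  obtain ⟨eB, e1⟩ := digit pH.1 pH.2 pH'.1 pH'.2 hxx
  subst eB
  have ht : t = t' := Option.some_injective _ (htau.symm.trans htau')
  subst ht
  obtain ⟨ea, e2⟩ := digit p0.1 p0.2 p0'.1 p0'.2 e1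
  subst ea
  obtain ⟨eA, e3⟩ := digit p1.1 p1.2 p1'.1 p1'.2 e2
  obtain ⟨eb2, e4⟩ := digit p2.1 p2.2 p2'.1 p2'.2 e3
  subst eb2
  obtain ⟨eBB, e5⟩ := digit p3.1 p3.2 p3'.1 p3'.2 e4
  obtain ⟨eb3, -⟩ := digit r0 r1 r0' r1' e5
  subst eb3
  have hi : i = i' := by
    refine C.inj t i i' (hs.trans hs'.symm) (g0.trans g0'.symm) (k0.trans k0'.symm) ?_
    unfold AA at eA
    rw [Int.modEq_iff_dvd]
    refine ⟨l1 - l1', ?_⟩
    linear_combination (-1:ℤ) * eA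
  subst hi
  refine ⟨rfl, rfl, ?_, ?_⟩
  · unfold AA at eA
    have : C.q t * l1 = C.q t * l1' := by linarith
    exact mul_left_cancel₀ (C.q_pos t).ne' this
  · unfold BB at eBB
    linarith

theorem disj {i i' : Pc} {t t' : ι} {l1 l2 l1' l2' c : ℤ}
    (h1 : |l1| ≤ C.Dt t * C.t1 t * (C.K - 1)) (h2 : |l2| ≤ C.t1 t * (C.Lam - 1))
    (h1' : |l1'| ≤ C.Dt t' * C.t1 t' * (C.K - 1)) (h2' : |l2'| ≤ C.t1 t' * (C.Lam - 1))
    (hc : InZ C.N (C.X i t l1 l2) (C.t1 t) c) (hc' : InZ C.N (C.X i' t' l1' l2') (C.t1 t') c) :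
    i = i' ∧ t = t' ∧ l1 = l1' ∧ l2 = l2' := by
  obtain ⟨k, a1, a2⟩ := hc
  obtain ⟨k', a1', a2'⟩ := hc'
  obtain ⟨B, a0, b2, b3, r, hd⟩ := C.exists_dig a1 a2
  obtain ⟨B', a0', b2', b3', r', hd'⟩ := C.exists_dig a1' a2'
  obtain ⟨-, -, -, -, -, x0, x1⟩ := hd.bds C h1 h2
  obtain ⟨-, -, -, -, -, x0', x1'⟩ := hd'.bds C h1' h2'
  have hN := C.N_pos
  have : c + k * C.N = c + k' * C.N := by
    have e1 : (c + k * C.N) % C.N = c % C.N := by rw [Int.add_mul_emod_self_right]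
    have e2 : (c + k' * C.N) % C.N = c % C.N := by rw [Int.add_mul_emod_self_right]
    rw [Int.emod_eq_of_lt x0 x1] at e1
    rw [Int.emod_eq_of_lt x0' x1'] at e2
    rw [e1, e2]
  rw [← this] at hd'
  exact C.uniq hd hd' h1 h2 h1' h2'

/-- **no arc meets a mirror arc**. -/
theorem disj_mirror {i i' : Pc} {t t' : ι} {l1 l2 l1' l2' c : ℤ}
    (h1 : |l1| ≤ C.Dt t * C.t1 t * (C.K - 1)) (h2 : |l2| ≤ C.t1 t * (C.Lam - 1))
    (h1' : |l1'| ≤ C.Dt t' * C.t1 t' * (C.K - 1)) (h2' : |l2'| ≤ C.t1 t' * (C.Lam - 1))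
    (hc : InZ C.N (C.X i t l1 l2) (C.t1 t) c)
    (hc' : InZ C.N (C.X i' t' l1' l2') (C.t1 t') (-1 - c)) : False := by
  obtain ⟨k, a1, a2⟩ := hc
  obtain ⟨k', a1', a2'⟩ := hc'
  obtain ⟨B, a0, b2, b3, r, hd⟩ := C.exists_dig a1 a2
  obtain ⟨B', a0', b2', b3', r', hd'⟩ := C.exists_dig a1' a2'
  obtain ⟨-, -, -, -, pH, x0, x1⟩ := hd.bds C h1 h2
  obtain ⟨-, -, -, -, pH', x0', x1'⟩ := hd'.bds C h1' h2'
  have hN := C.N_pos
  set x := c + k * C.N with hx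
  set x' := -1 - c + k' * C.N with hx'
  have hsum : x + x' + 1 = (k + k') * C.N := by rw [hx, hx']; ring
  have hk : k + k' = 1 := by
    have e1 : 0 < (k + k') * C.N := by rw [← hsum]; omega
    have e2 : (k + k') * C.N < 2 * C.N := by rw [← hsum]; omega
    have e3 : 0 < k + k' := by
      by_contra hcon
      have : (k + k') * C.N ≤ 0 := mul_nonpos_of_nonpos_of_nonneg (by omega) hN.le
      omega
    have e4 : k + k' < 2 := lt_of_mul_lt_mul_right e2 hN.le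
    omega
  have hx2 : x' = C.N - 1 - x := by rw [hk] at hsum; linarith
  obtain ⟨⟨hB0, hB, htau, -, -, -⟩, -, -, -, ex⟩ := hd
  obtain ⟨⟨hB0', hB', htau', -, -, -⟩, -, -, -, ex'⟩ := hd'
  set y := (C.U3 * C.t1 t) * a0 + (C.V * C.AA i t l1 +
        ((C.t1 t * C.U2) * b2 + (C.L * C.BB i t l2 + (C.t1 t * b3 + r)))) with hy
  set y' := (C.U3 * C.t1 t') * a0' + (C.V * C.AA i' t' l1' +
        ((C.t1 t' * C.U2) * b2' + (C.L * C.BB i' t' l2' + (C.t1 t' * b3' + r')))) with hy'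
  have e1 : (C.U3 * C.L) * B' + y' = (C.U3 * C.L) * (C.l - 1 - B) + (C.U3 * C.L - 1 - y) := by
    rw [← ex', hx2, ex]; unfold N; ring
  obtain ⟨eB, -⟩ := digit pH'.1 pH'.2 (by linarith [pH.2]) (by linarith [pH.1]) e1
  have := C.tau_symm B hB0 hB t htau
  rw [← eB, htau'] at this
  exact absurd this (by simp)

end CB

end Crest.Agent.R081.Comb
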