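import Crest.Agent.R081.ThmD
import Crest.Agent.R081.CombCells

/-!
# Row 81: the comb design (note 13832)

Generic version: arbitrary masses `p t`, arbitrary pairwise non parallel types `t` with `t 0 ≥ 1`.
The line `(t, q_t l1, l2)` of the piece `i` has frequency
`(t . om_i + q_t l1 V + l2 U) / N` and sweeps `t 0` cells of `ℤ/N`; all these arcs and their mirrors
are pairwise disjoint; the mass `p_t / (4 D_t t0² K Λ)` of a line is `P` times the relative length of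
its arc (up to `1 + eps`).
-/

set_option autoImplicit false

namespace Crest.Agent.R081.Comb

open Finset Crest.Agent.R075 Crest.Agent.R081.D

/-- output of the comb design. -/
structure CombDesign {R : ℕ} (T : Finset (Fin (R+1) → ℤ)) (p : (Fin (R+1) → ℤ) → ℝ) (eps : ℝ)
    (B0 : ℕ) (K Lam : ℤ) where
  /-- number of pieces -/
  P : ℕ
  P_pos : 0 < P
  /-- number of cells -/
  N : ℤ
  N_pos : 0 < N
  /-- velocity of `psi'` (in cells) -/
  V : ℤ
  V_pos : 0 < V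
  /-- velocity of `psi` (in cells) -/
  U : ℤ
  U_pos : 0 < U
  q : (Fin (R+1) → ℤ) → ℕ
  q_odd : ∀ t ∈ T, Odd (q t)
  q_one : ∀ t ∈ T, 1 < q t
  q_cop : ∀ t ∈ T, ∀ t' ∈ T, t ≠ t' → Nat.Coprime (q t) (q t')
  q_B0 : ∀ t ∈ T, ∀ n : ℕ, 1 ≤ n → n ≤ B0 → Nat.Coprime (q t) n
  A : Fin (R+1) → ℤ
  A_dvd : ∀ t ∈ T, (q t : ℤ) ∣ ∑ r, t r * A r
  A_cop : ∀ t ∈ T, ∀ t' ∈ T, t ≠ t' → IsCoprime (∑ r, t r * A r) (q t' : ℤ)
  om : Fin P → Fin (R+1) → ℤ
  disj : ∀ (i i' : Fin P), ∀ t ∈ T, ∀ t' ∈ T, ∀ l1 l2 l1' l2' : ℤ,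
    |l1| ≤ (∏ u ∈ T.erase t, (q u : ℤ)) * t 0 * (K - 1) → |l2| ≤ t 0 * (Lam - 1) →
    |l1'| ≤ (∏ u ∈ T.erase t', (q u : ℤ)) * t' 0 * (K - 1) → |l2'| ≤ t' 0 * (Lam - 1) →
    ∀ c : ℤ,
      InZ N (∑ r, t r * om i r + q t * l1 * V + l2 * U) (t 0) c →
      InZ N (∑ r, t' r * om i' r + q t' * l1' * V + l2' * U) (t' 0) c →
      i = i' ∧ t = t' ∧ l1 = l1' ∧ l2 = l2'
  disj_mirror : ∀ (i i' : Fin P), ∀ t ∈ T, ∀ t' ∈ T, ∀ l1 l2 l1' l2' : ℤ,
    |l1| ≤ (∏ u ∈ T.erase t, (q u : ℤ)) * t 0 * (K - 1) → |l2| ≤ t 0 * (Lam - 1) →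
    |l1'| ≤ (∏ u ∈ T.erase t', (q u : ℤ)) * t' 0 * (K - 1) → |l2'| ≤ t' 0 * (Lam - 1) →
    ∀ c : ℤ,
      InZ N (∑ r, t r * om i r + q t * l1 * V + l2 * U) (t 0) c →
      InZ N (∑ r, t' r * om i' r + q t' * l1' * V + l2' * U) (t' 0) (-1 - c) →
      False
  mass_lo : ∀ t ∈ T, (P : ℝ) * t 0 / N ≤
    p t / (4 * (∏ u ∈ T.erase t, (q u : ℝ)) * (t 0 : ℝ) ^ 2 * K * Lam)
  mass_hi : ∀ t ∈ T, p t / (4 * (∏ u ∈ T.erase t, (q u : ℝ)) * (t 0 : ℝ) ^ 2 * K * Lam) ≤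
    (1 + eps) * ((P : ℝ) * t 0 / N)

/-- packing and torsion data with the stronger load bound. -/
structure PC (R : ℕ) extends PD R where
  load2 : ∀ t ∈ T, ∀ (B : ZMod l) (r : ℤ),
    kap * ((W.filter fun g => pblk l L t g = B ∧ t 0 * g.2 % L = r).card *
      ((t 0).toNat * (t 0).toNat)) ≤ q t

namespace PC

variable {R : ℕ} (P : PC R)

abbrev W2 : Type := P.toPD.Wt × (Fin P.L × Fin P.L)

lemma t0_cast (t : P.toPD.Ty) : (((t.1 0).toNat : ℕ) : ℤ) = t.1 0 :=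
  Int.toNat_of_nonneg (by have := P.hpos t.1 t.2; omega)

/-- encoding of (arc, s2, s3). -/
def enc (w : P.W2) (t : P.toPD.Ty) : ℕ :=
  sS P.l P.L t.1 w.1.1 * (P.L * P.L) + ((t.1 0 * (w.2.1 : ℕ) % P.L).toNat * P.L
    + (t.1 0 * (w.2.2 : ℕ) % P.L).toNat)

lemma emod_toNat_lt (t : P.toPD.Ty) (r : ℕ) : (t.1 0 * (r : ℤ) % P.L).toNat < P.L := by
  have hL' : (0:ℤ) < P.L := by exact_mod_cast P.L_pos
  have := Int.emod_lt_of_pos (t.1 0 * (r:ℤ)) hL'
  have := Int.emod_nonneg (t.1 0 * (r:ℤ)) hL'.ne'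
  omega

lemma enc_dec (w : P.W2) (t : P.toPD.Ty) :
    P.enc w t / (P.L * P.L) = sS P.l P.L t.1 w.1.1 ∧
    P.enc w t / P.L % P.L = (t.1 0 * (w.2.1 : ℕ) % P.L).toNat ∧
    P.enc w t % P.L = (t.1 0 * (w.2.2 : ℕ) % P.L).toNat := by
  have h1 := P.emod_toNat_lt t (w.2.1 : ℕ)
  have h2 := P.emod_toNat_lt t (w.2.2 : ℕ)
  have hL := P.L_pos
  unfold enc
  set a := (t.1 0 * ((w.2.1 : ℕ) : ℤ) % P.L).toNat
  set b := (t.1 0 * ((w.2.2 : ℕ) : ℤ) % P.L).toNat
  set S := sS P.l P.L t.1 w.1.1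
  have hab : a * P.L + b < P.L * P.L := by
    calc a * P.L + b < a * P.L + P.L := by omega
      _ = (a + 1) * P.L := by ring
      _ ≤ P.L * P.L := Nat.mul_le_mul_right _ h1
  refine ⟨?_, ?_, ?_⟩
  · rw [add_comm, Nat.add_mul_div_right _ _ (Nat.mul_pos hL hL), Nat.div_eq_of_lt hab, zero_add]
  · have e : S * (P.L * P.L) + (a * P.L + b) = b + (S * P.L + a) * P.L := by ring
    rw [e, Nat.add_mul_div_right _ _ hL, Nat.div_eq_of_lt h2, zero_add, add_comm,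
      Nat.add_mul_mod_self_right, Nat.mod_eq_of_lt h1]
  · have e : S * (P.L * P.L) + (a * P.L + b) = b + (S * P.L + a) * P.L := by ring
    rw [e, Nat.add_mul_mod_self_right, Nat.mod_eq_of_lt h2]

lemma card_fiber (t : P.toPD.Ty) (s : ℕ) :
    (univ.filter fun r : Fin P.L => (t.1 0 * ((r : ℕ) : ℤ) % P.L).toNat = s).card
      ≤ (t.1 0).toNat := by
  classical
  have hL' : (0:ℤ) < P.L := by exact_mod_cast P.L_pos
  have ht := P.hpos t.1 t.2
  rw [← Finset.card_range (t.1 0).toNat]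
  apply Finset.card_le_card_of_injOn (fun r : Fin P.L => (t.1 0 * ((r : ℕ) : ℤ) / P.L).toNat)
  · intro r _
    have h1 : t.1 0 * ((r : ℕ) : ℤ) / P.L < t.1 0 := by
      apply Int.ediv_lt_of_lt_mul hL'
      have : ((r : ℕ) : ℤ) < P.L := by exact_mod_cast r.2
      exact mul_lt_mul_of_pos_left this (by omega)
    simp only [coe_range, Set.mem_Iio]
    have : 0 ≤ t.1 0 * ((r : ℕ) : ℤ) / P.L :=
      Int.ediv_nonneg (mul_nonneg (by omega) (Int.natCast_nonneg _)) hL'.le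
    omega
  · intro r hr r' hr' h
    simp only [coe_filter, mem_univ, true_and, Set.mem_ofPred_eq] at hr hr'
    simp only at h
    have a1 : 0 ≤ t.1 0 * ((r : ℕ) : ℤ) / P.L :=
      Int.ediv_nonneg (mul_nonneg (by omega) (Int.natCast_nonneg _)) hL'.le
    have a2 : 0 ≤ t.1 0 * ((r' : ℕ) : ℤ) / P.L :=
      Int.ediv_nonneg (mul_nonneg (by omega) (Int.natCast_nonneg _)) hL'.le
    have a3 := Int.emod_nonneg (t.1 0 * ((r : ℕ) : ℤ)) hL'.ne'
    have a4 := Int.emod_nonneg (t.1 0 * ((r' : ℕ) : ℤ)) hL'.ne'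
    have e1 : t.1 0 * ((r : ℕ) : ℤ) / P.L = t.1 0 * ((r' : ℕ) : ℤ) / P.L := by omega
    have e2 : t.1 0 * ((r : ℕ) : ℤ) % P.L = t.1 0 * ((r' : ℕ) : ℤ) % P.L := by omega
    have e3 := Int.emod_add_mul_ediv (t.1 0 * ((r : ℕ) : ℤ)) P.L
    have e4 := Int.emod_add_mul_ediv (t.1 0 * ((r' : ℕ) : ℤ)) P.L
    rw [e1, e2] at e3
    have e5 : t.1 0 * ((r : ℕ) : ℤ) = t.1 0 * ((r' : ℕ) : ℤ) := e3.symm.trans e4
    have e6 : ((r : ℕ) : ℤ) = ((r' : ℕ) : ℤ) := mul_left_cancel₀ (by omega) e5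
    exact Fin.ext (by exact_mod_cast e6)

lemma exists_a : ∃ a : P.W2 × Fin P.kap → ℤ, ∀ (t : P.toPD.Ty) (i i2 : P.W2 × Fin P.kap),
    P.enc i.1 t = P.enc i2.1 t →
      (t.1 0 * ((i.1.2.1 : ℕ) : ℤ) / P.L) + (t.1 0).toNat * a i
        ≡ (t.1 0 * ((i2.1.2.1 : ℕ) : ℤ) / P.L) + (t.1 0).toNat * a i2 [ZMOD P.q t.1] → i = i2 := by
  classical
  have : NeZero P.l := ⟨P.l_pos.ne'⟩
  have hL' : (0:ℤ) < P.L := by exact_mod_cast P.L_pos
  have hl' : (0:ℤ) < P.l := by exact_mod_cast P.l_pos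
  apply exists_residues P.kap (fun (w : P.W2) (t : P.toPD.Ty) => P.enc w t) (fun t => P.q t.1)
    (fun t => P.q_pos t.1 t.2)
    (fun t t2 h => P.q_cop t.1 t.2 t2.1 t2.2 (fun h' => h (Subtype.ext h')))
    (fun t => (t.1 0).toNat) (fun t => P.q_copL t.1 t.2) _
    (fun w t => (t.1 0 * ((w.2.1 : ℕ) : ℤ) / P.L))
  intro t x
  set y := x / (P.L * P.L) with hy
  refine le_trans ?_ (P.load2 t.1 t.2 ((y / P.L : ℕ) : ZMod P.l) ((y % P.L : ℕ) : ℤ))
  apply Nat.mul_le_mul_left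
  set F1 : Finset P.toPD.Wt := univ.filter fun w => sS P.l P.L t.1 w.1 = y with hF1
  set F2 : Finset (Fin P.L) :=
    univ.filter fun r : Fin P.L => (t.1 0 * ((r : ℕ) : ℤ) % P.L).toNat = x / P.L % P.L with hF2
  set F3 : Finset (Fin P.L) :=
    univ.filter fun r : Fin P.L => (t.1 0 * ((r : ℕ) : ℤ) % P.L).toNat = x % P.L with hF3
  have hsub : (univ.filter fun w : P.W2 => P.enc w t = x) ⊆ F1 ×ˢ (F2 ×ˢ F3) := by
    intro w hw
    simp only [mem_filter, mem_univ, true_and] at hw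
    obtain ⟨d1, d2, d3⟩ := P.enc_dec w t
    rw [hw] at d1 d2 d3
    simp only [mem_product, hF1, hF2, hF3, mem_filter, mem_univ, true_and]
    exact ⟨d1.symm, d2.symm, d3.symm⟩
  have hcard : (univ.filter fun w : P.W2 => P.enc w t = x).card ≤ F1.card * (F2.card * F3.card) := by
    refine le_trans (Finset.card_le_card hsub) ?_
    rw [Finset.card_product, Finset.card_product]
  have hF1c : F1.card ≤ (P.W.filter fun g => pblk P.l P.L t.1 g = ((y / P.L : ℕ) : ZMod P.l) ∧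
      t.1 0 * g.2 % P.L = ((y % P.L : ℕ) : ℤ)).card := by
    rw [← Finset.card_map (Function.Embedding.subtype _)]
    apply Finset.card_le_card
    intro g hg
    simp only [hF1, mem_map, mem_filter, mem_univ, true_and,
      Function.Embedding.subtype_apply] at hg
    obtain ⟨w, hw, rfl⟩ := hg
    rw [mem_filter]
    refine ⟨w.2, ?_⟩
    have hr : (t.1 0 * w.1.2 % P.L).toNat < P.L := by
      have := Int.emod_lt_of_pos (t.1 0 * w.1.2) hL'
      have := Int.emod_nonneg (t.1 0 * w.1.2) hL'.ne'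
      omega
    have h1 : y / P.L = (NN P.l P.L t.1 w.1 % P.l).toNat := by
      rw [← hw]; unfold sS
      rw [Nat.mul_add_div P.L_pos, Nat.div_eq_of_lt hr, add_zero]
    have h2 : y % P.L = (t.1 0 * w.1.2 % P.L).toNat := by
      rw [← hw]; unfold sS
      rw [Nat.mul_add_mod, Nat.mod_eq_of_lt hr]
    refine ⟨?_, ?_⟩
    · rw [h1, NNmod_cast]
    · rw [h2, Int.toNat_of_nonneg (Int.emod_nonneg _ hL'.ne')]
  refine le_trans hcard (Nat.mul_le_mul hF1c (Nat.mul_le_mul ?_ ?_))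
  · exact P.card_fiber t _
  · exact P.card_fiber t _

noncomputable def a (i : P.W2 × Fin P.kap) : ℤ :=
  P.exists_a.choose i % (∏ t : P.toPD.Ty, (P.q t.1 : ℤ))

lemma Dpos : 0 < ∏ t : P.toPD.Ty, (P.q t.1 : ℤ) :=
  Finset.prod_pos fun t _ => by exact_mod_cast P.q_pos t.1 t.2

noncomputable def cb (K Lam : ℤ) (hK : 0 < K) (hLam : 0 < Lam) :
    CB P.toPD.Ty (P.W2 × Fin P.kap) where
  L := P.L
  l := P.l
  K := K
  Lam := Lam
  L_pos := by exact_mod_cast P.L_pos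
  l_pos := by exact_mod_cast P.l_pos
  K_pos := hK
  Lam_pos := hLam
  t1 := fun t => t.1 0
  t1_pos := fun t => by have := P.hpos t.1 t.2; omega
  t1_dvd := fun t => P.hdvd t.1 t.2
  tau := fun B => P.toPD.cells.tau B.toNat
  tau_symm := by
    intro B h0 h1 t ht
    have h2 : B.toNat < P.l := by omega
    have := P.toPD.cells.tau_symm B.toNat h2 t ht
    have e : ((P.l : ℤ) - 1 - B).toNat = P.l - 1 - B.toNat := by omega
    rw [e]
    exact this
  s := fun i t => (sS P.l P.L t.1 i.1.1.1 : ℤ)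
  s_blk := by
    intro i t
    obtain ⟨B, hB, r, hr, ⟨a0, ha0⟩, hs, htau⟩ := P.toPD.cells.s_blk (i.1.1, i.2) t
    have ht := P.hpos t.1 t.2
    have hc := P.t0_cast t
    have ha0' : r = (t.1 0).toNat * a0 := ha0
    have hr' : r < P.L := hr
    refine ⟨B, a0, by positivity, by exact_mod_cast hB, by positivity, ?_, ?_, ?_⟩
    · obtain ⟨w, hw⟩ := P.hdvd t.1 t.2
      have h1 : t.1 0 * (a0 : ℤ) < P.L := by
        rw [← hc]
        have : ((r : ℕ) : ℤ) < P.L := by exact_mod_cast hr'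
        rw [ha0'] at this
        exact_mod_cast this
      rw [hw] at h1 ⊢
      have h2 : (a0 : ℤ) < w := lt_of_mul_lt_mul_left h1 (by omega)
      have h3 : t.1 0 * ((a0 : ℤ) + 1) ≤ t.1 0 * w :=
        mul_le_mul_of_nonneg_left (by omega) (by omega)
      linarith [mul_add (t.1 0) (a0 : ℤ) 1]
    · have hs' : sS P.l P.L t.1 i.1.1.1 = P.L * B + r := hs
      rw [hs', ha0']
      push_cast
      rw [hc]
    · simpa using htau
  q := fun t => (P.q t.1 : ℤ)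
  q_pos := fun t => by exact_mod_cast P.q_pos t.1 t.2
  a := P.a
  a_nonneg := fun i => Int.emod_nonneg _ P.Dpos.ne'
  a_lt := fun i => Int.emod_lt_of_pos _ P.Dpos
  r2 := fun i => ((i.1.2.1 : ℕ) : ℤ)
  r2_nonneg := fun i => Int.natCast_nonneg _
  r2_lt := fun i => by exact_mod_cast i.1.2.1.2
  r3 := fun i => ((i.1.2.2 : ℕ) : ℤ)
  r3_nonneg := fun i => Int.natCast_nonneg _
  r3_lt := fun i => by exact_mod_cast i.1.2.2.2
  inj := by
    classical
    intro t i i' h1 h2 h3 h4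
    apply P.exists_a.choose_spec t i i'
    · have h1' : sS P.l P.L t.1 i.1.1.1 = sS P.l P.L t.1 i'.1.1.1 := by exact_mod_cast h1
      unfold enc
      rw [h1', h2, h3]
    · rw [P.t0_cast t]
      have key : ∀ j, P.a j ≡ P.exists_a.choose j [ZMOD P.q t.1] := by
        intro j
        have hd : (P.q t.1 : ℤ) ∣ ∏ t : P.toPD.Ty, (P.q t.1 : ℤ) :=
          Finset.dvd_prod_of_mem _ (mem_univ t)
        have := Int.mod_modEq (P.exists_a.choose j) (∏ t : P.toPD.Ty, (P.q t.1 : ℤ))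
        exact this.of_dvd hd
      have k1 := (key i).mul_left (t.1 0)
      have k2 := (key i').mul_left (t.1 0)
      exact ((k1.symm.add_left _).trans h4).trans (k2.add_left _)

/-- the velocity vector of a piece (in cells). -/
noncomputable def omc (K Lam : ℤ) (hK : 0 < K) (hLam : 0 < Lam) (i : P.W2 × Fin P.kap)
    (r : Fin (R+1)) : ℤ :=
  (P.cb K Lam hK hLam).U3 * uu P.l P.L i.1.1.1 r + (if r = 0 then
    (K * (P.cb K Lam hK hLam).D * (P.cb K Lam hK hLam).V + P.a i * (P.cb K Lam hK hLam).V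
      + (i.1.2.1 : ℕ) * (P.cb K Lam hK hLam).U2 + Lam * P.L + (i.1.2.2 : ℕ)) else 0)

lemma X_eq (K Lam : ℤ) (hK : 0 < K) (hLam : 0 < Lam) (i : P.W2 × Fin P.kap) (t : P.toPD.Ty)
    (l1 l2 : ℤ) :
    (P.cb K Lam hK hLam).X i t l1 l2 = (∑ r, t.1 r * P.omc K Lam hK hLam i r
      + P.q t.1 * l1 * (P.cb K Lam hK hLam).V + l2 * P.L)
      + (P.cb K Lam hK hLam).N * (-(NN P.l P.L t.1 i.1.1.1 / P.l)) := by
  set C := P.cb K Lam hK hLam with hC
  have e0 : ∑ r, t.1 r * P.omc K Lam hK hLam i r = C.U3 * ∑ r, t.1 r * uu P.l P.L i.1.1.1 r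
      + t.1 0 * (K * C.D * C.V + P.a i * C.V + (i.1.2.1 : ℕ) * C.U2 + Lam * P.L
        + (i.1.2.2 : ℕ)) := by
    unfold omc
    simp only [mul_add, Finset.sum_add_distrib, Finset.mul_sum, ← hC]
    congr 1
    · apply Finset.sum_congr rfl
      intro r _
      ring
    · simp only [mul_ite, mul_zero, Finset.sum_ite_eq', mem_univ, if_true]
      ring
  rw [e0, sum_uu P.l P.L P.L_pos P.l_pos t.1 i.1.1.1]
  have e1 : C.X i t l1 l2 = C.U3 * (sS P.l P.L t.1 i.1.1.1 : ℤ)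
      + C.V * (t.1 0 * K * C.D + t.1 0 * P.a i + P.q t.1 * l1)
      + C.U2 * (t.1 0 * ((i.1.2.1 : ℕ) : ℤ)) + P.L * (t.1 0 * Lam + l2)
      + t.1 0 * ((i.1.2.2 : ℕ) : ℤ) := rfl
  have e2 : C.N = C.U3 * ((P.L : ℤ) * P.l) := rfl
  rw [e1, e2]
  push_cast
  ring

end PC

set_option maxHeartbeats 1000000 in
/-- **comb design theorem.** -/
theorem exists_comb {R : ℕ} (T : Finset (Fin (R+1) → ℤ)) (hpos : ∀ t ∈ T, 1 ≤ t 0)
    (hnp : ∀ t ∈ T, ∀ t' ∈ T, t ≠ t' → ∃ i j, t i * t' j ≠ t j * t' i)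
    (p : (Fin (R+1) → ℤ) → ℝ) (hp : ∀ t ∈ T, 0 < p t) (hsum : 2 * ∑ t ∈ T, p t ≤ 1)
    (eps : ℝ) (heps : 0 < eps) (B0 : ℕ) (K Lam : ℤ) (hK : 0 < K) (hLam : 0 < Lam) :
    Nonempty (CombDesign T p eps B0 K Lam) := by
  classical
  set e : ℝ := min eps 1 / 4 with he
  have he0 : 0 < e := by rw [he]; positivity
  have he1 : e ≤ 1 / 4 := by
    rw [he]; have := min_le_right eps 1; linarith
  have heε : (1 + e) * (1 + e) ≤ 1 + eps := by
    have : 4 * e ≤ eps := by rw [he]; have := min_le_left eps 1; linarith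
    nlinarith
  set L : ℕ := ∏ t ∈ T, (t 0).toNat with hL
  have hcast : ∀ t ∈ T, (((t 0).toNat : ℕ) : ℤ) = t 0 := fun t ht =>
    Int.toNat_of_nonneg (by have := hpos t ht; omega)
  have hLpos : 0 < L := Finset.prod_pos fun t ht => by have := hpos t ht; omega
  have hdvdN : ∀ t ∈ T, (t 0).toNat ∣ L := fun t ht => Finset.dvd_prod_of_mem _ ht
  have hdvd : ∀ t ∈ T, t 0 ∣ (L : ℤ) := by
    intro t ht
    rw [← hcast t ht]
    exact_mod_cast hdvdN t ht
  obtain ⟨l0, hl0⟩ := Crest.Agent.R075.Pack.packing T hpos hnp p hp hsum L hLpos hdvd e he0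
  obtain ⟨l, hl_ge, hlp⟩ := Nat.exists_infinite_primes l0
  obtain ⟨sigma, W, hWne, hsig, hWL, hW, hload⟩ := hl0 l hl_ge hlp
  have hWc : (0:ℝ) < W.card := by exact_mod_cast Finset.card_pos.mpr hWne
  have hLpos' : (0:ℝ) < L := by exact_mod_cast hLpos
  have hlpos' : (0:ℝ) < l := by exact_mod_cast hlp.pos
  have ht0 : ∀ t ∈ T, (1:ℝ) ≤ t 0 := fun t ht => by exact_mod_cast hpos t ht
  set H : (Fin (R+1) → ℤ) → ℝ := fun t =>
    (1+e) * W.card * t 0 / (p t * (L * l)) * ((t 0 : ℝ) * t 0) with hH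
  have hHpos : ∀ t ∈ T, 0 < H t := by
    intro t ht
    have h1 := hp t ht
    have h2 : (0:ℝ) < t 0 := lt_of_lt_of_le one_pos (ht0 t ht)
    simp only [hH]
    positivity
  obtain ⟨kap, q, A, hkap, -, hq, hqB, hqc, hqA, hqA2⟩ := thmQ T hpos hnp H hHpos e he0 (max L B0)
  have hkap0 : (0:ℝ) < kap := by exact_mod_cast hkap
  have hqpos : ∀ t ∈ T, 0 < q t := fun t ht => by have := (hq t ht).2.1; omega
  have hload2 : ∀ t ∈ T, ∀ (B : ZMod l) (r : ℤ),
      kap * ((W.filter fun g => pblk l L t g = B ∧ t 0 * g.2 % L = r).card *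
        ((t 0).toNat * (t 0).toNat)) ≤ q t := by
    intro t ht B r
    have h1 := hload t ht B r
    have h2 := (hq t ht).2.2.1
    have h0 : (((t 0).toNat : ℕ) : ℝ) = (t 0 : ℝ) := by
      have := hcast t ht
      have h : ((((t 0).toNat : ℕ) : ℤ) : ℝ) = ((t 0 : ℤ) : ℝ) := by rw [this]
      exact_mod_cast h
    have hsq : (0:ℝ) ≤ (t 0 : ℝ) * t 0 := mul_self_nonneg _
    have h3 : (kap : ℝ) * (((W.filter fun g => pblk l L t g = B ∧ t 0 * g.2 % L = r).card : ℝ)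
        * ((t 0 : ℝ) * t 0)) ≤ kap * H t := by
      apply mul_le_mul_of_nonneg_left _ hkap0.le
      exact mul_le_mul_of_nonneg_right h1 hsq
    have h4 := le_trans h3 h2
    rw [← h0] at h4
    exact_mod_cast h4
  let P : PC R := {
    T := T
    hpos := hpos
    L := L
    l := l
    L_pos := hLpos
    l_pos := hlp.pos
    hdvd := hdvd
    sigma := sigma
    hsigma := hsig
    W := W
    hW := hW
    kap := kap
    q := q
    q_pos := hqpos
    q_cop := hqc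
    q_copL := by
      intro t ht
      apply Nat.Coprime.symm
      apply hqB t ht
      · have := hpos t ht; omega
      · exact le_trans (Nat.le_of_dvd hLpos (hdvdN t ht)) (le_max_left _ _)
    load := by
      intro t ht B r
      refine le_trans ?_ (hload2 t ht B r)
      apply Nat.mul_le_mul_left
      have h5 : 1 ≤ (t 0).toNat * (t 0).toNat := by
        have : 1 ≤ (t 0).toNat := by have := hpos t ht; omega
        exact Nat.mul_le_mul this this
      calc (W.filter fun g => pblk l L t g = B ∧ t 0 * g.2 % L = r).card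
          = (W.filter fun g => pblk l L t g = B ∧ t 0 * g.2 % L = r).card * 1 := (mul_one _).symm
        _ ≤ _ := Nat.mul_le_mul_left _ h5
    load2 := hload2 }
  set C := P.cb K Lam hK hLam with hC
  have hcard : Fintype.card (P.W2 × Fin P.kap) = (W.card * (L * L)) * kap := by
    rw [Fintype.card_prod, Fintype.card_prod, Fintype.card_prod, Fintype.card_fin,
      Fintype.card_fin, Fintype.card_coe]
  let eqv : Fin ((W.card * (L * L)) * kap) ≃ P.W2 × Fin P.kap :=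
    (Fintype.equivFinOfCardEq hcard).symm
  have hDprod : C.D = ∏ u ∈ T, (q u : ℤ) := by
    have h1 : C.D = ∏ t : P.toPD.Ty, (q t.1 : ℤ) := rfl
    rw [h1, Finset.prod_coe_sort T (fun u => (q u : ℤ))]
  have hDt : ∀ t : P.toPD.Ty, C.Dt t = ∏ u ∈ T.erase t.1, (q u : ℤ) := by
    intro t
    have h1 : (q t.1 : ℤ) * ∏ u ∈ T.erase t.1, (q u : ℤ) = ∏ u ∈ T, (q u : ℤ) :=
      Finset.mul_prod_erase T (fun u => (q u : ℤ)) t.2
    have h2 := C.D_eq t
    rw [hDprod, ← h1] at h2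
    have h3 : C.q t = (q t.1 : ℤ) := rfl
    rw [h3] at h2
    have h4 : (q t.1 : ℤ) ≠ 0 := by have := hqpos t.1 t.2; positivity
    exact (mul_left_cancel₀ h4 h2).symm
  have hNval : (C.N : ℝ) = 4 * (L * l) * K * Lam * (∏ u ∈ T, (q u : ℝ)) * (L * L) := by
    have h1 : C.N = 4 * ((L : ℤ) * l) * K * Lam * (∏ u ∈ T, (q u : ℤ)) * ((L : ℤ) * L) := by
      rw [← hDprod]
      have e1 : C.N = (2 * K * C.D * ((L : ℤ) * (2 * Lam * L))) * ((L : ℤ) * l) := rfl
      rw [e1]; ring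
    rw [h1]; push_cast; ring
  have hKr : (0:ℝ) < K := by exact_mod_cast hK
  have hLr : (0:ℝ) < Lam := by exact_mod_cast hLam
  have hNpos : 0 < C.N := C.N_pos
  -- the mass relation
  have hmass : ∀ t ∈ T, kap * H t * p t * (L * l)
      = (1 + e) * (W.card * kap * (t 0 : ℝ) ^ 3) := by
    intro t ht
    have h1 := hp t ht
    simp only [hH]
    field_simp
  have hprodpos : ∀ t ∈ T, (0:ℝ) < ∏ u ∈ T.erase t, (q u : ℝ) := fun t ht =>
    Finset.prod_pos fun u hu => by exact_mod_cast hqpos u (Finset.mem_of_mem_erase hu)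
  have hprod : ∀ t ∈ T, (∏ u ∈ T, (q u : ℝ)) = q t * ∏ u ∈ T.erase t, (q u : ℝ) := fun t ht =>
    (Finset.mul_prod_erase T (fun u => (q u : ℝ)) ht).symm
  have hPN : ∀ t ∈ T, (((W.card * (L * L)) * kap : ℕ) : ℝ) * t 0 / C.N
      = (W.card * kap * (t 0 : ℝ) ^ 3 / ((L * l) * q t)) /
        (4 * (∏ u ∈ T.erase t, (q u : ℝ)) * (t 0 : ℝ) ^ 2 * K * Lam) := by
    intro t ht
    have h1 := hprodpos t ht
    have h2 : (0:ℝ) < q t := by exact_mod_cast hqpos t ht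
    have h3 : (0:ℝ) < t 0 := lt_of_lt_of_le one_pos (ht0 t ht)
    rw [hNval, hprod t ht]
    push_cast
    field_simp
  refine ⟨{
    P := (W.card * (L * L)) * kap
    P_pos := Nat.mul_pos (Nat.mul_pos (Finset.card_pos.mpr hWne) (Nat.mul_pos hLpos hLpos)) hkap
    N := C.N
    N_pos := hNpos
    V := C.V
    V_pos := C.V_pos
    U := L
    U_pos := by exact_mod_cast hLpos
    q := q
    q_odd := fun t ht => (hq t ht).1
    q_one := fun t ht => (hq t ht).2.1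
    q_cop := hqc
    q_B0 := fun t ht n h1 h2 => hqB t ht n h1 (le_trans h2 (le_max_right _ _))
    A := A
    A_dvd := hqA
    A_cop := hqA2
    om := fun i => P.omc K Lam hK hLam (eqv i)
    disj := ?_
    disj_mirror := ?_
    mass_lo := ?_
    mass_hi := ?_ }⟩
  · intro i i' t ht t' ht' l1 l2 l1' l2' b1 b2 b1' b2' c hc hc'
    have e1 := P.X_eq K Lam hK hLam (eqv i) ⟨t, ht⟩ l1 l2
    have e2 := P.X_eq K Lam hK hLam (eqv i') ⟨t', ht'⟩ l1' l2'
    rw [← hDt ⟨t, ht⟩] at b1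
    rw [← hDt ⟨t', ht'⟩] at b1'
    have := C.disj (i := eqv i) (i' := eqv i') (t := ⟨t, ht⟩) (t' := ⟨t', ht'⟩) (l1 := l1)
      (l2 := l2) (l1' := l1') (l2' := l2') (c := c) b1 b2 b1' b2'
      (hc.shift ⟨_, e1⟩) (hc'.shift ⟨_, e2⟩)
    obtain ⟨a1, a2, a3, a4⟩ := this
    exact ⟨eqv.injective a1, congrArg Subtype.val a2, a3, a4⟩
  · intro i i' t ht t' ht' l1 l2 l1' l2' b1 b2 b1' b2' c hc hc'
    have e1 := P.X_eq K Lam hK hLam (eqv i) ⟨t, ht⟩ l1 l2
    have e2 := P.X_eq K Lam hK hLam (eqv i') ⟨t', ht'⟩ l1' l2'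
    rw [← hDt ⟨t, ht⟩] at b1
    rw [← hDt ⟨t', ht'⟩] at b1'
    exact C.disj_mirror (i := eqv i) (i' := eqv i') (t := ⟨t, ht⟩) (t' := ⟨t', ht'⟩) (l1 := l1)
      (l2 := l2) (l1' := l1') (l2' := l2') (c := c) b1 b2 b1' b2'
      (hc.shift ⟨_, e1⟩) (hc'.shift ⟨_, e2⟩)
  · intro t ht
    rw [hPN t ht]
    have h1 := (hq t ht).2.2.1
    have h2 := hp t ht
    have h3 : (0:ℝ) < q t := by exact_mod_cast hqpos t ht
    have h4 : (0:ℝ) < t 0 := lt_of_lt_of_le one_pos (ht0 t ht)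
    have h5 := hprodpos t ht
    apply div_le_div_of_nonneg_right _ (by positivity)
    rw [div_le_iff₀ (by positivity)]
    have h6 : kap * H t * p t * (L * l) ≤ q t * p t * (L * l) := by
      have : 0 ≤ p t * ((L : ℝ) * l) := by positivity
      nlinarith [mul_le_mul_of_nonneg_right h1 this]
    rw [hmass t ht] at h6
    have h7 : (0:ℝ) ≤ W.card * kap * (t 0 : ℝ) ^ 3 := by positivity
    nlinarith
  · intro t ht
    rw [hPN t ht, ← mul_div_assoc]
    have h1 := (hq t ht).2.2.2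
    have h2 := hp t ht
    have h3 : (0:ℝ) < q t := by exact_mod_cast hqpos t ht
    have h4 : (0:ℝ) < t 0 := lt_of_lt_of_le one_pos (ht0 t ht)
    have h5 := hprodpos t ht
    apply div_le_div_of_nonneg_right _ (by positivity)
    rw [← mul_div_assoc, le_div_iff₀ (by positivity)]
    have h6 : q t * (p t * ((L : ℝ) * l)) ≤ (1 + e) * (kap * H t) * (p t * ((L : ℝ) * l)) :=
      mul_le_mul_of_nonneg_right h1 (by positivity)
    have h7 : (1 + e) * (kap * H t) * (p t * ((L : ℝ) * l))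
        = (1 + e) * (kap * H t * p t * (L * l)) := by ring
    rw [h7, hmass t ht] at h6
    have h8 : (0:ℝ) ≤ W.card * kap * (t 0 : ℝ) ^ 3 := by positivity
    calc p t * ((L : ℝ) * l * q t) = q t * (p t * ((L : ℝ) * l)) := by ring
      _ ≤ _ := h6
      _ = ((1 + e) * (1 + e)) * (W.card * kap * (t 0 : ℝ) ^ 3) := by ring
      _ ≤ (1 + eps) * (W.card * kap * (t 0 : ℝ) ^ 3) := mul_le_mul_of_nonneg_right heε h8

end Crest.Agent.R081.Comb
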