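import Mathlib

/-!
# C^r calculus: composition differences and conjugation, polynomial bounds

`NB r f C`: all derivatives of order `≤ r` are bounded by `C`; `DB r f C`: all derivatives of
order between `1` and `r` are bounded by `C`.
-/

set_option autoImplicit false

namespace Crest.Agent.R081.Cr

open scoped ContDiff Nat

universe u

section Defs

variable {E G : Type*} [NormedAddCommGroup E] [NormedSpace ℝ E] [NormedAddCommGroup G]
  [NormedSpace ℝ G]

/-- All derivatives of order `≤ r` are bounded by `C`. -/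
def NB (r : ℕ) (f : E → G) (C : ℝ) : Prop :=
  ∀ k ≤ r, ∀ x, ‖iteratedFDeriv ℝ k f x‖ ≤ C

/-- All derivatives of order between `1` and `r` are bounded by `C`. -/
def DB (r : ℕ) (f : E → G) (C : ℝ) : Prop :=
  ∀ k, 1 ≤ k → k ≤ r → ∀ x, ‖iteratedFDeriv ℝ k f x‖ ≤ C

theorem NB.db {r : ℕ} {f : E → G} {C : ℝ} (h : NB r f C) : DB r f C :=
  fun k _ hk x => h k hk x

theorem NB.mono {r s : ℕ} {f : E → G} {C D : ℝ} (h : NB r f C) (hs : s ≤ r) (hC : C ≤ D) :
    NB s f D := fun k hk x => (h k (hk.trans hs) x).trans hC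

theorem DB.mono {r s : ℕ} {f : E → G} {C D : ℝ} (h : DB r f C) (hs : s ≤ r) (hC : C ≤ D) :
    DB s f D := fun k h1 hk x => (h k h1 (hk.trans hs) x).trans hC

theorem NB.norm_le {r : ℕ} {f : E → G} {C : ℝ} (h : NB r f C) (x : E) : ‖f x‖ ≤ C := by
  have := h 0 (Nat.zero_le _) x
  simpa using this

theorem NB.nonneg {r : ℕ} {f : E → G} {C : ℝ} (h : NB r f C) : 0 ≤ C :=
  (norm_nonneg (f 0)).trans (h.norm_le 0)

theorem NB.of_zero {f : E → G} {C : ℝ} (h : ∀ x, ‖f x‖ ≤ C) : NB 0 f C := by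
  intro k hk x
  obtain rfl : k = 0 := Nat.le_zero.mp hk
  simpa using h x

theorem DB.nb_fderiv {r : ℕ} {f : E → G} {C : ℝ} (h : DB (r + 1) f C) : NB r (fderiv ℝ f) C := by
  intro k hk x
  rw [norm_iteratedFDeriv_fderiv]
  exact h (k + 1) (by omega) (by omega) x

theorem NB.of_fderiv {r : ℕ} {f : E → G} {C : ℝ} (h0 : ∀ x, ‖f x‖ ≤ C)
    (h : NB r (fderiv ℝ f) C) : NB (r + 1) f C := by
  intro k hk x
  rcases Nat.eq_zero_or_pos k with rfl | hk0
  · simpa using h0 x
  · obtain ⟨j, rfl⟩ : ∃ j, k = j + 1 := ⟨k - 1, by omega⟩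
    rw [← norm_iteratedFDeriv_fderiv]
    exact h j (by omega) x

theorem NB.add {r : ℕ} {f g : E → G} {C D : ℝ} (hf : ContDiff ℝ ∞ f) (hg : ContDiff ℝ ∞ g)
    (h : NB r f C) (h' : NB r g D) : NB r (f + g) (C + D) := by
  intro k hk x
  rw [iteratedFDeriv_add_apply ((hf.of_le (by exact_mod_cast le_top)).contDiffAt)
    ((hg.of_le (by exact_mod_cast le_top)).contDiffAt)]
  exact (norm_add_le _ _).trans (add_le_add (h k hk x) (h' k hk x))

theorem NB.neg {r : ℕ} {f : E → G} {C : ℝ} (h : NB r f C) : NB r (-f) C := by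
  intro k hk x
  rw [iteratedFDeriv_neg, Pi.neg_apply, norm_neg]
  exact h k hk x

theorem NB.sub {r : ℕ} {f g : E → G} {C D : ℝ} (hf : ContDiff ℝ ∞ f) (hg : ContDiff ℝ ∞ g)
    (h : NB r f C) (h' : NB r g D) : NB r (f - g) (C + D) := by
  rw [sub_eq_add_neg]
  exact h.add hf hg.neg h'.neg

end Defs

section Comp

variable {E F G : Type*} [NormedAddCommGroup E] [NormedSpace ℝ E] [NormedAddCommGroup F]
  [NormedSpace ℝ F] [NormedAddCommGroup G] [NormedSpace ℝ G]

theorem NB.comp {r : ℕ} {g : F → G} {f : E → F} {C D : ℝ} (hg : ContDiff ℝ ∞ g)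
    (hf : ContDiff ℝ ∞ f) (h : NB r g C) (h' : DB r f D) (hD : 1 ≤ D) :
    NB r (g ∘ f) (r ! * C * D ^ r) := by
  intro k hk x
  have hC0 : 0 ≤ C := h.nonneg
  refine (norm_iteratedFDeriv_comp_le hg hf (by exact_mod_cast le_top) x
    (fun i hi => h i (hi.trans hk) (f x)) (fun i h1 hi => ?_) (C := C) (D := D)).trans ?_
  · exact (h' i h1 (hi.trans hk) x).trans (le_self_pow₀ hD (by omega))
  · have h1 : ((k ! : ℕ) : ℝ) ≤ (r ! : ℕ) := by exact_mod_cast Nat.factorial_le hk
    have h2 : D ^ k ≤ D ^ r := pow_le_pow_right₀ hD hk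
    have h3 : (0 : ℝ) ≤ (r ! : ℕ) := by positivity
    have h4 : 0 ≤ D ^ k := by positivity
    gcongr

theorem NB.bilin {r : ℕ} {H : Type*} [NormedAddCommGroup H] [NormedSpace ℝ H]
    (B : F →L[ℝ] G →L[ℝ] H) (hB : ‖B‖ ≤ 1) {a : E → F} {b : E → G} {P Q : ℝ}
    (ha : ContDiff ℝ ∞ a) (hb : ContDiff ℝ ∞ b) (hP : NB r a P) (hQ : NB r b Q) :
    NB r (fun x => B (a x) (b x)) (2 ^ r * P * Q) := by
  intro k hk x
  have hP0 : 0 ≤ P := hP.nonneg
  have hQ0 : 0 ≤ Q := hQ.nonneg
  refine (B.norm_iteratedFDeriv_le_of_bilinear_of_le_one ha hb x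
    (n := k) (by exact_mod_cast le_top) hB).trans ?_
  have h1 : ∑ i ∈ Finset.range (k + 1),
        (k.choose i : ℝ) * ‖iteratedFDeriv ℝ i a x‖ * ‖iteratedFDeriv ℝ (k - i) b x‖
      ≤ ∑ i ∈ Finset.range (k + 1), (k.choose i : ℝ) * (P * Q) := by
    refine Finset.sum_le_sum fun i hi => ?_
    have hi' : i ≤ k := Nat.lt_succ_iff.mp (Finset.mem_range.mp hi)
    rw [mul_assoc]
    have := mul_le_mul (hP i (hi'.trans hk) x) (hQ (k - i) (by omega) x) (norm_nonneg _) hP0
    gcongr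
  refine h1.trans ?_
  rw [← Finset.sum_mul]
  have h2 : (∑ i ∈ Finset.range (k + 1), (k.choose i : ℝ)) = 2 ^ k := by
    exact_mod_cast Nat.sum_range_choose k
  rw [h2, mul_assoc]
  have h3 : (2 : ℝ) ^ k ≤ 2 ^ r := pow_le_pow_right₀ (by norm_num) hk
  gcongr

theorem NB.clm_comp {r : ℕ} {a : E → F →L[ℝ] G} {b : E → E →L[ℝ] F} {P Q : ℝ}
    (ha : ContDiff ℝ ∞ a) (hb : ContDiff ℝ ∞ b) (hP : NB r a P) (hQ : NB r b Q) :
    NB r (fun x => (a x).comp (b x)) (2 ^ r * P * Q) :=
  NB.bilin (ContinuousLinearMap.compL ℝ E F G) (ContinuousLinearMap.norm_compL_le ℝ E F G)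
    ha hb hP hQ

/-- Derivatives of order `≥ 1` of a composition. -/
theorem DB.comp {r : ℕ} {g : F → G} {f : E → F} {C D : ℝ} (hg : ContDiff ℝ ∞ g)
    (hf : ContDiff ℝ ∞ f) (h : DB r g C) (h' : DB r f D) (hC : 0 ≤ C) (hD : 1 ≤ D) :
    DB r (g ∘ f) (r ! * C * D ^ r) := by
  intro k hk1 hk x
  let g' : F → G := fun y => g y - g (f x)
  have hg' : ContDiff ℝ ∞ g' := hg.sub contDiff_const
  have hder : ∀ i, 1 ≤ i → ∀ y, iteratedFDeriv ℝ i g' y = iteratedFDeriv ℝ i g y := by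
    intro i hi y
    have : g' = g - fun _ => g (f x) := rfl
    rw [this, iteratedFDeriv_sub_apply ((hg.of_le (by exact_mod_cast le_top)).contDiffAt)
      contDiff_const.contDiffAt, iteratedFDeriv_const_of_ne (by omega)]
    simp
  have hcomp : iteratedFDeriv ℝ k (g ∘ f) x = iteratedFDeriv ℝ k (g' ∘ f) x := by
    have h0 : g' ∘ f = (g ∘ f) - fun _ => g (f x) := rfl
    rw [h0, iteratedFDeriv_sub_apply (((hg.comp hf).of_le (by exact_mod_cast le_top)).contDiffAt)
      contDiff_const.contDiffAt, iteratedFDeriv_const_of_ne (by omega)]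
    simp
  rw [hcomp]
  refine (norm_iteratedFDeriv_comp_le hg' hf (by exact_mod_cast le_top) x
    (fun i hi => ?_) (fun i h1 hi => ?_) (C := C) (D := D)).trans ?_
  · rcases Nat.eq_zero_or_pos i with rfl | hi0
    · simpa [g'] using hC
    · rw [hder i hi0]
      exact h i hi0 (hi.trans hk) _
  · exact (h' i h1 (hi.trans hk) x).trans (le_self_pow₀ hD (by omega))
  · have h1 : ((k ! : ℕ) : ℝ) ≤ (r ! : ℕ) := by exact_mod_cast Nat.factorial_le hk
    have h2 : D ^ k ≤ D ^ r := pow_le_pow_right₀ hD hk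
    have h3 : (0 : ℝ) ≤ (r ! : ℕ) := by positivity
    have h4 : 0 ≤ D ^ k := by positivity
    gcongr

end Comp

/-- The constants of the composition difference estimate. -/
noncomputable def Kc : ℕ → ℝ
  | 0 => 1
  | (r + 1) => 2 ^ r * (Kc r + (r ! : ℕ)) + 1

theorem Kc_pos (r : ℕ) : 0 < Kc r := by
  induction r with
  | zero => norm_num [Kc]
  | succ r ih => rw [Kc]; positivity

theorem one_le_Kc (r : ℕ) : 1 ≤ Kc r := by
  cases r with
  | zero => norm_num [Kc]
  | succ r =>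
    rw [Kc]
    have := Kc_pos r
    have : (0 : ℝ) ≤ 2 ^ r * (Kc r + (r ! : ℕ)) := by positivity
    linarith

/-- **Composition difference estimate.** -/
theorem comp_sub (r : ℕ) {E F : Type u} [NormedAddCommGroup E] [NormedSpace ℝ E]
    [NormedAddCommGroup F] [NormedSpace ℝ F] :
    ∀ {G : Type u} [NormedAddCommGroup G] [NormedSpace ℝ G]
      {g : F → G} {f f' : E → F} {C D ε : ℝ} (_ : ContDiff ℝ ∞ g) (_ : ContDiff ℝ ∞ f)
      (_ : ContDiff ℝ ∞ f') (_ : DB (r + 1) g C) (_ : DB r f D) (_ : DB r f' D)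
      (_ : 0 ≤ C) (_ : 1 ≤ D) (_ : NB r (f - f') ε),
      NB r (g ∘ f - g ∘ f') (Kc r * C * D ^ r * ε) := by
  induction r with
  | zero =>
    intro G _ _ g f f' C D ε hg hf hf' hC _ _ hC0 hD hε
    apply NB.of_zero
    intro x
    have h1 : ∀ y, ‖fderiv ℝ g y‖ ≤ C := by
      intro y
      have := hC 1 le_rfl le_rfl y
      simpa using this
    have h2 := (convex_univ (𝕜 := ℝ) (E := F)).norm_image_sub_le_of_norm_fderiv_le
      (f := g) (C := C) (fun y _ => hg.differentiable (by simp) y) (fun y _ => h1 y)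
      (Set.mem_univ (f' x)) (Set.mem_univ (f x))
    have h3 : ‖f x - f' x‖ ≤ ε := hε.norm_le x
    simp only [Pi.sub_apply, Function.comp_apply, Kc, pow_zero, mul_one, one_mul]
    exact h2.trans (mul_le_mul_of_nonneg_left h3 hC0)
  | succ r ih =>
    intro G _ _ g f f' C D ε hg hf hf' hC hDf hDf' hC0 hD hε
    have hε0 : 0 ≤ ε := hε.nonneg
    have hD0 : 0 ≤ D := by linarith
    have hK := Kc_pos r
    have hfinal : Kc (r + 1) * C * D ^ (r + 1) * ε =
        (2 ^ r * (Kc r * C * D ^ r * ε) * D + 2 ^ r * ((r ! : ℕ) * C * D ^ r * ε) * D)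
          + C * D ^ (r + 1) * ε := by
      rw [Kc]; ring
    apply NB.of_fderiv
    · intro x
      have h1 : ∀ y, ‖fderiv ℝ g y‖ ≤ C := by
        intro y
        have := hC 1 le_rfl (by omega) y
        simpa using this
      have h2 := (convex_univ (𝕜 := ℝ) (E := F)).norm_image_sub_le_of_norm_fderiv_le
        (f := g) (C := C) (fun y _ => hg.differentiable (by simp) y) (fun y _ => h1 y)
        (Set.mem_univ (f' x)) (Set.mem_univ (f x))
      have h3 : ‖f x - f' x‖ ≤ ε := hε.norm_le x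
      simp only [Pi.sub_apply, Function.comp_apply]
      refine (h2.trans (mul_le_mul_of_nonneg_left h3 hC0)).trans ?_
      rw [hfinal]
      have h4 : (1 : ℝ) ≤ D ^ (r + 1) := one_le_pow₀ hD
      have h5 : C * ε ≤ C * D ^ (r + 1) * ε := by
        have : C * 1 * ε ≤ C * D ^ (r + 1) * ε := by gcongr
        simpa using this
      have h6 : 0 ≤ 2 ^ r * (Kc r * C * D ^ r * ε) * D + 2 ^ r * ((r ! : ℕ) * C * D ^ r * ε) * D := by
        positivity
      linarith
    · -- the derivative of the difference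
      have hdg : ContDiff ℝ ∞ (fderiv ℝ g) := hg.fderiv_right (by simp)
      have hdf : ContDiff ℝ ∞ (fderiv ℝ f) := hf.fderiv_right (by simp)
      have hdff : ContDiff ℝ ∞ (fderiv ℝ (f - f')) := (hf.sub hf').fderiv_right (by simp)
      have hder : fderiv ℝ (g ∘ f - g ∘ f') =
          (fun x => ((fderiv ℝ g ∘ f - fderiv ℝ g ∘ f') x).comp (fderiv ℝ f x))
            + fun x => ((fderiv ℝ g ∘ f') x).comp (fderiv ℝ (f - f') x) := by
        funext x
        have e1 : DifferentiableAt ℝ g (f x) := hg.differentiable (by simp) _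
        have e2 : DifferentiableAt ℝ g (f' x) := hg.differentiable (by simp) _
        have e3 : DifferentiableAt ℝ f x := hf.differentiable (by simp) _
        have e4 : DifferentiableAt ℝ f' x := hf'.differentiable (by simp) _
        rw [fderiv_sub (e1.comp x e3) (e2.comp x e4), fderiv_comp x e1 e3, fderiv_comp x e2 e4,
          Pi.add_apply, fderiv_sub e3 e4]
        simp only [Pi.sub_apply, Function.comp_apply]
        ext v
        simp
      rw [hder]
      have hIH : NB r (fderiv ℝ g ∘ f - fderiv ℝ g ∘ f') (Kc r * C * D ^ r * ε) := by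
        refine ih hdg hf hf' ?_ (hDf.mono (by omega) le_rfl) (hDf'.mono (by omega) le_rfl) hC0 hD
          (hε.mono (by omega) le_rfl)
        intro k _ hk x
        rw [norm_iteratedFDeriv_fderiv]
        exact hC (k + 1) (by omega) (by omega) x
      have hA1 : NB r (fun x => ((fderiv ℝ g ∘ f - fderiv ℝ g ∘ f') x).comp (fderiv ℝ f x))
          (2 ^ r * (Kc r * C * D ^ r * ε) * D) :=
        NB.clm_comp ((hdg.comp hf).sub (hdg.comp hf')) hdf hIH hDf.nb_fderiv
      have hA2' : NB r (fderiv ℝ g ∘ f') ((r ! : ℕ) * C * D ^ r) := by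
        refine NB.comp hdg hf' ?_ (hDf'.mono (by omega) le_rfl) hD
        exact (hC.mono (by omega) le_rfl : DB (r + 1) g C).nb_fderiv
      have hA2 : NB r (fun x => ((fderiv ℝ g ∘ f') x).comp (fderiv ℝ (f - f') x))
          (2 ^ r * ((r ! : ℕ) * C * D ^ r) * ε) :=
        NB.clm_comp (hdg.comp hf') hdff hA2' hε.db.nb_fderiv
      have hsum := NB.add
        (((hdg.comp hf).sub (hdg.comp hf')).clm_comp hdf)
        ((hdg.comp hf').clm_comp hdff)
        hA1 hA2
      refine hsum.mono le_rfl ?_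
      rw [hfinal]
      have h7 : 2 ^ r * ((r ! : ℕ) * C * D ^ r) * ε ≤ 2 ^ r * ((r ! : ℕ) * C * D ^ r * ε) * D := by
        have h8 : (0 : ℝ) ≤ 2 ^ r * ((r ! : ℕ) * C * D ^ r * ε) := by positivity
        nlinarith
      have h9 : 0 ≤ C * D ^ (r + 1) * ε := by positivity
      linarith

/-- **Conjugation estimate**: polynomial dependence on the conjugating map. -/
theorem conj_sub (r : ℕ) {E : Type u} [NormedAddCommGroup E] [NormedSpace ℝ E]
    {G H A A' : E → E} {C ε : ℝ} (hG : ContDiff ℝ ∞ G) (hH : ContDiff ℝ ∞ H)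
    (hA : ContDiff ℝ ∞ A) (hA' : ContDiff ℝ ∞ A') (hC : 1 ≤ C)
    (bG : DB (r + 1) G C) (bH : DB r H C) (bA : DB r A C) (bA' : DB r A' C)
    (h : NB r (A - A') ε) :
    NB r (G ∘ A ∘ H - G ∘ A' ∘ H) (r ! * Kc r * C ^ (2 * r + 1) * ε) := by
  have h1 := comp_sub r hG hA hA' bG bA bA' (by linarith) hC h
  have h2 : NB r ((G ∘ A - G ∘ A') ∘ H) (r ! * (Kc r * C * C ^ r * ε) * C ^ r) :=
    NB.comp ((hG.comp hA).sub (hG.comp hA')) hH h1 bH hC
  have h3 : (G ∘ A - G ∘ A') ∘ H = G ∘ A ∘ H - G ∘ A' ∘ H := rfl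
  rw [h3] at h2
  refine h2.mono le_rfl (le_of_eq ?_)
  ring

/-- Bound for the derivatives of order `≥ 1` of `id + u`. -/
theorem DB.id_add {r : ℕ} {E : Type u} [NormedAddCommGroup E] [NormedSpace ℝ E]
    {v : E → E} {C : ℝ} (hv : ContDiff ℝ ∞ v) (h : NB r v C) : DB r (fun x => x + v x) (1 + C) := by
  intro k h1 hk x
  have e : (fun x => x + v x) = (id : E → E) + v := rfl
  rw [e, iteratedFDeriv_add_apply (contDiff_id.contDiffAt)
    ((hv.of_le (by exact_mod_cast le_top)).contDiffAt)]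
  refine (norm_add_le _ _).trans (add_le_add ?_ (h k hk x))
  rcases Nat.lt_or_ge 1 k with h2 | h2
  · obtain ⟨j, rfl⟩ : ∃ j, k = j + 1 := ⟨k - 1, by omega⟩
    rw [← norm_iteratedFDeriv_fderiv]
    have : _root_.fderiv ℝ (id : E → E) = fun _ => ContinuousLinearMap.id ℝ E := by
      funext y; exact fderiv_id
    rw [this, iteratedFDeriv_const_of_ne (by omega)]
    simp
  · obtain rfl : k = 1 := by omega
    rw [norm_iteratedFDeriv_one, fderiv_id]
    exact ContinuousLinearMap.norm_id_le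

end Crest.Agent.R081.Cr
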