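import Crest.Agent.R081.Cv2

/-!
Row 81 (S0108), node COVER (helper451), part 3: designs as `ℤ`-periodic sets, the aligned set for
almost every fibre coordinate, the lattice identity, the gap filler.
-/

set_option autoImplicit false

open MeasureTheory ENNReal

namespace Crest.Agent.R081.Cv

/-- frequency of a design point `((a,b),c')`: `a/n + b F(c')` (a real number; the design sets are
periodic in `a` with period `n`, so equality modulo one is equality after a shift of `a`). -/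
noncomputable def nuE (n : ℕ) (F : ℝ → ℝ) (p : Md) : ℝ := (p.1.1 : ℝ) / n + p.1.2 * F p.2

/-- periodicity in `a` -/
def Per (n : ℕ) (E : Set Md) : Prop := ∀ (a b : ℤ) (c : ℝ), ((a + n, b), c) ∈ E ↔ ((a, b), c) ∈ E

lemma Per.add_mul {n : ℕ} {E : Set Md} (h : Per n E) (a b : ℤ) (c : ℝ) (m : ℤ) :
    ((a + m * n, b), c) ∈ E ↔ ((a, b), c) ∈ E := by
  induction m using Int.induction_on with
  | zero => simp
  | succ i ih =>
    have e : a + ((i : ℤ) + 1) * n = a + i * n + n := by ring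
    rw [e]
    exact (h _ b c).trans ih
  | pred i ih =>
    have e : a + -(i : ℤ) * n = a + (-(i : ℤ) - 1) * n + n := by ring
    rw [e] at ih
    exact (h _ b c).symm.trans ih

/-- the `ZMod` form of a periodic design -/
def deSet (n : ℕ) (E : Set Md) : Set (De n) :=
  {e | ∃ a : ℤ, (a : ZMod n) = e.1.1 ∧ ((a, e.1.2), e.2) ∈ E}

lemma deSet_mem {n : ℕ} {E : Set Md} (h : Per n E) (e : De n) (a : ℤ)
    (ha : (a : ZMod n) = e.1.1) : e ∈ deSet n E ↔ ((a, e.1.2), e.2) ∈ E := by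
  constructor
  · rintro ⟨a', ha', haE⟩
    rw [← ha, ZMod.intCast_eq_intCast_iff_dvd_sub] at ha'
    obtain ⟨m, hm⟩ := ha'
    have : a = a' + m * n := by linarith
    rw [this, h.add_mul]; exact haE
  · intro hE
    exact ⟨a, ha, hE⟩

lemma toDe_mem {n : ℕ} {Pp : ℤ} {E : Set Md} (h : Per n E) (p : Md) :
    toDe n Pp p ∈ deSet n E ↔ ((p.1.1 * Pp, p.1.2), p.2) ∈ E :=
  deSet_mem h (toDe n Pp p) _ rfl

/-- a periodic design hits almost every real exactly once -/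
def CovR (n : ℕ) (F : ℝ → ℝ) (E : Set Md) : Prop := ∀ᵐ y : ℝ, ∃! p, p ∈ E ∧ nuE n F p = y

lemma CovR.covE {n : ℕ} {F : ℝ → ℝ} {E : Set Md} (hper : Per n E) (h : CovR n F E) :
    CovE n F (deSet n E) := by
  filter_upwards [h] with y hy
  obtain ⟨p, ⟨hp, hpy⟩, hu⟩ := hy
  refine ⟨((((p.1.1 : ℤ) : ZMod n), p.1.2), p.2), ⟨⟨p.1.1, rfl, hp⟩, p.1.1, rfl, hpy⟩, ?_⟩
  rintro e ⟨he, a', ha', hy'⟩
  have h1 := (deSet_mem hper e a' ha').1 he
  have h2 := hu _ ⟨h1, hy'⟩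
  have h3 : a' = p.1.1 := congrArg (fun p : Md => p.1.1) h2
  have h4 : e.1.2 = p.1.2 := congrArg (fun p : Md => p.1.2) h2
  have h5 : e.2 = p.2 := congrArg (fun p : Md => p.2) h2
  apply Prod.ext
  · apply Prod.ext
    · show e.1.1 = ((p.1.1 : ℤ) : ZMod n)
      rw [← h3, ha']
    · exact h4
  · exact h5

lemma nuE_shift {n : ℕ} (hn : 0 < n) (F : ℝ → ℝ) (a b m : ℤ) (c : ℝ) :
    nuE n F ((a + m * n, b), c) = nuE n F ((a, b), c) + m := by
  have : (n : ℝ) ≠ 0 := by positivity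
  simp only [nuE]
  push_cast
  field_simp
  ring

/-- the mode set of the next stage, periodic form -/
def stepSet (q n h : ℕ) (Pp : ℤ) (psi F : ℝ → ℝ) (S E : Set Md) : Set Md :=
  {p | ((p.1.1 * Pp, p.1.2), p.2) ∈ E ∧ ∃ s ∈ S, (q : ℤ) ∣ p.1.1 - s.1.1 ∧
    (h : ℝ) * (s.1.2 * psi s.2) = (p.1.1 : ℝ) / (q * n) + p.1.2 * F p.2}

lemma stepSet_eq {q n h : ℕ} {Pp : ℤ} {psi F : ℝ → ℝ} {S E : Set Md} (hper : Per n E) :
    stepSet q n h Pp psi F S E = nextS q n h Pp psi F S (deSet n E) := by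
  ext p
  simp only [stepSet, nextS, Set.mem_ofPred_eq, toDe_mem hper, mul_assoc]

section Step

variable {q n h : ℕ} {P Pp : ℤ} {psi F : ℝ → ℝ} {S E : Set Md}

theorem cov_stepSet (hq : 0 < q) (hn : 0 < n) (hh : 0 < h) (hP : (q : ℤ) * Pp = P * h * n + 1)
    (hper : Per n E) (hS : Cov (nuT P q psi) S) (hE : CovR n F E) :
    Cov (nuT Pp (h * n) (fun c => F c / h)) (stepSet q n h Pp psi F S E) := by
  rw [stepSet_eq hper]
  exact cov_step hq hn hh hP hS (hE.covE hper)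

/-- **aligned set**, frequency form -/
theorem aligned_freq (hq : 0 < q) (hn : 0 < n) (hh : 0 < h) (hP : (q : ℤ) * Pp = P * h * n + 1)
    (hper : Per n E) (hS : Cov (nuT P q psi) S) (hE : CovR n F E) :
    ∀ᵐ x : ℝ, ∀ p : Md, hit (nuT Pp (h * n) (fun c => F c / h)) p x →
      ((p.1.1 * Pp, p.1.2), p.2) ∈ E →
      ∃ r : ℤ, ((p.1.1 + r * (h * n : ℕ), p.1.2), p.2) ∈ stepSet q n h Pp psi F S E := by
  filter_upwards [aligned hq hn hh hP hS (hE.covE hper)] with x hx p hp hpE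
  rw [stepSet_eq hper]
  exact hx p hp ((toDe_mem hper p).2 hpE)

/-- **aligned set**, fibre form: for every `(j,b)`, `b ≠ 0`, and almost every `c'` in the interval
where `F` is affine: if the design point lies in `E`, then up to a multiple of `q₊ = h n` the mode
lies in the next mode set. -/
theorem aligned_fibre {sF tF : ℝ} {J : Set ℝ} (hsF : sF ≠ 0) (hF : ∀ c ∈ J, F c = sF * c + tF)
    (hq : 0 < q) (hn : 0 < n) (hh : 0 < h) (hP : (q : ℤ) * Pp = P * h * n + 1)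
    (hper : Per n E) (hS : Cov (nuT P q psi) S) (hE : CovR n F E) (j b : ℤ) (hb : b ≠ 0) :
    ∀ᵐ c : ℝ, c ∈ J → ((j * Pp, b), c) ∈ E →
      ∃ r : ℤ, ((j + r * (h * n : ℕ), b), c) ∈ stepSet q n h Pp psi F S E := by
  have hh' : (h : ℝ) ≠ 0 := by positivity
  have hb' : (b : ℝ) ≠ 0 := by exact_mod_cast hb
  have h1 := ae_affine (s := b * sF / h) (b := (j : ℝ) * Pp / (h * n : ℕ) + b * tF / h)
    (by positivity) (aligned_freq hq hn hh hP hper hS hE)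
  filter_upwards [h1] with c hc hcJ hcE
  refine hc ((j, b), c) ⟨0, ?_⟩ hcE
  simp only [nuT]
  rw [hF c hcJ]
  push_cast
  field_simp
  ring

end Step

section Lattice

variable {q n h : ℕ} {P Pp : ℤ} {F : ℝ → ℝ} {E : Set Md}

/-- branches of the lattice identity -/
def latA (q : ℕ) (Pp k1 : ℤ) (E : Set Md) (i : ℤ × ℤ) : Set ℝ :=
  {c | (q : ℤ) ∣ i.1 - k1 ∧ ((i.1 * Pp, i.2), c) ∈ E}

lemma latA_meas (hE : ∀ k, MeasurableSet (slice E k)) (k1 : ℤ) (i : ℤ × ℤ) :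
    MeasurableSet (latA q Pp k1 E i) := by
  by_cases hd : (q : ℤ) ∣ i.1 - k1
  · have : latA q Pp k1 E i = slice E (i.1 * Pp, i.2) := by
      ext c; simp [latA, hd]
    rw [this]; exact hE _
  · have : latA q Pp k1 E i = ∅ := by
      ext c; simp [latA, hd]
    rw [this]; exact MeasurableSet.empty

lemma lat_inj (hq : 0 < q) (hn : 0 < n) (hP : (q : ℤ) * Pp = P * h * n + 1)
    (hper : Per n E) (hinj : ∀ p ∈ E, ∀ p' ∈ E, nuE n F p = nuE n F p' → p = p') (k1 : ℤ) (t : ℝ)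
    {p p' : (ℤ × ℤ) × ℝ} (h1 : p.2 ∈ latA q Pp k1 E p.1)
    (h2 : (p.1.1 : ℝ) / (q * n) + p.1.2 * F p.2 = t) (h3 : p'.2 ∈ latA q Pp k1 E p'.1)
    (h4 : (p'.1.1 : ℝ) / (q * n) + p'.1.2 * F p'.2 = t) : p = p' := by
  have hq' : (q : ℝ) ≠ 0 := by positivity
  have hn' : (n : ℝ) ≠ 0 := by positivity
  have hP' : (q : ℝ) * Pp = P * h * n + 1 := by exact_mod_cast hP
  obtain ⟨⟨d1, hd1⟩, h1E⟩ := h1
  obtain ⟨⟨d2, hd2⟩, h3E⟩ := h3
  have e2 : (Pp : ℝ) = (P * h * n + 1) / q := by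
    field_simp; linarith
  have hf : ∀ p : Md, (p.1.1 : ℝ) / (q * n) + p.1.2 * F p.2 = t →
      nuE n F ((p.1.1 * Pp, p.1.2), p.2) = t + p.1.1 * P * h / q := by
    intro p hp
    have : (p.1.2 : ℝ) * F p.2 = t - (p.1.1 : ℝ) / (q * n) := by linarith
    simp only [nuE]
    rw [this]
    push_cast
    rw [e2]
    field_simp
    ring
  have h5 := hf p h2
  have h6 := hf p' h4
  have hd : (p.1.1 : ℝ) = p'.1.1 + q * (d1 - d2) := by
    have a1 : (p.1.1 : ℝ) - k1 = q * d1 := by exact_mod_cast hd1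
    have a2 : (p'.1.1 : ℝ) - k1 = q * d2 := by exact_mod_cast hd2
    linarith
  have h7 : nuE n F ((p'.1.1 * Pp + ((d1 - d2) * P * h : ℤ) * n, p'.1.2), p'.2) =
      nuE n F ((p.1.1 * Pp, p.1.2), p.2) := by
    rw [nuE_shift hn, h6, h5, hd]
    push_cast
    field_simp
    ring
  have h8 := hinj _ h1E _ ((hper.add_mul _ _ _ _).2 h3E) h7.symm
  have hb : p.1.2 = p'.1.2 := by
    have := congrArg (fun r : Md => r.1.2) h8
    exact this
  have hc : p.2 = p'.2 := by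
    have := congrArg (fun r : Md => r.2) h8
    exact this
  have hj : (p.1.1 : ℝ) = p'.1.1 := by
    have : (p.1.1 : ℝ) / (q * n) = (p'.1.1 : ℝ) / (q * n) := by
      rw [hb, hc] at h2; linarith
    field_simp at this
    exact this
  have hj' : p.1.1 = p'.1.1 := by exact_mod_cast hj
  exact Prod.ext (Prod.ext hj' hb) hc

lemma lat_exists (hq : 0 < q) (hn : 0 < n) (hP : (q : ℤ) * Pp = P * h * n + 1)
    (hper : Per n E) (k1 : ℤ) (t : ℝ) (hex : ∃ p ∈ E, nuE n F p = t + k1 * P * h / q) :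
    ∃ p : (ℤ × ℤ) × ℝ, p.2 ∈ latA q Pp k1 E p.1 ∧
      (p.1.1 : ℝ) / (q * n) + p.1.2 * F p.2 = t := by
  have hq' : (q : ℝ) ≠ 0 := by positivity
  have hn' : (n : ℝ) ≠ 0 := by positivity
  have hP' : (q : ℝ) * Pp = P * h * n + 1 := by exact_mod_cast hP
  obtain ⟨p, hpE, hp⟩ := hex
  refine ⟨((q * p.1.1 - n * k1 * P * h, p.1.2), p.2), ⟨?_, ?_⟩, ?_⟩
  · refine ⟨p.1.1 - k1 * Pp, ?_⟩
    linear_combination k1 * hP
  · have : (q * p.1.1 - n * k1 * P * h) * Pp = p.1.1 + (p.1.1 * P * h - k1 * P * h * Pp) * n := by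
      linear_combination p.1.1 * hP
    show (((q * p.1.1 - n * k1 * P * h) * Pp, p.1.2), p.2) ∈ E
    rw [this, hper.add_mul]
    exact hpE
  · show (((q * p.1.1 - n * k1 * P * h : ℤ)) : ℝ) / (q * n) + p.1.2 * F p.2 = t
    simp only [nuE] at hp
    have : (p.1.2 : ℝ) * F p.2 = t + k1 * P * h / q - (p.1.1 : ℝ) / n := by linarith
    rw [this]
    push_cast
    field_simp
    ring

/-- **lattice identity** (full design). -/
theorem lattice_eq {sF tF : ℝ} {J : Set ℝ} (hsF : 0 < sF) (hF : ∀ c ∈ J, F c = sF * c + tF)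
    (hq : 0 < q) (hn : 0 < n) (hP : (q : ℤ) * Pp = P * h * n + 1)
    (hper : Per n E) (hEJ : ∀ p ∈ E, p.2 ∈ J) (hb : ∀ p ∈ E, p.1.2 ≠ 0)
    (hinj : ∀ p ∈ E, ∀ p' ∈ E, nuE n F p = nuE n F p' → p = p')
    (hex : ∀ᵐ y : ℝ, ∃ p ∈ E, nuE n F p = y)
    (hE : ∀ k, MeasurableSet (slice E k)) (k1 : ℤ) {G : ℝ → ℝ≥0∞} (hG : Measurable G) :
    ∑' i : ℤ × ℤ, ∫⁻ c in latA q Pp k1 E i, G ((i.1 : ℝ) / (q * n) + i.2 * F c) *
      ENNReal.ofReal (|(i.2 : ℝ)| * sF) = ∫⁻ t, G t := by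
  have hU : ∀ᵐ t : ℝ, ∃! p : (ℤ × ℤ) × ℝ, p.2 ∈ latA q Pp k1 E p.1 ∧
      (p.1.1 : ℝ) / (q * n) + p.1.2 * F p.2 = t := by
    have h1 := ae_affine (s := 1) (b := (k1 : ℝ) * P * h / q) one_ne_zero hex
    filter_upwards [h1] with t ht
    rw [one_mul] at ht
    obtain ⟨p, hp1, hp2⟩ := lat_exists hq hn hP hper k1 t ht
    exact ⟨p, ⟨hp1, hp2⟩, fun p' hp' => lat_inj hq hn hP hper hinj k1 t hp'.1 hp'.2 hp1 hp2⟩
  have key := unfold_eq (ι := ℤ × ℤ) (A := latA q Pp k1 E) (s := fun i => (i.2 : ℝ) * sF)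
    (b := fun i => (i.1 : ℝ) / (q * n) + i.2 * tF)
    (f := fun i c => (i.1 : ℝ) / (q * n) + i.2 * F c)
    (fun i => latA_meas hE k1 i)
    (by
      rintro i ⟨c, -, hc⟩
      have h2 : ((i.2 : ℤ) : ℝ) ≠ 0 := by exact_mod_cast hb _ hc
      exact mul_ne_zero h2 hsF.ne')
    (by
      rintro i c ⟨-, hc⟩
      rw [hF c (hEJ _ hc)]; ring) hU hG
  rw [← key]
  congr 1
  funext i
  rw [abs_mul, abs_of_pos hsF]

/-- **lattice inequality** (partial design, exactly injective). -/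
theorem lattice_le {sF tF : ℝ} {J : Set ℝ} (hsF : 0 < sF) (hF : ∀ c ∈ J, F c = sF * c + tF)
    (hq : 0 < q) (hn : 0 < n) (hP : (q : ℤ) * Pp = P * h * n + 1)
    (hper : Per n E) (hEJ : ∀ p ∈ E, p.2 ∈ J) (hb : ∀ p ∈ E, p.1.2 ≠ 0)
    (hinj : ∀ p ∈ E, ∀ p' ∈ E, nuE n F p = nuE n F p' → p = p')
    (hE : ∀ k, MeasurableSet (slice E k)) (k1 : ℤ) {G : ℝ → ℝ≥0∞} (hG : Measurable G) :
    ∑' i : ℤ × ℤ, ∫⁻ c in latA q Pp k1 E i, G ((i.1 : ℝ) / (q * n) + i.2 * F c) *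
      ENNReal.ofReal (|(i.2 : ℝ)| * sF) ≤ ∫⁻ t, G t := by
  have hU : ∀ᵐ t : ℝ, ∀ p p' : (ℤ × ℤ) × ℝ, p.2 ∈ latA q Pp k1 E p.1 →
      (p.1.1 : ℝ) / (q * n) + p.1.2 * F p.2 = t → p'.2 ∈ latA q Pp k1 E p'.1 →
      (p'.1.1 : ℝ) / (q * n) + p'.1.2 * F p'.2 = t → p = p' :=
    Filter.Eventually.of_forall fun t p p' h1 h2 h3 h4 =>
      lat_inj hq hn hP hper hinj k1 t h1 h2 h3 h4
  have key := unfold_le (ι := ℤ × ℤ) (A := latA q Pp k1 E) (s := fun i => (i.2 : ℝ) * sF)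
    (b := fun i => (i.1 : ℝ) / (q * n) + i.2 * tF)
    (f := fun i c => (i.1 : ℝ) / (q * n) + i.2 * F c)
    (fun i => latA_meas hE k1 i)
    (by
      rintro i ⟨c, -, hc⟩
      have h2 : ((i.2 : ℤ) : ℝ) ≠ 0 := by exact_mod_cast hb _ hc
      exact mul_ne_zero h2 hsF.ne')
    (by
      rintro i c ⟨-, hc⟩
      rw [hF c (hEJ _ hc)]; ring) hU hG
  refine le_trans (le_of_eq ?_) key
  congr 1
  funext i
  rw [abs_mul, abs_of_pos hsF]

end Lattice

end Crest.Agent.R081.Cv
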