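import Crest.Agent.R081.Cv3
import Crest.Agent.R081.MsStep

/-!
Row 81 (S0108), node COVER (helper451), part 4: the gap filler, in the language of `MsStep`
(`lamE`, `InjE`, `FullM`, `StepSet`), mass identities, the aligned set for `StepSet`.
-/

set_option autoImplicit false

open MeasureTheory ENNReal Set
open Crest.Agent.R081.Ms

namespace Crest.Agent.R081.Cv

lemma nuE_eq_lamE (n : ℕ) (F : ℝ → ℝ) : nuE n F = lamE n F := rfl

lemma stepSet_eq_StepSet (q n h : ℕ) (Pp : ℤ) (psi F : ℝ → ℝ) (S E : Set Md) :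
    stepSet q n h Pp psi F S E = StepSet q n h Pp psi F S E := rfl

/-- periodicity in the form of `MsStep` -/
def PerM (n : ℕ) (E : Set Md) : Prop :=
  ∀ (a a' b : ℤ) (c : ℝ), (n : ℤ) ∣ a - a' → ((a, b), c) ∈ E → ((a', b), c) ∈ E

lemma perM_iff {n : ℕ} {E : Set Md} : PerM n E ↔ Per n E := by
  constructor
  · intro h a b c
    exact ⟨fun h1 => h _ _ _ _ ⟨1, by ring⟩ h1, fun h1 => h _ _ _ _ ⟨-1, by ring⟩ h1⟩
  · intro h a a' b c ⟨m, hm⟩ h1
    have : a = a' + m * n := by linarith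
    rw [this, h.add_mul] at h1
    exact h1

lemma inj_of_injE {n : ℕ} (hn : 0 < n) {F : ℝ → ℝ} {E : Set Md} (h : InjE n F E) :
    ∀ p ∈ E, ∀ p' ∈ E, nuE n F p = nuE n F p' → p = p' := by
  intro p hp p' hp' he
  have hn' : (n : ℝ) ≠ 0 := by positivity
  obtain ⟨-, h2, h3⟩ := h p hp p' hp' ⟨0, by
    show nuE n F p - nuE n F p' = _
    rw [he]; simp⟩
  have h4 : (p.1.1 : ℝ) = p'.1.1 := by
    simp only [nuE] at he
    rw [h2, h3] at he
    field_simp at he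
    linarith
  exact Prod.ext (Prod.ext (by exact_mod_cast h4) h2) h3

lemma exists_of_fullM {n : ℕ} (hn : 0 < n) {F : ℝ → ℝ} {E : Set Md} (hper : Per n E)
    (h : FullM (lamE n F) E) : ∀ᵐ y : ℝ, ∃ p ∈ E, nuE n F p = y := by
  filter_upwards [h] with y hy
  obtain ⟨x, hx, m, hm⟩ := hy
  refine ⟨((x.1.1 + (-m) * n, x.1.2), x.2), (hper.add_mul _ _ _ _).2 hx, ?_⟩
  rw [nuE_shift hn]
  have : nuE n F ((x.1.1, x.1.2), x.2) = lamE n F x := rfl
  rw [this]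
  push_cast
  linarith

lemma covR_of {n : ℕ} (hn : 0 < n) {F : ℝ → ℝ} {E : Set Md} (hper : Per n E)
    (hinj : InjE n F E) (hfull : FullM (lamE n F) E) : CovR n F E := by
  filter_upwards [exists_of_fullM hn hper hfull] with y hy
  obtain ⟨p, hp, hpy⟩ := hy
  exact ⟨p, ⟨hp, hpy⟩, fun p' hp' => inj_of_injE hn hinj _ hp'.1 _ hp (hp'.2.trans hpy.symm)⟩

lemma cov_of {nu : Md → ℝ} {S : Set Md} (hinj : InjM nu S) (hfull : FullM nu S) : Cov nu S := by
  filter_upwards [hfull] with x hx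
  obtain ⟨p, hp, m, hm⟩ := hx
  refine ⟨p, ⟨hp, m, by linarith⟩, ?_⟩
  rintro p' ⟨hp', m', hm'⟩
  exact hinj _ hp' _ hp ⟨m' - m, by push_cast; linarith⟩

lemma nuM_eq_nuT (P : ℤ) (q : ℕ) (psi : ℝ → ℝ) : nuM ((P : ℝ) / q) psi = nuT P q psi := by
  funext x
  simp only [nuM, nuT]
  ring

/-- aligned set for `StepSet` with a (full) design in `MsStep` language. -/
theorem aligned_StepSet {q n h : ℕ} {P Pp : ℤ} {psi F : ℝ → ℝ} {S E : Set Md}
    {sF tF : ℝ} {J : Set ℝ} (hsF : sF ≠ 0) (hF : ∀ c ∈ J, F c = sF * c + tF)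
    (hq : 0 < q) (hn : 0 < n) (hh : 0 < h) (hP : (q : ℤ) * Pp = P * h * n + 1)
    (hper : PerM n E) (hSi : InjM (nuM ((P : ℝ) / q) psi) S)
    (hSf : FullM (nuM ((P : ℝ) / q) psi) S) (hEi : InjE n F E) (hEf : FullM (lamE n F) E)
    (j b : ℤ) (hb : b ≠ 0) :
    ∀ᵐ c : ℝ, c ∈ J → ((j * Pp, b), c) ∈ E →
      ∃ r : ℤ, ((j + r * (h * n : ℕ), b), c) ∈ StepSet q n h Pp psi F S E := by
  rw [← stepSet_eq_StepSet]
  have hp := perM_iff.1 hper
  refine aligned_fibre hsF hF hq hn hh hP hp ?_ (covR_of hn hp hEi hEf) j b hb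
  rw [← nuM_eq_nuT]
  exact cov_of hSi hSf

/-! ### the gap filler -/

/-- the filler: lines `(0 mod n, ±b₀)` over the frequencies not covered by `E`. -/
def fil (n : ℕ) (F : ℝ → ℝ) (u v : ℝ) (b0 : ℤ) (E : Set Md) : Set Md :=
  {x | (n : ℤ) ∣ x.1.1 ∧ (x.1.2 = b0 ∨ x.1.2 = -b0) ∧ x.2 ∈ Icc u v ∧
    (b0 : ℝ) * F x.2 ∈ Ioo (0 : ℝ) (1 / 2) ∧
    ¬ ∃ e ∈ E, ∃ m : ℤ, lamE n F e - b0 * F x.2 = m}

section Fil

variable {n : ℕ} {F : ℝ → ℝ} {u v sF : ℝ} {b0 : ℤ} {E : Set Md}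

lemma fil_per : PerM n (fil n F u v b0 E) := by
  rintro a a' b c hd ⟨h1, h2⟩
  refine ⟨?_, h2⟩
  have : a' = a - (a - a') := by ring
  show (n : ℤ) ∣ a'
  rw [this]
  exact dvd_sub h1 hd

lemma fil_symm : ∀ x ∈ fil n F u v b0 E, ((-x.1.1, -x.1.2), x.2) ∈ fil n F u v b0 E := by
  rintro x ⟨h1, h2, h3⟩
  refine ⟨(dvd_neg).2 h1, ?_, h3⟩
  rcases h2 with h2 | h2
  · right; show -x.1.2 = -b0; rw [h2]
  · left; show -x.1.2 = b0; rw [h2]; ring

lemma fil_J : ∀ x ∈ fil n F u v b0 E, x.2 ∈ Icc u v := fun _ h => h.2.2.1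

lemma fil_b : ∀ x ∈ fil n F u v b0 E, x.1.2 = b0 ∨ x.1.2 = -b0 := fun _ h => h.2.1

lemma fil_b_ne (hb0 : 0 < b0) : ∀ x ∈ fil n F u v b0 E, x.1.2 ≠ 0 := by
  intro x h
  rcases fil_b x h with h | h <;> omega

lemma lamE_neg (x : Md) : lamE n F ((-x.1.1, -x.1.2), x.2) = -lamE n F x := by
  simp only [lamE]; push_cast; ring

/-- frequency of a filler point is `± b₀ F` modulo one -/
lemma fil_lam (hn : 0 < n) {x : Md} (hx : x ∈ fil n F u v b0 E) :
    ∃ m : ℤ, (x.1.2 = b0 ∧ lamE n F x = m + b0 * F x.2) ∨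
      (x.1.2 = -b0 ∧ lamE n F x = m - b0 * F x.2) := by
  have hn' : (n : ℝ) ≠ 0 := by positivity
  obtain ⟨⟨m, hm⟩, h2, -⟩ := hx
  refine ⟨m, ?_⟩
  rcases h2 with h2 | h2
  · left
    refine ⟨h2, ?_⟩
    simp only [lamE]
    rw [hm, h2]
    push_cast
    field_simp
  · right
    refine ⟨h2, ?_⟩
    simp only [lamE]
    rw [hm, h2]
    push_cast
    field_simp
    ring

lemma fil_uncov (hn : 0 < n) (hsym : ∀ x ∈ E, ((-x.1.1, -x.1.2), x.2) ∈ E) {x : Md}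
    (hx : x ∈ fil n F u v b0 E) : ¬ ∃ e ∈ E, ∃ m : ℤ, lamE n F e - lamE n F x = m := by
  rintro ⟨e, he, m, hm⟩
  obtain ⟨m', h | h⟩ := fil_lam hn hx
  · refine hx.2.2.2.2 ⟨e, he, m + m', ?_⟩
    push_cast
    linarith [h.2]
  · refine hx.2.2.2.2 ⟨_, hsym e he, -m - m', ?_⟩
    rw [lamE_neg]
    push_cast
    linarith [h.2]

lemma fil_disjoint (hn : 0 < n) (hsym : ∀ x ∈ E, ((-x.1.1, -x.1.2), x.2) ∈ E) :
    Disjoint E (fil n F u v b0 E) := by
  rw [Set.disjoint_left]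
  intro x hxE hx
  exact fil_uncov hn hsym hx ⟨x, hxE, 0, by simp⟩

theorem fil_injE (hn : 0 < n) (hsF : 0 < sF) (hb0 : 0 < b0)
    (hF : ∀ c ∈ Icc u v, F c = sF * (c - u))
    (hsym : ∀ x ∈ E, ((-x.1.1, -x.1.2), x.2) ∈ E) (hinj : InjE n F E) :
    InjE n F (E ∪ fil n F u v b0 E) := by
  have hb0' : (0 : ℝ) < b0 := by exact_mod_cast hb0
  rintro x (hx | hx) y (hy | hy) ⟨m, hm⟩
  · exact hinj x hx y hy ⟨m, hm⟩
  · exact absurd ⟨x, hx, m, hm⟩ (fil_uncov hn hsym hy)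
  · exact absurd ⟨y, hy, -m, by push_cast; linarith⟩ (fil_uncov hn hsym hx)
  · have hFeq : F x.2 = F y.2 → x.2 = y.2 := by
      intro h
      rw [hF _ (fil_J x hx), hF _ (fil_J y hy)] at h
      have := mul_left_cancel₀ hsF.ne' h
      linarith
    have hdv : (n : ℤ) ∣ x.1.1 - y.1.1 := dvd_sub hx.1 hy.1
    have hX := hx.2.2.2.1
    have hY := hy.2.2.2.1
    obtain ⟨m1, h1 | h1⟩ := fil_lam hn hx <;> obtain ⟨m2, h2 | h2⟩ := fil_lam hn hy
    · have h3 : ((m - m1 + m2 : ℤ) : ℝ) = b0 * F x.2 - b0 * F y.2 := by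
        push_cast; linarith [h1.2, h2.2]
      have h4 : (m - m1 + m2 : ℤ) = 0 := by
        have a1 : ((m - m1 + m2 : ℤ) : ℝ) < 1 := by rw [h3]; linarith [hX.2, hY.1]
        have a2 : (-1 : ℝ) < ((m - m1 + m2 : ℤ) : ℝ) := by rw [h3]; linarith [hX.1, hY.2]
        have a3 : (m - m1 + m2 : ℤ) < 1 := by exact_mod_cast a1
        have a4 : -1 < (m - m1 + m2 : ℤ) := by exact_mod_cast a2
        omega
      rw [h4] at h3
      have h5 : F x.2 = F y.2 := by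
        have : (b0 : ℝ) * F x.2 = b0 * F y.2 := by push_cast at h3; linarith
        exact mul_left_cancel₀ hb0'.ne' this
      exact ⟨hdv, h1.1.trans h2.1.symm, hFeq h5⟩
    · exfalso
      have h3 : ((m - m1 + m2 : ℤ) : ℝ) = b0 * F x.2 + b0 * F y.2 := by
        push_cast; linarith [h1.2, h2.2]
      have a1 : ((m - m1 + m2 : ℤ) : ℝ) < 1 := by rw [h3]; linarith [hX.2, hY.2]
      have a2 : (0 : ℝ) < ((m - m1 + m2 : ℤ) : ℝ) := by rw [h3]; linarith [hX.1, hY.1]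
      have a3 : (m - m1 + m2 : ℤ) < 1 := by exact_mod_cast a1
      have a4 : 0 < (m - m1 + m2 : ℤ) := by exact_mod_cast a2
      omega
    · exfalso
      have h3 : ((-m + m1 - m2 : ℤ) : ℝ) = b0 * F x.2 + b0 * F y.2 := by
        push_cast; linarith [h1.2, h2.2]
      have a1 : ((-m + m1 - m2 : ℤ) : ℝ) < 1 := by rw [h3]; linarith [hX.2, hY.2]
      have a2 : (0 : ℝ) < ((-m + m1 - m2 : ℤ) : ℝ) := by rw [h3]; linarith [hX.1, hY.1]
      have a3 : (-m + m1 - m2 : ℤ) < 1 := by exact_mod_cast a1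
      have a4 : 0 < (-m + m1 - m2 : ℤ) := by exact_mod_cast a2
      omega
    · have h3 : ((-m + m1 - m2 : ℤ) : ℝ) = b0 * F x.2 - b0 * F y.2 := by
        push_cast; linarith [h1.2, h2.2]
      have h4 : (-m + m1 - m2 : ℤ) = 0 := by
        have a1 : ((-m + m1 - m2 : ℤ) : ℝ) < 1 := by rw [h3]; linarith [hX.2, hY.1]
        have a2 : (-1 : ℝ) < ((-m + m1 - m2 : ℤ) : ℝ) := by rw [h3]; linarith [hX.1, hY.2]
        have a3 : (-m + m1 - m2 : ℤ) < 1 := by exact_mod_cast a1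
        have a4 : -1 < (-m + m1 - m2 : ℤ) := by exact_mod_cast a2
        omega
      rw [h4] at h3
      have h5 : F x.2 = F y.2 := by
        have : (b0 : ℝ) * F x.2 = b0 * F y.2 := by push_cast at h3; linarith
        exact mul_left_cancel₀ hb0'.ne' this
      exact ⟨hdv, h1.1.trans h2.1.symm, hFeq h5⟩

theorem fil_fullM (hn : 0 < n) (hsF : 0 < sF) (hb0 : 0 < b0)
    (hF : ∀ c ∈ Icc u v, F c = sF * (c - u)) (hbig : 1 / 2 ≤ b0 * (sF * (v - u)))
    (hsym : ∀ x ∈ E, ((-x.1.1, -x.1.2), x.2) ∈ E) :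
    FullM (lamE n F) (E ∪ fil n F u v b0 E) := by
  have hb0' : (0 : ℝ) < b0 := by exact_mod_cast hb0
  have hn' : (n : ℝ) ≠ 0 := by positivity
  have hnull : ∀ᵐ t : ℝ, t ∉ Set.range (fun m : ℤ => (m : ℝ) / 2) := by
    have : (Set.range (fun m : ℤ => (m : ℝ) / 2)).Countable := Set.countable_range _
    exact this.ae_notMem _
  filter_upwards [hnull] with t ht
  by_cases hcov : ∃ e ∈ E, ∃ m : ℤ, lamE n F e - t = m
  · obtain ⟨e, he, m, hm⟩ := hcov
    exact ⟨e, Or.inl he, m, hm⟩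
  -- s = t - round t
  set s : ℝ := t - round t with hs
  have hs0 : s ≠ 0 := by
    intro h
    apply ht
    refine ⟨2 * round t, ?_⟩
    push_cast
    linarith
  have hsle : |s| ≤ 1 / 2 := abs_sub_round t
  have hshalf : |s| ≠ 1 / 2 := by
    intro h
    apply ht
    rcases abs_eq (by norm_num : (0 : ℝ) ≤ 1 / 2) |>.1 h with h | h
    · refine ⟨2 * round t + 1, ?_⟩
      push_cast; linarith
    · refine ⟨2 * round t - 1, ?_⟩
      push_cast; linarith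
  have hslt : |s| < 1 / 2 := lt_of_le_of_ne hsle hshalf
  have hspos : 0 < |s| := abs_pos.2 hs0
  set c : ℝ := u + |s| / (b0 * sF) with hc
  have hcJ : c ∈ Icc u v := by
    constructor
    · have : 0 ≤ |s| / (b0 * sF) := by positivity
      rw [hc]; linarith
    · have h1 : |s| / (b0 * sF) ≤ v - u := by
        rw [div_le_iff₀ (by positivity)]
        calc |s| ≤ 1 / 2 := hsle
          _ ≤ b0 * (sF * (v - u)) := hbig
          _ = (v - u) * (b0 * sF) := by ring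
      rw [hc]; linarith
  have hFc : (b0 : ℝ) * F c = |s| := by
    rw [hF c hcJ, hc]
    field_simp
    ring
  have hunc : ¬ ∃ e ∈ E, ∃ m : ℤ, lamE n F e - b0 * F c = m := by
    rintro ⟨e, he, m, hm⟩
    rw [hFc] at hm
    rcases le_or_gt 0 s with h | h
    · rw [abs_of_nonneg h] at hm
      exact hcov ⟨e, he, m - round t, by push_cast; linarith⟩
    · rw [abs_of_neg h] at hm
      refine hcov ⟨_, hsym e he, -m - round t, ?_⟩
      rw [lamE_neg]
      push_cast; linarith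
  rcases le_or_gt 0 s with h | h
  · refine ⟨((0, b0), c), Or.inr ⟨dvd_zero _, Or.inl rfl, hcJ, ?_, hunc⟩, -round t, ?_⟩
    · show (b0 : ℝ) * F c ∈ _
      rw [hFc]; exact ⟨hspos, hslt⟩
    · simp only [lamE]
      rw [hFc, abs_of_nonneg h]
      push_cast
      simp
      linarith
  · refine ⟨((0, -b0), c), Or.inr ⟨dvd_zero _, Or.inr rfl, hcJ, ?_, hunc⟩, -round t, ?_⟩
    · show (b0 : ℝ) * F c ∈ _
      rw [hFc]; exact ⟨hspos, hslt⟩
    · simp only [lamE]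
      push_cast
      rw [neg_mul, hFc, abs_of_neg h]
      simp
      linarith

theorem fil_measurable (hn : 0 < n) (hsF : 0 < sF) (hF : ∀ c ∈ Icc u v, F c = sF * (c - u))
    (hJ : ∀ x ∈ E, x.2 ∈ Icc u v) (hb : ∀ x ∈ E, x.1.2 ≠ 0) (hm : MeasurableSet E) :
    MeasurableSet (fil n F u v b0 E) := by
  have hn' : (n : ℝ) ≠ 0 := by positivity
  have heq : fil n F u v b0 E = {x : Md | (n : ℤ) ∣ x.1.1 ∧ (x.1.2 = b0 ∨ x.1.2 = -b0)} ∩
      {x : Md | x.2 ∈ Icc u v} ∩ {x : Md | (b0 : ℝ) * (sF * (x.2 - u)) ∈ Ioo (0 : ℝ) (1 / 2)} ∩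
      (⋃ k : (ℤ × ℤ) × ℤ, {x : Md | k.1.2 ≠ 0 ∧
        (k.1, u + (k.2 + b0 * (sF * (x.2 - u)) - (k.1.1 : ℝ) / n) / (k.1.2 * sF)) ∈ E})ᶜ := by
    ext x
    constructor
    · rintro ⟨h1, h2, h3, h4, h5⟩
      rw [hF _ h3] at h4
      refine ⟨⟨⟨⟨h1, h2⟩, h3⟩, h4⟩, ?_⟩
      intro h6
      rw [Set.mem_iUnion] at h6
      obtain ⟨⟨k, m⟩, hk, hkE⟩ := h6
      apply h5
      refine ⟨_, hkE, m, ?_⟩
      have hk' : (k.2 : ℝ) ≠ 0 := by exact_mod_cast hk
      have := hJ _ hkE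
      simp only [lamE]
      rw [hF _ this, hF _ h3]
      field_simp
      ring
    · rintro ⟨⟨⟨⟨h1, h2⟩, h3⟩, h4⟩, h5⟩
      refine ⟨h1, h2, h3, ?_, ?_⟩
      · rw [hF _ h3]; exact h4
      · rintro ⟨e, he, m, hem⟩
        apply h5
        rw [Set.mem_iUnion]
        refine ⟨(e.1, m), hb e he, ?_⟩
        have hk' : (e.1.2 : ℝ) ≠ 0 := by exact_mod_cast hb e he
        simp only [lamE] at hem
        rw [hF _ (hJ e he), hF _ h3] at hem
        have h6 : u + (m + b0 * (sF * (x.2 - u)) - (e.1.1 : ℝ) / n) / (e.1.2 * sF) = e.2 := by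
          have : (m : ℝ) + b0 * (sF * (x.2 - u)) - (e.1.1 : ℝ) / n = e.1.2 * (sF * (e.2 - u)) := by
            linarith
          rw [this]
          field_simp
          ring
        show (e.1, u + (m + b0 * (sF * (x.2 - u)) - (e.1.1 : ℝ) / n) / (e.1.2 * sF)) ∈ E
        rw [h6]
        exact he
  rw [heq]
  refine ((MeasurableSet.inter ?_ ?_).inter ?_).inter (MeasurableSet.compl (MeasurableSet.iUnion ?_))
  · exact (measurable_fst (MeasurableSet.of_discrete (s := {k : ℤ × ℤ | (n : ℤ) ∣ k.1 ∧ (k.2 = b0 ∨ k.2 = -b0)})))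
  · exact measurable_snd measurableSet_Icc
  · exact (by fun_prop : Measurable (fun x : Md => (b0 : ℝ) * (sF * (x.2 - u)))) measurableSet_Ioo
  · intro k
    by_cases hk : k.1.2 ≠ 0
    · simp only [hk, ne_eq, not_false_eq_true, true_and]
      exact (by fun_prop : Measurable (fun x : Md =>
        ((k.1, u + (k.2 + b0 * (sF * (x.2 - u)) - (k.1.1 : ℝ) / n) / (k.1.2 * sF)) : Md))) hm
    · have : {x : Md | k.1.2 ≠ 0 ∧
        (k.1, u + (k.2 + b0 * (sF * (x.2 - u)) - (k.1.1 : ℝ) / n) / (k.1.2 * sF)) ∈ E} = ∅ := by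
        ext x; simp only [hk, false_and]; simp
      rw [this]; exact MeasurableSet.empty

end Fil

end Crest.Agent.R081.Cv
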