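import Crest.Agent.R081.CvM

/-!
Row 81 (S0108), node COVER (helper451): the total mass of a mode set is one.
-/

set_option autoImplicit false

open MeasureTheory Set
open Crest.Agent.R081.Ms Crest.Agent.R081.Fm Crest.Agent.R081.Tw

namespace Crest.Agent.R081.Cv

open Crest.Agent.R081.St

lemma modes_cov {t : TwD} (M : Modes t) : Cov (nuT t.P t.q t.psi) M.S := by
  have hMi : InjM (nuM ((t.P : ℝ) / t.q) t.psi) M.S := fun x hx y hy hm => M.inj x hx y hy hm
  have hMf : FullM (nuM ((t.P : ℝ) / t.q) t.psi) M.S := M.full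
  rw [← nuM_eq_nuT]
  exact cov_of hMi hMf

lemma modes_aff {t : TwD} (M : Modes t) : Aff t.al t.del t.psi M.S where
  al_pos := t.al_pos
  k2 := M.ne0
  psi_eq := fun p hp => t.lin _ (M.sub p hp)
  meas := fun k => by
    have : Measurable (fun c : ℝ => ((k, c) : Md)) := by fun_prop
    exact this M.meas

/-- weighted change of variables on a mode set -/
theorem modes_cv {t : TwD} (M : Modes t) {φ : ℝ → ENNReal} (hφ : Measurable φ)
    (hper : ∀ x, ∀ m : ℤ, φ (x + m) = φ x) :
    ∫⁻ x in M.S, φ (t.nu x) * ENNReal.ofReal (|(x.1.2 : ℝ)| * t.al) ∂muX =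
      ∫⁻ x in Set.Ico (0 : ℝ) 1, φ x := by
  rw [← cv4 (modes_cov M) (modes_aff M) hφ hper, ← lintegral_indicator M.meas, lintegral_muX]
  congr 1
  funext k
  have h0 : ∀ c : ℝ, M.S.indicator
      (fun x : Md => φ (t.nu x) * ENNReal.ofReal (|(x.1.2 : ℝ)| * t.al)) (k, c) =
      (slice M.S k).indicator
        (fun c => φ (nuT t.P t.q t.psi (k, c)) * ENNReal.ofReal (|(k.2 : ℝ)| * t.al)) c := by
    intro c
    by_cases hc : ((k, c) : Md) ∈ M.S
    · rw [indicator_of_mem hc, indicator_of_mem (show c ∈ slice M.S k from hc)]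
      have : t.nu (k, c) = nuT t.P t.q t.psi (k, c) := by
        simp only [TwD.nu, nuT]; ring
      rw [this]
    · rw [indicator_of_notMem hc, indicator_of_notMem (show c ∉ slice M.S k from hc)]
  simp only [h0]
  rw [lintegral_indicator ((modes_aff M).meas k), I01, Measure.restrict_restrict ((modes_aff M).meas k)]
  congr 2
  rw [inter_eq_left]
  intro c hc
  have h1 := M.sub (k, c) hc
  have h2 := t.del_pos
  exact ⟨by linarith [h1.1], by linarith [h1.2]⟩

/-- total mass one -/
theorem modes_mass {t : TwD} (M : Modes t) :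
    ∫⁻ x in M.S, ENNReal.ofReal (|(x.1.2 : ℝ)| * t.al) ∂muX = 1 := by
  have := modes_cv M (φ := fun _ => 1) measurable_const (fun _ _ => rfl)
  simpa using this

lemma measurable_wt (al : ℝ) : Measurable (fun x : Md => |(x.1.2 : ℝ)| * al) := by
  have m3 : Measurable (fun x : Md => (x.1.2 : ℝ)) :=
    (measurable_from_top (f := fun n : ℤ => (n : ℝ))).comp (measurable_snd.comp measurable_fst)
  exact m3.abs.mul_const _

lemma modes_integrableOn {t : TwD} (M : Modes t) :
    IntegrableOn (fun x : Md => |(x.1.2 : ℝ)| * t.al) M.S muX := by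
  refine ⟨(measurable_wt _).aestronglyMeasurable, ?_⟩
  have h1 : ∀ x : Md, ‖|(x.1.2 : ℝ)| * t.al‖ₑ = ENNReal.ofReal (|(x.1.2 : ℝ)| * t.al) := by
    intro x
    have : 0 ≤ |(x.1.2 : ℝ)| * t.al := mul_nonneg (abs_nonneg _) t.al_pos.le
    rw [Real.enorm_eq_ofReal this]
  unfold HasFiniteIntegral
  simp only [h1]
  rw [modes_mass M]
  exact ENNReal.one_lt_top

/-- total mass one, Bochner form -/
theorem modes_mass_real {t : TwD} (M : Modes t) :
    ∫ x in M.S, |(x.1.2 : ℝ)| * t.al ∂muX = 1 := by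
  rw [integral_eq_lintegral_of_nonneg_ae
    (Filter.Eventually.of_forall fun x => mul_nonneg (abs_nonneg _) t.al_pos.le)
    (measurable_wt _).aestronglyMeasurable, modes_mass M]
  simp

/-- total mass one, indicator form -/
theorem modes_mass_ind {t : TwD} (M : Modes t) :
    ∫ x, M.S.indicator (fun x => |(x.1.2 : ℝ)| * t.al) x ∂muX = 1 := by
  rw [integral_indicator M.meas, modes_mass_real M]

lemma modes_integrable_ind {t : TwD} (M : Modes t) :
    Integrable (M.S.indicator (fun x => |(x.1.2 : ℝ)| * t.al)) muX :=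
  (integrable_indicator_iff M.meas).2 (modes_integrableOn M)

/-- `stepS` is measurable -/
theorem stepS_meas {t : TwD} (M : Modes t) {K : Finset (ℤ × ℤ)} {eps : ℝ} (d : Des t.q K eps)
    {h : ℕ} (hh : 0 < h) (P' : ℤ) : MeasurableSet (stepS M d h P') := by
  rw [stepS_eq]
  exact stepSet_measurable hh t.al t.del t.al_pos.ne' (Icc t.del (1 - t.del)) t.lin M.sub M.ne0
        M.meas (E0_meas d) (Fp_smooth d.v d.del_pos).continuous.measurable

theorem stepS_symm {t : TwD} (M : Modes t) {K : Finset (ℤ × ℤ)} {eps : ℝ} (d : Des t.q K eps)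
    {h : ℕ} (P' : ℤ) : ∀ x ∈ stepS M d h P', ((-x.1, x.2) : Md) ∈ stepS M d h P' := by
  rw [stepS_eq]
  exact fun x hx => stepSet_symm M.symm (E0_symm d) x hx

end Crest.Agent.R081.Cv
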