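import Mathlib

/-!
# Row 81: the cells of `ℤ/(hQ)` (generic version of `R075/Cells`, no parity hypotheses)
-/

set_option autoImplicit false

namespace Crest.Agent.R081.D

open Finset

/-- combinatorial data of the design: blocks, base arcs, residues -/
structure CD (ι Pc : Type) [Fintype ι] [DecidableEq ι] where
  L : ℕ
  l : ℕ
  L_pos : 0 < L
  l_pos : 0 < l
  t1 : ι → ℕ
  t1_pos : ∀ t, 0 < t1 t
  t1_dvd : ∀ t, t1 t ∣ L
  tau : ℕ → Option ι
  tau_symm : ∀ B < l, ∀ t, tau B = some t → tau (l - 1 - B) = none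
  s : Pc → ι → ℕ
  s_blk : ∀ i t, ∃ B < l, ∃ r < L, t1 t ∣ r ∧ s i t = L * B + r ∧ tau B = some t
  q : ι → ℕ
  q_pos : ∀ t, 0 < q t
  v : Pc → ι → ℤ
  v_inj : ∀ t i i', s i t = s i' t → v i t ≡ v i' t [ZMOD q t] → i = i'

namespace CD

variable {ι Pc : Type} [Fintype ι] [DecidableEq ι] (C : CD ι Pc)

def h : ℕ := C.L * C.l

def Q : ℕ := ∏ t, C.q t

def Dt (t : ι) : ℕ := ∏ t' ∈ univ.erase t, C.q t'

def M : ℕ := C.h * C.Q

lemma Q_eq (t : ι) : C.Q = C.q t * C.Dt t := by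
  unfold Q Dt
  rw [Finset.mul_prod_erase _ _ (mem_univ t)]

lemma Q_pos : 0 < C.Q := Finset.prod_pos fun t _ => C.q_pos t

lemma Dt_pos (t : ι) : 0 < C.Dt t := Finset.prod_pos fun t _ => C.q_pos t

lemma h_pos : 0 < C.h := Nat.mul_pos C.L_pos C.l_pos
lemma M_pos : 0 < C.M := Nat.mul_pos C.h_pos C.Q_pos

/-- the residue mod `Q` of the high part -/
def hi (i : Pc) (t : ι) (j : ℕ) : ℕ := ((C.v i t + j * C.q t) % (C.Q : ℤ)).toNat

def X (i : Pc) (t : ι) (j : ℕ) : ℕ := C.s i t + C.h * C.hi i t j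

lemma hi_cast (i : Pc) (t : ι) (j : ℕ) :
    (C.hi i t j : ℤ) = (C.v i t + j * C.q t) % (C.Q : ℤ) := by
  unfold hi
  rw [Int.toNat_of_nonneg]
  exact Int.emod_nonneg _ (by have := C.Q_pos; omega)

lemma hi_lt (i : Pc) (t : ι) (j : ℕ) : C.hi i t j < C.Q := by
  have h1 := C.hi_cast i t j
  have h2 := Int.emod_lt_of_pos (C.v i t + j * C.q t) (b := (C.Q : ℤ)) (by have := C.Q_pos; omega)
  omega

lemma s_add_le (i : Pc) (t : ι) : C.s i t + C.t1 t ≤ C.h := by
  obtain ⟨B, hB, r, hr, hd, hs, -⟩ := C.s_blk i t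
  have h1 : r + C.t1 t ≤ C.L := by
    obtain ⟨a, ha⟩ := hd
    obtain ⟨b, hb⟩ := C.t1_dvd t
    have hpos := C.t1_pos t
    rw [ha, hb] at hr
    have : a < b := lt_of_mul_lt_mul_left hr (Nat.zero_le _)
    rw [ha, hb]
    calc C.t1 t * a + C.t1 t = C.t1 t * (a + 1) := by ring
      _ ≤ C.t1 t * b := Nat.mul_le_mul_left _ this
  have h2 : C.L * B + C.L ≤ C.L * C.l := by
    calc C.L * B + C.L = C.L * (B + 1) := by ring
      _ ≤ C.L * C.l := Nat.mul_le_mul_left _ hB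
  unfold h
  omega

lemma X_add_le (i : Pc) (t : ι) (j : ℕ) : C.X i t j + C.t1 t ≤ C.M := by
  have h1 := C.s_add_le i t
  have h2 := C.hi_lt i t j
  have h3 : C.h * C.hi i t j + C.h ≤ C.h * C.Q := by
    calc C.h * C.hi i t j + C.h = C.h * (C.hi i t j + 1) := by ring
      _ ≤ C.h * C.Q := Nat.mul_le_mul_left _ h2
  unfold X M
  omega

/-- `c` lies in the arc `(i,t,j)` -/
def InArc (i : Pc) (t : ι) (j : ℕ) (c : ℕ) : Prop := C.X i t j ≤ c ∧ c < C.X i t j + C.t1 t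

/-- information read off from a cell in an arc -/
lemma inArc_info {i : Pc} {t : ι} {j c : ℕ} (hc : C.InArc i t j c) :
    c % C.h = C.s i t + (c - C.X i t j) ∧ c / C.h = C.hi i t j ∧ c - C.X i t j < C.t1 t := by
  obtain ⟨h1, h2⟩ := hc
  have h3 := C.s_add_le i t
  have h4 : c = (C.s i t + (c - C.X i t j)) + C.h * C.hi i t j := by
    have : C.X i t j = C.s i t + C.h * C.hi i t j := rfl
    omega
  have h5 : C.s i t + (c - C.X i t j) < C.h := by omega
  refine ⟨?_, ?_, by omega⟩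
  · conv_lhs => rw [h4]
    rw [Nat.add_mul_mod_self_left, Nat.mod_eq_of_lt h5]
  · conv_lhs => rw [h4]
    rw [Nat.add_mul_div_left _ _ C.h_pos, Nat.div_eq_of_lt h5, zero_add]

lemma inArc_blk {i : Pc} {t : ι} {j c : ℕ} (hc : C.InArc i t j c) :
    C.tau (c % C.h / C.L) = some t ∧
      C.s i t = C.L * (c % C.h / C.L) + (c % C.h % C.L) / C.t1 t * C.t1 t := by
  obtain ⟨h1, h2, h3⟩ := C.inArc_info hc
  obtain ⟨B, hB, r, hr, hd, hs, ht⟩ := C.s_blk i t
  obtain ⟨a, ha⟩ := hd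
  obtain ⟨b, hb⟩ := C.t1_dvd t
  set o := c - C.X i t j with ho
  have hpos := C.t1_pos t
  have hlt : r + o < C.L := by
    rw [ha, hb] at hr
    have : a < b := lt_of_mul_lt_mul_left hr (Nat.zero_le _)
    rw [ha, hb]
    calc C.t1 t * a + o < C.t1 t * a + C.t1 t := by omega
      _ = C.t1 t * (a + 1) := by ring
      _ ≤ C.t1 t * b := Nat.mul_le_mul_left _ this
  have h4 : c % C.h = (r + o) + C.L * B := by rw [h1, hs]; ring
  have h5 : c % C.h / C.L = B := by
    rw [h4, Nat.add_mul_div_left _ _ C.L_pos, Nat.div_eq_of_lt hlt, zero_add]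
  have h6 : c % C.h % C.L = r + o := by
    rw [h4, Nat.add_mul_mod_self_left, Nat.mod_eq_of_lt hlt]
  refine ⟨by rw [h5]; exact ht, ?_⟩
  rw [h5, h6, hs, ha]
  have : (C.t1 t * a + o) / C.t1 t = a := by
    rw [add_comm, Nat.add_mul_div_left _ _ hpos, Nat.div_eq_of_lt h3, zero_add]
  rw [this]; ring

lemma arc_unique {i i' : Pc} {t t' : ι} {j j' c : ℕ} (hj : j < C.Dt t) (hj' : j' < C.Dt t')
    (hc : C.InArc i t j c) (hc' : C.InArc i' t' j' c) : i = i' ∧ t = t' ∧ j = j' := by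
  have h1 := C.inArc_blk hc
  have h2 := C.inArc_blk hc'
  have ht : t = t' := by
    have := h1.1.symm.trans h2.1
    exact Option.some_injective _ this
  subst ht
  have hs : C.s i t = C.s i' t := h1.2.trans h2.2.symm
  have h3 := (C.inArc_info hc).2.1
  have h4 := (C.inArc_info hc').2.1
  have h5 : C.hi i t j = C.hi i' t j' := h3.symm.trans h4
  have h6 : (C.v i t + j * C.q t) ≡ (C.v i' t + j' * C.q t) [ZMOD C.Q] := by
    have e1 := C.hi_cast i t j
    have e2 := C.hi_cast i' t j'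
    unfold Int.ModEq
    rw [← e1, ← e2, h5]
  have h7 : (C.v i t + j * C.q t) ≡ (C.v i' t + j' * C.q t) [ZMOD C.q t] := by
    apply Int.ModEq.of_dvd _ h6
    rw [C.Q_eq t]; push_cast; exact Dvd.intro _ rfl
  have h8 : C.v i t ≡ C.v i' t [ZMOD C.q t] := by
    have a1 : (C.v i t + j * C.q t) ≡ C.v i t [ZMOD C.q t] := by
      have : (j : ℤ) * C.q t ≡ 0 [ZMOD C.q t] := by
        rw [Int.modEq_zero_iff_dvd]; exact Dvd.intro_left _ rfl
      simpa using (Int.ModEq.refl (C.v i t)).add this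
    have a2 : (C.v i' t + j' * C.q t) ≡ C.v i' t [ZMOD C.q t] := by
      have : (j' : ℤ) * C.q t ≡ 0 [ZMOD C.q t] := by
        rw [Int.modEq_zero_iff_dvd]; exact Dvd.intro_left _ rfl
      simpa using (Int.ModEq.refl (C.v i' t)).add this
    exact a1.symm.trans (h7.trans a2)
  have hi : i = i' := C.v_inj t i i' hs h8
  subst hi
  refine ⟨rfl, rfl, ?_⟩
  have h9 : (j : ℤ) * C.q t ≡ j' * C.q t [ZMOD C.q t * C.Dt t] := by
    have : ((C.q t * C.Dt t : ℕ) : ℤ) = (C.q t : ℤ) * C.Dt t := by push_cast; ring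
    rw [← this, ← C.Q_eq t]
    exact Int.ModEq.add_left_cancel' _ h6
  have h10 : (j : ℤ) ≡ j' [ZMOD C.Dt t] := by
    have hq : (0:ℤ) < C.q t := by exact_mod_cast C.q_pos t
    rw [Int.modEq_iff_dvd] at h9 ⊢
    have : (j' : ℤ) * C.q t - j * C.q t = C.q t * (j' - j) := by ring
    rw [this] at h9
    exact (mul_dvd_mul_iff_left hq.ne').mp h9
  have h11 : j ≡ j' [MOD C.Dt t] := (Int.natCast_modEq_iff).mp h10
  exact Nat.ModEq.eq_of_lt_of_lt h11 hj hj'

lemma mirror_mod {c : ℕ} (hc : c < C.M) : (C.M - 1 - c) % C.h = C.h - 1 - c % C.h := by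
  have h1 := Nat.div_add_mod c C.h
  have h2 := Nat.mod_lt c C.h_pos
  have h3 : c / C.h < C.Q := by
    rw [Nat.div_lt_iff_lt_mul C.h_pos, mul_comm]; exact hc
  have h4 : C.M - 1 - c = (C.h - 1 - c % C.h) + C.h * (C.Q - 1 - c / C.h) := by
    have e1 : C.h * (C.Q - 1 - c / C.h) + C.h * (c / C.h) + C.h = C.h * C.Q := by
      have : C.Q = (C.Q - 1 - c / C.h) + c / C.h + 1 := by omega
      conv_rhs => rw [this]
      ring
    have e2 : C.M = C.h * C.Q := rfl
    omega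
  rw [h4, Nat.add_mul_mod_self_left, Nat.mod_eq_of_lt]
  have := C.h_pos
  omega

lemma mirror_blk {x : ℕ} (hx : x < C.h) : (C.h - 1 - x) / C.L = C.l - 1 - x / C.L := by
  have h1 := Nat.div_add_mod x C.L
  have h2 := Nat.mod_lt x C.L_pos
  have h3 : x / C.L < C.l := by
    rw [Nat.div_lt_iff_lt_mul C.L_pos, mul_comm]; exact hx
  have h4 : C.h - 1 - x = (C.L - 1 - x % C.L) + C.L * (C.l - 1 - x / C.L) := by
    have e1 : C.L * (C.l - 1 - x / C.L) + C.L * (x / C.L) + C.L = C.L * C.l := by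
      have : C.l = (C.l - 1 - x / C.L) + x / C.L + 1 := by omega
      conv_rhs => rw [this]
      ring
    have e2 : C.h = C.L * C.l := rfl
    omega
  rw [h4, Nat.add_mul_div_left _ _ C.L_pos, Nat.div_eq_of_lt, zero_add]
  have := C.L_pos
  omega

lemma no_mirror {i i' : Pc} {t t' : ι} {j j' c : ℕ}
    (hc : C.InArc i t j c) (hc' : C.InArc i' t' j' (C.M - 1 - c)) : False := by
  have hcM : c < C.M := by
    have := C.X_add_le i t j
    have := hc.2
    omega
  have h1 := (C.inArc_blk hc).1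
  have h2 := (C.inArc_blk hc').1
  have h3 : c % C.h < C.h := Nat.mod_lt _ C.h_pos
  rw [C.mirror_mod hcM, C.mirror_blk h3] at h2
  have h4 : c % C.h / C.L < C.l := by
    rw [Nat.div_lt_iff_lt_mul C.L_pos, mul_comm]; exact h3
  rw [C.tau_symm _ h4 t h1] at h2
  exact absurd h2 (by simp)

/-- the integer start of an arc (before reduction). -/
def XI (i : Pc) (t : ι) (j : ℕ) : ℤ := C.s i t + C.h * (C.v i t + j * C.q t)

/-- `c` lies in the arc `[X, X + len)` of `ℤ / N`. -/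
def InZ (N : ℕ) (X len c : ℤ) : Prop := ∃ k : ℤ, X ≤ c + k * N ∧ c + k * N < X + len

lemma XI_eq (i : Pc) (t : ι) (j : ℕ) :
    C.XI i t j = C.X i t j + C.M * ((C.v i t + j * C.q t) / (C.Q : ℤ)) := by
  have e1 := C.hi_cast i t j
  have e2 := Int.emod_add_mul_ediv (C.v i t + j * C.q t) (C.Q : ℤ)
  rw [← e1] at e2
  have e4 : (C.X i t j : ℤ) = C.s i t + C.h * C.hi i t j := by unfold X; push_cast; ring
  have e5 : (C.M : ℤ) = C.h * C.Q := by unfold M; push_cast; ring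
  rw [e4, e5]
  unfold XI
  linear_combination (-(C.h : ℤ)) * e2

lemma inArc_of_inZ {i : Pc} {t : ι} {j : ℕ} {c : ℤ} (hc : InZ C.M (C.XI i t j) (C.t1 t) c) :
    C.InArc i t j (c % C.M).toNat := by
  obtain ⟨k, h1, h2⟩ := hc
  have hM : (0:ℤ) < C.M := by exact_mod_cast C.M_pos
  rw [C.XI_eq] at h1 h2
  set w := (C.v i t + j * C.q t) / (C.Q : ℤ)
  have h3 : (C.X i t j : ℤ) ≤ c + (k - w) * C.M := by linarith
  have h4 : c + (k - w) * C.M < C.X i t j + C.t1 t := by linarith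
  have h5 : (C.X i t j : ℤ) + C.t1 t ≤ C.M := by exact_mod_cast C.X_add_le i t j
  have h6 : c % C.M = c + (k - w) * C.M := by
    have h7 : c % C.M = (c + (k - w) * C.M) % C.M := by rw [Int.add_mul_emod_self_right]
    rw [h7]
    exact Int.emod_eq_of_lt (le_trans (Int.natCast_nonneg _) h3) (by linarith)
  have h8 : ((c % C.M).toNat : ℤ) = c + (k - w) * C.M := by
    rw [Int.toNat_of_nonneg (Int.emod_nonneg _ hM.ne'), h6]
  constructor
  · exact_mod_cast h8 ▸ h3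
  · exact_mod_cast h8 ▸ h4

/-- **the arcs are pairwise disjoint**. -/
theorem disj {i i' : Pc} {t t' : ι} {j j' : ℕ} {c : ℤ} (hj : j < C.Dt t) (hj' : j' < C.Dt t')
    (hc : InZ C.M (C.XI i t j) (C.t1 t) c) (hc' : InZ C.M (C.XI i' t' j') (C.t1 t') c) :
    i = i' ∧ t = t' ∧ j = j' :=
  C.arc_unique hj hj' (C.inArc_of_inZ hc) (C.inArc_of_inZ hc')

/-- **no arc meets a mirror arc**. -/
theorem disj_mirror {i i' : Pc} {t t' : ι} {j j' : ℕ} {c : ℤ}
    (hc : InZ C.M (C.XI i t j) (C.t1 t) c) (hc' : InZ C.M (C.XI i' t' j') (C.t1 t') (-1 - c)) :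
    False := by
  have h1 := C.inArc_of_inZ hc
  have h2 := C.inArc_of_inZ hc'
  have hM : (0:ℤ) < C.M := by exact_mod_cast C.M_pos
  refine C.no_mirror h1 (i' := i') (t' := t') (j' := j') ?_
  have h3 : (-1 - c) % C.M = C.M - 1 - c % C.M := by
    have e := Int.emod_add_mul_ediv c C.M
    have e1 : (-1 - c) % C.M = (C.M - 1 - c % C.M + (-1 - c / C.M) * C.M) % C.M := by
      congr 1
      linarith
    rw [e1, Int.add_mul_emod_self_right]
    apply Int.emod_eq_of_lt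
    · have := Int.emod_lt_of_pos c hM; linarith
    · have := Int.emod_nonneg c hM.ne'; linarith
  have h4 : ((-1 - c) % C.M).toNat = C.M - 1 - (c % C.M).toNat := by
    have := Int.emod_nonneg c hM.ne'
    have := Int.emod_lt_of_pos c hM
    omega
  rw [← h4]
  exact h2

end CD

end Crest.Agent.R081.D
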