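import Mathlib
import Crest.Agent.R075.Basic
import Crest.Agent.R081.TwDefs

/-! Row 81, route B, node DGLUE, part 1: the label map on the torus built from the label function on
the section `y1 = c'/(q q'') + N i / q''`, its distribution, and the shear word. -/

set_option autoImplicit false

namespace Crest.Agent.R081.Dg

open MeasureTheory Crest.Agent.R075 Finset

/-- cell of the `M1 × M2` grid of the torus (same as 846's `gl`) -/
noncomputable def gl (M1 M2 : ℕ) (z : ℝ × ℝ) : ZMod M1 × ZMod M2 :=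
  ((⌊(M1 : ℝ) * z.1⌋ : ℤ), (⌊(M2 : ℝ) * z.2⌋ : ℤ))

/-- the half open unit square -/
def Sq : Set (ℝ × ℝ) := Set.Ico (0 : ℝ) 1 ×ˢ Set.Ico (0 : ℝ) 1

/-- the vertical strip over the `j`-th interval of length `1/m` -/
def strip (m : ℕ) (j : ℤ) : Set (ℝ × ℝ) :=
  Set.Ico ((j : ℝ) / m) (((j : ℝ) + 1) / m) ×ˢ Set.Ico (0 : ℝ) 1

theorem measurableSet_Sq : MeasurableSet Sq := measurableSet_Ico.prod measurableSet_Ico

theorem measurableSet_strip (m : ℕ) (j : ℤ) : MeasurableSet (strip m j) :=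
  measurableSet_Ico.prod measurableSet_Ico

theorem volume_Sq : volume Sq = 1 := by
  rw [Sq, Measure.volume_eq_prod, Measure.prod_prod]
  simp

/-- the unit square is the disjoint union of the strips -/
theorem Sq_eq_iUnion (m : ℕ) (hm : 0 < m) : Sq = ⋃ j ∈ range m, strip m (j : ℤ) := by
  have hm' : (0 : ℝ) < m := by exact_mod_cast hm
  ext ⟨x, y⟩
  simp only [Sq, strip, Set.mem_prod, Set.mem_Ico, Set.mem_iUnion, exists_prop, mem_range]
  constructor
  · rintro ⟨⟨h0, h1⟩, hy⟩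
    have hf0 : 0 ≤ ⌊(m : ℝ) * x⌋ := Int.floor_nonneg.2 (by positivity)
    refine ⟨⌊(m : ℝ) * x⌋.toNat, ?_, ⟨?_, ?_⟩, hy⟩
    · have : ⌊(m : ℝ) * x⌋ < m := by
        rw [Int.floor_lt]; push_cast; nlinarith
      omega
    · rw [div_le_iff₀ hm']
      have h2 : ((⌊(m : ℝ) * x⌋.toNat : ℤ) : ℝ) = (⌊(m : ℝ) * x⌋ : ℝ) := by
        rw [Int.toNat_of_nonneg hf0]
      push_cast at h2 ⊢
      rw [h2]
      have := Int.floor_le ((m : ℝ) * x)
      linarith
    · rw [lt_div_iff₀ hm']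
      have h2 : ((⌊(m : ℝ) * x⌋.toNat : ℤ) : ℝ) = (⌊(m : ℝ) * x⌋ : ℝ) := by
        rw [Int.toNat_of_nonneg hf0]
      push_cast at h2 ⊢
      rw [h2]
      have := Int.lt_floor_add_one ((m : ℝ) * x)
      linarith
  · rintro ⟨j, hj, ⟨h0, h1⟩, hy⟩
    refine ⟨⟨?_, ?_⟩, hy⟩
    · refine le_trans ?_ h0
      push_cast
      positivity
    · refine lt_of_lt_of_le h1 ?_
      rw [div_le_one hm']
      push_cast
      have : (j : ℝ) + 1 ≤ m := by exact_mod_cast hj
      exact this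

theorem strip_disjoint (m : ℕ) (hm : 0 < m) {i j : ℤ} (hij : i ≠ j) :
    Disjoint (strip m i) (strip m j) := by
  have hm' : (0 : ℝ) < m := by exact_mod_cast hm
  rw [Set.disjoint_left]
  rintro ⟨x, y⟩ ⟨h1, _⟩ ⟨h2, _⟩
  simp only [Set.mem_Ico] at h1 h2
  rw [div_le_iff₀ hm', lt_div_iff₀ hm'] at h1 h2
  apply hij
  have a : i < j + 1 := by
    have : (i : ℝ) < j + 1 := lt_of_le_of_lt h1.1 h2.2
    exact_mod_cast this
  have b : j < i + 1 := by
    have : (j : ℝ) < i + 1 := lt_of_le_of_lt h2.1 h1.2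
    exact_mod_cast this
  omega

/-- measure of a subset of the square as a sum over strips -/
theorem volume_Sq_inter (m : ℕ) (hm : 0 < m) (B : Set (ℝ × ℝ)) (hB : MeasurableSet B) :
    volume (Sq ∩ B) = ∑ j ∈ range m, volume (strip m (j : ℤ) ∩ B) := by
  rw [Sq_eq_iUnion m hm, Set.iUnion₂_inter, measure_biUnion_finset]
  · intro i _ j _ hij
    refine Disjoint.mono Set.inter_subset_left Set.inter_subset_left ?_
    exact strip_disjoint m hm (by exact_mod_cast hij)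
  · intro j _
    exact (measurableSet_strip m j).inter hB

/-- translation of strips -/
theorem volume_strip_add (m : ℕ) (hm : 0 < m) (j k : ℤ) (B : Set (ℝ × ℝ))
    (hinv : ∀ y : ℝ × ℝ, (y.1 + (k : ℝ) / m, y.2) ∈ B ↔ y ∈ B) :
    volume (strip m (j + k) ∩ B) = volume (strip m j ∩ B) := by
  have hm' : (m : ℝ) ≠ 0 := by exact_mod_cast hm.ne'
  have h : (fun y : ℝ × ℝ => y + (((k : ℝ) / m, 0) : ℝ × ℝ)) ⁻¹' (strip m (j + k) ∩ B)
      = strip m j ∩ B := by
    ext ⟨x, y⟩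
    simp only [Set.mem_preimage, Set.mem_inter_iff, strip, Set.mem_prod, Set.mem_Ico,
      Prod.mk_add_mk, add_zero]
    have e := hinv (x, y)
    simp only at e
    rw [e]
    have e1 : (((j + k : ℤ) : ℝ) / m ≤ x + k / m) ↔ ((j : ℝ) / m ≤ x) := by
      push_cast; rw [add_div]; constructor <;> intro h <;> linarith
    have e2 : (x + k / m < (((j + k : ℤ) : ℝ) + 1) / m) ↔ (x < ((j : ℝ) + 1) / m) := by
      have : (((j + k : ℤ) : ℝ) + 1) / m = ((j : ℝ) + 1) / m + k / m := by push_cast; ring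
      rw [this]; constructor <;> intro h <;> linarith
    rw [e1, e2]
  rw [← h]
  exact (measure_preimage_add_right volume (((k : ℝ) / m, 0) : ℝ × ℝ) _).symm

/-- the affine parametrisation of a strip by the square -/
theorem volume_strip_param (m : ℕ) (hm : 0 < m) (j : ℤ) (B : Set (ℝ × ℝ)) :
    volume (Sq ∩ {z : ℝ × ℝ | ((z.1 + j) / m, z.2) ∈ B}) = m * volume (strip m j ∩ B) := by
  have hm' : (0 : ℝ) < m := by exact_mod_cast hm
  -- the linear equivalence
  let φ : ℝ × ℝ → ℝ × ℝ := fun z => ((z.1 + j) / m, z.2)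
  have hpre : φ ⁻¹' (strip m j ∩ B) = Sq ∩ {z : ℝ × ℝ | ((z.1 + j) / m, z.2) ∈ B} := by
    ext ⟨x, y⟩
    simp only [φ, Set.mem_preimage, Set.mem_inter_iff, strip, Sq, Set.mem_prod, Set.mem_Ico,
      Set.mem_ofPred_eq]
    have e1 : ((j : ℝ) / m ≤ (x + j) / m) ↔ (0 ≤ x) := by
      rw [div_le_div_iff_of_pos_right hm']; constructor <;> intro h <;> linarith
    have e2 : ((x + j) / m < ((j : ℝ) + 1) / m) ↔ (x < 1) := by
      rw [div_lt_div_iff_of_pos_right hm']; constructor <;> intro h <;> linarith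
    rw [e1, e2]
  rw [← hpre]
  -- φ = (translation) ∘ (linear map)
  have hφ : φ = (fun z : ℝ × ℝ => z + (((j : ℝ) / m, 0) : ℝ × ℝ)) ∘
      (fun z : ℝ × ℝ => (((m : ℝ)⁻¹) * z.1, z.2)) := by
    funext z
    simp only [φ, Function.comp, Prod.mk_add_mk, add_zero]
    rw [add_div, inv_mul_eq_div]
  rw [hφ, Set.preimage_comp]
  set C : Set (ℝ × ℝ) := (fun z : ℝ × ℝ => z + (((j : ℝ) / m, 0) : ℝ × ℝ)) ⁻¹' (strip m j ∩ B)
    with hC
  have hCv : volume C = volume (strip m j ∩ B) :=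
    measure_preimage_add_right volume (((j : ℝ) / m, 0) : ℝ × ℝ) _
  rw [← hCv]
  -- linear part
  let L : (ℝ × ℝ) →ₗ[ℝ] (ℝ × ℝ) := LinearMap.prodMap ((m : ℝ)⁻¹ • LinearMap.id) LinearMap.id
  have hL : (fun z : ℝ × ℝ => (((m : ℝ)⁻¹) * z.1, z.2)) = L := by
    funext z
    simp [L]
  have hdet : LinearMap.det L = (m : ℝ)⁻¹ := by
    simp only [L]
    rw [LinearMap.det_prodMap]
    simp
  rw [hL, Measure.addHaar_preimage_linearMap volume (by rw [hdet]; positivity), hdet]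
  congr 1
  rw [inv_inv, abs_of_pos hm']
  simp

end Crest.Agent.R081.Dg
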