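import Crest.Agent.R081.Dg1

/-! Row 81, route B, node DGLUE, part 2: the label map on the torus. -/

set_option autoImplicit false

namespace Crest.Agent.R081.Dg

open MeasureTheory Crest.Agent.R075 Finset

/-- CRT sum: for coprime `q, r`, a sum over `j < q r` of `F (j % q) (j % r)` is the double sum. -/
theorem sum_crt {α : Type} [AddCommMonoid α] (q r : ℕ) (hq : 0 < q) (hr : 0 < r)
    (h : Nat.Coprime q r) (F : ℕ → ℕ → α) :
    ∑ j ∈ range (q * r), F (j % q) (j % r) = ∑ a ∈ range q, ∑ b ∈ range r, F a b := by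
  rw [← Finset.sum_product']
  refine Finset.sum_nbij' (fun j => (j % q, j % r)) (fun p => (Nat.chineseRemainder h p.1 p.2 : ℕ) % (q * r))
    ?_ ?_ ?_ ?_ ?_
  · intro j _
    simp only [mem_product, mem_range]
    exact ⟨Nat.mod_lt _ hq, Nat.mod_lt _ hr⟩
  · intro p _
    simp only [mem_range]
    exact Nat.mod_lt _ (Nat.mul_pos hq hr)
  · intro j hj
    simp only [mem_range] at hj
    have h1 := (Nat.chineseRemainder h (j % q) (j % r)).2
    have h2 : (Nat.chineseRemainder h (j % q) (j % r) : ℕ) ≡ j [MOD q * r] := by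
      rw [← Nat.modEq_and_modEq_iff_modEq_mul h]
      exact ⟨h1.1.trans (Nat.mod_modEq j q), h1.2.trans (Nat.mod_modEq j r)⟩
    have h3 : (Nat.chineseRemainder h (j % q) (j % r) : ℕ) % (q * r) = j % (q * r) := h2
    simp only [h3]
    exact Nat.mod_eq_of_lt hj
  · rintro ⟨a, b⟩ hp
    simp only [mem_product, mem_range] at hp
    have h1 := (Nat.chineseRemainder h a b).2
    have e1 : ((Nat.chineseRemainder h a b : ℕ) % (q * r)) % q = a := by
      rw [Nat.mod_mul_right_mod]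
      have : (Nat.chineseRemainder h a b : ℕ) % q = a % q := h1.1
      rw [this, Nat.mod_eq_of_lt hp.1]
    have e2 : ((Nat.chineseRemainder h a b : ℕ) % (q * r)) % r = b := by
      rw [Nat.mod_mul_left_mod]
      have : (Nat.chineseRemainder h a b : ℕ) % r = b % r := h1.2
      rw [this, Nat.mod_eq_of_lt hp.2]
    simp only [e1, e2]
  · intro j _
    rfl

section lam

variable (q qq M1 M2 : ℕ) (N' : ℤ) (lab : ℝ → ℤ → ℝ → ZMod M1 × ZMod M2)

/-- the sheet shift of the `j`-th strip -/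
def sh (j : ℤ) : ZMod M1 × ZMod M2 := (((N' * j * ((M1 / q : ℕ) : ℤ) : ℤ) : ZMod M1), 0)

/-- the label map on the plane -/
noncomputable def Lam (y : ℝ × ℝ) : ZMod M1 × ZMod M2 :=
  lab (Int.fract (((q * qq : ℕ) : ℝ) * y.1)) ⌊((q * qq : ℕ) : ℝ) * y.1⌋ y.2
    + sh q M1 M2 N' ⌊((q * qq : ℕ) : ℝ) * y.1⌋

variable {q qq M1 M2 N' lab}

theorem sh_add_qq (hdiv : q ∣ M1) (hN' : (q : ℤ) ∣ N' * qq - 1) (j : ℤ) :
    sh q M1 M2 N' (j + qq) = sh q M1 M2 N' j + (((M1 / q : ℕ) : ZMod M1), 0) := by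
  obtain ⟨k, hk⟩ := hN'
  have hM : ((q : ℤ) * ((M1 / q : ℕ) : ℤ) : ℤ) = M1 := by
    exact_mod_cast Nat.mul_div_cancel' hdiv
  have e : N' * (j + qq) * ((M1 / q : ℕ) : ℤ) = N' * j * ((M1 / q : ℕ) : ℤ)
      + ((M1 / q : ℕ) : ℤ) + k * M1 := by
    have : N' * qq = q * k + 1 := by linarith
    calc N' * (j + qq) * ((M1 / q : ℕ) : ℤ)
        = N' * j * ((M1 / q : ℕ) : ℤ) + (N' * qq) * ((M1 / q : ℕ) : ℤ) := by ring
      _ = N' * j * ((M1 / q : ℕ) : ℤ) + (q * k + 1) * ((M1 / q : ℕ) : ℤ) := by rw [this]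
      _ = N' * j * ((M1 / q : ℕ) : ℤ) + ((M1 / q : ℕ) : ℤ) + k * (q * ((M1 / q : ℕ) : ℤ)) := by ring
      _ = _ := by rw [hM]
  simp only [sh, e, Prod.mk_add_mk, add_zero]
  congr 1
  simp only [Int.cast_add, Int.cast_mul, Int.cast_natCast, ZMod.natCast_self, mul_zero, add_zero]

theorem sh_add_q (hdiv : q ∣ M1) (j k : ℤ) :
    sh q M1 M2 N' (j + q * k) = sh q M1 M2 N' j := by
  have hM : ((q : ℤ) * ((M1 / q : ℕ) : ℤ) : ℤ) = M1 := by
    exact_mod_cast Nat.mul_div_cancel' hdiv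
  have e : N' * (j + q * k) * ((M1 / q : ℕ) : ℤ) = N' * j * ((M1 / q : ℕ) : ℤ) + N' * k * M1 := by
    calc N' * (j + q * k) * ((M1 / q : ℕ) : ℤ)
        = N' * j * ((M1 / q : ℕ) : ℤ) + N' * k * (q * ((M1 / q : ℕ) : ℤ)) := by ring
      _ = _ := by rw [hM]
  simp only [sh, e]
  congr 1
  push_cast
  simp

theorem lab_add_mul (hlab : ∀ c i θ, lab c (i + qq) θ = lab c i θ) (c : ℝ) (i k : ℤ) (θ : ℝ) :
    lab c (i + qq * k) θ = lab c i θ := by
  induction k using Int.induction_on with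
  | zero => simp
  | succ k ih =>
    rw [mul_add, mul_one, ← add_assoc, hlab, ih]
  | pred k ih =>
    rw [← hlab c (i + qq * (-(k : ℤ) - 1)) θ]
    have : i + (qq : ℤ) * (-(k : ℤ) - 1) + qq = i + qq * (-(k : ℤ)) := by ring
    rw [this, ih]

theorem lab_congr (hlab : ∀ c i θ, lab c (i + qq) θ = lab c i θ) (c : ℝ) {i j : ℤ} (θ : ℝ)
    (h : (qq : ℤ) ∣ i - j) : lab c i θ = lab c j θ := by
  obtain ⟨k, hk⟩ := h
  have : i = j + qq * k := by linarith
  rw [this, lab_add_mul hlab]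

theorem Lam_add_one_div (hq : 0 < q) (hqq : 0 < qq) (hdiv : q ∣ M1)
    (hN' : (q : ℤ) ∣ N' * qq - 1)
    (hlab : ∀ c i θ, lab c (i + qq) θ = lab c i θ) (y : ℝ × ℝ) :
    Lam q qq M1 M2 N' lab (y.1 + 1 / q, y.2)
      = Lam q qq M1 M2 N' lab y + (((M1 / q : ℕ) : ZMod M1), 0) := by
  have hq' : (q : ℝ) ≠ 0 := by exact_mod_cast hq.ne'
  have e : ((q * qq : ℕ) : ℝ) * (y.1 + 1 / q) = ((q * qq : ℕ) : ℝ) * y.1 + ((qq : ℤ) : ℝ) := by
    push_cast; field_simp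
  simp only [Lam, e, Int.fract_add_intCast, Int.floor_add_intCast, hlab]
  rw [sh_add_qq hdiv hN', add_assoc]

theorem Lam_add_snd (hlab1 : ∀ c i θ, lab c i (θ + 1) = lab c i θ) (y : ℝ × ℝ) :
    Lam q qq M1 M2 N' lab (y.1, y.2 + 1) = Lam q qq M1 M2 N' lab y := by
  simp only [Lam, hlab1]

theorem Lam_add_fst (hdiv : q ∣ M1)
    (hlab : ∀ c i θ, lab c (i + qq) θ = lab c i θ) (y : ℝ × ℝ) :
    Lam q qq M1 M2 N' lab (y.1 + 1, y.2) = Lam q qq M1 M2 N' lab y := by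
  have e : ((q * qq : ℕ) : ℝ) * (y.1 + 1) = ((q * qq : ℕ) : ℝ) * y.1 + (((q : ℤ) * qq : ℤ) : ℝ) := by
    push_cast; ring
  simp only [Lam, e, Int.fract_add_intCast, Int.floor_add_intCast]
  rw [sh_add_q hdiv]
  have : ⌊((q * qq : ℕ) : ℝ) * y.1⌋ + (q : ℤ) * qq = ⌊((q * qq : ℕ) : ℝ) * y.1⌋ + qq * (q : ℤ) := by
    ring
  rw [this, lab_add_mul hlab]

/-- values of `Lam` on the parametrised strip `j` -/
theorem Lam_param (hq : 0 < q) (hqq : 0 < qq) (j : ℤ) (z : ℝ × ℝ) (hz : z ∈ Sq) :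
    Lam q qq M1 M2 N' lab ((z.1 + j) / ((q * qq : ℕ) : ℝ), z.2)
      = lab z.1 j z.2 + sh q M1 M2 N' j := by
  have hm : (((q * qq : ℕ) : ℝ)) ≠ 0 := by
    have : 0 < q * qq := Nat.mul_pos hq hqq
    exact_mod_cast this.ne'
  have e : ((q * qq : ℕ) : ℝ) * ((z.1 + j) / ((q * qq : ℕ) : ℝ)) = z.1 + j := by
    field_simp
  simp only [Lam, e, Int.fract_add_intCast, Int.floor_add_intCast]
  have h1 := hz.1
  simp only [Set.mem_Ico] at h1
  have h2 : Int.fract z.1 = z.1 := Int.fract_eq_self.2 ⟨h1.1, h1.2⟩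
  have h3 : ⌊z.1⌋ = 0 := by rw [Int.floor_eq_zero_iff]; exact ⟨h1.1, h1.2⟩
  rw [h2, h3, zero_add]

theorem measurableSet_Lam [NeZero M1] [NeZero M2]
    (hmeas : ∀ i n, MeasurableSet {z : ℝ × ℝ | lab z.1 i z.2 = n}) (s : ZMod M1 × ZMod M2) :
    MeasurableSet {y | Lam q qq M1 M2 N' lab y = s} := by
  have e : {y | Lam q qq M1 M2 N' lab y = s} = ⋃ j : ℤ,
      {y : ℝ × ℝ | ⌊((q * qq : ℕ) : ℝ) * y.1⌋ = j} ∩
      ((fun y : ℝ × ℝ => (Int.fract (((q * qq : ℕ) : ℝ) * y.1), y.2)) ⁻¹'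
        {z : ℝ × ℝ | lab z.1 j z.2 = s - sh q M1 M2 N' j}) := by
    ext y
    simp only [Lam, Set.mem_ofPred_eq, Set.mem_iUnion, Set.mem_inter_iff, Set.mem_preimage]
    constructor
    · intro h
      exact ⟨_, rfl, by rw [← h]; abel⟩
    · rintro ⟨j, rfl, h2⟩
      rw [h2]; abel
  rw [e]
  refine MeasurableSet.iUnion fun j => ?_
  refine MeasurableSet.inter ?_ ?_
  · have : Measurable fun y : ℝ × ℝ => ⌊((q * qq : ℕ) : ℝ) * y.1⌋ :=
      Int.measurable_floor.comp (measurable_const.mul measurable_fst)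
    exact this (measurableSet_singleton j)
  · have : Measurable fun y : ℝ × ℝ => (Int.fract (((q * qq : ℕ) : ℝ) * y.1), y.2) :=
      (measurable_fract.comp (measurable_const.mul measurable_fst)).prodMk measurable_snd
    exact this (hmeas j _)

end lam

end Crest.Agent.R081.Dg
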