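import Crest.Agent.R081.Dg2

/-! Row 81, route B, node DGLUE, part 3: distribution of the label map, invariance of the bad set,
the measure of the bad set on the section. -/

set_option autoImplicit false

namespace Crest.Agent.R081.Dg

open MeasureTheory Crest.Agent.R075 Finset

variable {q qq M1 M2 : ℕ} {N N' : ℤ} {lab : ℝ → ℤ → ℝ → ZMod M1 × ZMod M2}

/-- measure of the label `n` on the strip `j` -/
noncomputable def VV (lab : ℝ → ℤ → ℝ → ZMod M1 × ZMod M2) (j : ℤ) (n : ZMod M1 × ZMod M2) : ℝ :=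
  (volume (Sq ∩ {z : ℝ × ℝ | lab z.1 j z.2 = n})).toReal

theorem volume_Sq_inter_ne_top (B : Set (ℝ × ℝ)) : volume (Sq ∩ B) ≠ ⊤ := by
  refine ne_top_of_le_ne_top ?_ (measure_mono Set.inter_subset_left)
  rw [volume_Sq]; exact ENNReal.one_ne_top

theorem VV_congr (hlab : ∀ c i θ, lab c (i + qq) θ = lab c i θ) {i j : ℤ} (h : (qq : ℤ) ∣ i - j)
    (n : ZMod M1 × ZMod M2) : VV lab i n = VV lab j n := by
  unfold VV
  congr 3
  ext z
  simp only [Set.mem_ofPred_eq]
  rw [lab_congr hlab z.1 z.2 h]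

theorem strip_ne_top (m : ℕ) (j : ℤ) (B : Set (ℝ × ℝ)) : volume (strip m j ∩ B) ≠ ⊤ := by
  refine ne_top_of_le_ne_top ?_ (measure_mono Set.inter_subset_left)
  rw [strip, Measure.volume_eq_prod, Measure.prod_prod]
  simp only [Real.volume_Ico]
  exact ENNReal.mul_ne_top ENNReal.ofReal_ne_top ENNReal.ofReal_ne_top

theorem volume_Lam [NeZero M1] [NeZero M2] (hq : 0 < q) (hqq : 0 < qq) (hcop : Nat.Coprime q qq)
    (hdiv : q ∣ M1)
    (hlab : ∀ c i θ, lab c (i + qq) θ = lab c i θ)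
    (hmeas : ∀ i n, MeasurableSet {z : ℝ × ℝ | lab z.1 i z.2 = n}) (s : ZMod M1 × ZMod M2) :
    (volume (Sq ∩ {y | Lam q qq M1 M2 N' lab y = s})).toReal
      = (1 / (q : ℝ)) * ∑ a ∈ range q, (1 / (qq : ℝ)) * ∑ b ∈ range qq,
          VV lab (b : ℤ) (s - sh q M1 M2 N' (a : ℤ)) := by
  have hm : 0 < q * qq := Nat.mul_pos hq hqq
  have hm' : (0 : ℝ) < ((q * qq : ℕ) : ℝ) := by exact_mod_cast hm
  rw [volume_Sq_inter (q * qq) hm _ (measurableSet_Lam hmeas s),
    ENNReal.toReal_sum (fun j _ => strip_ne_top _ _ _)]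
  have h1 : ∀ j ∈ range (q * qq),
      (volume (strip (q * qq) (j : ℤ) ∩ {y | Lam q qq M1 M2 N' lab y = s})).toReal
        = (1 / ((q * qq : ℕ) : ℝ)) * VV lab ((j % qq : ℕ) : ℤ) (s - sh q M1 M2 N' ((j % q : ℕ) : ℤ)) := by
    intro j _
    have h2 := volume_strip_param (q * qq) hm (j : ℤ) {y | Lam q qq M1 M2 N' lab y = s}
    have h3 : Sq ∩ {z : ℝ × ℝ | ((z.1 + ((j : ℤ) : ℝ)) / ((q * qq : ℕ) : ℝ), z.2) ∈
          {y | Lam q qq M1 M2 N' lab y = s}}
        = Sq ∩ {z : ℝ × ℝ | lab z.1 (j : ℤ) z.2 = s - sh q M1 M2 N' (j : ℤ)} := by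
      ext z
      simp only [Set.mem_inter_iff, Set.mem_ofPred_eq]
      constructor
      · rintro ⟨hz, h4⟩
        rw [Lam_param hq hqq (j : ℤ) z hz] at h4
        exact ⟨hz, by rw [← h4]; abel⟩
      · rintro ⟨hz, h4⟩
        refine ⟨hz, ?_⟩
        rw [Lam_param hq hqq (j : ℤ) z hz, h4]; abel
    rw [h3] at h2
    have h5 : VV lab (j : ℤ) (s - sh q M1 M2 N' (j : ℤ))
        = ((q * qq : ℕ) : ℝ) *
          (volume (strip (q * qq) (j : ℤ) ∩ {y | Lam q qq M1 M2 N' lab y = s})).toReal := by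
      unfold VV
      rw [h2, ENNReal.toReal_mul]
      simp
    have h6 : sh q M1 M2 N' (j : ℤ) = sh q M1 M2 N' ((j % q : ℕ) : ℤ) := by
      have e : (j : ℤ) = ((j % q : ℕ) : ℤ) + (q : ℤ) * ((j / q : ℕ) : ℤ) := by
        exact_mod_cast (Nat.mod_add_div j q).symm
      conv_lhs => rw [e]
      exact sh_add_q hdiv _ _
    have h7 : VV lab (j : ℤ) (s - sh q M1 M2 N' (j : ℤ))
        = VV lab ((j % qq : ℕ) : ℤ) (s - sh q M1 M2 N' ((j % q : ℕ) : ℤ)) := by
      rw [h6]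
      refine VV_congr hlab ?_ _
      refine ⟨((j / qq : ℕ) : ℤ), ?_⟩
      have e : (j : ℤ) = ((j % qq : ℕ) : ℤ) + (qq : ℤ) * ((j / qq : ℕ) : ℤ) := by
        exact_mod_cast (Nat.mod_add_div j qq).symm
      linarith
    rw [← h7, h5]
    field_simp
  rw [Finset.sum_congr rfl h1, ← Finset.mul_sum]
  have h8 := sum_crt q qq hq hqq hcop
    (fun a b => VV lab (b : ℤ) (s - sh q M1 M2 N' (a : ℤ)))
  rw [h8]
  push_cast
  simp only [Finset.mul_sum]
  refine Finset.sum_congr rfl fun a _ => Finset.sum_congr rfl fun b _ => ?_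
  field_simp

/-- the distribution of the label map is as uniform as that of the label function -/
theorem dist_Lam [NeZero M1] [NeZero M2] (hq : 0 < q) (hqq : 0 < qq) (hcop : Nat.Coprime q qq)
    (hdiv : q ∣ M1)
    (hlab : ∀ c i θ, lab c (i + qq) θ = lab c i θ)
    (hmeas : ∀ i n, MeasurableSet {z : ℝ × ℝ | lab z.1 i z.2 = n}) (u η : ℝ)
    (hdist : ∑ n : ZMod M1 × ZMod M2, |(1 / (qq : ℝ)) * ∑ b ∈ range qq, VV lab (b : ℤ) n - u| ≤ η) :
    ∑ s : ZMod M1 × ZMod M2,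
      |(volume (Sq ∩ {y | Lam q qq M1 M2 N' lab y = s})).toReal - u| ≤ η := by
  have hq' : (0 : ℝ) < q := by exact_mod_cast hq
  have h1 : ∀ s : ZMod M1 × ZMod M2,
      |(volume (Sq ∩ {y | Lam q qq M1 M2 N' lab y = s})).toReal - u|
        ≤ (1 / (q : ℝ)) * ∑ a ∈ range q,
          |(1 / (qq : ℝ)) * ∑ b ∈ range qq, VV lab (b : ℤ) (s - sh q M1 M2 N' (a : ℤ)) - u| := by
    intro s
    rw [volume_Lam hq hqq hcop hdiv hlab hmeas s]
    have e : u = (1 / (q : ℝ)) * ∑ a ∈ range q, u := by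
      rw [Finset.sum_const, card_range, nsmul_eq_mul]
      field_simp
    conv_lhs => rw [e]
    rw [← mul_sub, ← Finset.sum_sub_distrib, abs_mul, abs_of_pos (by positivity : 0 < 1 / (q : ℝ))]
    exact mul_le_mul_of_nonneg_left (Finset.abs_sum_le_sum_abs _ _) (by positivity)
  refine (Finset.sum_le_sum fun s _ => h1 s).trans ?_
  rw [← Finset.mul_sum, Finset.sum_comm]
  have h2 : ∀ a ∈ range q, ∑ s : ZMod M1 × ZMod M2,
      |(1 / (qq : ℝ)) * ∑ b ∈ range qq, VV lab (b : ℤ) (s - sh q M1 M2 N' (a : ℤ)) - u| ≤ η := by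
    intro a _
    refine le_trans (le_of_eq ?_) hdist
    exact Fintype.sum_equiv (Equiv.subRight (sh q M1 M2 N' (a : ℤ))) _ _ (fun s => rfl)
  calc (1 / (q : ℝ)) * ∑ a ∈ range q, ∑ s : ZMod M1 × ZMod M2,
        |(1 / (qq : ℝ)) * ∑ b ∈ range qq, VV lab (b : ℤ) (s - sh q M1 M2 N' (a : ℤ)) - u|
      ≤ (1 / (q : ℝ)) * ∑ a ∈ range q, η :=
        mul_le_mul_of_nonneg_left (Finset.sum_le_sum h2) (by positivity)
    _ = η := by rw [Finset.sum_const, card_range, nsmul_eq_mul]; field_simp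

theorem gl_add_one_div (hq : 0 < q) (hdiv : q ∣ M1) (z : ℝ × ℝ) :
    gl M1 M2 (z + (((1 : ℤ) : ℝ) / q, 0)) = gl M1 M2 z + (((M1 / q : ℕ) : ZMod M1), 0) := by
  have hq' : (q : ℝ) ≠ 0 := by exact_mod_cast hq.ne'
  have hM : (M1 : ℝ) = q * ((M1 / q : ℕ) : ℝ) := by
    exact_mod_cast (Nat.mul_div_cancel' hdiv).symm
  have e : (M1 : ℝ) * (z.1 + ((1 : ℤ) : ℝ) / q) = (M1 : ℝ) * z.1 + (((M1 / q : ℕ) : ℤ) : ℝ) := by
    rw [mul_add]
    congr 1
    conv_lhs => rw [hM]
    rw [Int.cast_natCast, Int.cast_one]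
    field_simp
  simp only [gl, Prod.fst_add, Prod.snd_add, e, Int.floor_add_intCast, add_zero]
  ext
  · simp only [Prod.fst_add, Int.cast_add, Int.cast_natCast]
  · simp only [Prod.snd_add, add_zero]

/-- the bad set -/
def Bad (q qq M1 M2 : ℕ) (N' : ℤ) (lab : ℝ → ℤ → ℝ → ZMod M1 × ZMod M2) (w : Tw.Word) :
    Set (ℝ × ℝ) :=
  {y | gl M1 M2 (Tw.Word.act q w y) ≠ Lam q qq M1 M2 N' lab y}

theorem mem_Bad_add (hq : 0 < q) (hqq : 0 < qq) (hdiv : q ∣ M1)
    (hN' : (q : ℤ) ∣ N' * qq - 1)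
    (hlab : ∀ c i θ, lab c (i + qq) θ = lab c i θ) (w : Tw.Word) (y : ℝ × ℝ) :
    (y.1 + 1 / (q : ℝ), y.2) ∈ Bad q qq M1 M2 N' lab w ↔ y ∈ Bad q qq M1 M2 N' lab w := by
  have h1 : Tw.Word.act q w (y.1 + 1 / (q : ℝ), y.2)
      = Tw.Word.act q w y + (((1 : ℤ) : ℝ) / q, 0) := by
    rw [← Tw.Word.act_add_div hq.ne' w y 1]
    congr 1
    ext <;> simp
  simp only [Bad, Set.mem_ofPred_eq, h1, gl_add_one_div hq hdiv,
    Lam_add_one_div hq hqq hdiv hN' hlab, ne_eq, add_left_inj]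

theorem measurable_gl : Measurable (gl M1 M2) := by
  unfold gl
  refine Measurable.prodMk ?_ ?_
  · exact (measurable_of_countable (fun n : ℤ => (n : ZMod M1))).comp
      (Int.measurable_floor.comp (measurable_const.mul measurable_fst))
  · exact (measurable_of_countable (fun n : ℤ => (n : ZMod M2))).comp
      (Int.measurable_floor.comp (measurable_const.mul measurable_snd))

theorem measurableSet_Bad [NeZero M1] [NeZero M2]
    (hmeas : ∀ i n, MeasurableSet {z : ℝ × ℝ | lab z.1 i z.2 = n}) (w : Tw.Word) :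
    MeasurableSet (Bad q qq M1 M2 N' lab w) := by
  have e : Bad q qq M1 M2 N' lab w = ⋃ s : ZMod M1 × ZMod M2,
      ({y | gl M1 M2 (Tw.Word.act q w y) = s}ᶜ ∩ {y | Lam q qq M1 M2 N' lab y = s}) := by
    ext y
    simp only [Bad, Set.mem_ofPred_eq, Set.mem_iUnion, Set.mem_inter_iff, Set.mem_compl_iff]
    constructor
    · intro h
      exact ⟨_, h, rfl⟩
    · rintro ⟨s, h1, h2⟩
      rw [h2]; exact h1
  rw [e]
  refine MeasurableSet.iUnion fun s => MeasurableSet.inter (MeasurableSet.compl ?_)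
    (measurableSet_Lam hmeas s)
  have h1 : Measurable (fun y => gl M1 M2 (Tw.Word.act q w y)) :=
    measurable_gl.comp (Tw.Word.contDiff_act q w).continuous.measurable
  exact h1 (measurableSet_singleton s)

/-- the bad set on the section `y1 = c'/(q q'') + N i / q''` -/
theorem section_Bad [NeZero M1] [NeZero M2] (hq : 0 < q) (hqq : 0 < qq)
    (hcop : Nat.Coprime q qq) (hdiv : q ∣ M1)
    (hN : (qq : ℤ) ∣ N * q - 1) (hN' : (q : ℤ) ∣ N' * qq - 1)
    (hlab : ∀ c i θ, lab c (i + qq) θ = lab c i θ)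
    (hmeas : ∀ i n, MeasurableSet {z : ℝ × ℝ | lab z.1 i z.2 = n}) (w : Tw.Word) :
    (1 / (qq : ℝ)) * ∑ i ∈ range qq,
      (volume (Sq ∩ {z : ℝ × ℝ | gl M1 M2 (Tw.Word.act q w
        (z.1 / (q * qq) + N * i / qq, z.2)) ≠ lab z.1 (i : ℤ) z.2})).toReal
      = (volume (Sq ∩ Bad q qq M1 M2 N' lab w)).toReal := by
  have hm : 0 < q * qq := Nat.mul_pos hq hqq
  have hq' : (0 : ℝ) < q := by exact_mod_cast hq
  have hqq' : (0 : ℝ) < qq := by exact_mod_cast hqq
  set B := Bad q qq M1 M2 N' lab w with hB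
  set g : ℤ → ℝ := fun j => (volume (strip (q * qq) j ∩ B)).toReal with hg
  have hgper1 : ∀ j, g (j + qq) = g j := by
    intro j
    simp only [hg]
    rw [volume_strip_add (q * qq) hm j (qq : ℤ) B ?_]
    intro y
    have e : ((qq : ℤ) : ℝ) / ((q * qq : ℕ) : ℝ) = 1 / q := by
      push_cast; field_simp
    rw [e]
    exact mem_Bad_add hq hqq hdiv hN' hlab w y
  have hgper : ∀ j k : ℤ, g (j + qq * k) = g j := by
    intro j k
    induction k using Int.induction_on with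
    | zero => simp
    | succ k ih => rw [mul_add, mul_one, ← add_assoc, hgper1, ih]
    | pred k ih =>
      rw [← hgper1 (j + qq * (-(k : ℤ) - 1))]
      have : j + (qq : ℤ) * (-(k : ℤ) - 1) + qq = j + qq * (-(k : ℤ)) := by ring
      rw [this, ih]
  -- the section over index i
  have h1 : ∀ i ∈ range qq, (volume (Sq ∩ {z : ℝ × ℝ | gl M1 M2 (Tw.Word.act q w
        (z.1 / (q * qq) + N * i / qq, z.2)) ≠ lab z.1 (i : ℤ) z.2})).toReal
        = ((q * qq : ℕ) : ℝ) * g (i : ℤ) := by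
    intro i _
    set j : ℤ := N * q * i with hj
    have h2 := volume_strip_param (q * qq) hm j B
    have h3 : Sq ∩ {z : ℝ × ℝ | ((z.1 + (j : ℝ)) / ((q * qq : ℕ) : ℝ), z.2) ∈ B}
        = Sq ∩ {z : ℝ × ℝ | gl M1 M2 (Tw.Word.act q w
        (z.1 / (q * qq) + N * i / qq, z.2)) ≠ lab z.1 (i : ℤ) z.2} := by
      ext z
      simp only [Set.mem_inter_iff, Set.mem_ofPred_eq]
      refine and_congr_right fun hz => ?_
      have e1 : (z.1 + (j : ℝ)) / ((q * qq : ℕ) : ℝ) = z.1 / (q * qq) + N * i / qq := by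
        rw [hj]; push_cast; field_simp
      have e2 := Lam_param (q := q) (qq := qq) (M1 := M1) (M2 := M2) (N' := N') (lab := lab)
        hq hqq j z hz
      have e3 : sh q M1 M2 N' j = 0 := by
        have : j = 0 + q * (N * i) := by rw [hj]; ring
        rw [this, sh_add_q hdiv]
        simp [sh]
      have e4 : lab z.1 j z.2 = lab z.1 (i : ℤ) z.2 := by
        refine lab_congr hlab _ _ ?_
        obtain ⟨k, hk⟩ := hN
        refine ⟨k * i, ?_⟩
        calc j - i = (N * q - 1) * i := by rw [hj]; ring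
          _ = qq * (k * i) := by rw [hk]; ring
      rw [e3, add_zero, e4] at e2
      simp only [hB, Bad, Set.mem_ofPred_eq]
      rw [e2, e1]
    rw [h3] at h2
    rw [h2, ENNReal.toReal_mul]
    have e5 : g j = g (i : ℤ) := by
      obtain ⟨k, hk⟩ := hN
      have : j = (i : ℤ) + qq * (k * i) := by
        have : j - i = qq * (k * i) := by
          calc j - i = (N * q - 1) * i := by rw [hj]; ring
            _ = qq * (k * i) := by rw [hk]; ring
        linarith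
      rw [this, hgper]
    rw [← e5]
    simp [hg]
  rw [Finset.sum_congr rfl h1]
  -- the whole square
  rw [volume_Sq_inter (q * qq) hm B (measurableSet_Bad hmeas w),
    ENNReal.toReal_sum (fun j _ => strip_ne_top _ _ _)]
  have h4 : ∀ j ∈ range (q * qq), (volume (strip (q * qq) (j : ℤ) ∩ B)).toReal
      = g ((j % qq : ℕ) : ℤ) := by
    intro j _
    have e : (j : ℤ) = ((j % qq : ℕ) : ℤ) + (qq : ℤ) * ((j / qq : ℕ) : ℤ) := by
      exact_mod_cast (Nat.mod_add_div j qq).symm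
    have : g (j : ℤ) = g ((j % qq : ℕ) : ℤ) := by
      conv_lhs => rw [e]
      exact hgper _ _
    exact this
  rw [Finset.sum_congr rfl h4, sum_crt q qq hq hqq hcop (fun _ b => g (b : ℤ)), Finset.sum_const,
    card_range, nsmul_eq_mul, ← Finset.mul_sum]
  push_cast
  field_simp

end Crest.Agent.R081.Dg
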