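import Crest.Agent.R081.Dg3
import Crest.Agent.R081.Co3

/-! Row 81, route B, node DGLUE, part 4: the characters of the label group. -/

set_option autoImplicit false

namespace Crest.Agent.R081.Dg

open MeasureTheory Crest.Agent.R075 Finset

variable {M1 M2 : ℕ}

/-- the characters of the label group `ℤ/M1 × ℤ/M2` -/
noncomputable def Ek (M1 M2 : ℕ) (k : ℤ × ℤ) (s : ZMod M1 × ZMod M2) : ℂ :=
  ee (k.1 * s.1.val / M1 + k.2 * s.2.val / M2)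

theorem norm_Ek (k : ℤ × ℤ) (s : ZMod M1 × ZMod M2) : ‖Ek M1 M2 k s‖ = 1 := norm_ee _

theorem Ek_neg (k : ℤ × ℤ) (s : ZMod M1 × ZMod M2) :
    Ek M1 M2 (-k) s = (starRingEnd ℂ) (Ek M1 M2 k s) := by
  unfold Ek
  rw [ee_conj]
  congr 1
  simp only [Prod.fst_neg, Prod.snd_neg, Int.cast_neg]
  ring

theorem sum_zmod_val (M : ℕ) [NeZero M] (f : ℕ → ℂ) :
    ∑ s : ZMod M, f s.val = ∑ a ∈ range M, f a := by
  refine Finset.sum_bij (fun s _ => s.val) ?_ ?_ ?_ ?_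
  · intro s _; exact Finset.mem_range.2 (ZMod.val_lt s)
  · intro s _ t _ h; exact ZMod.val_injective M h
  · intro a ha
    exact ⟨(a : ZMod M), Finset.mem_univ _, ZMod.val_cast_of_lt (Finset.mem_range.1 ha)⟩
  · intro s _; rfl

theorem sum_Ek [NeZero M1] [NeZero M2] (k : ℤ × ℤ)
    (h : ¬ ((M1 : ℤ) ∣ k.1) ∨ ¬ ((M2 : ℤ) ∣ k.2)) : ∑ s, Ek M1 M2 k s = 0 := by
  have e1 : ∑ s : ZMod M1 × ZMod M2, Ek M1 M2 k s
      = (∑ s : ZMod M1, ee (k.1 * s.val / M1)) * ∑ s : ZMod M2, ee (k.2 * s.val / M2) := by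
    rw [Finset.sum_mul_sum, Fintype.sum_prod_type]
    refine Finset.sum_congr rfl fun s _ => Finset.sum_congr rfl fun t _ => ?_
    unfold Ek
    rw [ee_add]
  have e2 : ∀ (M : ℕ) [NeZero M] (d : ℤ), ∑ s : ZMod M, ee (d * s.val / M)
      = if (M : ℤ) ∣ d then (M : ℂ) else 0 := by
    intro M _ d
    rw [sum_zmod_val M (fun a => ee (d * a / M)), ← Co.sum_ee_div (Nat.pos_of_neZero M) d]
    refine Finset.sum_congr rfl fun a _ => ?_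
    congr 1; ring
  rw [e1, e2, e2]
  rcases h with h | h
  · rw [if_neg h, zero_mul]
  · rw [if_neg h, mul_zero]

theorem ee_val_floor {M : ℕ} [NeZero M] (k n : ℤ) :
    ee (k * ((n : ZMod M).val : ℝ) / M) = ee (k * n / M) := by
  have hM : (M : ℝ) ≠ 0 := by exact_mod_cast (NeZero.ne M)
  have h1 : (((n : ZMod M).val : ℕ) : ℤ) = n % M := ZMod.val_intCast n
  have h2 : (n : ℤ) = n % M + M * (n / M) := (Int.emod_add_mul_ediv n M).symm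
  have h3 : (((n : ZMod M).val : ℕ) : ℝ) = ((n % M : ℤ) : ℝ) := by
    rw [← h1]; simp
  have h4 : (n : ℝ) = ((n % M : ℤ) : ℝ) + M * ((n / M : ℤ) : ℝ) := by
    conv_lhs => rw [h2]
    push_cast; ring
  rw [h3, h4]
  have : (k : ℝ) * (((n % M : ℤ) : ℝ) + M * ((n / M : ℤ) : ℝ)) / M
      = k * ((n % M : ℤ) : ℝ) / M + ((k * (n / M) : ℤ) : ℝ) := by
    push_cast; field_simp
  rw [this, ee_add_int]

theorem abs_sub_floor_div {M : ℕ} [NeZero M] (x : ℝ) :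
    |x - (⌊(M : ℝ) * x⌋ : ℝ) / M| ≤ 1 / M := by
  have hM : (0 : ℝ) < M := by exact_mod_cast (Nat.pos_of_neZero M)
  have h1 := Int.floor_le ((M : ℝ) * x)
  have h2 := Int.lt_floor_add_one ((M : ℝ) * x)
  have e : x - (⌊(M : ℝ) * x⌋ : ℝ) / M = ((M : ℝ) * x - ⌊(M : ℝ) * x⌋) / M := by field_simp
  rw [e, abs_of_nonneg (div_nonneg (by linarith) hM.le)]
  exact div_le_div_of_nonneg_right (by linarith) hM.le

theorem Ek_close [NeZero M1] [NeZero M2] (k : ℤ × ℤ) (y : ℝ × ℝ) :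
    ‖ee (k.1 * y.1 + k.2 * y.2) - Ek M1 M2 k (gl M1 M2 y)‖
      ≤ 2 * Real.pi * (|(k.1 : ℝ)| / M1 + |(k.2 : ℝ)| / M2) := by
  have e1 : Ek M1 M2 k (gl M1 M2 y)
      = ee (k.1 * (⌊(M1 : ℝ) * y.1⌋ : ℝ) / M1 + k.2 * (⌊(M2 : ℝ) * y.2⌋ : ℝ) / M2) := by
    unfold Ek gl
    rw [ee_add, ee_add]
    simp only
    rw [ee_val_floor, ee_val_floor]
  rw [e1]
  refine (norm_ee_sub_le _ _).trans ?_
  refine mul_le_mul_of_nonneg_left ?_ (by positivity)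
  have e2 : (k.1 * y.1 + k.2 * y.2 : ℝ)
      - (k.1 * (⌊(M1 : ℝ) * y.1⌋ : ℝ) / M1 + k.2 * (⌊(M2 : ℝ) * y.2⌋ : ℝ) / M2)
      = k.1 * (y.1 - (⌊(M1 : ℝ) * y.1⌋ : ℝ) / M1) + k.2 * (y.2 - (⌊(M2 : ℝ) * y.2⌋ : ℝ) / M2) := by
    ring
  rw [e2]
  refine (abs_add_le _ _).trans ?_
  rw [abs_mul, abs_mul]
  have h1 := abs_sub_floor_div (M := M1) y.1
  have h2 := abs_sub_floor_div (M := M2) y.2
  have h3 := mul_le_mul_of_nonneg_left h1 (abs_nonneg (k.1 : ℝ))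
  have h4 := mul_le_mul_of_nonneg_left h2 (abs_nonneg (k.2 : ℝ))
  calc _ ≤ |(k.1 : ℝ)| * (1 / M1) + |(k.2 : ℝ)| * (1 / M2) := add_le_add h3 h4
    _ = _ := by ring

/-- closeness off the bad set -/
theorem norm_sub_sq_le [NeZero M1] [NeZero M2] (k : ℤ × ℤ) (y : ℝ × ℝ) (s : ZMod M1 × ZMod M2)
    {κ : ℝ} (hκ : 2 * Real.pi * (|(k.1 : ℝ)| / M1 + |(k.2 : ℝ)| / M2) ≤ κ) :
    ‖ee (k.1 * y.1 + k.2 * y.2) - Ek M1 M2 k s‖ ^ 2
      ≤ κ ^ 2 + 4 * Set.indicator {z : ℝ × ℝ | gl M1 M2 z ≠ s} (fun _ => (1 : ℝ)) y := by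
  have hκ0 : 0 ≤ κ := le_trans (by positivity) hκ
  by_cases h : gl M1 M2 y = s
  · rw [Set.indicator_of_notMem (by simpa using h)]
    have := (Ek_close (M1 := M1) (M2 := M2) k y).trans hκ
    rw [h] at this
    have h2 : ‖ee (k.1 * y.1 + k.2 * y.2) - Ek M1 M2 k s‖ ^ 2 ≤ κ ^ 2 := by gcongr
    linarith
  · rw [Set.indicator_of_mem (by simpa using h)]
    have h1 : ‖ee (k.1 * y.1 + k.2 * y.2) - Ek M1 M2 k s‖ ≤ 2 := by
      refine (norm_sub_le _ _).trans ?_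
      rw [norm_ee, norm_Ek]; norm_num
    have h2 : ‖ee (k.1 * y.1 + k.2 * y.2) - Ek M1 M2 k s‖ ^ 2 ≤ 2 ^ 2 := by gcongr
    nlinarith [sq_nonneg κ]

end Crest.Agent.R081.Dg
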