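import Crest.Agent.R081.Dg4
import Crest.Agent.R081.StDefs

/-! Row 81, route B, node DGLUE, part 5: comparison of the coefficients of the word with those of the
label function. -/

set_option autoImplicit false

namespace Crest.Agent.R081.Dg

open MeasureTheory Crest.Agent.R075 Finset
open scoped ENNReal

variable {q qq M1 M2 : ℕ} {N N' : ℤ} {lab : ℝ → ℤ → ℝ → ZMod M1 × ZMod M2}

/-- coefficients of the label function -/
noncomputable def DLab (qq : ℕ) (k : ℤ × ℤ) (lab : ℝ → ℤ → ℝ → ZMod M1 × ZMod M2) (a b : ℤ) (c : ℝ) : ℂ :=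
  Co.sec qq (fun i t => Ek M1 M2 k (lab c (i : ℤ) t)) a b

theorem measurable_lab [NeZero M1] [NeZero M2]
    (hmeas : ∀ i n, MeasurableSet {z : ℝ × ℝ | lab z.1 i z.2 = n}) (i : ℤ) :
    Measurable (fun z : ℝ × ℝ => lab z.1 i z.2) :=
  measurable_to_countable' (fun n => hmeas i n)

theorem measurable_Ek_lab [NeZero M1] [NeZero M2]
    (hmeas : ∀ i n, MeasurableSet {z : ℝ × ℝ | lab z.1 i z.2 = n}) (k : ℤ × ℤ) (i : ℤ) :
    Measurable (fun z : ℝ × ℝ => Ek M1 M2 k (lab z.1 i z.2)) :=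
  (measurable_of_countable (fun s => Ek M1 M2 k s)).comp (measurable_lab hmeas i)

theorem measurable_DLab [NeZero M1] [NeZero M2]
    (hmeas : ∀ i n, MeasurableSet {z : ℝ × ℝ | lab z.1 i z.2 = n}) (k : ℤ × ℤ) (a b : ℤ) :
    Measurable (fun c => DLab qq k lab a b c) := by
  unfold DLab Co.sec
  refine measurable_const.mul (Finset.measurable_fun_sum _ fun i _ => ?_)
  simp_rw [intervalIntegral.integral_of_le zero_le_one]
  have h1 : StronglyMeasurable (fun z : ℝ × ℝ =>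
      Ek M1 M2 k (lab z.1 (i : ℤ) z.2) * ee (-(a * i / qq + b * z.2))) := by
    refine ((measurable_Ek_lab hmeas k i).mul ?_).stronglyMeasurable
    exact (ee_continuous.comp (by fun_prop)).measurable
  exact (h1.integral_prod_right' (ν := volume.restrict (Set.Ioc (0 : ℝ) 1))).measurable

theorem Dd_eq_DD (w : Tw.Word) (k : ℤ × ℤ) (a b : ℤ) (c : ℝ) :
    St.Dd q qq N w k a b c = Co.DD (Co.wa1 q w) (Co.wa2 q w) q qq N k a b c := rfl

theorem measurable_Dd (w : Tw.Word) (k : ℤ × ℤ) (a b : ℤ) :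
    Measurable (fun c => St.Dd q qq N w k a b c) :=
  (Co.continuous_DD (Co.continuous_wa1 q w) (Co.continuous_wa2 q w) N k a b).measurable

/-- the bad set of index `i` on the section -/
def BadS (q qq M1 M2 : ℕ) (N : ℤ) (lab : ℝ → ℤ → ℝ → ZMod M1 × ZMod M2) (w : Tw.Word) (i : ℕ) :
    Set (ℝ × ℝ) :=
  {z : ℝ × ℝ | gl M1 M2 (Tw.Word.act q w (z.1 / (q * qq) + N * i / qq, z.2)) ≠ lab z.1 (i : ℤ) z.2}

theorem measurableSet_BadS [NeZero M1] [NeZero M2]
    (hmeas : ∀ i n, MeasurableSet {z : ℝ × ℝ | lab z.1 i z.2 = n}) (w : Tw.Word) (i : ℕ) :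
    MeasurableSet (BadS q qq M1 M2 N lab w i) := by
  have h1 : Measurable (fun z : ℝ × ℝ =>
      gl M1 M2 (Tw.Word.act q w (z.1 / (q * qq) + N * i / qq, z.2))) := by
    refine measurable_gl.comp ((Tw.Word.contDiff_act q w).continuous.measurable.comp ?_)
    exact ((measurable_fst.div_const _).add_const _).prodMk measurable_snd
  have e : BadS q qq M1 M2 N lab w i = ⋃ s : ZMod M1 × ZMod M2,
      ({z : ℝ × ℝ | gl M1 M2 (Tw.Word.act q w (z.1 / (q * qq) + N * i / qq, z.2)) = s}ᶜ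
        ∩ {z : ℝ × ℝ | lab z.1 (i : ℤ) z.2 = s}) := by
    ext y
    simp only [BadS, Set.mem_ofPred_eq, Set.mem_iUnion, Set.mem_inter_iff, Set.mem_compl_iff]
    constructor
    · intro h
      exact ⟨_, h, rfl⟩
    · rintro ⟨s, h1, h2⟩
      rw [h2]; exact h1
  rw [e]
  exact MeasurableSet.iUnion fun s => MeasurableSet.inter
    (MeasurableSet.compl (h1 (measurableSet_singleton s))) (hmeas i s)

theorem integrable_sq_of_bound {U : ℝ → ℂ} (hU : Measurable U) (hb : ∀ t, ‖U t‖ ≤ 2) :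
    Integrable (fun t => ‖U t‖ ^ 2) (volume.restrict (Set.Ioc (0 : ℝ) 1)) := by
  have h1 : AEStronglyMeasurable (fun t => ‖U t‖ ^ 2) (volume.restrict (Set.Ioc (0 : ℝ) 1)) :=
    (hU.norm.pow_const 2).aestronglyMeasurable
  refine Integrable.of_bound h1 4 (Filter.Eventually.of_forall fun t => ?_)
  rw [Real.norm_of_nonneg (by positivity)]
  calc ‖U t‖ ^ 2 ≤ (2 : ℝ) ^ 2 := by gcongr; exact hb t
    _ = 4 := by norm_num

theorem int_le [NeZero M1] [NeZero M2] (k : ℤ × ℤ) (A1 A2 : ℝ → ℝ) (h1 : Continuous A1)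
    (h2 : Continuous A2) (L : ℝ → ZMod M1 × ZMod M2) (hL : Measurable L)
    {κ : ℝ} (hκ : 2 * Real.pi * (|(k.1 : ℝ)| / M1 + |(k.2 : ℝ)| / M2) ≤ κ) :
    ENNReal.ofReal (∫ t in (0:ℝ)..1, ‖ee (k.1 * A1 t + k.2 * A2 t) - Ek M1 M2 k (L t)‖ ^ 2)
      ≤ ENNReal.ofReal (κ ^ 2) + 4 * ∫⁻ t in Set.Ioc (0 : ℝ) 1,
          {t | gl M1 M2 (A1 t, A2 t) ≠ L t}.indicator (fun _ => (1 : ℝ≥0∞)) t := by
  have hm1 : Measurable (fun t : ℝ => ee (k.1 * A1 t + k.2 * A2 t)) :=
    (ee_continuous.comp (by fun_prop)).measurable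
  have hm2 : Measurable (fun t : ℝ => Ek M1 M2 k (L t)) :=
    (measurable_of_countable (fun s => Ek M1 M2 k s)).comp hL
  have hint : Integrable (fun t : ℝ => ‖ee (k.1 * A1 t + k.2 * A2 t) - Ek M1 M2 k (L t)‖ ^ 2)
      (volume.restrict (Set.Ioc (0 : ℝ) 1)) := by
    refine integrable_sq_of_bound (U := fun t => ee (k.1 * A1 t + k.2 * A2 t) - Ek M1 M2 k (L t))
      (hm1.sub hm2) fun t => ?_
    refine (norm_sub_le _ _).trans ?_
    rw [norm_ee, norm_Ek]; norm_num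
  have hms : MeasurableSet {t | gl M1 M2 (A1 t, A2 t) ≠ L t} := by
    have e : {t | gl M1 M2 (A1 t, A2 t) ≠ L t} = ⋃ s : ZMod M1 × ZMod M2,
        ({t | gl M1 M2 (A1 t, A2 t) = s}ᶜ ∩ {t | L t = s}) := by
      ext y
      simp only [Set.mem_ofPred_eq, Set.mem_iUnion, Set.mem_inter_iff, Set.mem_compl_iff]
      constructor
      · intro h
        exact ⟨_, h, rfl⟩
      · rintro ⟨s, h1, h2⟩
        rw [h2]; exact h1
    have h3 : Measurable (fun t => gl M1 M2 (A1 t, A2 t)) :=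
      measurable_gl.comp (h1.measurable.prodMk h2.measurable)
    rw [e]
    exact MeasurableSet.iUnion fun s => MeasurableSet.inter
      (MeasurableSet.compl (h3 (measurableSet_singleton s))) (hL (measurableSet_singleton s))
  rw [intervalIntegral.integral_of_le zero_le_one,
    ofReal_integral_eq_lintegral_ofReal hint (Filter.Eventually.of_forall fun t => by positivity)]
  have h4 : ∀ t : ℝ, ENNReal.ofReal (‖ee (k.1 * A1 t + k.2 * A2 t) - Ek M1 M2 k (L t)‖ ^ 2)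
      ≤ ENNReal.ofReal (κ ^ 2)
        + 4 * {t | gl M1 M2 (A1 t, A2 t) ≠ L t}.indicator (fun _ => (1 : ℝ≥0∞)) t := by
    intro t
    have h5 := norm_sub_sq_le (M1 := M1) (M2 := M2) k (A1 t, A2 t) (L t) hκ
    refine (ENNReal.ofReal_le_ofReal h5).trans ?_
    by_cases hb : gl M1 M2 (A1 t, A2 t) ≠ L t
    · rw [Set.indicator_of_mem (s := {z : ℝ × ℝ | gl M1 M2 z ≠ L t}) hb,
        Set.indicator_of_mem (s := {t | gl M1 M2 (A1 t, A2 t) ≠ L t}) hb,
        ENNReal.ofReal_add (by positivity) (by norm_num)]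
      norm_num
    · rw [Set.indicator_of_notMem (s := {z : ℝ × ℝ | gl M1 M2 z ≠ L t}) hb,
        Set.indicator_of_notMem (s := {t | gl M1 M2 (A1 t, A2 t) ≠ L t}) hb]
      simp
  refine (lintegral_mono h4).trans ?_
  rw [lintegral_add_left measurable_const, lintegral_const_mul]
  · simp
  · exact measurable_const.indicator hms

/-- pointwise in `c` -/
theorem sum_DLab_sub [NeZero M1] [NeZero M2] (hq : 0 < q) (hqq : 0 < qq)
    (hmeas : ∀ i n, MeasurableSet {z : ℝ × ℝ | lab z.1 i z.2 = n}) (w : Tw.Word) (k : ℤ × ℤ)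
    {κ : ℝ} (hκ : 2 * Real.pi * (|(k.1 : ℝ)| / M1 + |(k.2 : ℝ)| / M2) ≤ κ) (c : ℝ) :
    ∑ a ∈ range qq, ∑' b : ℤ, ‖St.Dd q qq N w k a b c - DLab qq k lab a b c‖ₑ ^ 2
      ≤ ENNReal.ofReal (κ ^ 2) + 4 * (ENNReal.ofReal (1 / (qq : ℝ)) * ∑ i ∈ range qq,
        ∫⁻ t in Set.Ioc (0 : ℝ) 1, (BadS q qq M1 M2 N lab w i).indicator (fun _ => (1 : ℝ≥0∞)) (c, t)) := by
  have hκ0 : 0 ≤ κ := le_trans (by positivity) hκ
  have hqq' : (0 : ℝ) < qq := by exact_mod_cast hqq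
  have hW : ∀ i < qq, MemLp (fun t => Ek M1 M2 k (lab c (i : ℤ) t)) 2
      (volume.restrict (Set.Ioc 0 1)) := by
    intro i _
    refine MemLp.of_bound (C := 1) ?_ (Filter.Eventually.of_forall fun t => (norm_Ek _ _).le)
    exact ((measurable_Ek_lab hmeas k i).comp measurable_prodMk_left).aestronglyMeasurable
  have h1 := Co.DD_sub_parseval (Co.eqv_word hq w) hqq N k c
    (fun i t => Ek M1 M2 k (lab c (i : ℤ) t)) hW
  have h2 : ∑ a ∈ range qq, ∑' b : ℤ, ‖St.Dd q qq N w k a b c - DLab qq k lab a b c‖ₑ ^ 2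
      = ENNReal.ofReal ((1 / (qq : ℝ)) * ∑ i ∈ range qq, ∫ t in (0:ℝ)..1,
        ‖ee (k.1 * Co.wa1 q w (Co.sp q qq N c i) t
      + k.2 * Co.wa2 q w (Co.sp q qq N c i) t) - Ek M1 M2 k (lab c (i : ℤ) t)‖ ^ 2) := by
    rw [← h1.tsum_eq, ENNReal.ofReal_tsum_of_nonneg (fun b => by positivity) h1.summable,
      ← Summable.tsum_finsetSum (fun a _ => ENNReal.summable)]
    refine tsum_congr fun b => ?_
    rw [ENNReal.ofReal_sum_of_nonneg (fun a _ => by positivity)]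
    refine Finset.sum_congr rfl fun a _ => ?_
    rw [ENNReal.ofReal_pow (norm_nonneg _), ofReal_norm]
    rfl
  rw [h2]
  have h3 : ∀ i ∈ range qq, ENNReal.ofReal (∫ t in (0:ℝ)..1,
        ‖ee (k.1 * Co.wa1 q w (Co.sp q qq N c i) t
      + k.2 * Co.wa2 q w (Co.sp q qq N c i) t) - Ek M1 M2 k (lab c (i : ℤ) t)‖ ^ 2)
      ≤ ENNReal.ofReal (κ ^ 2) + 4 * ∫⁻ t in Set.Ioc (0 : ℝ) 1,
          (BadS q qq M1 M2 N lab w i).indicator (fun _ => (1 : ℝ≥0∞)) (c, t) := by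
    intro i hi
    exact int_le k (Co.wa1 q w (Co.sp q qq N c i)) (Co.wa2 q w (Co.sp q qq N c i))
      ((Co.eqv_word hq w).cont1 _) ((Co.eqv_word hq w).cont2 _) (fun t => lab c (i : ℤ) t)
      ((measurable_lab hmeas i).comp measurable_prodMk_left) hκ
  rw [ENNReal.ofReal_mul (by positivity), ENNReal.ofReal_sum_of_nonneg]
  · have h6 : ENNReal.ofReal (1 / (qq : ℝ)) * (qq : ℝ≥0∞) = 1 := by
      rw [← ENNReal.ofReal_natCast, ← ENNReal.ofReal_mul (by positivity)]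
      rw [one_div, inv_mul_cancel₀ hqq'.ne', ENNReal.ofReal_one]
    calc ENNReal.ofReal (1 / (qq : ℝ)) * _
        ≤ ENNReal.ofReal (1 / (qq : ℝ)) * ∑ i ∈ range qq, (ENNReal.ofReal (κ ^ 2)
          + 4 * ∫⁻ t in Set.Ioc (0 : ℝ) 1,
            (BadS q qq M1 M2 N lab w i).indicator (fun _ => (1 : ℝ≥0∞)) (c, t)) := by
          gcongr with i hi
          exact h3 i hi
      _ = (ENNReal.ofReal (1 / (qq : ℝ)) * (qq : ℝ≥0∞)) * ENNReal.ofReal (κ ^ 2)
          + 4 * (ENNReal.ofReal (1 / (qq : ℝ)) * ∑ i ∈ range qq, ∫⁻ t in Set.Ioc (0 : ℝ) 1,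
            (BadS q qq M1 M2 N lab w i).indicator (fun _ => (1 : ℝ≥0∞)) (c, t)) := by
          rw [Finset.sum_add_distrib, Finset.sum_const, card_range, nsmul_eq_mul,
            ← Finset.mul_sum]
          ring
      _ = _ := by rw [h6, one_mul]
  · intro i _
    exact intervalIntegral.integral_nonneg zero_le_one (fun t _ => by positivity)

end Crest.Agent.R081.Dg
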