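import Crest.Agent.R081.Dg5

/-! Row 81, route B, node DGLUE, part 6: the integral over `c` of the comparison. -/

set_option autoImplicit false

namespace Crest.Agent.R081.Dg

open MeasureTheory Crest.Agent.R075 Finset
open scoped ENNReal

variable {q qq M1 M2 : ℕ} {N N' : ℤ} {lab : ℝ → ℤ → ℝ → ZMod M1 × ZMod M2}

theorem lintegral_indicator_sq (B : Set (ℝ × ℝ)) (hB : MeasurableSet B) :
    ∫⁻ c in Set.Ioc (0 : ℝ) 1, ∫⁻ t in Set.Ioc (0 : ℝ) 1, B.indicator (fun _ => (1 : ℝ≥0∞)) (c, t)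
      = volume (Sq ∩ B) := by
  have e1 : ∀ f : ℝ → ℝ≥0∞, ∫⁻ t in Set.Ioc (0 : ℝ) 1, f t = ∫⁻ t in Set.Ico (0 : ℝ) 1, f t :=
    fun f => setLIntegral_congr Ico_ae_eq_Ioc.symm
  simp_rw [e1]
  have h1 : Measurable (B.indicator (fun _ : ℝ × ℝ => (1 : ℝ≥0∞))) := measurable_const.indicator hB
  rw [← lintegral_prod (B.indicator (fun _ : ℝ × ℝ => (1 : ℝ≥0∞))) h1.aemeasurable,
    lintegral_indicator hB, lintegral_const, one_mul, Measure.restrict_apply_univ,
    Measure.prod_restrict, Measure.restrict_apply hB, Set.inter_comm]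
  rfl

theorem section_Bad' [NeZero M1] [NeZero M2] (hq : 0 < q) (hqq : 0 < qq)
    (hcop : Nat.Coprime q qq) (hdiv : q ∣ M1)
    (hN : (qq : ℤ) ∣ N * q - 1) (hN' : (q : ℤ) ∣ N' * qq - 1)
    (hlab : ∀ c i θ, lab c (i + qq) θ = lab c i θ)
    (hmeas : ∀ i n, MeasurableSet {z : ℝ × ℝ | lab z.1 i z.2 = n}) (w : Tw.Word) :
    ENNReal.ofReal (1 / (qq : ℝ)) * ∑ i ∈ range qq, volume (Sq ∩ BadS q qq M1 M2 N lab w i)
      = volume (Sq ∩ Bad q qq M1 M2 N' lab w) := by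
  have h1 := section_Bad (N := N) hq hqq hcop hdiv hN hN' hlab hmeas w
  have h2 := congrArg ENNReal.ofReal h1
  rw [ENNReal.ofReal_toReal (volume_Sq_inter_ne_top _), ENNReal.ofReal_mul (by positivity),
    ENNReal.ofReal_sum_of_nonneg (fun _ _ => ENNReal.toReal_nonneg)] at h2
  rw [← h2]
  congr 1
  refine Finset.sum_congr rfl fun i _ => ?_
  exact (ENNReal.ofReal_toReal (volume_Sq_inter_ne_top _)).symm

/-- **the coefficients of the word are those of the label function** -/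
theorem err_lab [NeZero M1] [NeZero M2] (hq : 0 < q) (hqq : 0 < qq)
    (hcop : Nat.Coprime q qq) (hdiv : q ∣ M1)
    (hN : (qq : ℤ) ∣ N * q - 1) (hN' : (q : ℤ) ∣ N' * qq - 1)
    (hlab : ∀ c i θ, lab c (i + qq) θ = lab c i θ)
    (hmeas : ∀ i n, MeasurableSet {z : ℝ × ℝ | lab z.1 i z.2 = n}) (w : Tw.Word) (k : ℤ × ℤ)
    {κ : ℝ} (hκ : 2 * Real.pi * (|(k.1 : ℝ)| / M1 + |(k.2 : ℝ)| / M2) ≤ κ) :
    ∫⁻ c in Set.Ioc (0 : ℝ) 1,
      ∑ a ∈ range qq, ∑' b : ℤ, ‖St.Dd q qq N w k a b c - DLab qq k lab a b c‖ₑ ^ 2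
      ≤ ENNReal.ofReal (κ ^ 2) + 4 * volume (Sq ∩ Bad q qq M1 M2 N' lab w) := by
  refine (lintegral_mono fun c => sum_DLab_sub hq hqq hmeas w k hκ c).trans ?_
  have hmi : ∀ i : ℕ, Measurable (fun c : ℝ => ∫⁻ t in Set.Ioc (0 : ℝ) 1,
      (BadS q qq M1 M2 N lab w i).indicator (fun _ => (1 : ℝ≥0∞)) (c, t)) := fun i =>
    (measurable_const.indicator (measurableSet_BadS hmeas w i)).lintegral_prod_right'
  rw [lintegral_add_left measurable_const, lintegral_const_mul _ (by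
      exact (Finset.measurable_fun_sum _ fun i _ => hmi i).const_mul _),
    lintegral_const_mul _ (by exact Finset.measurable_fun_sum _ fun i _ => hmi i),
    lintegral_finset_sum _ (fun i _ => hmi i)]
  simp_rw [lintegral_indicator_sq _ (measurableSet_BadS hmeas w _)]
  rw [section_Bad' hq hqq hcop hdiv hN hN' hlab hmeas w]
  simp

end Crest.Agent.R081.Dg
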