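import Crest.Agent.R075.Basic
import Crest.Agent.R075.ThmF2
import Crest.Agent.R081.FrPars
import Crest.Agent.R081.DlDefs

/-!
# Row 81, route B: Parseval on `ℤ/n × 𝕋`
-/

set_option autoImplicit false

namespace Crest.Agent.R081.DlPars

open Finset MeasureTheory Crest.Agent.R075

lemma sum_ee_div {n : ℕ} (hn : 0 < n) (m : ℤ) :
    ∑ a ∈ range n, ee (m * (a / n)) = if (n : ℤ) ∣ m then (n : ℂ) else 0 := by
  rw [← ThmF.sum_ee_root n hn m]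
  refine sum_congr rfl fun a _ => ?_
  rw [ee_eq]; rfl

/-- Plancherel on `ℤ/n`. -/
theorem plancherel_zmod {n : ℕ} (hn : 0 < n) (g : ℕ → ℂ) :
    ∑ a ∈ range n, ‖(1 / (n : ℂ)) * ∑ i ∈ range n, g i * ee (-((a : ℝ) * i / n))‖ ^ 2 =
      (1 / (n : ℝ)) * ∑ i ∈ range n, ‖g i‖ ^ 2 := by
  have hn0 : (n : ℂ) ≠ 0 := by exact_mod_cast hn.ne'
  have key : ((∑ a ∈ range n, ‖(1 / (n : ℂ)) * ∑ i ∈ range n, g i * ee (-((a : ℝ) * i / n))‖ ^ 2 : ℝ) : ℂ)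
      = (((1 / (n : ℝ)) * ∑ i ∈ range n, ‖g i‖ ^ 2 : ℝ) : ℂ) := by
    push_cast
    have e1 : ∀ a ∈ range n, ((‖(1 / (n : ℂ)) * ∑ i ∈ range n, g i * ee (-((a : ℝ) * i / n))‖ : ℂ)) ^ 2
        = (1 / (n : ℂ)) ^ 2 * ∑ i ∈ range n, ∑ j ∈ range n, (g i * (starRingEnd ℂ) (g j)) *
            ee (((j : ℤ) - (i : ℤ) : ℤ) * ((a : ℝ) / n)) := by
      intro a _
      rw [← Complex.mul_conj', map_mul, map_sum]
      have e2 : (starRingEnd ℂ) (1 / (n : ℂ)) = 1 / (n : ℂ) := by simp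
      rw [e2]
      have e3 : (1 / (n : ℂ) * ∑ i ∈ range n, g i * ee (-((a : ℝ) * i / n))) *
          (1 / (n : ℂ) * ∑ i ∈ range n, (starRingEnd ℂ) (g i * ee (-((a : ℝ) * i / n)))) =
          (1 / (n : ℂ)) ^ 2 * ((∑ i ∈ range n, g i * ee (-((a : ℝ) * i / n))) *
            ∑ i ∈ range n, (starRingEnd ℂ) (g i * ee (-((a : ℝ) * i / n)))) := by ring
      rw [e3, sum_mul_sum]
      congr 1
      refine sum_congr rfl fun i _ => sum_congr rfl fun j _ => ?_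
      rw [map_mul, ee_conj]
      have e4 : ee (((j : ℤ) - (i : ℤ) : ℤ) * ((a : ℝ) / n)) =
          ee (-((a : ℝ) * i / n)) * ee (-(-((a : ℝ) * j / n))) := by
        rw [← ee_add]; congr 1; push_cast; ring
      rw [e4]; ring
    rw [sum_congr rfl e1, ← mul_sum, sum_comm]
    have e5 : ∀ i ∈ range n, ∑ a ∈ range n, ∑ j ∈ range n, (g i * (starRingEnd ℂ) (g j)) *
            ee (((j : ℤ) - (i : ℤ) : ℤ) * ((a : ℝ) / n)) = (n : ℂ) * (‖g i‖ : ℂ) ^ 2 := by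
      intro i hi
      rw [sum_comm]
      have e6 : ∀ j ∈ range n, ∑ a ∈ range n, (g i * (starRingEnd ℂ) (g j)) *
            ee (((j : ℤ) - (i : ℤ) : ℤ) * ((a : ℝ) / n)) =
            if j = i then (n : ℂ) * (‖g i‖ : ℂ) ^ 2 else 0 := by
        intro j hj
        rw [← mul_sum, sum_ee_div hn]
        by_cases h : j = i
        · subst h
          rw [if_pos rfl, if_pos (by simp), ← Complex.mul_conj']
          ring
        · rw [if_neg h, if_neg, mul_zero]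
          rintro ⟨k, hk⟩
          have h1 := mem_range.1 hi
          have h2 := mem_range.1 hj
          have h3 : k = 0 := by
            have a1 : (n : ℤ) * k < n := by omega
            have a2 : -(n : ℤ) < n * k := by omega
            have a3 : (0 : ℤ) < n := by omega
            have a4 : k < 1 := by
              by_contra hc
              push Not at hc
              nlinarith
            have a5 : -1 < k := by
              by_contra hc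
              push Not at hc
              nlinarith
            omega
          rw [h3] at hk
          omega
      rw [sum_congr rfl e6, sum_ite_eq' (range n) i, if_pos hi]
    rw [sum_congr rfl e5, ← mul_sum]
    field_simp
  exact_mod_cast key

/-- the coefficient array -/
noncomputable def DD (n : ℕ) (f : ℤ → ℝ → ℂ) (a b : ℤ) : ℂ :=
  (1 / (n : ℂ)) * ∑ i ∈ range n, ∫ θ in (0:ℝ)..1, f i θ * ee (-(a * i / n + b * θ))

lemma L2_of_bdd {f : ℝ → ℂ} (hf : Measurable f) {C : ℝ} (hC : ∀ θ, ‖f θ‖ ≤ C) : FrPars.L2 f := by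
  refine MemLp.of_bound hf.aestronglyMeasurable C (Filter.Eventually.of_forall hC)

/-- the function of `θ` for a given `a` -/
noncomputable def Fa (n : ℕ) (f : ℤ → ℝ → ℂ) (a : ℤ) (θ : ℝ) : ℂ :=
  (1 / (n : ℂ)) * ∑ i ∈ range n, f i θ * ee (-((a : ℝ) * i / n))

lemma Fa_meas {n : ℕ} {f : ℤ → ℝ → ℂ} (hf : ∀ i, Measurable (f i)) (a : ℤ) :
    Measurable (Fa n f a) := by
  unfold Fa
  refine Measurable.const_mul ?_ _
  exact Finset.measurable_sum _ fun i _ => (hf i).mul_const _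

lemma Fa_bdd {n : ℕ} {f : ℤ → ℝ → ℂ} {C : ℝ} (hC : ∀ i θ, ‖f i θ‖ ≤ C) (a : ℤ) (θ : ℝ) :
    ‖Fa n f a θ‖ ≤ C := by
  have hC0 : 0 ≤ C := (norm_nonneg _).trans (hC 0 0)
  unfold Fa
  rcases Nat.eq_zero_or_pos n with h | h
  · subst h; simpa using hC0
  rw [norm_mul, norm_div, norm_one, Complex.norm_natCast]
  have h1 : ‖∑ i ∈ range n, f i θ * ee (-((a : ℝ) * i / n))‖ ≤ n * C := by
    refine (norm_sum_le _ _).trans ?_
    refine (sum_le_card_nsmul _ _ C fun i _ => ?_).trans (by simp)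
    rw [norm_mul, norm_ee, mul_one]
    exact hC _ _
  have hn : (0 : ℝ) < n := by exact_mod_cast h
  calc 1 / (n : ℝ) * ‖∑ i ∈ range n, f i θ * ee (-((a : ℝ) * i / n))‖ ≤ 1 / (n : ℝ) * (n * C) := by
        gcongr
    _ = C := by field_simp

lemma DD_eq {n : ℕ} {f : ℤ → ℝ → ℂ} (hf : ∀ i, Measurable (f i)) {C : ℝ}
    (hC : ∀ i θ, ‖f i θ‖ ≤ C) (a b : ℤ) : DD n f a b = FrPars.Ft (Fa n f a) (0 + b) := by
  unfold DD FrPars.Ft
  have e1 : ∀ θ : ℝ, Fa n f a θ * ee (-((0 + (b : ℝ)) * θ)) =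
      (1 / (n : ℂ)) * ∑ i ∈ range n, f i θ * ee (-(a * i / n + b * θ)) := by
    intro θ
    unfold Fa
    rw [mul_assoc, sum_mul]
    congr 1
    refine sum_congr rfl fun i _ => ?_
    rw [mul_assoc, ← ee_add]
    congr 2
    ring
  simp_rw [e1]
  rw [intervalIntegral.integral_const_mul, intervalIntegral.integral_finsetSum]
  intro i _
  have h1 : FrPars.L2 (fun θ => f i θ * ee (-(a * i / n + b * θ))) :=
    (L2_of_bdd (hf i) (hC i)).mul_ee (by fun_prop)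
  exact h1.intervalIntegrable

lemma norm_sq_intInt {f : ℝ → ℂ} (hf : Measurable f) {C : ℝ} (hC : ∀ θ, ‖f θ‖ ≤ C) :
    IntervalIntegrable (fun θ => ‖f θ‖ ^ 2) volume 0 1 := by
  rw [intervalIntegrable_iff_integrableOn_Ioc_of_le zero_le_one]
  refine Integrable.of_bound (C := C ^ 2) ?_ ?_
  · exact (hf.norm.pow_const 2).aestronglyMeasurable
  · refine Filter.Eventually.of_forall fun θ => ?_
    rw [Real.norm_eq_abs, abs_of_nonneg (by positivity)]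
    have := hC θ
    have h0 := norm_nonneg (f θ)
    nlinarith

theorem hasSum_DD_fiber {n : ℕ} {f : ℤ → ℝ → ℂ} (hf : ∀ i, Measurable (f i)) {C : ℝ}
    (hC : ∀ i θ, ‖f i θ‖ ≤ C) (a : ℤ) :
    HasSum (fun b : ℤ => ‖DD n f a b‖ ^ 2) (∫ θ in (0:ℝ)..1, ‖Fa n f a θ‖ ^ 2) := by
  have h := FrPars.hasSum_Ft (L2_of_bdd (Fa_meas (n := n) hf a) (Fa_bdd hC a)) 0
  have e : (fun b : ℤ => ‖DD n f a b‖ ^ 2) = fun j : ℤ => ‖FrPars.Ft (Fa n f a) (0 + j)‖ ^ 2 := by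
    funext b
    rw [DD_eq hf hC]
  rw [e]
  exact h

lemma sum_int_Fa {n : ℕ} (hn : 0 < n) {f : ℤ → ℝ → ℂ} (hf : ∀ i, Measurable (f i)) {C : ℝ}
    (hC : ∀ i θ, ‖f i θ‖ ≤ C) :
    ∑ a ∈ range n, ∫ θ in (0:ℝ)..1, ‖Fa n f a θ‖ ^ 2 =
      (1 / (n : ℝ)) * ∑ i ∈ range n, ∫ θ in (0:ℝ)..1, ‖f i θ‖ ^ 2 := by
  rw [← intervalIntegral.integral_finsetSum, ← intervalIntegral.integral_finsetSum,
    ← intervalIntegral.integral_const_mul]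
  · apply intervalIntegral.integral_congr
    intro θ _
    have h := plancherel_zmod hn (fun i => f i θ)
    simp only
    rw [← h]
    refine sum_congr rfl fun a _ => ?_
    unfold Fa
    simp only [Int.cast_natCast]
  · intro i _
    exact norm_sq_intInt (hf i) (hC i)
  · intro a _
    exact norm_sq_intInt (Fa_meas hf a) (Fa_bdd hC a)

/-- **Parseval** on `ℤ/n × 𝕋`. -/
theorem hasSum_DD {n : ℕ} (hn : 0 < n) {f : ℤ → ℝ → ℂ} (hf : ∀ i, Measurable (f i)) {C : ℝ}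
    (hC : ∀ i θ, ‖f i θ‖ ≤ C) :
    HasSum (fun x : Fin n × ℤ => ‖DD n f (x.1 : ℕ) x.2‖ ^ 2)
      ((1 / (n : ℝ)) * ∑ i ∈ range n, ∫ θ in (0:ℝ)..1, ‖f i θ‖ ^ 2) := by
  have hfib : ∀ a : Fin n, HasSum (fun b : ℤ => ‖DD n f (a : ℕ) b‖ ^ 2)
      (∫ θ in (0:ℝ)..1, ‖Fa n f (a : ℕ) θ‖ ^ 2) := fun a => hasSum_DD_fiber hf hC _
  have hsum : Summable (fun x : Fin n × ℤ => ‖DD n f (x.1 : ℕ) x.2‖ ^ 2) := by
    rw [summable_prod_of_nonneg (fun x => by positivity)]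
    exact ⟨fun a => (hfib a).summable, (hasSum_fintype _).summable⟩
  have h1 : HasSum (fun a : Fin n => ∫ θ in (0:ℝ)..1, ‖Fa n f (a : ℕ) θ‖ ^ 2)
      (∑ a : Fin n, ∫ θ in (0:ℝ)..1, ‖Fa n f (a : ℕ) θ‖ ^ 2) := hasSum_fintype _
  have h2 : ∑ a : Fin n, ∫ θ in (0:ℝ)..1, ‖Fa n f (a : ℕ) θ‖ ^ 2 =
      (1 / (n : ℝ)) * ∑ i ∈ range n, ∫ θ in (0:ℝ)..1, ‖f i θ‖ ^ 2 := by
    rw [← sum_int_Fa hn hf hC]
    exact Fin.sum_univ_eq_sum_range (fun a : ℕ => ∫ θ in (0:ℝ)..1, ‖Fa n f (a : ℤ) θ‖ ^ 2) n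
  rw [← h2]
  have h3 := hsum.hasSum
  have h4 := HasSum.prod_fiberwise h3 hfib
  have h5 := h4.unique h1
  rw [← h5]
  exact h3

/-- iterated form -/
theorem tsum_DD {n : ℕ} (hn : 0 < n) {f : ℤ → ℝ → ℂ} (hf : ∀ i, Measurable (f i)) {C : ℝ}
    (hC : ∀ i θ, ‖f i θ‖ ≤ C) :
    (∀ a : ℤ, Summable fun b : ℤ => ‖DD n f a b‖ ^ 2) ∧
      ∑ a ∈ range n, ∑' b : ℤ, ‖DD n f a b‖ ^ 2 =
      (1 / (n : ℝ)) * ∑ i ∈ range n, ∫ θ in (0:ℝ)..1, ‖f i θ‖ ^ 2 := by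
  refine ⟨fun a => (hasSum_DD_fiber hf hC a).summable, ?_⟩
  rw [← sum_int_Fa hn hf hC]
  exact sum_congr rfl fun a _ => (hasSum_DD_fiber hf hC _).tsum_eq

/-- Bessel for finite sets of `b` -/
theorem bessel_DD {n : ℕ} (hn : 0 < n) {f : ℤ → ℝ → ℂ} (hf : ∀ i, Measurable (f i)) {C : ℝ}
    (hC : ∀ i θ, ‖f i θ‖ ≤ C) (B : Finset ℤ) :
    ∑ a ∈ range n, ∑ b ∈ B, ‖DD n f a b‖ ^ 2 ≤
      (1 / (n : ℝ)) * ∑ i ∈ range n, ∫ θ in (0:ℝ)..1, ‖f i θ‖ ^ 2 := by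
  rw [← (tsum_DD hn hf hC).2]
  refine sum_le_sum fun a _ => ?_
  exact (hasSum_DD_fiber hf hC a).summable.sum_le_tsum B (fun _ _ => by positivity)

/-- linearity -/
theorem DD_sub {n : ℕ} {f g : ℤ → ℝ → ℂ} (hf : ∀ i, Measurable (f i)) (hg : ∀ i, Measurable (g i))
    {C : ℝ} (hC : ∀ i θ, ‖f i θ‖ ≤ C) (hC' : ∀ i θ, ‖g i θ‖ ≤ C) (a b : ℤ) :
    DD n (fun i θ => f i θ - g i θ) a b = DD n f a b - DD n g a b := by
  unfold DD
  rw [← mul_sub, ← sum_sub_distrib]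
  congr 1
  refine sum_congr rfl fun i _ => ?_
  rw [← intervalIntegral.integral_sub]
  · congr 1
    funext θ
    ring
  · exact ((L2_of_bdd (hf i) (hC i)).mul_ee (g := fun θ => -(a * i / n + b * θ))
      (by fun_prop)).intervalIntegrable
  · exact ((L2_of_bdd (hg i) (hC' i)).mul_ee (g := fun θ => -(a * i / n + b * θ))
      (by fun_prop)).intervalIntegrable

theorem Dco_eq (n : ℕ) (f : ℤ → ℝ → ℂ) (a b : ℤ) : Dl.Dco n f a b = DD n f a b := rfl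

/-- **Parseval** for `Dl.Dco`. -/
theorem hasSum_Dco {n : ℕ} (hn : 0 < n) {f : ℤ → ℝ → ℂ} (hf : ∀ i, Measurable (f i)) {C : ℝ}
    (hC : ∀ i θ, ‖f i θ‖ ≤ C) :
    HasSum (fun x : Fin n × ℤ => ‖Dl.Dco n f x.1 x.2‖ ^ 2)
      ((1 / (n : ℝ)) * ∑ i ∈ range n, ∫ θ in (0:ℝ)..1, ‖f i θ‖ ^ 2) :=
  hasSum_DD hn hf hC

theorem hasSum_Dco_fiber {n : ℕ} {f : ℤ → ℝ → ℂ} (hf : ∀ i, Measurable (f i)) {C : ℝ}
    (hC : ∀ i θ, ‖f i θ‖ ≤ C) (a : ℤ) :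
    HasSum (fun b : ℤ => ‖Dl.Dco n f a b‖ ^ 2) (∫ θ in (0:ℝ)..1, ‖Fa n f a θ‖ ^ 2) :=
  hasSum_DD_fiber hf hC a

theorem tsum_Dco {n : ℕ} (hn : 0 < n) {f : ℤ → ℝ → ℂ} (hf : ∀ i, Measurable (f i)) {C : ℝ}
    (hC : ∀ i θ, ‖f i θ‖ ≤ C) :
    (∀ a : ℤ, Summable fun b : ℤ => ‖Dl.Dco n f a b‖ ^ 2) ∧
      ∑ a ∈ range n, ∑' b : ℤ, ‖Dl.Dco n f a b‖ ^ 2 =
      (1 / (n : ℝ)) * ∑ i ∈ range n, ∫ θ in (0:ℝ)..1, ‖f i θ‖ ^ 2 :=
  tsum_DD hn hf hC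

theorem bessel_Dco {n : ℕ} (hn : 0 < n) {f : ℤ → ℝ → ℂ} (hf : ∀ i, Measurable (f i)) {C : ℝ}
    (hC : ∀ i θ, ‖f i θ‖ ≤ C) (B : Finset ℤ) :
    ∑ a ∈ range n, ∑ b ∈ B, ‖Dl.Dco n f a b‖ ^ 2 ≤
      (1 / (n : ℝ)) * ∑ i ∈ range n, ∫ θ in (0:ℝ)..1, ‖f i θ‖ ^ 2 :=
  bessel_DD hn hf hC B

theorem Dco_sub {n : ℕ} {f g : ℤ → ℝ → ℂ} (hf : ∀ i, Measurable (f i)) (hg : ∀ i, Measurable (g i))
    {C : ℝ} (hC : ∀ i θ, ‖f i θ‖ ≤ C) (hC' : ∀ i θ, ‖g i θ‖ ≤ C) (a b : ℤ) :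
    Dl.Dco n (fun i θ => f i θ - g i θ) a b = Dl.Dco n f a b - Dl.Dco n g a b :=
  DD_sub hf hg hC hC' a b

/-- Parseval for the difference: how a bounded `L²` approximation of the labels moves the
coefficients. -/
theorem hasSum_Dco_sub {n : ℕ} (hn : 0 < n) {f g : ℤ → ℝ → ℂ} (hf : ∀ i, Measurable (f i))
    (hg : ∀ i, Measurable (g i)) {C : ℝ} (hC : ∀ i θ, ‖f i θ‖ ≤ C) (hC' : ∀ i θ, ‖g i θ‖ ≤ C) :
    HasSum (fun x : Fin n × ℤ => ‖Dl.Dco n f x.1 x.2 - Dl.Dco n g x.1 x.2‖ ^ 2)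
      ((1 / (n : ℝ)) * ∑ i ∈ range n, ∫ θ in (0:ℝ)..1, ‖f i θ - g i θ‖ ^ 2) := by
  have h := hasSum_Dco hn (f := fun i θ => f i θ - g i θ) (fun i => (hf i).sub (hg i))
    (C := C + C) (fun i θ => (norm_sub_le _ _).trans (add_le_add (hC i θ) (hC' i θ)))
  simp only [Dco_sub hf hg hC hC'] at h
  exact h

end Crest.Agent.R081.DlPars
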