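import Crest.Agent.R081.DgArc
import Crest.Agent.R081.DlPars

/-!
# Row 81, route B: the `L²` error of the main coefficients on the c-side
-/

set_option autoImplicit false

namespace Crest.Agent.R081.DgA

open MeasureTheory Set Crest.Agent.R075 Crest.Agent.R081.Dl Crest.Agent.R081.Tw
open scoped ENNReal

lemma enorm_sq (z : ℂ) : ‖z‖ₑ ^ 2 = ENNReal.ofReal (‖z‖ ^ 2) := by
  rw [ENNReal.ofReal_pow (norm_nonneg _), ofReal_norm]

lemma sum_range_tsum {n : ℕ} (f : ℤ → ℤ → ℝ≥0∞) :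
    ∑ a ∈ Finset.range n, ∑' b : ℤ, f a b = ∑' x : Fin n × ℤ, f ((x.1 : ℕ) : ℤ) x.2 := by
  rw [ENNReal.tsum_prod (f := fun (a : Fin n) (b : ℤ) => f ((a : ℕ) : ℤ) b), tsum_fintype,
    Finset.sum_range]

/-- conversion of a real `ℓ²` bound. -/
lemma sum_enorm_le {n : ℕ} (f : ℤ → ℤ → ℂ)
    (hs : Summable fun x : Fin n × ℤ => ‖f ((x.1 : ℕ) : ℤ) x.2‖ ^ 2) {e : ℝ}
    (he : ∑' x : Fin n × ℤ, ‖f ((x.1 : ℕ) : ℤ) x.2‖ ^ 2 ≤ e) :
    ∑ a ∈ Finset.range n, ∑' b : ℤ, ‖f a b‖ₑ ^ 2 ≤ ENNReal.ofReal e := by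
  rw [sum_range_tsum (fun a b => ‖f a b‖ₑ ^ 2)]
  simp only [enorm_sq]
  rw [← ENNReal.ofReal_tsum_of_nonneg (fun x => by positivity) hs]
  exact ENNReal.ofReal_le_ofReal he

lemma enorm_add3_sq (x y z : ℂ) :
    ‖x + y + z‖ₑ ^ 2 ≤ 3 * ‖x‖ₑ ^ 2 + 3 * ‖y‖ₑ ^ 2 + 3 * ‖z‖ₑ ^ 2 := by
  have h : ‖x + y + z‖ ^ 2 ≤ 3 * ‖x‖ ^ 2 + 3 * ‖y‖ ^ 2 + 3 * ‖z‖ ^ 2 := by
    have h1 : ‖x + y + z‖ ≤ ‖x‖ + ‖y‖ + ‖z‖ := norm_add₃_le
    have h2 : ‖x + y + z‖ ^ 2 ≤ (‖x‖ + ‖y‖ + ‖z‖) ^ 2 :=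
      pow_le_pow_left₀ (norm_nonneg _) h1 2
    nlinarith [sq_nonneg (‖x‖ - ‖y‖), sq_nonneg (‖y‖ - ‖z‖), sq_nonneg (‖x‖ - ‖z‖)]
  have e3 : (3 : ℝ≥0∞) = ENNReal.ofReal 3 := by norm_num
  rw [enorm_sq, enorm_sq, enorm_sq, enorm_sq, e3, ← ENNReal.ofReal_mul (by norm_num),
    ← ENNReal.ofReal_mul (by norm_num), ← ENNReal.ofReal_mul (by norm_num),
    ← ENNReal.ofReal_add (by positivity) (by positivity),
    ← ENNReal.ofReal_add (by positivity) (by positivity)]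
  exact ENNReal.ofReal_le_ofReal h

variable {q : ℕ} {Λ : Type} [Fintype Λ] {Fam : Set (Λ → ℂ)} {eps : ℝ}
  {D : LabelDesign q Λ Fam eps} {del : ℝ}

/-- the label function of a piece composed with `E` is measurable. -/
lemma measurable_lab (E : Λ → ℂ) (p : ℕ) (i : ℤ) : Measurable fun θ => E (D.lab p i θ) := by
  classical
  have : (fun θ => E (D.lab p i θ))
      = fun θ => ∑ n : Λ, ({θ | D.lab p i θ = n}).indicator (fun _ => E n) θ := by
    funext θ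
    rw [Finset.sum_eq_single_of_mem (D.lab p i θ) (Finset.mem_univ _)]
    · rw [Set.indicator_of_mem]; rfl
    · intro n _ hn
      rw [Set.indicator_of_notMem]
      intro h
      exact hn h.symm
  rw [this]
  exact Finset.measurable_sum _ fun n _ => measurable_const.indicator (D.lab_meas p i n)

/-- the main estimate of the design in `ENNReal` form. -/
lemma main_enorm {E : Λ → ℂ} (hE : E ∈ Fam) {p : ℕ} (hp : p < D.P) :
    ∑ a ∈ Finset.range D.qq, ∑' b : ℤ, ‖Dco D.qq (fun i θ => E (D.lab p i θ)) a b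
      - mainC D.v D.line D.ll D.amp E p a b‖ₑ ^ 2 ≤ ENNReal.ofReal (eps ^ 2) :=
  sum_enorm_le (fun a b => Dco D.qq (fun i θ => E (D.lab p i θ)) a b
      - mainC D.v D.line D.ll D.amp E p a b) (D.main_summable p hp E hE) (D.main p hp E hE)

/-- Parseval for the label function. -/
lemma dco_enorm {E : Λ → ℂ} (hE : ∀ n, ‖E n‖ = 1) (p : ℕ) :
    ∑ a ∈ Finset.range D.qq, ∑' b : ℤ, ‖Dco D.qq (fun i θ => E (D.lab p i θ)) a b‖ₑ ^ 2
      ≤ 1 := by
  have h := DlPars.hasSum_Dco (n := D.qq) (f := fun i θ => E (D.lab p i θ)) D.qq_pos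
    (fun i => measurable_lab E p i) (C := 1) (fun i θ => (hE _).le)
  have h1 : (1 / (D.qq : ℝ)) * ∑ i ∈ Finset.range D.qq, ∫ θ in (0:ℝ)..1,
      ‖(fun (i : ℤ) θ => E (D.lab p i θ)) i θ‖ ^ 2 = 1 := by
    have hq : (D.qq : ℝ) ≠ 0 := by exact_mod_cast D.qq_pos.ne'
    simp only [hE]
    simp [hq]
  have h2 := sum_enorm_le (n := D.qq) (fun a b => Dco D.qq (fun i θ => E (D.lab p i θ)) a b)
    h.summable (e := 1) (by rw [h.tsum_eq]; exact h1.le)
  simpa using h2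

/-- changing the slope from `v` to `v/(1-2δ)`. -/
lemma slope_change (hd0 : 0 < del) (hd1 : del < 1 / 2) {E : Λ → ℂ} (hE : ∀ n, ‖E n‖ = 1) (p : ℕ)
    (a b : ℤ) (z : ℂ) :
    ‖mainC D.v D.line D.ll D.amp E p a b - mainC (vs D del) D.line D.ll D.amp E p a b‖ₑ ^ 2
      ≤ ENNReal.ofReal (2 * del / (1 - 2 * del))
        * (2 * ‖z‖ₑ ^ 2 + 2 * ‖z - mainC D.v D.line D.ll D.amp E p a b‖ₑ ^ 2) := by
  classical
  have hd : 0 < 1 - 2 * del := by linarith
  have hv := D.v_pos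
  set m := mainC D.v D.line D.ll D.amp E p a b with hm
  have h1 : ‖m - mainC (vs D del) D.line D.ll D.amp E p a b‖ ^ 2
      ≤ (2 * del / (1 - 2 * del)) * ‖m‖ ^ 2 := by
    by_cases hl : D.line p a b
    · have e1 : ‖m‖ ^ 2 = |(b:ℝ)| * D.v := by
        rw [hm, mainC_norm hv.le hE, if_pos hl]
      have e2 : m - mainC (vs D del) D.line D.ll D.amp E p a b
          = (((Real.sqrt (|(b:ℝ)| * D.v) - Real.sqrt (|(b:ℝ)| * vs D del) : ℝ)) : ℂ)
            * (D.amp p a b * E (D.ll p a b)) := by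
        rw [hm]; unfold mainC
        rw [if_pos hl, if_pos hl]
        push_cast; ring
      have e3 : ‖m - mainC (vs D del) D.line D.ll D.amp E p a b‖
          = |Real.sqrt (|(b:ℝ)| * D.v) - Real.sqrt (|(b:ℝ)| * vs D del)| := by
        rw [e2, norm_mul, norm_mul, hE, D.amp_norm, Complex.norm_real]
        simp
      have hvs : vs D del - D.v = D.v * (2 * del / (1 - 2 * del)) := by
        unfold vs; field_simp; ring
      have hle : D.v ≤ vs D del := by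
        have : 0 ≤ D.v * (2 * del / (1 - 2 * del)) := by positivity
        linarith
      rw [e3, e1, sq_abs]
      have hx : 0 ≤ |(b:ℝ)| * D.v := by positivity
      have hy : |(b:ℝ)| * D.v ≤ |(b:ℝ)| * vs D del := by gcongr
      have hx' := Real.sq_sqrt hx
      have hy' := Real.sq_sqrt (hx.trans hy)
      have hs := Real.sqrt_le_sqrt hy
      have hs0 := Real.sqrt_nonneg (|(b:ℝ)| * D.v)
      have e4 : (2 * del / (1 - 2 * del)) * (|(b:ℝ)| * D.v)
          = |(b:ℝ)| * vs D del - |(b:ℝ)| * D.v := by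
        rw [← mul_sub, hvs]; ring
      rw [e4]
      nlinarith
    · have e1 : m = 0 := by rw [hm]; unfold mainC; rw [if_neg hl]
      have e2 : mainC (vs D del) D.line D.ll D.amp E p a b = 0 := by
        unfold mainC; rw [if_neg hl]
      rw [e1, e2]; simp
  have h2 : ‖m‖ ^ 2 ≤ 2 * ‖z‖ ^ 2 + 2 * ‖z - m‖ ^ 2 := by
    have h3 : ‖m‖ ≤ ‖z‖ + ‖z - m‖ := by
      have : m = z - (z - m) := by ring
      calc ‖m‖ = ‖z - (z - m)‖ := by rw [← this]
        _ ≤ ‖z‖ + ‖z - m‖ := norm_sub_le _ _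
    have h4 : ‖m‖ ^ 2 ≤ (‖z‖ + ‖z - m‖) ^ 2 := pow_le_pow_left₀ (norm_nonneg _) h3 2
    nlinarith [sq_nonneg (‖z‖ - ‖z - m‖)]
  have hk : 0 ≤ 2 * del / (1 - 2 * del) := by positivity
  have e2 : (2 : ℝ≥0∞) = ENNReal.ofReal 2 := by norm_num
  rw [enorm_sq, enorm_sq, enorm_sq, e2, ← ENNReal.ofReal_mul (by norm_num),
    ← ENNReal.ofReal_mul (by norm_num), ← ENNReal.ofReal_add (by positivity) (by positivity),
    ← ENNReal.ofReal_mul hk]
  exact ENNReal.ofReal_le_ofReal (h1.trans (mul_le_mul_of_nonneg_left h2 hk))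

lemma J_eq_Ioo (hd1 : del < 1 / 2) (p : ℕ) : J D del p
    = Ioo (del + (1 - 2 * del) * ((p + D.eta) / D.P))
        (del + (1 - 2 * del) * ((p + 1 - D.eta) / D.P)) := by
  have hP : (0:ℝ) < D.P := by exact_mod_cast D.P_pos
  have hd : 0 < 1 - 2 * del := by linarith
  have e : ∀ c, (D.P : ℝ) * sc del c = D.P * (c - del) / (1 - 2 * del) := by
    intro c; unfold sc; ring
  ext c
  unfold J
  rw [Set.mem_Ioo]
  change _ < _ ∧ _ < _ ↔ _
  rw [e, lt_div_iff₀ hd, div_lt_iff₀ hd]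
  have e1 : (1 - 2 * del) * ((p + D.eta) / D.P) = ((p:ℝ) + D.eta) * (1 - 2 * del) / D.P := by ring
  have e2 : (1 - 2 * del) * ((p + 1 - D.eta) / D.P) = ((p:ℝ) + 1 - D.eta) * (1 - 2 * del) / D.P := by
    ring
  rw [e1, e2, ← lt_sub_iff_add_lt', ← sub_lt_iff_lt_add', div_lt_iff₀ hP, lt_div_iff₀ hP,
    mul_comm (c - del) (D.P : ℝ)]

lemma volume_J (hd1 : del < 1 / 2) (p : ℕ) :
    volume (J D del p) = ENNReal.ofReal ((1 - 2 * del) * (1 - 2 * D.eta) / D.P) := by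
  rw [J_eq_Ioo hd1, Real.volume_Ioo]
  congr 1
  ring

/-- the union of the trimmed pieces. -/
def G (D : LabelDesign q Λ Fam eps) (del : ℝ) : Set ℝ := ⋃ p ∈ Finset.range D.P, J D del p

lemma measurableSet_G : MeasurableSet (G D del) :=
  Finset.measurableSet_biUnion _ fun p _ => measurableSet_J D del p

lemma volume_G (hd1 : del < 1 / 2) :
    volume (G D del) = ENNReal.ofReal ((1 - 2 * del) * (1 - 2 * D.eta)) := by
  have hP : (D.P : ℝ) ≠ 0 := by exact_mod_cast D.P_pos.ne'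
  unfold G
  rw [measure_biUnion_finset]
  · simp only [volume_J hd1, Finset.sum_const, Finset.card_range, nsmul_eq_mul]
    rw [← ENNReal.ofReal_natCast, ← ENNReal.ofReal_mul (Nat.cast_nonneg _)]
    congr 1
    field_simp
  · intro p _ p' _ hne
    rw [Function.onFun, Set.disjoint_left]
    intro c hc hc'
    exact hne (J_unique hc hc')
  · intro p _; exact measurableSet_J D del p

lemma G_subset (hd1 : del < 1 / 2) : G D del ⊆ Icc del (1 - del) := by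
  intro c hc
  unfold G at hc
  rw [Set.mem_iUnion₂] at hc
  obtain ⟨p, hp, hc⟩ := hc
  obtain ⟨-, -, h1, h2⟩ := sc_bounds hd1 (Finset.mem_range.1 hp) hc
  exact ⟨h1.le, h2.le⟩

/-- constant of the error on the good set. -/
noncomputable def Kc (eps del : ℝ) : ℝ := 3 * eps ^ 2 + 3 * (2 * del / (1 - 2 * del)) * (2 + 2 * eps ^ 2)

lemma good_bound (hd0 : 0 < del) (hd1 : del < 1 / 2) {E : Λ → ℂ} (hEF : E ∈ Fam)
    (hE : ∀ n, ‖E n‖ = 1) (Z : ℤ → ℤ → ℝ → ℂ) {c : ℝ} (hc : c ∈ G D del) :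
    ∑ a ∈ Finset.range D.qq, ∑' b : ℤ, ‖Z a b c - MC D del E a b c‖ₑ ^ 2
      ≤ 3 * (∑ a ∈ Finset.range D.qq, ∑' b : ℤ,
          ‖Z a b c - Dco D.qq (fun i θ => E (D.lab (pcl D del c) i θ)) a b‖ₑ ^ 2)
        + ENNReal.ofReal (Kc eps del) := by
  unfold G at hc
  rw [Set.mem_iUnion₂] at hc
  obtain ⟨p, hp, hc⟩ := hc
  have hp := Finset.mem_range.1 hp
  rw [pcl_of_mem hc]
  set U : ℤ → ℤ → ℂ := fun a b => Dco D.qq (fun i θ => E (D.lab p i θ)) a b with hU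
  set m : ℤ → ℤ → ℂ := fun a b => mainC D.v D.line D.ll D.amp E p a b with hm
  set m' : ℤ → ℤ → ℂ := fun a b => mainC (vs D del) D.line D.ll D.amp E p a b with hm'
  have hpt : ∀ a b : ℤ, ‖Z a b c - MC D del E a b c‖ₑ ^ 2
      ≤ 3 * ‖Z a b c - U a b‖ₑ ^ 2 + 3 * ‖U a b - m a b‖ₑ ^ 2 + 3 * ‖m a b - m' a b‖ₑ ^ 2 := by
    intro a b
    rw [MC_of_mem E a b hp hc]
    have : Z a b c - m' a b = (Z a b c - U a b) + (U a b - m a b) + (m a b - m' a b) := by ring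
    change ‖Z a b c - m' a b‖ₑ ^ 2 ≤ _
    rw [this]
    exact enorm_add3_sq _ _ _
  have hk : 0 ≤ 2 * del / (1 - 2 * del) := by
    have : 0 < 1 - 2 * del := by linarith
    positivity
  calc ∑ a ∈ Finset.range D.qq, ∑' b : ℤ, ‖Z a b c - MC D del E a b c‖ₑ ^ 2
      ≤ ∑ a ∈ Finset.range D.qq, ∑' b : ℤ, (3 * ‖Z a b c - U a b‖ₑ ^ 2
          + 3 * ‖U a b - m a b‖ₑ ^ 2 + 3 * ‖m a b - m' a b‖ₑ ^ 2) :=
        Finset.sum_le_sum fun a _ => ENNReal.tsum_le_tsum fun b => hpt a b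
    _ = 3 * (∑ a ∈ Finset.range D.qq, ∑' b : ℤ, ‖Z a b c - U a b‖ₑ ^ 2)
        + 3 * (∑ a ∈ Finset.range D.qq, ∑' b : ℤ, ‖U a b - m a b‖ₑ ^ 2)
        + 3 * (∑ a ∈ Finset.range D.qq, ∑' b : ℤ, ‖m a b - m' a b‖ₑ ^ 2) := by
        simp only [ENNReal.tsum_add, ENNReal.tsum_mul_left, Finset.sum_add_distrib,
          Finset.mul_sum]
    _ ≤ 3 * (∑ a ∈ Finset.range D.qq, ∑' b : ℤ, ‖Z a b c - U a b‖ₑ ^ 2)
        + 3 * ENNReal.ofReal (eps ^ 2)
        + 3 * (ENNReal.ofReal (2 * del / (1 - 2 * del)) * (2 * 1 + 2 * ENNReal.ofReal (eps ^ 2))) := by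
        gcongr
        · exact main_enorm hEF hp
        · calc ∑ a ∈ Finset.range D.qq, ∑' b : ℤ, ‖m a b - m' a b‖ₑ ^ 2
              ≤ ∑ a ∈ Finset.range D.qq, ∑' b : ℤ, (ENNReal.ofReal (2 * del / (1 - 2 * del))
                * (2 * ‖U a b‖ₑ ^ 2 + 2 * ‖U a b - m a b‖ₑ ^ 2)) :=
              Finset.sum_le_sum fun a _ => ENNReal.tsum_le_tsum fun b =>
                slope_change hd0 hd1 hE p a b (U a b)
            _ = ENNReal.ofReal (2 * del / (1 - 2 * del))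
                * (2 * (∑ a ∈ Finset.range D.qq, ∑' b : ℤ, ‖U a b‖ₑ ^ 2)
                  + 2 * (∑ a ∈ Finset.range D.qq, ∑' b : ℤ, ‖U a b - m a b‖ₑ ^ 2)) := by
              simp only [ENNReal.tsum_add, ENNReal.tsum_mul_left, Finset.sum_add_distrib,
                Finset.mul_sum, mul_add]
            _ ≤ _ := by
              gcongr
              · exact dco_enorm hE p
              · exact main_enorm hEF hp
    _ = 3 * (∑ a ∈ Finset.range D.qq, ∑' b : ℤ, ‖Z a b c - U a b‖ₑ ^ 2)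
        + ENNReal.ofReal (Kc eps del) := by
        have e3 : (3 : ℝ≥0∞) = ENNReal.ofReal 3 := by norm_num
        have e2 : (2 : ℝ≥0∞) = ENNReal.ofReal 2 := by norm_num
        rw [add_assoc]
        congr 1
        rw [mul_one, e2, e3, ← ENNReal.ofReal_mul (by norm_num),
          ← ENNReal.ofReal_mul (by norm_num), ← ENNReal.ofReal_add (by norm_num) (by positivity),
          ← ENNReal.ofReal_mul hk, ← ENNReal.ofReal_mul (by norm_num),
          ← ENNReal.ofReal_add (by positivity) (by positivity)]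
        congr 1
        unfold Kc; ring

lemma bad_bound {E : Λ → ℂ} (Z : ℤ → ℤ → ℝ → ℂ) {c : ℝ} (hc : c ∉ G D del) :
    ∑ a ∈ Finset.range D.qq, ∑' b : ℤ, ‖Z a b c - MC D del E a b c‖ₑ ^ 2
      = ∑ a ∈ Finset.range D.qq, ∑' b : ℤ, ‖Z a b c‖ₑ ^ 2 := by
  have h : ∀ a b : ℤ, MC D del E a b c = 0 := by
    intro a b
    refine MC_of_notMem E a b fun p hp hcp => hc ?_
    unfold G
    rw [Set.mem_iUnion₂]
    exact ⟨p, Finset.mem_range.2 hp, hcp⟩
  simp only [h, sub_zero]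

lemma lintegral_sum_tsum {n : ℕ} {s : Set ℝ} (f : ℤ → ℤ → ℝ → ℝ≥0∞)
    (hf : ∀ a b, Measurable (f a b)) :
    ∑ a ∈ Finset.range n, ∑' b : ℤ, ∫⁻ c in s, f a b c
      = ∫⁻ c in s, ∑ a ∈ Finset.range n, ∑' b : ℤ, f a b c := by
  rw [lintegral_finset_sum]
  · refine Finset.sum_congr rfl fun a _ => ?_
    rw [lintegral_tsum fun b => (hf a b).aemeasurable]
  · intro a _
    exact Measurable.ennreal_tsum fun b => hf a b

lemma measurable_pcl : Measurable (pcl D del) :=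
  Nat.measurable_floor.comp (measurable_const.mul (continuous_sc del).measurable)

lemma measurable_dco (E : Λ → ℂ) (a b : ℤ) : Measurable fun c =>
    Dco D.qq (fun i θ => E (D.lab (pcl D del c) i θ)) a b :=
  (measurable_from_nat (f := fun p => Dco D.qq (fun i θ => E (D.lab p i θ)) a b)).comp
    measurable_pcl

/-- **total error on the c-side.** -/
theorem err_bound (hd0 : 0 < del) (hd1 : del < 1 / 2) {E : Λ → ℂ} (hEF : E ∈ Fam)
    (hE : ∀ n, ‖E n‖ = 1) (Z : ℤ → ℤ → ℝ → ℂ) (hZm : ∀ a b, Measurable (Z a b))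
    (hZ1 : ∀ c ∈ Ioc (0:ℝ) 1, ∑ a ∈ Finset.range D.qq, ∑' b : ℤ, ‖Z a b c‖ₑ ^ 2 ≤ 1) {e1 : ℝ}
    (he1 : 0 ≤ e1)
    (hZ2 : ∑ a ∈ Finset.range D.qq, ∑' b : ℤ, ∫⁻ c in Icc del (1 - del),
      ‖Z a b c - Dco D.qq (fun i θ => E (D.lab (pcl D del c) i θ)) a b‖ₑ ^ 2
        ≤ ENNReal.ofReal e1) :
    ∑ a ∈ Finset.range D.qq, ∑' b : ℤ, ∫⁻ c in Ioc (0:ℝ) 1,
      ‖Z a b c - MC D del E a b c‖ₑ ^ 2
      ≤ ENNReal.ofReal (3 * e1 + Kc eps del + 2 * eps + 2 * del) := by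
  have hm : ∀ a b : ℤ, Measurable fun c => ‖Z a b c - MC D del E a b c‖ₑ ^ 2 := fun a b =>
    ((hZm a b).sub (MC_meas E a b)).enorm.pow_const 2
  have hm2 : ∀ a b : ℤ, Measurable fun c =>
      ‖Z a b c - Dco D.qq (fun i θ => E (D.lab (pcl D del c) i θ)) a b‖ₑ ^ 2 := fun a b =>
    ((hZm a b).sub (measurable_dco E a b)).enorm.pow_const 2
  rw [lintegral_sum_tsum _ hm]
  rw [lintegral_sum_tsum _ hm2] at hZ2
  have hd : 0 < 1 - 2 * del := by linarith
  have he := D.eta_pos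
  have he2 := D.eta_half
  have heps := D.eta_eps
  have hK : 0 ≤ Kc eps del := by
    unfold Kc
    have : 0 ≤ 2 * del / (1 - 2 * del) := by positivity
    positivity
  have hG := measurableSet_G (D := D) (del := del)
  have hsplit := lintegral_inter_add_diff (μ := volume)
    (fun c => ∑ a ∈ Finset.range D.qq, ∑' b : ℤ, ‖Z a b c - MC D del E a b c‖ₑ ^ 2)
    (Ioc (0:ℝ) 1) hG
  rw [← hsplit]
  have hsub : G D del ⊆ Ioc (0:ℝ) 1 := fun c hc => by
    have := G_subset hd1 hc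
    exact ⟨by linarith [this.1], by linarith [this.2]⟩
  have h1 : ∫⁻ c in Ioc (0:ℝ) 1 ∩ G D del,
      ∑ a ∈ Finset.range D.qq, ∑' b : ℤ, ‖Z a b c - MC D del E a b c‖ₑ ^ 2
      ≤ 3 * ENNReal.ofReal e1 + ENNReal.ofReal (Kc eps del) := by
    rw [Set.inter_eq_right.2 hsub]
    calc ∫⁻ c in G D del, ∑ a ∈ Finset.range D.qq, ∑' b : ℤ, ‖Z a b c - MC D del E a b c‖ₑ ^ 2
        ≤ ∫⁻ c in G D del, (3 * (∑ a ∈ Finset.range D.qq, ∑' b : ℤ,
          ‖Z a b c - Dco D.qq (fun i θ => E (D.lab (pcl D del c) i θ)) a b‖ₑ ^ 2)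
        + ENNReal.ofReal (Kc eps del)) :=
          setLIntegral_mono' hG fun c hc => good_bound hd0 hd1 hEF hE Z hc
      _ = 3 * (∫⁻ c in G D del, ∑ a ∈ Finset.range D.qq, ∑' b : ℤ,
          ‖Z a b c - Dco D.qq (fun i θ => E (D.lab (pcl D del c) i θ)) a b‖ₑ ^ 2)
        + ENNReal.ofReal (Kc eps del) * volume (G D del) := by
          rw [lintegral_add_right _ measurable_const, lintegral_const_mul', setLIntegral_const]
          norm_num
      _ ≤ 3 * ENNReal.ofReal e1 + ENNReal.ofReal (Kc eps del) * 1 := by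
          gcongr
          · exact (lintegral_mono_set (G_subset hd1)).trans hZ2
          · rw [volume_G hd1]
            refine ENNReal.ofReal_le_one.2 ?_
            nlinarith
      _ = _ := by rw [mul_one]
  have h2 : ∫⁻ c in Ioc (0:ℝ) 1 \ G D del,
      ∑ a ∈ Finset.range D.qq, ∑' b : ℤ, ‖Z a b c - MC D del E a b c‖ₑ ^ 2
      ≤ ENNReal.ofReal (2 * eps + 2 * del) := by
    calc ∫⁻ c in Ioc (0:ℝ) 1 \ G D del,
      ∑ a ∈ Finset.range D.qq, ∑' b : ℤ, ‖Z a b c - MC D del E a b c‖ₑ ^ 2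
        ≤ ∫⁻ c in Ioc (0:ℝ) 1 \ G D del, 1 := by
          refine setLIntegral_mono' (measurableSet_Ioc.diff hG) fun c hc => ?_
          rw [bad_bound Z hc.2]
          exact hZ1 c hc.1
      _ = volume (Ioc (0:ℝ) 1 \ G D del) := by rw [setLIntegral_one]
      _ = volume (Ioc (0:ℝ) 1) - volume (G D del) :=
          measure_diff hsub hG.nullMeasurableSet (by rw [volume_G hd1]; exact ENNReal.ofReal_ne_top)
      _ = ENNReal.ofReal (1 - (1 - 2 * del) * (1 - 2 * D.eta)) := by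
          rw [Real.volume_Ioc, volume_G hd1, sub_zero, ← ENNReal.ofReal_sub _ (by nlinarith)]
      _ ≤ _ := by
          refine ENNReal.ofReal_le_ofReal ?_
          nlinarith
  calc _ ≤ (3 * ENNReal.ofReal e1 + ENNReal.ofReal (Kc eps del))
        + ENNReal.ofReal (2 * eps + 2 * del) := add_le_add h1 h2
    _ = ENNReal.ofReal (3 * e1 + Kc eps del + 2 * eps + 2 * del) := by
      have e3 : (3 : ℝ≥0∞) = ENNReal.ofReal 3 := by norm_num
      rw [e3, ← ENNReal.ofReal_mul (by norm_num), ← ENNReal.ofReal_add (by positivity) hK,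
        ← ENNReal.ofReal_add (by positivity) (by linarith)]
      congr 1
      ring

end Crest.Agent.R081.DgA
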