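import Mathlib

/-! Row 81, node SHEAR APPROXIMATION, combinatorial part: equivariant permutations of a grid of
cells are products of row moves and column moves, up to one row. -/

set_option autoImplicit false

namespace Crest.Agent.R081.ShA

open Equiv

variable {q m n : ℕ}

/-- cells of the grid -/
abbrev Gr (q m n : ℕ) : Type := ZMod (q * m) × ZMod n

/-- reduction of the column index -/
def red (q m : ℕ) : ZMod (q * m) →+* ZMod m := ZMod.castHom (Dvd.intro_left q rfl) (ZMod m)

theorem red_m : red q m (m : ZMod (q * m)) = 0 := by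
  simp [red]

theorem red_eq [NeZero q] [NeZero m] {i x : ZMod (q * m)} (h : red q m i = red q m x) :
    ∃ k : ℕ, i = x + k * (m : ZMod (q * m)) := by
  have h0 : red q m (i - x) = 0 := by rw [map_sub, h, sub_self]
  have hne : NeZero (q * m) := ⟨Nat.mul_ne_zero (NeZero.ne q) (NeZero.ne m)⟩
  have h1 : (((i - x).val : ℕ) : ZMod (q * m)) = i - x := ZMod.natCast_zmod_val _
  rw [← h1, map_natCast] at h0
  obtain ⟨k, hk⟩ := (ZMod.natCast_eq_zero_iff _ _).1 h0
  refine ⟨k, ?_⟩
  rw [hk] at h1
  push_cast at h1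
  have h2 : i = (i - x) + x := by ring
  rw [h2, ← h1]; ring

theorem red_surj [NeZero m] : Function.Surjective (red q m) := by
  intro y
  refine ⟨((y.val : ℕ) : ZMod (q * m)), ?_⟩
  rw [map_natCast, ZMod.natCast_zmod_val]

/-- the orbit of a cell -/
def pr (z : Gr q m n) : ZMod m × ZMod n := (red q m z.1, z.2)

/-- row move -/
def rowM (a : ZMod n → ZMod (q * m)) : Perm (Gr q m n) where
  toFun z := (z.1 + a z.2, z.2)
  invFun z := (z.1 - a z.2, z.2)
  left_inv z := by ext <;> simp
  right_inv z := by ext <;> simp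

/-- column move -/
def colM (b : ZMod m → ZMod n) : Perm (Gr q m n) where
  toFun z := (z.1, z.2 + b (red q m z.1))
  invFun z := (z.1, z.2 - b (red q m z.1))
  left_inv z := by ext <;> simp
  right_inv z := by ext <;> simp

@[simp] theorem rowM_apply (a : ZMod n → ZMod (q * m)) (z : Gr q m n) :
    rowM a z = (z.1 + a z.2, z.2) := rfl
@[simp] theorem colM_apply (b : ZMod m → ZMod n) (z : Gr q m n) :
    colM b z = (z.1, z.2 + b (red q m z.1)) := rfl
@[simp] theorem rowM_inv_apply (a : ZMod n → ZMod (q * m)) (z : Gr q m n) :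
    (rowM a)⁻¹ z = (z.1 - a z.2, z.2) := rfl
@[simp] theorem colM_inv_apply (b : ZMod m → ZMod n) (z : Gr q m n) :
    (colM b)⁻¹ z = (z.1, z.2 - b (red q m z.1)) := rfl

/-- the deck shift -/
def S (q m n : ℕ) : Perm (Gr q m n) := rowM (fun _ => (m : ZMod (q * m)))

/-- the group of shear words -/
def G (q m n : ℕ) : Subgroup (Perm (Gr q m n)) :=
  Subgroup.closure (Set.range rowM ∪ Set.range colM)

theorem rowM_mem (a : ZMod n → ZMod (q * m)) : (rowM a : Perm (Gr q m n)) ∈ G q m n :=
  Subgroup.subset_closure (Or.inl ⟨a, rfl⟩)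

theorem colM_mem (b : ZMod m → ZMod n) : (colM b : Perm (Gr q m n)) ∈ G q m n :=
  Subgroup.subset_closure (Or.inr ⟨b, rfl⟩)

theorem rowM_comm (a : ZMod n → ZMod (q * m)) : Commute (rowM a) (S q m n) := by
  ext z
  · simp [S]; ring_nf
  · simp [S]

theorem colM_comm (b : ZMod m → ZMod n) : Commute (colM b) (S q m n) := by
  ext z
  · simp [S]
  · simp [S, map_add, red_m]

theorem G_comm {g : Perm (Gr q m n)} (hg : g ∈ G q m n) : Commute g (S q m n) := by
  refine Subgroup.closure_induction (p := fun g _ => Commute g (S q m n)) ?_ ?_ ?_ ?_ hg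
  · rintro x (⟨a, rfl⟩ | ⟨b, rfl⟩)
    · exact rowM_comm a
    · exact colM_comm b
  · exact Commute.one_left _
  · intro x y _ _ hx hy
    exact hx.mul_left hy
  · intro x _ hx
    exact hx.inv_left

/-- reachability with fixed complement -/
def R (V : Set (ZMod m × ZMod n)) (b a : Gr q m n) : Prop :=
  ∃ g ∈ G q m n, (∀ z, pr z ∉ V → g z = z) ∧ g b = a

theorem R.symm {V : Set (ZMod m × ZMod n)} {b a : Gr q m n} (h : R V b a) : R V a b := by
  obtain ⟨g, hg, hf, rfl⟩ := h
  refine ⟨g⁻¹, inv_mem hg, fun z hz => ?_, by simp⟩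
  rw [Perm.inv_eq_iff_eq]
  exact (hf z hz).symm

theorem R.trans {V : Set (ZMod m × ZMod n)} {a b c : Gr q m n} (h : R V a b) (h' : R V b c) :
    R V a c := by
  obtain ⟨g, hg, hf, rfl⟩ := h
  obtain ⟨k, hk, hf', rfl⟩ := h'
  refine ⟨k * g, mul_mem hk hg, fun z hz => ?_, rfl⟩
  simp only [Perm.mul_apply]
  rw [hf z hz, hf' z hz]

theorem R.refl (V : Set (ZMod m × ZMod n)) (b : Gr q m n) : R V b b :=
  ⟨1, one_mem _, fun _ _ => rfl, rfl⟩

/-- the basic three-cycle -/
theorem tri (x x' : ZMod (q * m)) (y y' : ZMod n) (hx : red q m x ≠ red q m x') (hy : y ≠ y') :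
    ∃ g ∈ G q m n, (∀ z : Gr q m n, pr z ≠ (red q m x, y) → pr z ≠ (red q m x', y) →
      pr z ≠ (red q m x, y') → g z = z) ∧ g (x, y) = (x', y) ∧ g (x, y') = (x, y) := by
  classical
  set P : Perm (Gr q m n) := rowM (fun j => if j = y then x' - x else 0) with hP
  set C : Perm (Gr q m n) := colM (fun i => if i = red q m x then y' - y else 0) with hC
  have hPm : P ∈ G q m n := rowM_mem _
  have hCm : C ∈ G q m n := colM_mem _
  refine ⟨P * C * P⁻¹ * C⁻¹, mul_mem (mul_mem (mul_mem hPm hCm) (inv_mem hPm)) (inv_mem hCm),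
    ?_, ?_, ?_⟩
  · rintro ⟨i, j⟩ h1 h2 h3
    simp only [pr, ne_eq, Prod.mk.injEq, not_and] at h1 h2 h3
    simp only [Perm.mul_apply, hP, hC, colM_inv_apply, rowM_inv_apply, colM_apply, rowM_apply]
    by_cases hi : red q m i = red q m x
    · have hj1 : j ≠ y := h1 hi
      have hj3 : j ≠ y' := h3 hi
      have hj4 : j - (y' - y) ≠ y := by
        intro h; apply hj3; rw [sub_eq_iff_eq_add] at h; rw [h]; ring
      simp [hi, hj1, hj4]
    · by_cases hj : j = y
      · subst hj
        have h4 : red q m (i - (x' - x)) ≠ red q m x := by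
          intro h
          rw [map_sub, map_sub] at h
          have h5 : red q m i = red q m x' := by
            rw [sub_eq_iff_eq_add] at h
            rw [h]; ring
          exact h2 h5 rfl
        simp [hi]
        rw [map_sub, map_sub] at h4
        simp [h4]
      · simp [hi, hj]
  · simp only [Perm.mul_apply, hP, hC, colM_inv_apply, rowM_inv_apply, colM_apply, rowM_apply]
    have h1 : y - (y' - y) ≠ y := by
      intro h; apply hy
      have : y' - y = 0 := by
        have := sub_eq_self.1 h
        exact this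
      rw [sub_eq_zero] at this; exact this.symm
    simp [h1]
  · simp only [Perm.mul_apply, hP, hC, colM_inv_apply, rowM_inv_apply, colM_apply, rowM_apply]
    have h2 : red q m (x - (x' - x)) ≠ red q m x := by
      intro h
      rw [map_sub, map_sub] at h
      have := sub_eq_self.1 h
      rw [sub_eq_zero] at this
      exact hx this.symm
    rw [map_sub, map_sub] at h2
    simp [h2]

theorem tri_row {V : Set (ZMod m × ZMod n)} {x x' : ZMod (q * m)} {y y' : ZMod n}
    (hx : red q m x ≠ red q m x') (hy : y ≠ y') (h1 : (red q m x, y) ∈ V)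
    (h2 : (red q m x', y) ∈ V) (h3 : (red q m x, y') ∈ V) :
    R V ((x, y) : Gr q m n) (x', y) := by
  obtain ⟨g, hg, hf, h, _⟩ := tri x x' y y' hx hy
  refine ⟨g, hg, fun z hz => hf z ?_ ?_ ?_, h⟩
  · rintro h; exact hz (h ▸ h1)
  · rintro h; exact hz (h ▸ h2)
  · rintro h; exact hz (h ▸ h3)

theorem tri_col {V : Set (ZMod m × ZMod n)} {x x' : ZMod (q * m)} {y y' : ZMod n}
    (hx : red q m x ≠ red q m x') (hy : y ≠ y') (h1 : (red q m x, y) ∈ V)
    (h2 : (red q m x', y) ∈ V) (h3 : (red q m x, y') ∈ V) :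
    R V ((x, y') : Gr q m n) (x, y) := by
  obtain ⟨g, hg, hf, _, h⟩ := tri x x' y y' hx hy
  refine ⟨g, hg, fun z hz => hf z ?_ ?_ ?_, h⟩
  · rintro h; exact hz (h ▸ h1)
  · rintro h; exact hz (h ▸ h2)
  · rintro h; exact hz (h ▸ h3)

theorem conn (hm : 2 ≤ m) {V : Set (ZMod m × ZMod n)} {j0 : ZMod n}
    (hV : ∀ i, (i, j0) ∈ V) {a b : Gr q m n} (ha0 : a.2 ≠ j0) (ha : pr a ∈ V) (hb : pr b ∈ V) :
    R V b a := by
  have : Fact (1 < m) := ⟨hm⟩
  have h1ne : ∀ x : ZMod (q * m), red q m x ≠ red q m (x + 1) := by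
    intro x h
    rw [map_add, map_one] at h
    exact one_ne_zero (left_eq_add.1 h)
  -- every cell is connected with its projection to the row `j0`
  have key : ∀ c : Gr q m n, pr c ∈ V → R V c (c.1, j0) := by
    rintro ⟨x, y⟩ hc
    by_cases hy : y = j0
    · subst hy; exact R.refl V _
    · exact tri_col (h1ne x) (Ne.symm hy) (hV _) (hV _) hc
  obtain ⟨x', r⟩ := a
  -- all cells of the row `j0` are connected
  have hstep : ∀ x w : ZMod (q * m), red q m x = red q m x' → red q m x ≠ red q m w →
      R V ((x, j0) : Gr q m n) (w, j0) := by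
    intro x w hx hw
    refine tri_row hw (Ne.symm ha0) (hV _) (hV _) ?_
    rw [hx]; exact ha
  have hrow : ∀ x : ZMod (q * m), R V ((x, j0) : Gr q m n) (x', j0) := by
    intro x
    by_cases hx : red q m x = red q m x'
    · have h1 : R V ((x, j0) : Gr q m n) (x' + 1, j0) :=
        hstep x (x' + 1) hx (by rw [hx]; exact h1ne x')
      have h2 : R V ((x', j0) : Gr q m n) (x' + 1, j0) := hstep x' (x' + 1) rfl (h1ne x')
      exact h1.trans h2.symm
    · exact (hstep x' x rfl (fun h => hx h.symm)).symm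
  exact ((key b hb).trans (hrow b.1)).trans (key (x', r) ha).symm

theorem S_zpow (k : ℕ) (z : Gr q m n) : ((S q m n) ^ k) z = (z.1 + k * (m : ZMod (q * m)), z.2) := by
  induction k generalizing z with
  | zero => simp
  | succ k ih =>
    rw [pow_succ, Perm.mul_apply, ih]
    simp [S]
    ring

/-- **(ShA1)** every equivariant permutation agrees with a shear word outside one row. -/
theorem exists_word [NeZero q] (hm : 2 ≤ m) [NeZero n] (π : Perm (Gr q m n))
    (hπ : Commute π (S q m n)) (j0 : ZMod n) :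
    ∃ w ∈ G q m n, ∀ z : Gr q m n, z.2 ≠ j0 → w z = π z := by
  classical
  have hm0 : NeZero m := ⟨by omega⟩
  have key : ∀ F : Finset (ZMod m × ZMod n), (∀ o ∈ F, o.2 ≠ j0) →
      ∃ g ∈ G q m n, ∀ z : Gr q m n, pr z ∈ F → g (π z) = z := by
    intro F
    induction F using Finset.induction_on with
    | empty => intro _; exact ⟨1, one_mem _, by simp⟩
    | insert o F ho ih =>
      intro hF
      obtain ⟨g, hg, hgf⟩ := ih (fun o' ho' => hF o' (Finset.mem_insert_of_mem ho'))
      obtain ⟨x, hx⟩ := red_surj (q := q) (m := m) o.1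
      set a : Gr q m n := (x, o.2) with ha
      have hpa : pr a = o := by ext <;> simp [pr, ha, hx]
      have hpb : pr (g (π a)) ∉ F := by
        intro h
        have h1 := hgf _ h
        have h2 : π (g (π a)) = π a := g.injective h1
        have h3 : g (π a) = a := π.injective h2
        rw [h3, hpa] at h
        exact ho h
      obtain ⟨h, hh, hhf, hha⟩ := conn (q := q) (n := n) hm (V := {o | o ∉ F}) (j0 := j0)
        (fun i hi => hF _ (Finset.mem_insert_of_mem hi) rfl) (a := a) (b := g (π a))
        (hF o (Finset.mem_insert_self _ _)) (by rw [hpa]; exact ho) hpb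
      refine ⟨h * g, mul_mem hh hg, fun z hz => ?_⟩
      rw [Finset.mem_insert] at hz
      rcases hz with hz | hz
      · have hz' : red q m z.1 = red q m a.1 := by
          have := congrArg Prod.fst hz
          simpa [pr, ha, hx] using this
        obtain ⟨k, hk⟩ := red_eq hz'
        have hzS : z = ((S q m n) ^ k) a := by
          rw [S_zpow]
          ext
          · exact hk
          · have := congrArg Prod.snd hz
            simpa [pr, ha] using this
        have hc : Commute (h * g * π) ((S q m n) ^ k) :=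
          (((G_comm hh).mul_left (G_comm hg)).mul_left hπ).pow_right k
        have hc2 := congrArg (fun σ : Perm (Gr q m n) => σ a) hc.eq
        simp only [Perm.mul_apply] at hc2
        rw [hzS, Perm.mul_apply, hc2, hha]
      · rw [Perm.mul_apply, hgf z hz]
        exact hhf z (by simpa using hz)
  have : Fintype (ZMod m × ZMod n) := by
    have : Fintype (ZMod m) := ZMod.fintype m
    have : Fintype (ZMod n) := ZMod.fintype n
    infer_instance
  obtain ⟨g, hg, hgf⟩ := key (Finset.univ.filter (fun o => o.2 ≠ j0)) (by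
    intro o ho; exact (Finset.mem_filter.1 ho).2)
  refine ⟨g⁻¹, inv_mem hg, fun z hz => ?_⟩
  rw [Perm.inv_eq_iff_eq]
  exact (hgf z (Finset.mem_filter.2 ⟨Finset.mem_univ _, hz⟩)).symm

end Crest.Agent.R081.ShA
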