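import Crest.Agent.R081.TwDefs
import Crest.Agent.R081.ShA1

/-! Row 81, node SHEAR APPROXIMATION: measure preservation on the unit square, the good set, and the
exact translation property of words. -/

set_option autoImplicit false

namespace Crest.Agent.R081.ShB

open MeasureTheory Set Crest.Agent.R081.Tw Crest.Agent.R081.ShA
open scoped ContDiff ENNReal

/-- the unit square -/
def Sq : Set (ℝ × ℝ) := Ico (0:ℝ) 1 ×ˢ Ico (0:ℝ) 1

theorem measurableSet_Sq : MeasurableSet Sq := measurableSet_Ico.prod measurableSet_Ico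

theorem volume_Sq : volume Sq = 1 := by
  rw [Sq, Measure.volume_eq_prod, Measure.prod_prod]
  simp

/-- `ℤ²`-periodic sets -/
def PerSet (E : Set (ℝ × ℝ)) : Prop :=
  ∀ (y : ℝ × ℝ) (m n : ℤ), y + ((m : ℝ), (n : ℝ)) ∈ E ↔ y ∈ E

theorem per1 {A : Set ℝ} (hA : MeasurableSet A) (hper : ∀ (x : ℝ) (n : ℤ), x + n ∈ A ↔ x ∈ A)
    (a : ℝ) : volume (Ico (0:ℝ) 1 ∩ {x | x + a ∈ A}) = volume (Ico (0:ℝ) 1 ∩ A) := by
  have h1 : Ico (0:ℝ) 1 ∩ {x | x + a ∈ A} = (fun x => x + a) ⁻¹' (Ico a (a + 1) ∩ A) := by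
    ext x
    simp only [mem_inter_iff, mem_Ico, mem_setOf_eq, mem_preimage]
    constructor
    · rintro ⟨⟨h0, h1⟩, h2⟩; exact ⟨⟨by linarith, by linarith⟩, h2⟩
    · rintro ⟨⟨h0, h1⟩, h2⟩; exact ⟨⟨by linarith, by linarith⟩, h2⟩
  rw [h1, measure_preimage_add_right]
  have h2 : ∀ b : ℝ, volume (Ico b (b + 1) ∩ A) = volume (A ∩ Ioc b (b + 1)) := by
    intro b
    rw [inter_comm]
    exact measure_congr ((ae_eq_refl A).inter Ico_ae_eq_Ioc)
  have h3 := h2 0
  rw [zero_add] at h3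
  rw [h2, h3]
  have e0 := isAddFundamentalDomain_Ioc (T := (1:ℝ)) one_pos 0 volume
  have ea := isAddFundamentalDomain_Ioc (T := (1:ℝ)) one_pos a volume
  rw [zero_add] at e0
  refine ea.measure_set_eq e0 hA ?_
  rintro ⟨g, hg⟩
  obtain ⟨k, rfl⟩ := AddSubgroup.mem_zmultiples_iff.1 hg
  ext x
  simp only [mem_preimage]
  have : ((⟨k • (1:ℝ), hg⟩ : AddSubgroup.zmultiples (1:ℝ)) +ᵥ x : ℝ) = x + (k : ℝ) := by
    change k • (1:ℝ) + x = _
    simp [add_comm]
  rw [this]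
  exact hper x k

theorem measurable_act (q : ℕ) (w : Word) : Measurable (Word.act q w) :=
  (Word.contDiff_act q w).continuous.measurable

theorem act1 (q : ℕ) (s : Sh1) {E : Set (ℝ × ℝ)} (hE : MeasurableSet E) (hp : PerSet E) :
    volume (Sq ∩ s.act q ⁻¹' E) = volume (Sq ∩ E) := by
  have hsm : Measurable (s.act q) := (s.contDiff_act q).continuous.measurable
  have hm1 : MeasurableSet (Sq ∩ s.act q ⁻¹' E) := measurableSet_Sq.inter (hsm hE)
  have hm2 : MeasurableSet (Sq ∩ E) := measurableSet_Sq.inter hE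
  cases hd : s.dir
  · rw [Measure.volume_eq_prod, Measure.prod_apply_symm hm1, Measure.prod_apply_symm hm2]
    refine lintegral_congr fun y2 => ?_
    by_cases hy : y2 ∈ Ico (0:ℝ) 1
    · have hA : MeasurableSet {x : ℝ | (x, y2) ∈ E} := measurable_prodMk_right hE
      have h := per1 hA (fun x n => by
        have := hp (x, y2) n 0
        simpa using this) (s.f y2)
      have e1 : (fun x => (x, y2)) ⁻¹' (Sq ∩ s.act q ⁻¹' E)
          = Ico (0:ℝ) 1 ∩ {x | x + s.f y2 ∈ {x : ℝ | (x, y2) ∈ E}} := by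
        ext x
        simp [Sq, Sh1.act, hd, hy.1, hy.2]
      have e2 : (fun x => (x, y2)) ⁻¹' (Sq ∩ E) = Ico (0:ℝ) 1 ∩ {x : ℝ | (x, y2) ∈ E} := by
        ext x
        simp [Sq, hy.1, hy.2]
      rw [e1, e2, h]
    · have e1 : (fun x => (x, y2)) ⁻¹' (Sq ∩ s.act q ⁻¹' E) = ∅ := by
        ext x
        simp only [mem_preimage, mem_inter_iff, Sq, mem_prod, mem_empty_iff_false, iff_false]
        rintro ⟨⟨_, h⟩, _⟩; exact hy h
      have e2 : (fun x => (x, y2)) ⁻¹' (Sq ∩ E) = ∅ := by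
        ext x
        simp only [mem_preimage, mem_inter_iff, Sq, mem_prod, mem_empty_iff_false, iff_false]
        rintro ⟨⟨_, h⟩, _⟩; exact hy h
      rw [e1, e2]
  · rw [Measure.volume_eq_prod, Measure.prod_apply hm1, Measure.prod_apply hm2]
    refine lintegral_congr fun y1 => ?_
    by_cases hy : y1 ∈ Ico (0:ℝ) 1
    · have hA : MeasurableSet {x : ℝ | (y1, x) ∈ E} := measurable_prodMk_left hE
      have h := per1 hA (fun x n => by
        have := hp (y1, x) 0 n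
        simpa using this) (s.f (q * y1))
      have e1 : Prod.mk y1 ⁻¹' (Sq ∩ s.act q ⁻¹' E)
          = Ico (0:ℝ) 1 ∩ {x | x + s.f (q * y1) ∈ {x : ℝ | (y1, x) ∈ E}} := by
        ext x
        simp [Sq, Sh1.act, hd, hy.1, hy.2]
      have e2 : Prod.mk y1 ⁻¹' (Sq ∩ E) = Ico (0:ℝ) 1 ∩ {x : ℝ | (y1, x) ∈ E} := by
        ext x
        simp [Sq, hy.1, hy.2]
      rw [e1, e2, h]
    · have e1 : Prod.mk y1 ⁻¹' (Sq ∩ s.act q ⁻¹' E) = ∅ := by
        ext x
        simp only [mem_preimage, mem_inter_iff, Sq, mem_prod, mem_empty_iff_false, iff_false]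
        rintro ⟨⟨h, _⟩, _⟩; exact hy h
      have e2 : Prod.mk y1 ⁻¹' (Sq ∩ E) = ∅ := by
        ext x
        simp only [mem_preimage, mem_inter_iff, Sq, mem_prod, mem_empty_iff_false, iff_false]
        rintro ⟨⟨h, _⟩, _⟩; exact hy h
      rw [e1, e2]

/-- **(M)** words preserve the area of the torus. -/
theorem act_mp (q : ℕ) (w : Word) {E : Set (ℝ × ℝ)} (hE : MeasurableSet E) (hp : PerSet E) :
    volume (Sq ∩ Word.act q w ⁻¹' E) = volume (Sq ∩ E) := by
  induction w generalizing E with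
  | nil => rfl
  | cons s w ih =>
    have hsm : Measurable (s.act q) := (s.contDiff_act q).continuous.measurable
    have e : Word.act q (s :: w) ⁻¹' E = Word.act q w ⁻¹' (s.act q ⁻¹' E) := rfl
    rw [e, ih (hsm hE) ?_, act1 q s hE hp]
    intro y m n
    simp only [mem_preimage]
    rw [Sh1.act_add_int]
    exact hp _ m n

/-! ### the good set -/

theorem bad1 {N : ℕ} (hN : 0 < N) {d : ℝ} (hd : 0 ≤ d) :
    volume (Ico (0:ℝ) 1 ∩ {t | Int.fract ((N:ℝ) * t) ∉ Icc d (1 - d)}) ≤ ENNReal.ofReal (2 * d) := by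
  have hN' : (0:ℝ) < N := by exact_mod_cast hN
  have hsub : Ico (0:ℝ) 1 ∩ {t | Int.fract ((N:ℝ) * t) ∉ Icc d (1 - d)} ⊆
      ⋃ j ∈ Finset.range N, (Icc ((j:ℝ) / N) (((j:ℝ) + d) / N) ∪
        Icc (((j:ℝ) + 1 - d) / N) (((j:ℝ) + 1) / N)) := by
    rintro t ⟨⟨ht0, ht1⟩, ht⟩
    simp only [mem_setOf_eq, mem_Icc, not_and_or, not_le] at ht
    have hfl : (0:ℤ) ≤ ⌊(N:ℝ) * t⌋ := Int.floor_nonneg.2 (by positivity)
    obtain ⟨j, hj⟩ := Int.eq_ofNat_of_zero_le hfl
    have hjle : (j:ℝ) ≤ (N:ℝ) * t := by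
      have := Int.floor_le ((N:ℝ) * t); rw [hj] at this; exact_mod_cast this
    have hjlt : (N:ℝ) * t < (j:ℝ) + 1 := by
      have := Int.lt_floor_add_one ((N:ℝ) * t); rw [hj] at this; exact_mod_cast this
    have hfr : Int.fract ((N:ℝ) * t) = (N:ℝ) * t - j := by
      rw [Int.fract, hj]; simp
    have hjN : j < N := by
      have : (j:ℝ) < N := by nlinarith
      exact_mod_cast this
    refine mem_biUnion (Finset.mem_coe.2 (Finset.mem_range.2 hjN)) ?_
    rw [hfr] at ht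
    rcases ht with ht | ht
    · left
      constructor
      · rw [div_le_iff₀ hN']; linarith
      · rw [le_div_iff₀ hN']; linarith
    · right
      constructor
      · rw [div_le_iff₀ hN']; linarith
      · rw [le_div_iff₀ hN']; linarith
  refine (measure_mono hsub).trans ?_
  refine (measure_biUnion_finset_le _ _).trans ?_
  have hone : ∀ j ∈ Finset.range N, volume (Icc ((j:ℝ) / N) (((j:ℝ) + d) / N) ∪
        Icc (((j:ℝ) + 1 - d) / N) (((j:ℝ) + 1) / N)) ≤ ENNReal.ofReal (2 * d / N) := by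
    intro j _
    refine (measure_union_le _ _).trans ?_
    rw [Real.volume_Icc, Real.volume_Icc, ← ENNReal.ofReal_add]
    · apply le_of_eq; congr 1; field_simp; ring
    · rw [← sub_div]; apply div_nonneg _ hN'.le; linarith
    · rw [← sub_div]; apply div_nonneg _ hN'.le; linarith
  refine (Finset.sum_le_sum hone).trans ?_
  rw [Finset.sum_const, Finset.card_range, nsmul_eq_mul, ← ENNReal.ofReal_natCast,
    ← ENNReal.ofReal_mul (by positivity)]
  apply le_of_eq; congr 1; field_simp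

/-- the good set -/
def Good (N1 N2 : ℕ) (d : ℝ) (y : ℝ × ℝ) : Prop :=
  Int.fract ((N1:ℝ) * y.1) ∈ Icc d (1 - d) ∧ Int.fract ((N2:ℝ) * y.2) ∈ Icc d (1 - d)

theorem bad2 {N1 N2 : ℕ} (h1 : 0 < N1) (h2 : 0 < N2) {d : ℝ} (hd : 0 ≤ d) :
    volume (Sq ∩ {y | ¬ Good N1 N2 d y}) ≤ ENNReal.ofReal (4 * d) := by
  have hsub : Sq ∩ {y | ¬ Good N1 N2 d y} ⊆
      (Ico (0:ℝ) 1 ∩ {t | Int.fract ((N1:ℝ) * t) ∉ Icc d (1 - d)}) ×ˢ Ico (0:ℝ) 1 ∪
      Ico (0:ℝ) 1 ×ˢ (Ico (0:ℝ) 1 ∩ {t | Int.fract ((N2:ℝ) * t) ∉ Icc d (1 - d)}) := by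
    rintro y ⟨⟨hy1, hy2⟩, hy⟩
    simp only [mem_setOf_eq, Good, not_and_or] at hy
    rcases hy with hy | hy
    · left; exact ⟨⟨hy1, hy⟩, hy2⟩
    · right; exact ⟨hy1, ⟨hy2, hy⟩⟩
  refine (measure_mono hsub).trans ((measure_union_le _ _).trans ?_)
  rw [Measure.volume_eq_prod, Measure.prod_prod, Measure.prod_prod]
  simp only [Real.volume_Ico, sub_zero, ENNReal.ofReal_one, mul_one, one_mul]
  calc _ ≤ ENNReal.ofReal (2 * d) + ENNReal.ofReal (2 * d) := add_le_add (bad1 h1 hd) (bad1 h2 hd)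
    _ = ENNReal.ofReal (4 * d) := by
      rw [← ENNReal.ofReal_add (by linarith) (by linarith)]; congr 1; ring

end Crest.Agent.R081.ShB
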