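import Crest.Agent.R081.Sa3
import Crest.Agent.R081.ShA1
import Crest.Agent.R081.ShB1

/-! Row 81, node SHEAR APPROXIMATION, part 4: every element of helper74's group `ShA.G` is realised
by a shear word exactly on the good points. -/

set_option autoImplicit false

namespace Crest.Agent.R081.Sa

open scoped ContDiff
open Equiv Crest.Agent.R081.Tw

variable {q m n : ℕ} {d : ℝ}

theorem rz_rowM [NeZero q] [NeZero m] [NeZero n] (hd : 0 < d) (hd2 : d ≤ 1 / 2)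
    (e : ZMod n → ZMod (q * m)) : ∃ w, Rz q m n d w (ShA.rowM e) := by
  have : NeZero (q * m) := ⟨Nat.mul_ne_zero (NeZero.ne q) (NeZero.ne m)⟩
  have hN : (((q * m : ℕ) : ℝ)) ≠ 0 := by exact_mod_cast NeZero.ne (q * m)
  obtain ⟨f, h1, h2, h3⟩ := exists_row_fun hd hd2
    (fun j' : ZMod n => ((e j').val : ℝ) / ((q * m : ℕ) : ℝ))
  refine ⟨[⟨false, f, h1, h2⟩], ?_⟩
  intro y hy
  have e1 := h3 y.2 hy.l2 hy.u2
  have ea : Word.act q [⟨false, f, h1, h2⟩] y = (y.1 + f y.2, y.2) := by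
    simp [Sh1.act]
  rw [ea, e1]
  have e2 : ((q * m : ℕ) : ℝ) * (y.1 + ((e ((⌊(n : ℝ) * y.2⌋ : ℤ) : ZMod n)).val : ℝ) /
      ((q * m : ℕ) : ℝ)) = ((q * m : ℕ) : ℝ) * y.1 + ((e ((⌊(n : ℝ) * y.2⌋ : ℤ) : ZMod n)).val : ℕ) := by
    rw [mul_add, mul_div_cancel₀ _ hN]
  refine ⟨?_, ?_, rfl⟩
  · simp only [cell, ShA.rowM_apply]
    rw [e2, Int.floor_add_natCast]
    ext
    · push_cast
      rw [ZMod.natCast_zmod_val]
    · rfl
  · simp only
    rw [e2, Int.fract_add_natCast]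

theorem rz_colM [NeZero q] [NeZero m] [NeZero n] (hd : 0 < d) (hd2 : d ≤ 1 / 2)
    (e : ZMod m → ZMod n) : ∃ w, Rz q m n d w (ShA.colM e) := by
  have hN : ((n : ℝ)) ≠ 0 := by exact_mod_cast NeZero.ne n
  obtain ⟨f, h1, h2, h3⟩ := exists_row_fun hd hd2
    (fun c' : ZMod m => ((e c').val : ℝ) / (n : ℝ))
  refine ⟨[⟨true, f, h1, h2⟩], ?_⟩
  intro y hy
  have hq : (m : ℝ) * ((q : ℝ) * y.1) = ((q * m : ℕ) : ℝ) * y.1 := by push_cast; ring
  have e1 := h3 (q * y.1) (by rw [hq]; exact hy.l1) (by rw [hq]; exact hy.u1)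
  rw [hq] at e1
  have ecl : ((⌊((q * m : ℕ) : ℝ) * y.1⌋ : ℤ) : ZMod m) =
      ShA.red q m ((⌊((q * m : ℕ) : ℝ) * y.1⌋ : ℤ) : ZMod (q * m)) := by simp
  have ea : Word.act q [⟨true, f, h1, h2⟩] y = (y.1, y.2 + f (q * y.1)) := by
    simp [Sh1.act]
  rw [ea, e1, ecl]
  set E := e (ShA.red q m ((⌊((q * m : ℕ) : ℝ) * y.1⌋ : ℤ) : ZMod (q * m))) with hE
  have e2 : (n : ℝ) * (y.2 + (E.val : ℝ) / (n : ℝ)) = (n : ℝ) * y.2 + (E.val : ℕ) := by
    rw [mul_add, mul_div_cancel₀ _ hN]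
  refine ⟨?_, rfl, ?_⟩
  · simp only [cell, ShA.colM_apply]
    rw [e2, Int.floor_add_natCast, ← hE]
    ext
    · rfl
    · push_cast
      rw [ZMod.natCast_zmod_val]
  · simp only
    rw [e2, Int.fract_add_natCast]

/-- the realisable permutations -/
def HG (q m n : ℕ) (d : ℝ) : Subgroup (Perm (ZMod (q * m) × ZMod n)) where
  carrier := {σ | (∃ w, Rz q m n d w σ) ∧ (∃ w, Rz q m n d w (σ⁻¹ : Perm _))}
  mul_mem' := by
    rintro σ τ ⟨⟨w, hw⟩, ⟨w', hw'⟩⟩ ⟨⟨v, hv⟩, ⟨v', hv'⟩⟩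
    refine ⟨⟨w ++ v, hw.comp hv⟩, ⟨v' ++ w', ?_⟩⟩
    rw [mul_inv_rev]; exact hv'.comp hw'
  one_mem' := ⟨⟨[], Rz.nil⟩, ⟨[], by rw [inv_one]; exact Rz.nil⟩⟩
  inv_mem' := by
    rintro σ ⟨hw, hw'⟩
    exact ⟨hw', by rwa [inv_inv]⟩

theorem rowM_inv' (e : ZMod n → ZMod (q * m)) :
    (ShA.rowM e : Perm (ShA.Gr q m n))⁻¹ = ShA.rowM (-e) := by
  ext x : 1
  rw [ShA.rowM_inv_apply, ShA.rowM_apply]
  simp only [sub_eq_add_neg, Pi.neg_apply]

theorem colM_inv' (e : ZMod m → ZMod n) :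
    (ShA.colM e : Perm (ShA.Gr q m n))⁻¹ = ShA.colM (-e) := by
  ext x : 1
  rw [ShA.colM_inv_apply, ShA.colM_apply]
  simp only [sub_eq_add_neg, Pi.neg_apply]

/-- **Smoothing.** Every element of `ShA.G` is realised by a shear word exactly on the good
points (fractional parts are preserved). `cell` is 245's/846's `cellOf`. -/
theorem exists_word_G (hq : 0 < q) (hm : 0 < m) (hn : 0 < n) {g : Perm (ShA.Gr q m n)}
    (hg : g ∈ ShA.G q m n) (hd : 0 < d) (hd2 : d ≤ 1 / 2) :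
    ∃ w : Word, ∀ y, ShB.Good (q * m) n d y →
      cell q m n (Word.act q w y) = g (cell q m n y) ∧
      ShB.Good (q * m) n d (Word.act q w y) ∧
      Int.fract (((q * m : ℕ) : ℝ) * (Word.act q w y).1) = Int.fract (((q * m : ℕ) : ℝ) * y.1) ∧
      Int.fract ((n : ℝ) * (Word.act q w y).2) = Int.fract ((n : ℝ) * y.2) := by
  have : NeZero q := ⟨hq.ne'⟩
  have : NeZero m := ⟨hm.ne'⟩
  have : NeZero n := ⟨hn.ne'⟩
  have hle : ShA.G q m n ≤ HG q m n d := by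
    unfold ShA.G
    rw [Subgroup.closure_le]
    rintro x (⟨a, rfl⟩ | ⟨b, rfl⟩)
    · exact ⟨rz_rowM hd hd2 a, by rw [rowM_inv']; exact rz_rowM hd hd2 (-a)⟩
    · exact ⟨rz_colM hd hd2 b, by rw [colM_inv']; exact rz_colM hd hd2 (-b)⟩
  obtain ⟨w, hw⟩ := (hle hg).1
  refine ⟨w, fun y hy => ?_⟩
  have hy' : Good q m n d y := ⟨hy.1.1, hy.1.2, hy.2.1, hy.2.2⟩
  obtain ⟨h1, h2, h3⟩ := hw y hy'
  refine ⟨h1, ?_, h2, h3⟩
  exact ⟨h2 ▸ hy.1, h3 ▸ hy.2⟩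

/-- exact translation: same fractional parts and same cells imply equality modulo `ℤ²`
(the displacement is a multiple of the cell size). -/
theorem eq_of_cell [NeZero q] [NeZero m] [NeZero n] {y z : ℝ × ℝ}
    (hc : cell q m n y = cell q m n z)
    (h1 : Int.fract (((q * m : ℕ) : ℝ) * y.1) = Int.fract (((q * m : ℕ) : ℝ) * z.1))
    (h2 : Int.fract ((n : ℝ) * y.2) = Int.fract ((n : ℝ) * z.2)) :
    ∃ k l : ℤ, y = z + ((k : ℝ), (l : ℝ)) := by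
  have hN : (((q * m : ℕ) : ℝ)) ≠ 0 := by
    exact_mod_cast Nat.mul_ne_zero (NeZero.ne q) (NeZero.ne m)
  have hN2 : ((n : ℝ)) ≠ 0 := by exact_mod_cast NeZero.ne n
  simp only [cell, Prod.mk.injEq] at hc
  obtain ⟨k, hk⟩ := (zmod_int_eq_iff _ _).1 hc.1.symm
  obtain ⟨l, hl⟩ := (zmod_int_eq_iff _ _).1 hc.2.symm
  refine ⟨k, l, ?_⟩
  ext
  · have a1 : ((q * m : ℕ) : ℝ) * y.1 = ((q * m : ℕ) : ℝ) * (z.1 + k) := by
      have b1 := Int.floor_add_fract (((q * m : ℕ) : ℝ) * y.1)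
      have b2 := Int.floor_add_fract (((q * m : ℕ) : ℝ) * z.1)
      rw [hk] at b1
      rw [mul_add, ← b1, ← b2, h1]
      simp only [Int.floor_add_fract]
      push_cast
      have b3 := Int.floor_add_fract (((q * m : ℕ) : ℝ) * z.1)
      push_cast at b3
      linarith
    exact mul_left_cancel₀ hN a1
  · have a1 : (n : ℝ) * y.2 = (n : ℝ) * (z.2 + l) := by
      have b1 := Int.floor_add_fract ((n : ℝ) * y.2)
      have b2 := Int.floor_add_fract ((n : ℝ) * z.2)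
      rw [hl] at b1
      rw [mul_add, ← b1, h2]
      push_cast
      linarith
    exact mul_left_cancel₀ hN2 a1

end Crest.Agent.R081.Sa
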