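import Mathlib

/-! Row 81, node SHEAR APPROXIMATION: grid labels. -/

set_option autoImplicit false

namespace Crest.Agent.R081.ShD

/-- the label of a point of the plane in the `M1 × M2` grid of the torus -/
noncomputable def gl (M1 M2 : ℕ) (y : ℝ × ℝ) : ZMod M1 × ZMod M2 :=
  (((⌊(M1 : ℝ) * y.1⌋ : ℤ) : ZMod M1), ((⌊(M2 : ℝ) * y.2⌋ : ℤ) : ZMod M2))

end Crest.Agent.R081.ShD
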