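import Crest.Agent.R081.SaLab
import Crest.Agent.R081.ShDefs

/-!
Row 81, node SHEAR APPROXIMATION (helper245): volumes of grid cells and approximation of a
measurable equivariant labeling by an equivariant labeling of the cells of a fine grid (L1).
-/

set_option autoImplicit false
open MeasureTheory Set Crest.Agent.R081.ShD Crest.Agent.R081.SaL

namespace Crest.Agent.R081.SaG

section cells

variable {M N : ℕ} [NeZero M] [NeZero N]

theorem cell1 (i : ZMod M) :
    Ico (0:ℝ) 1 ∩ {x | ((⌊(M : ℝ) * x⌋ : ℤ) : ZMod M) = i}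
      = Ico ((i.val : ℝ) / M) (((i.val : ℝ) + 1) / M) := by
  have hM : (0:ℝ) < M := Nat.cast_pos.2 (Nat.pos_of_ne_zero (NeZero.ne M))
  ext x
  simp only [mem_inter_iff, mem_Ico, mem_setOf_eq]
  constructor
  · rintro ⟨⟨h0, h1⟩, h2⟩
    set k : ℤ := ⌊(M : ℝ) * x⌋ with hk
    have hk0 : 0 ≤ k := Int.floor_nonneg.2 (by positivity)
    have hk1 : k < M := by
      rw [hk, Int.floor_lt]
      push_cast
      nlinarith
    obtain ⟨j, hj⟩ := Int.eq_ofNat_of_zero_le hk0
    have hjM : j < M := by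
      have : (j : ℤ) < M := by rw [← hj]; exact hk1
      exact_mod_cast this
    have h3 : i.val = j := by
      rw [← h2, hj, Int.cast_natCast, ZMod.val_natCast, Nat.mod_eq_of_lt hjM]
    have h4 : ((j : ℤ) : ℝ) ≤ M * x := by
      rw [← hj, hk]; exact Int.floor_le _
    have h5 : (M : ℝ) * x < ((j : ℤ) : ℝ) + 1 := by
      rw [← hj, hk]; exact Int.lt_floor_add_one _
    rw [h3]
    push_cast at h4 h5
    rw [div_le_iff₀ hM, lt_div_iff₀ hM]
    exact ⟨by linarith, by linarith⟩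
  · rintro ⟨h1, h2⟩
    rw [div_le_iff₀ hM] at h1
    rw [lt_div_iff₀ hM] at h2
    have hv : i.val < M := ZMod.val_lt i
    have hv' : (i.val : ℝ) + 1 ≤ M := by exact_mod_cast hv
    have hv0 : (0:ℝ) ≤ i.val := Nat.cast_nonneg _
    refine ⟨⟨?_, ?_⟩, ?_⟩
    · by_contra hneg
      push Not at hneg
      nlinarith
    · by_contra hneg
      push Not at hneg
      nlinarith
    · have : ⌊(M : ℝ) * x⌋ = (i.val : ℤ) := by
        rw [Int.floor_eq_iff]
        push_cast
        exact ⟨by linarith, by linarith⟩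
      rw [this]
      simp

theorem cell2 (c : ZMod M × ZMod N) :
    (Ico (0:ℝ) 1 ×ˢ Ico (0:ℝ) 1) ∩ {y | gl M N y = c}
      = Ico ((c.1.val : ℝ) / M) (((c.1.val : ℝ) + 1) / M)
          ×ˢ Ico ((c.2.val : ℝ) / N) (((c.2.val : ℝ) + 1) / N) := by
  rw [← cell1 c.1, ← cell1 c.2]
  ext y
  simp only [mem_inter_iff, mem_prod, mem_setOf_eq, gl, Prod.ext_iff]
  tauto

theorem volume_cell (c : ZMod M × ZMod N) :
    volume ((Ico (0:ℝ) 1 ×ˢ Ico (0:ℝ) 1) ∩ {y | gl M N y = c})
      = ENNReal.ofReal (1 / ((M : ℝ) * N)) := by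
  have hM : (0:ℝ) < M := Nat.cast_pos.2 (Nat.pos_of_ne_zero (NeZero.ne M))
  have hN : (0:ℝ) < N := Nat.cast_pos.2 (Nat.pos_of_ne_zero (NeZero.ne N))
  rw [cell2, Measure.volume_eq_prod, Measure.prod_prod, Real.volume_Ico, Real.volume_Ico,
    ← ENNReal.ofReal_mul]
  · congr 1
    field_simp
    ring
  · rw [← sub_div, add_sub_cancel_left]; positivity

theorem measurable_gl1 (M : ℕ) (i : ZMod M) :
    MeasurableSet {x : ℝ | ((⌊(M : ℝ) * x⌋ : ℤ) : ZMod M) = i} := by
  have h : Measurable (fun x : ℝ => ⌊(M : ℝ) * x⌋) :=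
    Int.measurable_floor.comp (measurable_const.mul measurable_id)
  exact h (MeasurableSet.of_discrete (s := {k : ℤ | (k : ZMod M) = i}))

theorem measurableSet_gl (M N : ℕ) (c : ZMod M × ZMod N) :
    MeasurableSet {y : ℝ × ℝ | gl M N y = c} := by
  have h1 : MeasurableSet {y : ℝ × ℝ | ((⌊(M : ℝ) * y.1⌋ : ℤ) : ZMod M) = c.1} :=
    measurable_fst (measurable_gl1 M c.1)
  have h2 : MeasurableSet {y : ℝ × ℝ | ((⌊(N : ℝ) * y.2⌋ : ℤ) : ZMod N) = c.2} :=
    measurable_snd (measurable_gl1 N c.2)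
  convert h1.inter h2 using 1
  ext y
  simp [gl, Prod.ext_iff]

theorem measurableSet_gl' (P : ZMod M × ZMod N → Prop) :
    MeasurableSet {y : ℝ × ℝ | P (gl M N y)} := by
  have : {y : ℝ × ℝ | P (gl M N y)} = ⋃ c ∈ {c | P c}, {y : ℝ × ℝ | gl M N y = c} := by
    ext y; simp
  rw [this]
  exact MeasurableSet.biUnion (Set.toFinite _).countable (fun c _ => measurableSet_gl M N c)

/-- (V) volume of a union of cells -/
theorem volume_cells (P : ZMod M × ZMod N → Prop) [DecidablePred P] :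
    volume ((Ico (0:ℝ) 1 ×ˢ Ico (0:ℝ) 1) ∩ {y | P (gl M N y)})
      = ENNReal.ofReal ((Finset.univ.filter (fun c => P c)).card / ((M : ℝ) * N)) := by
  classical
  have h1 : (Ico (0:ℝ) 1 ×ˢ Ico (0:ℝ) 1) ∩ {y | P (gl M N y)}
      = ⋃ c ∈ Finset.univ.filter (fun c => P c),
          ((Ico (0:ℝ) 1 ×ˢ Ico (0:ℝ) 1) ∩ {y | gl M N y = c}) := by
    ext y; simp
  rw [h1, measure_biUnion_finset]
  · simp_rw [volume_cell]
    rw [Finset.sum_const, nsmul_eq_mul, ← ENNReal.ofReal_natCast, ← ENNReal.ofReal_mul (by positivity)]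
    congr 1
    ring
  · intro c _ c' _ hne
    rw [Function.onFun, Set.disjoint_left]
    rintro y ⟨_, h1⟩ ⟨_, h2⟩
    exact hne (h1.symm.trans h2)
  · intro c _
    exact (measurableSet_Ico.prod measurableSet_Ico).inter (measurableSet_gl M N c)

end cells

section period

/-- a set invariant under `y1 += 1/q` has `q` times the measure of its first sheet -/
theorem sheets_le (q : ℕ) (hq : 0 < q) (W : Set (ℝ × ℝ))
    (hW : ∀ y : ℝ × ℝ, (y.1 + 1 / (q : ℝ), y.2) ∈ W ↔ y ∈ W) :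
    volume ((Ico (0:ℝ) 1 ×ˢ Ico (0:ℝ) 1) ∩ W)
      ≤ q * volume ((Ico (0:ℝ) (1 / q) ×ˢ Ico (0:ℝ) 1) ∩ W) := by
  have hq' : (0:ℝ) < q := Nat.cast_pos.2 hq
  have hWn : ∀ (k : ℕ) (y : ℝ × ℝ), (y.1 + k / (q : ℝ), y.2) ∈ W ↔ y ∈ W := by
    intro k
    induction k with
    | zero => intro y; simp
    | succ k ih =>
      intro y
      rw [← ih y, ← hW (y.1 + k / (q : ℝ), y.2)]
      have : y.1 + ((k + 1 : ℕ) : ℝ) / q = y.1 + k / q + 1 / q := by push_cast; ring
      rw [this]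
  have hcov : (Ico (0:ℝ) 1 ×ˢ Ico (0:ℝ) 1) ∩ W
      ⊆ ⋃ k ∈ Finset.range q, (fun y : ℝ × ℝ => (-(k / (q:ℝ)), (0:ℝ)) + y) ⁻¹'
          ((Ico (0:ℝ) (1 / q) ×ˢ Ico (0:ℝ) 1) ∩ W) := by
    rintro ⟨y1, y2⟩ ⟨⟨⟨h1, h2⟩, h3⟩, hw⟩
    simp only at h1 h2 h3
    set k : ℕ := ⌊(q : ℝ) * y1⌋₊ with hk
    have hk1 : (k : ℝ) ≤ q * y1 := Nat.floor_le (by positivity)
    have hk2 : (q : ℝ) * y1 < k + 1 := Nat.lt_floor_add_one _
    have hkq : k < q := by
      rw [hk, Nat.floor_lt (by positivity)]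
      nlinarith
    simp only [mem_iUnion, mem_preimage, Finset.mem_range]
    refine ⟨k, hkq, ⟨?_, ?_⟩, ?_⟩
    · simp only [Prod.fst_add, mem_Ico]
      constructor
      · have : (k : ℝ) / q ≤ y1 := by rw [div_le_iff₀ hq']; linarith
        linarith
      · have : y1 < (k + 1) / q := by rw [lt_div_iff₀ hq']; linarith
        have e : ((k : ℝ) + 1) / q = k / q + 1 / q := by ring
        rw [e] at this
        linarith
    · simpa using h3
    · rw [← hWn k]
      convert hw using 2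
      · simp
      · simp
  refine (measure_mono hcov).trans ((measure_biUnion_finset_le _ _).trans ?_)
  have hpre : ∀ k : ℕ, volume ((fun y : ℝ × ℝ => (-(k / (q:ℝ)), (0:ℝ)) + y) ⁻¹'
          ((Ico (0:ℝ) (1 / q) ×ˢ Ico (0:ℝ) 1) ∩ W))
      = volume ((Ico (0:ℝ) (1 / q) ×ˢ Ico (0:ℝ) 1) ∩ W) := by
    intro k
    exact measure_preimage_add volume _ _
  simp_rw [hpre]
  rw [Finset.sum_const, Finset.card_range, nsmul_eq_mul]

end period

section approx

/-- the equivariant extension of a labeling of the first sheet -/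
theorem gl_add (q m n : ℕ) (hq : 0 < q) (y : ℝ × ℝ) :
    gl (q * m) n (y.1 + 1 / (q : ℝ), y.2) = gl (q * m) n y + ((m : ZMod (q * m)), 0) := by
  have hq' : (q : ℝ) ≠ 0 := by positivity
  ext1
  · simp only [gl, Prod.fst_add]
    have e : (((q * m : ℕ) : ℝ)) * (y.1 + 1 / (q : ℝ)) = ((q * m : ℕ) : ℝ) * y.1 + (m : ℤ) := by
      push_cast; field_simp
    rw [e, Int.floor_add_intCast]
    push_cast
    rfl
  · simp [gl]

theorem gl_first (q m n : ℕ) [NeZero q] [NeZero m] [NeZero n] (y : ℝ × ℝ)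
    (hy : y ∈ Ico (0:ℝ) (1 / q) ×ˢ Ico (0:ℝ) 1) :
    ∃ (i : Fin m), gl (q * m) n y = sh q m n (0, (i, (gl (q * m) n y).2)) := by
  have hq : (0:ℝ) < q := Nat.cast_pos.2 (Nat.pos_of_ne_zero (NeZero.ne q))
  have hm : (0:ℝ) < m := Nat.cast_pos.2 (Nat.pos_of_ne_zero (NeZero.ne m))
  obtain ⟨⟨h1, h2⟩, h3⟩ := hy
  set k : ℤ := ⌊((q * m : ℕ) : ℝ) * y.1⌋ with hk
  have hk0 : 0 ≤ k := Int.floor_nonneg.2 (by positivity)
  have hk1 : k < m := by
    rw [hk, Int.floor_lt]
    push_cast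
    rw [lt_div_iff₀ hq] at h2
    nlinarith
  obtain ⟨j, hj⟩ := Int.eq_ofNat_of_zero_le hk0
  have hjm : j < m := by
    have : (j : ℤ) < m := by rw [← hj]; exact hk1
    exact_mod_cast this
  refine ⟨⟨j, hjm⟩, ?_⟩
  rw [sh_apply]
  ext1
  · show ((⌊((q * m : ℕ) : ℝ) * y.1⌋ : ℤ) : ZMod (q * m)) = shv q m (0, ⟨j, hjm⟩)
    rw [← hk, hj, shv]
    simp
  · rfl

theorem cell_close {M N : ℕ} [NeZero M] [NeZero N] (y : ℝ × ℝ)
    (hy : y ∈ Ico (0:ℝ) 1 ×ˢ Ico (0:ℝ) 1) :
    dist y (((gl M N y).1.val : ℝ) / M, ((gl M N y).2.val : ℝ) / N) ≤ max (1 / (M : ℝ)) (1 / (N : ℝ)) := by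
  have h := (cell2 (gl M N y)).subset ⟨hy, rfl⟩
  obtain ⟨⟨h1, h2⟩, ⟨h3, h4⟩⟩ := h
  rw [Prod.dist_eq]
  rw [add_div] at h2 h4
  apply max_le_max
  · rw [Real.dist_eq, abs_le]
    constructor
    · have : (0:ℝ) ≤ 1 / M := by positivity
      simp only; linarith
    · simp only; linarith
  · rw [Real.dist_eq, abs_le]
    constructor
    · have : (0:ℝ) ≤ 1 / N := by positivity
      simp only; linarith
    · simp only; linarith

/-- (L1) a measurable equivariant labeling is close to an equivariant labeling of the cells of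
every sufficiently fine grid -/
theorem grid_approx {A : Type*} [Fintype A] [Nonempty A] (q : ℕ) (hq : 0 < q) (t : A → A)
    (ht : t^[q] = id) (Lam : ℝ × ℝ → A) (hm : ∀ a, MeasurableSet {y | Lam y = a})
    (he : ∀ y : ℝ × ℝ, Lam (y.1 + 1 / (q : ℝ), y.2) = t (Lam y)) {δ : ℝ} (hδ : 0 < δ) :
    ∃ M0 : ℕ, 0 < M0 ∧ ∀ m n : ℕ, M0 ≤ m → M0 ≤ n →
      ∃ P' : ZMod (q * m) × ZMod n → A,
        (∀ c, P' (c + ((m : ZMod (q * m)), 0)) = t (P' c)) ∧
        volume ((Ico (0:ℝ) 1 ×ˢ Ico (0:ℝ) 1) ∩ {y | Lam y ≠ P' (gl (q * m) n y)})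
          ≤ ENNReal.ofReal δ := by
  classical
  haveI : NeZero q := ⟨hq.ne'⟩
  have hq' : (0:ℝ) < q := Nat.cast_pos.2 hq
  set e : A ≃ Fin (Fintype.card A) := Fintype.equivFin A with hedef
  set Q : Set (ℝ × ℝ) := Ico (0:ℝ) 1 ×ˢ Ico (0:ℝ) 1 with hQ
  have hQm : MeasurableSet Q := measurableSet_Ico.prod measurableSet_Ico
  set H : ℝ × ℝ → ℝ := Q.indicator (fun y => ((e (Lam y)).val : ℝ)) with hH
  have hQv : volume Q < ⊤ := by
    rw [hQ, Measure.volume_eq_prod, Measure.prod_prod]; simp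
  have hmeas : Measurable (fun y => ((e (Lam y)).val : ℝ)) := by
    have : (fun y => ((e (Lam y)).val : ℝ))
        = fun y => ∑ a : A, ({y | Lam y = a}.indicator (fun _ => ((e a).val : ℝ)) y) := by
      ext y
      rw [Finset.sum_eq_single (Lam y)]
      · simp
      · intro b _ hb
        simp [Set.indicator, hb.symm]
      · simp
    rw [this]
    exact Finset.measurable_sum _ (fun a _ => Measurable.indicator
      (measurable_const : Measurable (fun _ : ℝ × ℝ => ((e a).val : ℝ))) (hm a))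
  have hHi : Integrable H := by
    rw [hH, integrable_indicator_iff hQm]
    refine Measure.integrableOn_of_bounded (M := (Fintype.card A : ℝ)) hQv.ne
      hmeas.aestronglyMeasurable (Filter.Eventually.of_forall (fun y => ?_))
    rw [Real.norm_eq_abs, abs_of_nonneg (Nat.cast_nonneg _)]
    exact_mod_cast (e (Lam y)).isLt.le
  obtain ⟨φ, hφc, hφi, hφcont, hφint⟩ :=
    hHi.exists_hasCompactSupport_integral_sub_le (ε := δ / (4 * q)) (by positivity)
  have huc := hφc.uniformContinuous_of_continuous hφcont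
  rw [Metric.uniformContinuous_iff] at huc
  obtain ⟨ρ, hρ, hρ2⟩ := huc (1 / 4) (by norm_num)
  obtain ⟨M0, hM0⟩ := exists_nat_gt (1 / ρ)
  have hM0pos : 0 < M0 := by
    have : (0:ℝ) < M0 := lt_trans (by positivity) hM0
    exact_mod_cast this
  refine ⟨M0, hM0pos, fun m n hmm hnn => ?_⟩
  haveI : NeZero m := ⟨by omega⟩
  haveI : NeZero n := ⟨by omega⟩
  -- first sheet labels
  let corner : ZMod (q * m) × ZMod n → ℝ × ℝ :=
    fun c => ((c.1.val : ℝ) / ((q * m : ℕ) : ℝ), (c.2.val : ℝ) / n)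
  let P0 : Fin m × ZMod n → A := fun y =>
    if h : ∃ a : A, |((e a).val : ℝ) - φ (corner (sh q m n (0, y)))| < 1 / 2 then h.choose
    else Classical.arbitrary A
  let P' : ZMod (q * m) × ZMod n → A := fun c =>
    t^[((sh q m n).symm c).1.val] (P0 ((sh q m n).symm c).2)
  have htmod : ∀ a b : ℕ, a ≡ b [MOD q] → t^[a] = t^[b] := by
    have h1 : ∀ a : ℕ, t^[a] = t^[a % q] := by
      intro a
      conv_lhs => rw [← Nat.mod_add_div a q]
      rw [Function.iterate_add, Function.iterate_mul, ht, Function.iterate_id, Function.comp_id]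
    intro a b hab
    rw [h1 a, h1 b, hab]
  have hP'e : ∀ f y, P' (sh q m n (f, y)) = t^[f.val] (P0 y) := by
    intro f y; simp only [P', Equiv.symm_apply_apply]
  have hP' : ∀ c, P' (c + ((m : ZMod (q * m)), 0)) = t (P' c) := by
    intro c
    obtain ⟨⟨f, y⟩, rfl⟩ := (sh q m n).surjective c
    rw [← sh_add, hP'e, hP'e, ← Function.iterate_succ_apply' t]
    have h1 : (((f + 1).val : ℕ) : ZMod q) = ((f.val + 1 : ℕ) : ZMod q) := by simp
    rw [htmod _ _ ((ZMod.natCast_eq_natCast_iff _ _ q).1 h1)]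
  have htinj : Function.Injective t := by
    obtain ⟨k, rfl⟩ : ∃ k, q = k + 1 := ⟨q - 1, by omega⟩
    intro a b hab
    have h1 : t^[k + 1] a = t^[k + 1] b := by
      rw [Function.iterate_succ_apply, Function.iterate_succ_apply, hab]
    rw [ht] at h1
    exact h1
  refine ⟨P', hP', ?_⟩
  -- the bad set is invariant
  set W : Set (ℝ × ℝ) := {y | Lam y ≠ P' (gl (q * m) n y)} with hW
  have hWinv : ∀ y : ℝ × ℝ, (y.1 + 1 / (q : ℝ), y.2) ∈ W ↔ y ∈ W := by
    intro y
    simp only [hW, mem_setOf_eq]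
    rw [he, gl_add q m n hq, hP', not_iff_not]
    exact htinj.eq_iff
  refine (sheets_le q hq W hWinv).trans ?_
  -- the first sheet
  have hsub : (Ico (0:ℝ) (1 / q) ×ˢ Ico (0:ℝ) 1) ∩ W ⊆ {y | 1 / 4 ≤ ‖H y - φ y‖} := by
    rintro y ⟨hy, hw⟩
    by_contra hcon
    rw [mem_setOf_eq, not_le] at hcon
    apply hw
    have h1q : 1 / (q : ℝ) ≤ 1 := by
      rw [div_le_one hq']; exact_mod_cast hq
    have hyQ : y ∈ Q := ⟨⟨hy.1.1, hy.1.2.trans_le h1q⟩, hy.2⟩
    obtain ⟨i, hi⟩ := gl_first q m n y hy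
    have hclose := cell_close (M := q * m) (N := n) y hyQ
    have hmax : max (1 / ((q * m : ℕ) : ℝ)) (1 / (n : ℝ)) < ρ := by
      have hM0' : (0:ℝ) < M0 := Nat.cast_pos.2 hM0pos
      have hr : 1 / (M0 : ℝ) < ρ := by
        rw [div_lt_iff₀ hM0']; rw [div_lt_iff₀ hρ] at hM0; linarith
      apply max_lt
      · refine lt_of_le_of_lt (one_div_le_one_div_of_le hM0' ?_) hr
        have : M0 ≤ q * m := hmm.trans (Nat.le_mul_of_pos_left m hq)
        exact_mod_cast this
      · refine lt_of_le_of_lt (one_div_le_one_div_of_le hM0' ?_) hr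
        exact_mod_cast hnn
    have h2 := hρ2 (lt_of_le_of_lt hclose hmax)
    have hHy : H y = ((e (Lam y)).val : ℝ) := by
      rw [hH, Set.indicator_of_mem hyQ]
    rw [Real.norm_eq_abs, hHy] at hcon
    rw [Real.dist_eq] at h2
    have h3 : |((e (Lam y)).val : ℝ) - φ (corner (gl (q * m) n y))| < 1 / 2 := by
      have : ((e (Lam y)).val : ℝ) - φ (corner (gl (q * m) n y))
          = (((e (Lam y)).val : ℝ) - φ y) + (φ y - φ (corner (gl (q * m) n y))) := by ring
      rw [this]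
      refine (abs_add_le _ _).trans_lt ?_
      have h2' : |φ y - φ (corner (gl (q * m) n y))| < 1 / 4 := h2
      linarith
    have hP0 : P' (gl (q * m) n y) = P0 (i, (gl (q * m) n y).2) := by
      conv_lhs => rw [hi]
      rw [hP'e]
      simp
    rw [hP0]
    have hex : ∃ a : A, |((e a).val : ℝ)
        - φ (corner (sh q m n (0, (i, (gl (q * m) n y).2))))| < 1 / 2 := ⟨Lam y, by rw [← hi]; exact h3⟩
    have hP0e : P0 (i, (gl (q * m) n y).2) = hex.choose := by
      simp only [P0]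
      rw [dif_pos hex]
    rw [hP0e]
    have hgen : ∀ a0 : A, |((e a0).val : ℝ)
        - φ (corner (sh q m n (0, (i, (gl (q * m) n y).2))))| < 1 / 2 → Lam y = a0 := by
      intro a0 h4
      rw [← hi] at h4
      have h5 : |((e (Lam y)).val : ℝ) - ((e a0).val : ℝ)| < 1 := by
        have : ((e (Lam y)).val : ℝ) - ((e a0).val : ℝ)
            = (((e (Lam y)).val : ℝ) - φ (corner (gl (q * m) n y)))
              - (((e a0).val : ℝ) - φ (corner (gl (q * m) n y))) := by ring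
        rw [this]
        refine (abs_sub _ _).trans_lt ?_
        linarith
      have h6 : (e (Lam y)).val = (e a0).val := by
        have h7 : |(((e (Lam y)).val : ℤ) : ℝ) - (((e a0).val : ℤ) : ℝ)| < 1 := by
          push_cast; exact h5
        rw [← Int.cast_sub, ← Int.cast_abs] at h7
        have h8 : |((e (Lam y)).val : ℤ) - ((e a0).val : ℤ)| < 1 := by exact_mod_cast h7
        rw [Int.abs_lt_one_iff] at h8
        omega
      exact e.injective (Fin.ext h6)
    exact hgen _ hex.choose_spec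
  have hint : Integrable (fun y => ‖H y - φ y‖) := (hHi.sub hφint).norm
  have hch := mul_meas_ge_le_integral_of_nonneg (μ := volume)
    (Filter.Eventually.of_forall (fun y => norm_nonneg (H y - φ y))) hint (1 / 4)
  have hfin : volume {y | 1 / 4 ≤ ‖H y - φ y‖} ≠ ⊤ := by
    have := hint.measure_ge_lt_top (ε := 1 / 4) (by norm_num)
    exact this.ne
  have h1 : volume.real {y | 1 / 4 ≤ ‖H y - φ y‖} ≤ δ / q := by
    have : δ / (4 * q) = (1 / 4) * (δ / q) := by field_simp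
    rw [this] at hφi
    linarith
  calc (q : ENNReal) * volume ((Ico (0:ℝ) (1 / q) ×ˢ Ico (0:ℝ) 1) ∩ W)
      ≤ q * volume {y | 1 / 4 ≤ ‖H y - φ y‖} := by gcongr
    _ = q * ENNReal.ofReal (volume.real {y | 1 / 4 ≤ ‖H y - φ y‖}) := by
        rw [measureReal_def, ENNReal.ofReal_toReal hfin]
    _ ≤ q * ENNReal.ofReal (δ / q) := by gcongr
    _ = ENNReal.ofReal δ := by
        rw [← ENNReal.ofReal_natCast, ← ENNReal.ofReal_mul (by positivity)]
        congr 1
        field_simp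

end approx

end Crest.Agent.R081.SaG
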