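import Mathlib
import Crest.Agent.R081.ShA1

/-! Row 81, node SHEAR APPROXIMATION, label part 1: an equivariant label function on the fine grid is
realised, up to the defect of its distribution, by an equivariant permutation followed by the coarse
grid label. -/

set_option autoImplicit false

namespace Crest.Agent.R081.ShLab

open Equiv Crest.Agent.R081.ShA

/-- matching of two finite label functions by a permutation -/
theorem exists_perm_match {Y L : Type*} [Fintype Y] [DecidableEq Y] [Fintype L] [DecidableEq L]
    (a b : Y → L) : ∃ σ : Perm Y,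
      (Finset.univ.filter (fun y => b (σ y) ≠ a y)).card ≤
        ∑ l, ((Finset.univ.filter (fun y => a y = l)).card
          - (Finset.univ.filter (fun y => b y = l)).card) := by
  classical
  obtain ⟨σ, -, hσ⟩ := Finset.exists_min_image (Finset.univ : Finset (Perm Y))
    (fun σ => (Finset.univ.filter (fun y => b (σ y) ≠ a y)).card) ⟨1, Finset.mem_univ _⟩
  refine ⟨σ, ?_⟩
  have key : ∀ l, (∃ y, a y = l ∧ b (σ y) ≠ l) → ∀ y', b (σ y') = l → a y' = l := by
    rintro l ⟨y, hy, hby⟩ y' hy'
    by_contra hne
    have hyy : y ≠ y' := by rintro rfl; exact hne hy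
    have h1 := hσ (σ * swap y y') (Finset.mem_univ _)
    have h2 : (Finset.univ.filter (fun x => b ((σ * swap y y') x) ≠ a x)).card <
        (Finset.univ.filter (fun x => b (σ x) ≠ a x)).card := by
      apply Finset.card_lt_card
      rw [Finset.ssubset_iff_of_subset]
      · refine ⟨y, Finset.mem_filter.2 ⟨Finset.mem_univ _, by rw [hy]; exact hby⟩, ?_⟩
        intro hmem
        apply (Finset.mem_filter.1 hmem).2
        rw [Perm.mul_apply, swap_apply_left, hy, hy']
      · intro x hx
        rw [Finset.mem_filter] at hx ⊢
        refine ⟨Finset.mem_univ _, ?_⟩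
        by_cases hxy : x = y
        · subst hxy; rw [hy]; exact hby
        · by_cases hxy' : x = y'
          · subst hxy'; rw [hy']; exact fun h => hne h.symm
          · have := hx.2
            rwa [Perm.mul_apply, swap_apply_of_ne_of_ne hxy hxy'] at this
    omega
  rw [Finset.card_eq_sum_card_fiberwise (f := a) (t := Finset.univ) (fun x _ => Finset.mem_univ _)]
  refine Finset.sum_le_sum fun l _ => ?_
  rw [Finset.filter_filter]
  by_cases h : ∃ y, a y = l ∧ b (σ y) ≠ l
  · have hk := key l h
    have e1 : (Finset.univ.filter (fun y => b y = l)).card =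
        (Finset.univ.filter (fun y => b (σ y) = l)).card := by
      symm
      apply Finset.card_bij (fun y _ => σ y)
      · intro y hy; simpa using hy
      · intro y _ y' _ h; exact σ.injective h
      · intro y hy; exact ⟨σ.symm y, by simpa using hy, by simp⟩
    have e2 : (Finset.univ.filter (fun y => a y = l)).card =
        (Finset.univ.filter (fun y => b (σ y) ≠ a y ∧ a y = l)).card +
        (Finset.univ.filter (fun y => b (σ y) = l)).card := by
      rw [← Finset.card_union_of_disjoint]
      · congr 1
        ext y
        simp only [Finset.mem_filter, Finset.mem_univ, true_and, Finset.mem_union]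
        constructor
        · intro hy
          by_cases hb : b (σ y) = l
          · exact Or.inr hb
          · exact Or.inl ⟨by rw [hy]; exact hb, hy⟩
        · rintro (⟨_, h⟩ | h)
          · exact h
          · exact hk y h
      · rw [Finset.disjoint_left]
        intro y hy hy'
        simp only [Finset.mem_filter, Finset.mem_univ, true_and] at hy hy'
        exact hy.1 (hy'.trans hy.2.symm)
    omega
  · push Not at h
    have : (Finset.univ.filter (fun y => b (σ y) ≠ a y ∧ a y = l)) = ∅ := by
      rw [Finset.filter_eq_empty_iff]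
      rintro y - ⟨h1, h2⟩
      exact h1 (by rw [h y h2, h2])
    rw [this]; simp

section sheets

variable {q m n : ℕ}

/-- the map "sheet, orbit" of an equivariant sheet function is bijective -/
theorem bij_sheet [NeZero q] [NeZero m] [NeZero n] (F : Gr q m n → ZMod q)
    (hF : ∀ z : Gr q m n, F (z.1 + (m : ZMod (q * m)), z.2) = F z + 1) :
    Function.Bijective (fun z : Gr q m n => (F z, pr z)) := by
  have : NeZero (q * m) := ⟨Nat.mul_ne_zero (NeZero.ne q) (NeZero.ne m)⟩
  have hFk : ∀ (k : ℕ) (z : Gr q m n), F (z.1 + k * (m : ZMod (q * m)), z.2) = F z + k := by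
    intro k
    induction k with
    | zero => intro z; simp
    | succ k ih =>
      intro z
      have h1 := hF (z.1 + k * (m : ZMod (q * m)), z.2)
      rw [ih] at h1
      simp only at h1
      have e : z.1 + ((k + 1 : ℕ) : ZMod (q * m)) * (m : ZMod (q * m)) =
          z.1 + k * (m : ZMod (q * m)) + m := by push_cast; ring
      rw [e, h1]; push_cast; ring
  have hinj : Function.Injective (fun z : Gr q m n => (F z, pr z)) := by
    rintro z z' h
    simp only [Prod.mk.injEq] at h
    obtain ⟨h1, h2⟩ := h
    have h3 : red q m z.1 = red q m z'.1 := congrArg Prod.fst h2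
    have h4 : z.2 = z'.2 := by
      have := congrArg (Prod.snd (α := ZMod m)) h2
      simpa [pr] using this
    obtain ⟨k, hk⟩ := red_eq h3
    have h5 : z = (z'.1 + k * (m : ZMod (q * m)), z'.2) := by
      ext
      · exact hk
      · exact h4
    have h6 : F z = F z' + k := by rw [h5, hFk]
    rw [h1] at h6
    have h7 : ((k : ℕ) : ZMod q) = 0 := left_eq_add.1 h6
    rw [ZMod.natCast_eq_zero_iff] at h7
    obtain ⟨l, rfl⟩ := h7
    rw [h5]
    ext
    · simp only
      have : (((q * l : ℕ) : ZMod (q * m))) * (m : ZMod (q * m)) = 0 := by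
        have e : (((q * l : ℕ) : ZMod (q * m))) * (m : ZMod (q * m)) =
            ((q * m : ℕ) : ZMod (q * m)) * l := by push_cast; ring
        rw [e, ZMod.natCast_self, zero_mul]
      rw [this, add_zero]
    · rfl
  have hc : Fintype.card (Gr q m n) = Fintype.card (ZMod q × (ZMod m × ZMod n)) := by
    simp [Gr, Fintype.card_prod, ZMod.card, mul_assoc]
  exact (Fintype.bijective_iff_injective_and_card _).2 ⟨hinj, hc⟩

/-- the sheet of a label -/
def sheet (q c : ℕ) (s : ZMod (q * c)) : ZMod q := ((s.val / c : ℕ) : ZMod q)

theorem sheet_add [NeZero q] {c : ℕ} [NeZero c] (s : ZMod (q * c)) :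
    sheet q c (s + (c : ZMod (q * c))) = sheet q c s + 1 := by
  have hqc : NeZero (q * c) := ⟨Nat.mul_ne_zero (NeZero.ne q) (NeZero.ne c)⟩
  have hc0 : 0 < c := Nat.pos_of_ne_zero (NeZero.ne c)
  have h1 : ((s.val + c : ℕ) : ZMod (q * c)) = s + c := by push_cast; rw [ZMod.natCast_zmod_val]
  rw [sheet, sheet, ← h1, ZMod.val_natCast]
  have h2 : (s.val + c) % (q * c) / c = ((s.val + c) / c) % q := by
    generalize s.val + c = x
    rw [mul_comm q c, Nat.mod_mul_right_div_self]
  rw [h2, ZMod.natCast_mod, Nat.add_div_right _ hc0]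
  push_cast; rfl

theorem sheet_red_inj [NeZero q] {c : ℕ} [NeZero c] {s t : ZMod (q * c)}
    (h1 : sheet q c s = sheet q c t) (h2 : red q c s = red q c t) : s = t := by
  have hqc : NeZero (q * c) := ⟨Nat.mul_ne_zero (NeZero.ne q) (NeZero.ne c)⟩
  have hc0 : 0 < c := Nat.pos_of_ne_zero (NeZero.ne c)
  have h3 : s.val % c = t.val % c := by
    have e1 : red q c s = ((s.val : ℕ) : ZMod c) := by
      conv_lhs => rw [← ZMod.natCast_zmod_val s]
      rw [map_natCast]
    have e2 : red q c t = ((t.val : ℕ) : ZMod c) := by
      conv_lhs => rw [← ZMod.natCast_zmod_val t]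
      rw [map_natCast]
    rw [e1, e2, ZMod.natCast_eq_natCast_iff] at h2
    exact h2
  have h4 : s.val / c = t.val / c := by
    have hs : s.val / c < q := by
      rw [Nat.div_lt_iff_lt_mul hc0]; exact ZMod.val_lt s
    have ht : t.val / c < q := by
      rw [Nat.div_lt_iff_lt_mul hc0]; exact ZMod.val_lt t
    rw [sheet, sheet, ZMod.natCast_eq_natCast_iff] at h1
    rw [Nat.ModEq, Nat.mod_eq_of_lt hs, Nat.mod_eq_of_lt ht] at h1
    exact h1
  have h5 : s.val = t.val := by
    rw [← Nat.div_add_mod s.val c, ← Nat.div_add_mod t.val c, h3, h4]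
  exact ZMod.val_injective _ h5

end sheets

end Crest.Agent.R081.ShLab
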