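import Mathlib
import Crest.Agent.R081.ShLab1

/-! Row 81, node SHEAR APPROXIMATION, label part 2: matching two equivariant label functions of the
fine grid by an equivariant permutation. -/

set_option autoImplicit false

namespace Crest.Agent.R081.ShLab

open Equiv Crest.Agent.R081.ShA

variable {q c m n M : ℕ}

/-- the base of a label -/
def base (q c M : ℕ) (s : ZMod (q * c) × ZMod M) : ZMod c × ZMod M := (red q c s.1, s.2)

theorem sheet_equiv [NeZero q] [NeZero c] {P : Gr q m n → ZMod (q * c) × ZMod M}
    (hP : ∀ z : Gr q m n, P (z.1 + (m : ZMod (q * m)), z.2) = P z + ((c : ZMod (q * c)), 0))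
    (z : Gr q m n) : sheet q c (P (z.1 + (m : ZMod (q * m)), z.2)).1 = sheet q c (P z).1 + 1 := by
  rw [hP, Prod.fst_add]; exact sheet_add _

theorem base_equiv {P : Gr q m n → ZMod (q * c) × ZMod M}
    (hP : ∀ z : Gr q m n, P (z.1 + (m : ZMod (q * m)), z.2) = P z + ((c : ZMod (q * c)), 0))
    (k : ℕ) (z : Gr q m n) :
    base q c M (P (z.1 + k * (m : ZMod (q * m)), z.2)) = base q c M (P z) := by
  induction k with
  | zero => simp
  | succ k ih =>
    have e : z.1 + ((k + 1 : ℕ) : ZMod (q * m)) * (m : ZMod (q * m)) =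
        z.1 + k * (m : ZMod (q * m)) + m := by push_cast; ring
    have h := hP (z.1 + k * (m : ZMod (q * m)), z.2)
    simp only at h
    rw [e, h, ← ih]
    ext
    · simp [base]
    · simp [base]

theorem base_pr [NeZero q] [NeZero m] {P : Gr q m n → ZMod (q * c) × ZMod M}
    (hP : ∀ z : Gr q m n, P (z.1 + (m : ZMod (q * m)), z.2) = P z + ((c : ZMod (q * c)), 0))
    {z z' : Gr q m n} (h : pr z = pr z') : base q c M (P z) = base q c M (P z') := by
  have h3 : red q m z.1 = red q m z'.1 := congrArg Prod.fst h
  have h4 : z.2 = z'.2 := by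
    have := congrArg (Prod.snd (α := ZMod m)) h
    simpa [pr] using this
  obtain ⟨k, hk⟩ := red_eq h3
  have h5 : z = (z'.1 + k * (m : ZMod (q * m)), z'.2) := by
    ext
    · exact hk
    · exact h4
  rw [h5]
  exact base_equiv hP k z'

theorem card_pr [NeZero q] [NeZero m] [NeZero n] (F : Gr q m n → ZMod q)
    (hF : ∀ z : Gr q m n, F (z.1 + (m : ZMod (q * m)), z.2) = F z + 1)
    (R : ZMod m × ZMod n → Prop) [DecidablePred R] :
    (Finset.univ.filter (fun z : Gr q m n => R (pr z))).card =
      q * (Finset.univ.filter R).card := by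
  classical
  have hb := bij_sheet F hF
  have h1 : (Finset.univ.filter (fun z : Gr q m n => R (pr z))).card =
      ((Finset.univ : Finset (ZMod q)) ×ˢ (Finset.univ.filter R)).card := by
    refine Finset.card_bij (fun z _ => (F z, pr z)) ?_ ?_ ?_
    · intro z hz
      simpa using hz
    · intro z _ z' _ h
      exact hb.1 h
    · rintro ⟨r, o⟩ hro
      obtain ⟨z, hz⟩ := hb.2 (r, o)
      refine ⟨z, ?_, hz⟩
      simp only [Prod.mk.injEq] at hz
      simp only [Finset.mem_product, Finset.mem_univ, true_and, Finset.mem_filter] at hro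
      simp only [Finset.mem_filter, Finset.mem_univ, true_and]
      rw [hz.2]; exact hro
  rw [h1, Finset.card_product, Finset.card_univ, ZMod.card]

theorem card_base [NeZero q] [NeZero m] [NeZero n] [NeZero c] [NeZero M]
    (P : Gr q m n → ZMod (q * c) × ZMod M) (l : ZMod c × ZMod M) :
    (Finset.univ.filter (fun z : Gr q m n => base q c M (P z) = l)).card =
      ∑ s ∈ Finset.univ.filter (fun s => base q c M s = l),
        (Finset.univ.filter (fun z : Gr q m n => P z = s)).card := by
  classical
  rw [Finset.card_eq_sum_card_fiberwise (f := P)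
    (t := Finset.univ.filter (fun s => base q c M s = l))]
  · refine Finset.sum_congr rfl fun s hs => ?_
    congr 1
    ext z
    simp only [Finset.mem_filter, Finset.mem_univ, true_and] at hs ⊢
    constructor
    · exact fun h => h.2
    · rintro rfl; exact ⟨hs, rfl⟩
  · intro z hz
    simpa using hz

/-- **L2**: two equivariant label functions are matched by an equivariant permutation up to the
difference of their distributions. -/
theorem exists_perm_lab [NeZero q] [NeZero m] [NeZero n] [NeZero c] [NeZero M]
    (P Z : Gr q m n → ZMod (q * c) × ZMod M)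
    (hP : ∀ z : Gr q m n, P (z.1 + (m : ZMod (q * m)), z.2) = P z + ((c : ZMod (q * c)), 0))
    (hZ : ∀ z : Gr q m n, Z (z.1 + (m : ZMod (q * m)), z.2) = Z z + ((c : ZMod (q * c)), 0)) :
    ∃ π : Perm (Gr q m n), Commute π (S q m n) ∧
      ((Finset.univ.filter (fun z => Z (π z) ≠ P z)).card : ℝ) ≤
        ∑ s, |((Finset.univ.filter (fun z => P z = s)).card : ℝ) -
          (Finset.univ.filter (fun z => Z z = s)).card| := by
  classical
  have hFP := sheet_equiv hP
  have hFZ := sheet_equiv hZ
  let eP : Gr q m n ≃ ZMod q × (ZMod m × ZMod n) := Equiv.ofBijective _ (bij_sheet (fun z => sheet q c (P z).1) hFP)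
  let eZ : Gr q m n ≃ ZMod q × (ZMod m × ZMod n) := Equiv.ofBijective _ (bij_sheet (fun z => sheet q c (Z z).1) hFZ)
  have hePr : ∀ z, (eP z).2 = pr z := fun z => rfl
  have heZr : ∀ z, (eZ z).2 = pr z := fun z => rfl
  have heP1 : ∀ z, (eP z).1 = sheet q c (P z).1 := fun z => rfl
  have heZ1 : ∀ z, (eZ z).1 = sheet q c (Z z).1 := fun z => rfl
  let bP : ZMod m × ZMod n → ZMod c × ZMod M := fun o => base q c M (P (eP.symm (0, o)))
  let bZ : ZMod m × ZMod n → ZMod c × ZMod M := fun o => base q c M (Z (eZ.symm (0, o)))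
  have hbP : ∀ z, base q c M (P z) = bP (pr z) := by
    intro z
    apply base_pr hP
    rw [← hePr (eP.symm (0, pr z)), Equiv.apply_symm_apply]
  have hbZ : ∀ z, base q c M (Z z) = bZ (pr z) := by
    intro z
    apply base_pr hZ
    rw [← heZr (eZ.symm (0, pr z)), Equiv.apply_symm_apply]
  obtain ⟨σ, hσ⟩ := exists_perm_match bP bZ
  let π : Perm (Gr q m n) := (eP.trans ((Equiv.refl (ZMod q)).prodCongr σ)).trans eZ.symm
  have hπ : ∀ z, eZ (π z) = (sheet q c (P z).1, σ (pr z)) := by
    intro z
    simp only [π, Equiv.trans_apply, Equiv.apply_symm_apply]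
    rfl
  have hπ1 : ∀ z, sheet q c (Z (π z)).1 = sheet q c (P z).1 := by
    intro z
    rw [← heZ1, hπ]
  have hπ2 : ∀ z, pr (π z) = σ (pr z) := by
    intro z
    rw [← heZr, hπ]
  have hiff : ∀ z, Z (π z) ≠ P z ↔ bZ (σ (pr z)) ≠ bP (pr z) := by
    intro z
    rw [← hπ2, ← hbZ, ← hbP, not_iff_not]
    constructor
    · intro h; rw [h]
    · intro h
      have h1 : red q c (Z (π z)).1 = red q c (P z).1 := congrArg Prod.fst h
      have h2 : (Z (π z)).2 = (P z).2 := congrArg (Prod.snd (α := ZMod c)) h
      exact Prod.ext (sheet_red_inj (hπ1 z) h1) h2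
  refine ⟨π, ?_, ?_⟩
  · -- commutation
    have hprS : ∀ z : Gr q m n, pr (z.1 + (m : ZMod (q * m)), z.2) = pr z := by
      intro z; ext <;> simp [pr, red_m]
    ext1 z
    simp only [Perm.mul_apply]
    apply eZ.injective
    have hS : ∀ z : Gr q m n, S q m n z = (z.1 + (m : ZMod (q * m)), z.2) := fun z => rfl
    rw [hπ, hS, hS]
    have e1 : eZ ((π z).1 + (m : ZMod (q * m)), (π z).2) = ((eZ (π z)).1 + 1, (eZ (π z)).2) := by
      ext1
      · exact hFZ (π z)
      · exact hprS (π z)
    rw [e1, hπ, hFP, hprS]
  · have hc1 : (Finset.univ.filter (fun z => Z (π z) ≠ P z)).card =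
        q * (Finset.univ.filter (fun o => bZ (σ o) ≠ bP o)).card := by
      rw [← card_pr (fun z => sheet q c (P z).1) hFP]
      congr 1
      ext z
      simp only [Finset.mem_filter, Finset.mem_univ, true_and]
      exact hiff z
    have hcP : ∀ l, q * (Finset.univ.filter (fun o => bP o = l)).card =
        ∑ s ∈ Finset.univ.filter (fun s => base q c M s = l),
          (Finset.univ.filter (fun z : Gr q m n => P z = s)).card := by
      intro l
      rw [← card_base, ← card_pr (fun z => sheet q c (P z).1) hFP]
      congr 1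
      ext z
      simp only [Finset.mem_filter, Finset.mem_univ, true_and]
      rw [hbP]
    have hcZ : ∀ l, q * (Finset.univ.filter (fun o => bZ o = l)).card =
        ∑ s ∈ Finset.univ.filter (fun s => base q c M s = l),
          (Finset.univ.filter (fun z : Gr q m n => Z z = s)).card := by
      intro l
      rw [← card_base, ← card_pr (fun z => sheet q c (Z z).1) hFZ]
      congr 1
      ext z
      simp only [Finset.mem_filter, Finset.mem_univ, true_and]
      rw [hbZ]
    have h3 : ((Finset.univ.filter (fun z => Z (π z) ≠ P z)).card : ℝ) ≤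
        ∑ l, |∑ s ∈ Finset.univ.filter (fun s => base q c M s = l),
          (((Finset.univ.filter (fun z => P z = s)).card : ℝ) -
          (Finset.univ.filter (fun z => Z z = s)).card)| := by
      have h4 : (Finset.univ.filter (fun z => Z (π z) ≠ P z)).card ≤
          ∑ l, (q * (Finset.univ.filter (fun o => bP o = l)).card -
            q * (Finset.univ.filter (fun o => bZ o = l)).card) := by
        rw [hc1]
        refine (Nat.mul_le_mul_left q hσ).trans ?_
        rw [Finset.mul_sum]
        refine Finset.sum_le_sum fun l _ => ?_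
        rw [Nat.mul_sub]
      refine (Nat.cast_le.2 h4).trans ?_
      rw [Nat.cast_sum]
      refine Finset.sum_le_sum fun l _ => ?_
      rw [Finset.sum_sub_distrib, ← Nat.cast_sum, ← Nat.cast_sum, ← hcP, ← hcZ]
      generalize q * (Finset.univ.filter (fun o => bP o = l)).card = x
      generalize q * (Finset.univ.filter (fun o => bZ o = l)).card = y
      rcases le_total y x with h | h
      · rw [Nat.cast_sub h]; exact le_abs_self _
      · rw [Nat.sub_eq_zero_of_le h]; simp
    refine h3.trans ?_
    calc _ ≤ ∑ l, ∑ s ∈ Finset.univ.filter (fun s => base q c M s = l),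
          |((Finset.univ.filter (fun z => P z = s)).card : ℝ) -
          (Finset.univ.filter (fun z => Z z = s)).card| :=
          Finset.sum_le_sum fun l _ => Finset.abs_sum_le_sum_abs _ _
      _ = _ := Finset.sum_fiberwise _ _ _

end Crest.Agent.R081.ShLab
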