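import Mathlib
import Crest.Agent.R081.ShDefs
import Crest.Agent.R081.ShLab2
import Crest.Agent.R081.Sa4
import Crest.Agent.R081.SaGrid

/-! Row 81, node SHEAR APPROXIMATION, label part 3: the final statement `exists_word_label` from the
volume of cells (V), the approximation of label functions by grid labels (L1), the matching (L2), the
combinatorics of shears (ShA) and the smoothing (Sa). -/

set_option autoImplicit false

namespace Crest.Agent.R081.ShLab

open Equiv Crest.Agent.R081.ShA Crest.Agent.R081.ShD Crest.Agent.R081.ShB MeasureTheory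

/-- floors in a refined grid -/
theorem val_div_floor {N N0 K : ℕ} (hN : N = N0 * K) (hN0 : 0 < N0) (hK : 0 < K) (x : ℝ) :
    ((((((⌊(N : ℝ) * x⌋ : ℤ) : ZMod N)).val / K : ℕ)) : ZMod N0) =
      ((⌊(N0 : ℝ) * x⌋ : ℤ) : ZMod N0) := by
  have hK' : (0:ℝ) < K := by exact_mod_cast hK
  set a : ℤ := ⌊(N : ℝ) * x⌋ with ha
  set b : ℤ := ⌊(N0 : ℝ) * x⌋ with hb
  have hNr : (N : ℝ) = N0 * K := by rw [hN]; push_cast; ring
  have h1 : (K : ℤ) * b ≤ a := by
    rw [ha, Int.le_floor]
    have := Int.floor_le ((N0 : ℝ) * x)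
    rw [← hb] at this
    push_cast
    rw [hNr]; nlinarith
  have h2 : a < (K : ℤ) * b + K := by
    have h3 := Int.lt_floor_add_one ((N0 : ℝ) * x)
    rw [← hb] at h3
    have h4 := Int.floor_le ((N : ℝ) * x)
    rw [← ha, hNr] at h4
    have : (a : ℝ) < K * b + K := by nlinarith
    exact_mod_cast this
  obtain ⟨r, hr⟩ := Int.eq_ofNat_of_zero_le (show 0 ≤ a - K * b by linarith)
  have hrK : r < K := by
    have : (r : ℤ) < K := by rw [← hr]; linarith
    exact_mod_cast this
  have hN0' : (0 : ℤ) < N0 := by exact_mod_cast hN0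
  obtain ⟨v, hv⟩ := Int.eq_ofNat_of_zero_le (Int.emod_nonneg b hN0'.ne')
  have hvN : v < N0 := by
    have : (v : ℤ) < N0 := by rw [← hv]; exact Int.emod_lt_of_pos b hN0'
    exact_mod_cast this
  have hdiv := Int.emod_add_mul_ediv b N0
  rw [hv] at hdiv
  generalize hw : b / (N0 : ℤ) = w at hdiv
  have e1 : ((a : ℤ) : ZMod N) = ((K * v + r : ℕ) : ZMod N) := by
    have : a = (K * v + r : ℕ) + (N : ℤ) * w := by
      rw [hN]
      push_cast
      have : a = K * b + r := by linarith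
      rw [this, ← hdiv]
      ring
    rw [this]
    push_cast
    simp
  have hlt : K * v + r < N := by
    rw [hN]
    calc K * v + r < K * v + K := by omega
      _ = K * (v + 1) := by ring
      _ ≤ K * N0 := Nat.mul_le_mul_left K hvN
      _ = N0 * K := by ring
  rw [e1, ZMod.val_natCast_of_lt hlt]
  have h5 : (K * v + r) / K = v := by
    rw [Nat.mul_add_div hK, Nat.div_eq_of_lt hrK, add_zero]
  rw [h5]
  have h6 : ((b : ℤ) : ZMod N0) = ((v : ℤ) : ZMod N0) := by
    rw [← hdiv]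
    push_cast
    simp
  rw [h6]
  simp

theorem gl_surj {M N : ℕ} [NeZero M] [NeZero N] (s : ZMod M × ZMod N) :
    gl M N ((s.1.val : ℝ) / M, (s.2.val : ℝ) / N) = s := by
  have hM : (M : ℝ) ≠ 0 := by exact_mod_cast NeZero.ne M
  have hN : (N : ℝ) ≠ 0 := by exact_mod_cast NeZero.ne N
  ext1
  · simp only [gl]
    rw [mul_div_cancel₀ _ hM, Int.floor_natCast, Int.cast_natCast, ZMod.natCast_zmod_val]
  · simp only [gl]
    rw [mul_div_cancel₀ _ hN, Int.floor_natCast, Int.cast_natCast, ZMod.natCast_zmod_val]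

theorem vol_ne_top (S : Set (ℝ × ℝ)) : volume (Sq ∩ S) ≠ ⊤ :=
  ((measure_mono Set.inter_subset_left).trans_lt (by rw [volume_Sq]; exact ENNReal.one_lt_top)).ne

theorem v_mono {S T : Set (ℝ × ℝ)} (h : Sq ∩ S ⊆ T) :
    (volume (Sq ∩ S)).toReal ≤ (volume (Sq ∩ T)).toReal :=
  ENNReal.toReal_mono (vol_ne_top T) (measure_mono (fun _ hy => ⟨hy.1, h hy⟩))

theorem v_union (S T : Set (ℝ × ℝ)) :
    (volume (Sq ∩ (S ∪ T))).toReal ≤ (volume (Sq ∩ S)).toReal + (volume (Sq ∩ T)).toReal := by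
  rw [← ENNReal.toReal_add (vol_ne_top S) (vol_ne_top T)]
  refine ENNReal.toReal_mono (ENNReal.add_ne_top.2 ⟨vol_ne_top S, vol_ne_top T⟩) ?_
  rw [Set.inter_union_distrib_left]
  exact measure_union_le _ _

theorem v_cells {M N : ℕ} [NeZero M] [NeZero N] (P : ZMod M × ZMod N → Prop) [DecidablePred P] :
    (volume (Sq ∩ {y | P (gl M N y)})).toReal =
      (Finset.univ.filter (fun c => P c)).card / ((M : ℝ) * N) := by
  have h := SaG.volume_cells P
  rw [Sq, h, ENNReal.toReal_ofReal (by positivity)]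

theorem v_fiber {L : Type*} [Fintype L] [DecidableEq L] (f : ℝ × ℝ → L)
    (hf : ∀ s, MeasurableSet {y | f y = s}) (D : Set (ℝ × ℝ)) :
    ∑ s, (volume (Sq ∩ ({y | f y = s} ∩ D))).toReal = (volume (Sq ∩ D)).toReal := by
  rw [← ENNReal.toReal_sum (fun s _ => vol_ne_top _)]
  congr 1
  have h := sum_measure_preimage_singleton (μ := volume.restrict (Sq ∩ D)) (f := f) Finset.univ
    (fun s _ => hf s)
  rw [Finset.coe_univ, Set.preimage_univ, Measure.restrict_apply_univ] at h
  rw [← h]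
  refine Finset.sum_congr rfl fun s _ => ?_
  have hfs : MeasurableSet (f ⁻¹' {s}) := hf s
  rw [Measure.restrict_apply hfs]
  congr 1
  ext y
  constructor
  · rintro ⟨h1, h2, h3⟩; exact ⟨h2, h1, h3⟩
  · rintro ⟨h2, h1, h3⟩; exact ⟨h1, h2, h3⟩

/-- **SHEAR APPROXIMATION, label form.** Every measurable equivariant label function whose
distribution is nearly uniform is realised, off a small set, by a shear word followed by the
`M1 × M2` grid label. -/
theorem exists_word_label {q M1 M2 : ℕ} [NeZero M1] [NeZero M2] (hq : 0 < q) (hd : q ∣ M1)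
    (Lam : ℝ × ℝ → ZMod M1 × ZMod M2) (hm : ∀ s, MeasurableSet {y | Lam y = s})
    (he : ∀ y : ℝ × ℝ, Lam (y.1 + 1 / (q : ℝ), y.2) = Lam y + (((M1 / q : ℕ) : ZMod M1), 0))
    {eta : ℝ} (hdist : ∑ s, |(volume (Sq ∩ {y | Lam y = s})).toReal - 1 / ((M1 : ℝ) * M2)| ≤ eta)
    {eps : ℝ} (heps : 0 < eps) :
    ∃ w : Tw.Word,
      (volume (Sq ∩ {y | gl M1 M2 (Tw.Word.act q w y) ≠ Lam y})).toReal ≤ eta + eps := by
  classical
  obtain ⟨c, rfl⟩ := hd
  have hc : c ≠ 0 := by rintro rfl; exact NeZero.ne (q * 0) (mul_zero q)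
  have : NeZero c := ⟨hc⟩
  have : NeZero q := ⟨hq.ne'⟩
  have hc0 : 0 < c := Nat.pos_of_ne_zero hc
  have hM20 : 0 < M2 := Nat.pos_of_ne_zero (NeZero.ne M2)
  rw [Nat.mul_div_cancel_left c hq] at he
  set e : ℝ := eps / 8 with hedef
  have he0 : 0 < e := by positivity
  obtain ⟨M0, hM0, happ⟩ := SaG.grid_approx q hq
    (fun s : ZMod (q * c) × ZMod M2 => s + ((c : ZMod (q * c)), 0)) (by
      rw [add_right_iterate]
      funext s
      have : q • ((c : ZMod (q * c)), (0 : ZMod M2)) = 0 := by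
        apply Prod.ext
        · change q • (c : ZMod (q * c)) = 0
          have := ZMod.natCast_self (q * c)
          rw [nsmul_eq_mul]; rw [Nat.cast_mul] at this; exact this
        · change q • (0 : ZMod M2) = 0
          simp
      simp [this]) Lam hm he he0
  -- the size of the grid
  obtain ⟨K0, hK0⟩ := exists_nat_gt (1 / e)
  set K : ℕ := M0 + K0 + 2 with hK
  have hKpos : 0 < K := by omega
  have hKe : 1 / (K : ℝ) ≤ e := by
    rw [div_le_iff₀ (by exact_mod_cast hKpos)]
    have h1 : (K0 : ℝ) ≤ K := by exact_mod_cast (by omega : K0 ≤ K)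
    rw [div_lt_iff₀ he0] at hK0
    nlinarith
  have : NeZero K := ⟨hKpos.ne'⟩
  set m : ℕ := c * K with hmdef
  set n : ℕ := M2 * K with hndef
  have hm0 : 0 < m := Nat.mul_pos hc0 hKpos
  have hn0 : 0 < n := Nat.mul_pos hM20 hKpos
  have : NeZero m := ⟨hm0.ne'⟩
  have : NeZero n := ⟨hn0.ne'⟩
  have hKm : K ≤ m := Nat.le_mul_of_pos_left K hc0
  have hKn : K ≤ n := Nat.le_mul_of_pos_left K hM20
  obtain ⟨P', hP'e, hP'v⟩ := happ m n (by omega) (by omega)
  -- the coarse label
  let Z : Gr q m n → ZMod (q * c) × ZMod M2 := fun z =>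
    (((z.1.val / K : ℕ) : ZMod (q * c)), ((z.2.val / K : ℕ) : ZMod M2))
  have hZgl : ∀ y, Z (gl (q * m) n y) = gl (q * c) M2 y := by
    intro y
    ext1
    · exact val_div_floor (by rw [hmdef, mul_assoc]) (Nat.mul_pos hq hc0) hKpos y.1
    · exact val_div_floor hndef hM20 hKpos y.2
  have hZe : ∀ z : Gr q m n, Z (z.1 + (m : ZMod (q * m)), z.2) = Z z + ((c : ZMod (q * c)), 0) := by
    intro z
    have hz := gl_surj (M := q * m) (N := n) z
    set y : ℝ × ℝ := ((z.1.val : ℝ) / ((q * m : ℕ) : ℝ), (z.2.val : ℝ) / (n : ℝ)) with hy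
    have h1 : (z.1 + (m : ZMod (q * m)), z.2) = gl (q * m) n (y.1 + 1 / (q : ℝ), y.2) := by
      rw [SaG.gl_add q m n hq, hz]
      ext <;> simp
    rw [h1, hZgl, SaG.gl_add q c M2 hq, ← hZgl, hz]
  have hPe : ∀ z : Gr q m n, P' (z.1 + (m : ZMod (q * m)), z.2) = P' z + ((c : ZMod (q * c)), 0) := by
    intro z
    have h := hP'e z
    have h1 : (z.1 + (m : ZMod (q * m)), z.2) = z + ((m : ZMod (q * m)), 0) := by
      ext <;> simp
    rw [h1]; exact h
  obtain ⟨π, hπS, hπ⟩ := exists_perm_lab P' Z hPe hZe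
  obtain ⟨g, hg, hgπ⟩ := ShA.exists_word (q := q) (m := m) (n := n) (by omega) π hπS 0
  obtain ⟨w, hw⟩ := Sa.exists_word_G hq hm0 hn0 hg (d := min (e / 4) (1 / 2))
    (lt_min (by positivity) (by norm_num)) (min_le_right _ _)
  refine ⟨w, ?_⟩
  have hd0 : (0:ℝ) ≤ min (e / 4) (1 / 2) := le_min (by positivity) (by norm_num)
  have hbad : Sq ∩ {y | gl (q * c) M2 (Tw.Word.act q w y) ≠ Lam y} ⊆
      ((({y | ¬ Good (q * m) n (min (e / 4) (1 / 2)) y} ∪ {y | (gl (q * m) n y).2 = 0}) ∪
        {y | Z (π (gl (q * m) n y)) ≠ P' (gl (q * m) n y)}) ∪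
        {y | Lam y ≠ P' (gl (q * m) n y)}) := by
    rintro y ⟨_, hy⟩
    by_contra hcon
    simp only [Set.mem_union, Set.mem_ofPred_eq, not_or, not_not] at hcon
    obtain ⟨⟨⟨h1, h2⟩, h3⟩, h4⟩ := hcon
    apply hy
    have h5 := (hw y h1).1
    have h6 : gl (q * m) n (Tw.Word.act q w y) = g (gl (q * m) n y) := h5
    rw [← hZgl, h6, hgπ _ h2, h3, h4]
  refine (v_mono hbad).trans ((v_union _ _).trans ?_)
  have hb1 : (volume (Sq ∩ {y | ¬ Good (q * m) n (min (e / 4) (1 / 2)) y})).toReal ≤ e := by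
    have := bad2 (Nat.mul_pos hq hm0) hn0 hd0
    refine (ENNReal.toReal_mono ENNReal.ofReal_ne_top this).trans ?_
    rw [ENNReal.toReal_ofReal (by positivity)]
    have := min_le_left (e / 4) (1 / 2 : ℝ)
    linarith
  have hb2 : (volume (Sq ∩ {y | (gl (q * m) n y).2 = 0})).toReal ≤ e := by
    rw [v_cells (fun z : ZMod (q * m) × ZMod n => z.2 = 0)]
    have h1 : (Finset.univ.filter (fun z : ZMod (q * m) × ZMod n => z.2 = 0)).card = q * m := by
      have : (Finset.univ.filter (fun z : ZMod (q * m) × ZMod n => z.2 = 0)) =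
          Finset.univ ×ˢ {0} := by
        ext z
        simp only [Finset.mem_filter, Finset.mem_univ, true_and, Finset.mem_product,
          Finset.mem_singleton]
      rw [this, Finset.card_product, Finset.card_univ, ZMod.card, Finset.card_singleton, mul_one]
    rw [h1]
    have hqm : ((q * m : ℕ) : ℝ) ≠ 0 := by positivity
    rw [div_mul_eq_div_div, div_self hqm]
    refine le_trans ?_ hKe
    exact one_div_le_one_div_of_le (by exact_mod_cast hKpos) (by exact_mod_cast hKn)
  have hb4 : (volume (Sq ∩ {y | Lam y ≠ P' (gl (q * m) n y)})).toReal ≤ e := by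
    refine (ENNReal.toReal_mono ENNReal.ofReal_ne_top hP'v).trans ?_
    rw [ENNReal.toReal_ofReal he0.le]
  have hb3 : (volume (Sq ∩ {y | Z (π (gl (q * m) n y)) ≠ P' (gl (q * m) n y)})).toReal ≤
      2 * e + eta := by
    rw [v_cells (fun z : ZMod (q * m) × ZMod n => Z (π z) ≠ P' z)]
    have hpos : (0:ℝ) < ((q * m : ℕ) : ℝ) * n := by positivity
    have hA : ∀ s, (volume (Sq ∩ {y | P' (gl (q * m) n y) = s})).toReal =
        ((Finset.univ.filter (fun z => P' z = s)).card : ℝ) / (((q * m : ℕ) : ℝ) * n) :=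
      fun s => v_cells (fun z : ZMod (q * m) × ZMod n => P' z = s)
    have hB : ∀ s, 1 / (((q * c : ℕ) : ℝ) * M2) =
        ((Finset.univ.filter (fun z => Z z = s)).card : ℝ) / (((q * m : ℕ) : ℝ) * n) := by
      intro s
      rw [← v_cells (fun z : ZMod (q * m) × ZMod n => Z z = s)]
      simp_rw [hZgl]
      rw [v_cells (fun z : ZMod (q * c) × ZMod M2 => z = s)]
      rw [Finset.filter_eq']
      simp
    have hfib1 := v_fiber (fun y => P' (gl (q * m) n y))
      (fun s => SaG.measurableSet_gl' (fun z => P' z = s)) {y | Lam y ≠ P' (gl (q * m) n y)}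
    have hfib2 := v_fiber Lam hm {y | Lam y ≠ P' (gl (q * m) n y)}
    have hs : ∀ s, |(volume (Sq ∩ {y | P' (gl (q * m) n y) = s})).toReal -
        (volume (Sq ∩ {y | Lam y = s})).toReal| ≤
        (volume (Sq ∩ ({y | P' (gl (q * m) n y) = s} ∩ {y | Lam y ≠ P' (gl (q * m) n y)}))).toReal +
        (volume (Sq ∩ ({y | Lam y = s} ∩ {y | Lam y ≠ P' (gl (q * m) n y)}))).toReal := by
      intro s
      have i1 : (volume (Sq ∩ {y | P' (gl (q * m) n y) = s})).toReal ≤
          (volume (Sq ∩ ({y | P' (gl (q * m) n y) = s} ∩ {y | Lam y ≠ P' (gl (q * m) n y)}))).toReal +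
          (volume (Sq ∩ {y | Lam y = s})).toReal := by
        refine le_trans (v_mono ?_) (v_union _ _)
        rintro y ⟨_, hy⟩
        simp only [Set.mem_union, Set.mem_inter_iff, Set.mem_ofPred_eq] at hy ⊢
        by_cases h : Lam y = P' (gl (q * m) n y)
        · right; rw [h, hy]
        · left; exact ⟨hy, h⟩
      have i2 : (volume (Sq ∩ {y | Lam y = s})).toReal ≤
          (volume (Sq ∩ ({y | Lam y = s} ∩ {y | Lam y ≠ P' (gl (q * m) n y)}))).toReal +
          (volume (Sq ∩ {y | P' (gl (q * m) n y) = s})).toReal := by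
        refine le_trans (v_mono ?_) (v_union _ _)
        rintro y ⟨_, hy⟩
        simp only [Set.mem_union, Set.mem_inter_iff, Set.mem_ofPred_eq] at hy ⊢
        by_cases h : Lam y = P' (gl (q * m) n y)
        · right; rw [← h, hy]
        · left; exact ⟨hy, h⟩
      have j1 : (0:ℝ) ≤ (volume (Sq ∩ ({y | P' (gl (q * m) n y) = s} ∩
        {y | Lam y ≠ P' (gl (q * m) n y)}))).toReal := ENNReal.toReal_nonneg
      have j2 : (0:ℝ) ≤ (volume (Sq ∩ ({y | Lam y = s} ∩
        {y | Lam y ≠ P' (gl (q * m) n y)}))).toReal := ENNReal.toReal_nonneg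
      rw [abs_le]; constructor <;> linarith
    calc _ ≤ (∑ s, |((Finset.univ.filter (fun z => P' z = s)).card : ℝ) -
          (Finset.univ.filter (fun z => Z z = s)).card|) / (((q * m : ℕ) : ℝ) * n) := by
          exact div_le_div_of_nonneg_right hπ hpos.le
      _ = ∑ s, |(volume (Sq ∩ {y | P' (gl (q * m) n y) = s})).toReal -
          1 / (((q * c : ℕ) : ℝ) * M2)| := by
          rw [Finset.sum_div]
          refine Finset.sum_congr rfl fun s _ => ?_
          rw [hA s, hB s, ← sub_div, abs_div, abs_of_pos hpos]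
      _ ≤ ∑ s, (|(volume (Sq ∩ {y | P' (gl (q * m) n y) = s})).toReal -
          (volume (Sq ∩ {y | Lam y = s})).toReal| +
          |(volume (Sq ∩ {y | Lam y = s})).toReal - 1 / (((q * c : ℕ) : ℝ) * M2)|) :=
          Finset.sum_le_sum fun s _ => abs_sub_le _ _ _
      _ = (∑ s, |(volume (Sq ∩ {y | P' (gl (q * m) n y) = s})).toReal -
          (volume (Sq ∩ {y | Lam y = s})).toReal|) +
          ∑ s, |(volume (Sq ∩ {y | Lam y = s})).toReal - 1 / (((q * c : ℕ) : ℝ) * M2)| :=
          Finset.sum_add_distrib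
      _ ≤ 2 * e + eta := by
          refine add_le_add ?_ hdist
          refine (Finset.sum_le_sum fun s _ => hs s).trans ?_
          rw [Finset.sum_add_distrib, hfib1, hfib2]
          linarith
  have hu1 := v_union ({y | ¬ Good (q * m) n (min (e / 4) (1 / 2)) y} ∪
    {y | (gl (q * m) n y).2 = 0}) {y | Z (π (gl (q * m) n y)) ≠ P' (gl (q * m) n y)}
  have hu2 := v_union {y | ¬ Good (q * m) n (min (e / 4) (1 / 2)) y} {y | (gl (q * m) n y).2 = 0}
  have : eps = 8 * e := by rw [hedef]; ring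
  linarith

end Crest.Agent.R081.ShLab
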