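import Crest.Agent.R081.Dg6
import Crest.Agent.R081.DgErr
import Crest.Agent.R081.ShLab3

/-! Row 81, route B, node DGLUE, part 7: the label function of the pieces. -/

set_option autoImplicit false

namespace Crest.Agent.R081.Dg

open MeasureTheory Crest.Agent.R075 Finset
open scoped ENNReal

variable {Λ : Type} {P : ℕ} {pc : ℝ → ℕ}

/-- mass of a piece -/
noncomputable def mss (pc : ℝ → ℕ) (p : ℕ) : ℝ := (volume (Set.Ico (0 : ℝ) 1 ∩ pc ⁻¹' {p})).toReal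

theorem mss_nonneg (p : ℕ) : 0 ≤ mss pc p := ENNReal.toReal_nonneg

theorem mss_ne_top (p : ℕ) : volume (Set.Ico (0 : ℝ) 1 ∩ pc ⁻¹' {p}) ≠ ⊤ := by
  refine ne_top_of_le_ne_top ?_ (measure_mono Set.inter_subset_left)
  simp

theorem sum_mss (hpc : Measurable pc) (hlt : ∀ c, pc c < P) : ∑ p ∈ range P, mss pc p = 1 := by
  have e : Set.Ico (0 : ℝ) 1 = ⋃ p ∈ range P, (Set.Ico (0 : ℝ) 1 ∩ pc ⁻¹' {p}) := by
    ext c
    simp only [Set.mem_iUnion, Set.mem_inter_iff, Set.mem_preimage, Set.mem_singleton_iff,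
      Finset.mem_range, exists_prop]
    constructor
    · intro h; exact ⟨pc c, hlt c, h, rfl⟩
    · rintro ⟨p, _, h, _⟩; exact h
  have h1 : volume (Set.Ico (0 : ℝ) 1) = ∑ p ∈ range P, volume (Set.Ico (0 : ℝ) 1 ∩ pc ⁻¹' {p}) := by
    conv_lhs => rw [e]
    rw [measure_biUnion_finset]
    · intro p _ p' _ hne
      rw [Function.onFun, Set.disjoint_left]
      rintro c ⟨_, hc⟩ ⟨_, hc'⟩
      exact hne (hc.symm.trans hc')
    · intro p _
      exact measurableSet_Ico.inter (hpc (measurableSet_singleton p))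
  have h2 := congrArg ENNReal.toReal h1
  rw [ENNReal.toReal_sum (fun p _ => mss_ne_top p)] at h2
  rw [show (∑ p ∈ range P, mss pc p) = ∑ p ∈ range P,
    (volume (Set.Ico (0 : ℝ) 1 ∩ pc ⁻¹' {p})).toReal from rfl, ← h2]
  simp

theorem set_piece (hlt : ∀ c, pc c < P) (L : ℕ → ℝ → Λ) (n : Λ) :
    {z : ℝ × ℝ | L (pc z.1) z.2 = n}
      = ⋃ p ∈ range P, (pc ⁻¹' {p}) ×ˢ {θ | L p θ = n} := by
  ext z
  simp only [Set.mem_ofPred_eq, Set.mem_iUnion, Set.mem_prod, Set.mem_preimage,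
    Set.mem_singleton_iff, Finset.mem_range, exists_prop]
  constructor
  · intro h; exact ⟨pc z.1, hlt _, rfl, h⟩
  · rintro ⟨p, _, h1, h2⟩; rw [h1]; exact h2

theorem measurableSet_piece (hpc : Measurable pc) (hlt : ∀ c, pc c < P) (L : ℕ → ℝ → Λ) (n : Λ)
    (hL : ∀ p, MeasurableSet {θ | L p θ = n}) :
    MeasurableSet {z : ℝ × ℝ | L (pc z.1) z.2 = n} := by
  rw [set_piece hlt L n]
  exact Finset.measurableSet_biUnion _ fun p _ =>
    (hpc (measurableSet_singleton p)).prod (hL p)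

theorem volume_piece (hpc : Measurable pc) (hlt : ∀ c, pc c < P) (L : ℕ → ℝ → Λ) (n : Λ)
    (hL : ∀ p, MeasurableSet {θ | L p θ = n}) :
    (volume (Sq ∩ {z : ℝ × ℝ | L (pc z.1) z.2 = n})).toReal
      = ∑ p ∈ range P, mss pc p * (volume {θ ∈ Set.Ico (0 : ℝ) 1 | L p θ = n}).toReal := by
  have e : Sq ∩ {z : ℝ × ℝ | L (pc z.1) z.2 = n}
      = ⋃ p ∈ range P, (Set.Ico (0 : ℝ) 1 ∩ pc ⁻¹' {p}) ×ˢ {θ ∈ Set.Ico (0 : ℝ) 1 | L p θ = n} := by
    ext z
    simp only [Sq, Set.mem_inter_iff, Set.mem_ofPred_eq, Set.mem_iUnion, Set.mem_prod,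
      Set.mem_preimage, Set.mem_singleton_iff, Finset.mem_range, exists_prop]
    constructor
    · rintro ⟨⟨h1, h2⟩, h⟩; exact ⟨pc z.1, hlt _, ⟨h1, rfl⟩, h2, h⟩
    · rintro ⟨p, _, ⟨h1, h2⟩, h3, h4⟩
      exact ⟨⟨h1, h3⟩, by rw [h2]; exact h4⟩
  rw [e, measure_biUnion_finset]
  · rw [ENNReal.toReal_sum]
    · refine Finset.sum_congr rfl fun p _ => ?_
      rw [Measure.volume_eq_prod, Measure.prod_prod, ENNReal.toReal_mul]
      rfl
    · intro p _
      rw [Measure.volume_eq_prod, Measure.prod_prod]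
      refine ENNReal.mul_ne_top (mss_ne_top p) ?_
      refine ne_top_of_le_ne_top ?_ (measure_mono (Set.sep_subset _ _))
      simp
  · intro p _ p' _ hne
    rw [Function.onFun, Set.disjoint_left]
    rintro z ⟨⟨_, hc⟩, _⟩ ⟨⟨_, hc'⟩, _⟩
    exact hne (hc.symm.trans hc')
  · intro p _
    exact (measurableSet_Ico.inter (hpc (measurableSet_singleton p))).prod
      (measurableSet_Ico.inter (hL p))

/-- distribution of the label function of the pieces -/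
theorem dist_piece [Fintype Λ] {qq : ℕ} (hpc : Measurable pc) (hlt : ∀ c, pc c < P)
    (L : ℕ → ℤ → ℝ → Λ) (hL : ∀ p i n, MeasurableSet {θ | L p i θ = n}) (u η : ℝ)
    (hd : ∀ p < P, ∑ n : Λ, |(1 / (qq : ℝ)) * ∑ i ∈ range qq,
      (volume {θ ∈ Set.Ico (0:ℝ) 1 | L p i θ = n}).toReal - u| ≤ η) :
    ∑ n : Λ, |(1 / (qq : ℝ)) * ∑ b ∈ range qq,
      (volume (Sq ∩ {z : ℝ × ℝ | L (pc z.1) (b : ℤ) z.2 = n})).toReal - u| ≤ η := by
  have h1 : ∀ n : Λ, |(1 / (qq : ℝ)) * ∑ b ∈ range qq,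
      (volume (Sq ∩ {z : ℝ × ℝ | L (pc z.1) (b : ℤ) z.2 = n})).toReal - u|
      ≤ ∑ p ∈ range P, mss pc p * |(1 / (qq : ℝ)) * ∑ i ∈ range qq,
      (volume {θ ∈ Set.Ico (0:ℝ) 1 | L p i θ = n}).toReal - u| := by
    intro n
    have e1 : (1 / (qq : ℝ)) * ∑ b ∈ range qq,
        (volume (Sq ∩ {z : ℝ × ℝ | L (pc z.1) (b : ℤ) z.2 = n})).toReal - u
        = ∑ p ∈ range P, mss pc p * ((1 / (qq : ℝ)) * ∑ i ∈ range qq,
          (volume {θ ∈ Set.Ico (0:ℝ) 1 | L p i θ = n}).toReal - u) := by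
      have hv : ∀ b : ℕ, (volume (Sq ∩ {z : ℝ × ℝ | L (pc z.1) (b : ℤ) z.2 = n})).toReal
          = ∑ p ∈ range P, mss pc p *
            (volume {θ ∈ Set.Ico (0 : ℝ) 1 | L p (b : ℤ) θ = n}).toReal :=
        fun b => volume_piece hpc hlt (fun p => L p (b : ℤ)) n (fun p => hL p _ n)
      rw [Finset.sum_congr rfl (fun b _ => hv b)]
      simp only [mul_sub, Finset.sum_sub_distrib]
      rw [← Finset.sum_mul, sum_mss hpc hlt, one_mul, Finset.sum_comm]
      congr 1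
      rw [Finset.mul_sum]
      refine Finset.sum_congr rfl fun p _ => ?_
      rw [← Finset.mul_sum]; ring
    rw [e1]
    refine (Finset.abs_sum_le_sum_abs _ _).trans (Finset.sum_le_sum fun p _ => ?_)
    rw [abs_mul, abs_of_nonneg (mss_nonneg p)]
  refine (Finset.sum_le_sum fun n _ => h1 n).trans ?_
  rw [Finset.sum_comm]
  calc ∑ p ∈ range P, ∑ n : Λ, mss pc p * |(1 / (qq : ℝ)) * ∑ i ∈ range qq,
      (volume {θ ∈ Set.Ico (0:ℝ) 1 | L p i θ = n}).toReal - u|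
      ≤ ∑ p ∈ range P, mss pc p * η := by
        refine Finset.sum_le_sum fun p hp => ?_
        rw [← Finset.mul_sum]
        exact mul_le_mul_of_nonneg_left (hd p (Finset.mem_range.1 hp)) (mss_nonneg p)
    _ = η := by rw [← Finset.sum_mul, sum_mss hpc hlt, one_mul]

end Crest.Agent.R081.Dg
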