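import Crest.Agent.R081.Dg7

/-! Row 81, route B, node DGLUE, part 8: the design from a label design. -/

set_option autoImplicit false

namespace Crest.Agent.R081.Dg

open MeasureTheory Crest.Agent.R075 Finset Crest.Agent.R081.DgA Crest.Agent.R081.Dl
open scoped ENNReal

section

variable {q M1 M2 : ℕ} {Fam : Set (ZMod M1 × ZMod M2 → ℂ)} {eps : ℝ}

/-- the piece of `c`, always `< P` -/
noncomputable def pc' {Λ : Type} [Fintype Λ] {Fam : Set (Λ → ℂ)} (D : LabelDesign q Λ Fam eps)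
    (del : ℝ) (c : ℝ) : ℕ := min (pcl D del c) (D.P - 1)

theorem pc'_lt {Λ : Type} [Fintype Λ] {Fam : Set (Λ → ℂ)} (D : LabelDesign q Λ Fam eps)
    (del : ℝ) (c : ℝ) : pc' D del c < D.P := by
  have := D.P_pos
  unfold pc'
  omega

theorem measurable_pc' {Λ : Type} [Fintype Λ] {Fam : Set (Λ → ℂ)} (D : LabelDesign q Λ Fam eps)
    (del : ℝ) : Measurable (pc' D del) := by
  unfold pc'
  exact measurable_pcl.min measurable_const

theorem pc'_eq {Λ : Type} [Fintype Λ] {Fam : Set (Λ → ℂ)} (D : LabelDesign q Λ Fam eps)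
    {del : ℝ} (hd : del < 1 / 2) {c : ℝ} (h2 : c < 1 - del) : pc' D del c = pcl D del c := by
  unfold pc'
  refine min_eq_left ?_
  have hP : (0 : ℝ) < D.P := by exact_mod_cast D.P_pos
  have h3 : sc del c < 1 := by
    unfold sc
    rw [div_lt_one (by linarith)]
    linarith
  have h4 : (D.P : ℝ) * sc del c < D.P := by
    calc (D.P : ℝ) * sc del c < D.P * 1 := mul_lt_mul_of_pos_left h3 hP
      _ = D.P := mul_one _
  have h5 : pcl D del c < D.P := by
    unfold pcl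
    exact (Nat.floor_lt' (D.P_pos.ne')).2 h4
  omega

end

theorem hZ1_word {q qq : ℕ} {N : ℤ} (hq : 0 < q) (hqq : 0 < qq) (w : Tw.Word) (k : ℤ × ℤ) (c : ℝ) :
    ∑ a ∈ range qq, ∑' b : ℤ, ‖St.Dd q qq N w k a b c‖ₑ ^ 2 ≤ 1 := by
  have h1 := Co.DD_parseval (Co.eqv_word hq w) hqq N k c
  have h2 : ∑ a ∈ range qq, ∑' b : ℤ, ‖St.Dd q qq N w k a b c‖ₑ ^ 2 = ENNReal.ofReal 1 := by
    rw [← h1.tsum_eq, ENNReal.ofReal_tsum_of_nonneg (fun b => by positivity) h1.summable,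
      ← Summable.tsum_finsetSum (fun a _ => ENNReal.summable)]
    refine tsum_congr fun b => ?_
    rw [ENNReal.ofReal_sum_of_nonneg (fun a _ => by positivity)]
    refine Finset.sum_congr rfl fun a _ => ?_
    rw [ENNReal.ofReal_pow (norm_nonneg _), ofReal_norm]
    rfl
  rw [h2]; simp

section main

variable {q M1 M2 : ℕ} [NeZero M1] [NeZero M2] {Fam : Set (ZMod M1 × ZMod M2 → ℂ)} {eps : ℝ}

/-- **the coefficients of the word are close to the main coefficients** -/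
theorem err_des (hq : 0 < q) (hdiv : q ∣ M1) (D : LabelDesign q (ZMod M1 × ZMod M2) Fam eps)
    {N N' : ℤ} (hN : (D.qq : ℤ) ∣ N * q - 1) (hN' : (q : ℤ) ∣ N' * D.qq - 1)
    {del : ℝ} (hd0 : 0 < del) (hd1 : del < 1 / 2) (w : Tw.Word) {β : ℝ} (hβ0 : 0 ≤ β)
    (hw : (volume (Sq ∩ Bad q D.qq M1 M2 N' (fun c i θ => D.lab (pc' D del c) i θ) w)).toReal ≤ β)
    (k : ℤ × ℤ) (hk : Ek M1 M2 k ∈ Fam) {κ : ℝ}
    (hκ : 2 * Real.pi * (|(k.1 : ℝ)| / M1 + |(k.2 : ℝ)| / M2) ≤ κ) :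
    ∑ a ∈ Finset.range D.qq, ∑' b : ℤ, ∫⁻ c in Set.Ioc (0:ℝ) 1,
      ‖St.Dd q D.qq N w k a b c - MC D del (Ek M1 M2 k) a b c‖ₑ ^ 2
      ≤ ENNReal.ofReal (3 * (κ ^ 2 + 4 * β) + Kc eps del + 2 * eps + 2 * del) := by
  set lab : ℝ → ℤ → ℝ → ZMod M1 × ZMod M2 := fun c i θ => D.lab (pc' D del c) i θ with hlabdef
  have hlab : ∀ c i θ, lab c (i + D.qq) θ = lab c i θ := fun c i θ => D.lab_per _ _ _
  have hmeas : ∀ i n, MeasurableSet {z : ℝ × ℝ | lab z.1 i z.2 = n} := fun i n =>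
    measurableSet_piece (measurable_pc' D del) (pc'_lt D del) (fun p => D.lab p i) n
      (fun p => D.lab_meas p i n)
  refine err_bound hd0 hd1 hk (fun n => norm_Ek k n) (St.Dd q D.qq N w k)
    (fun a b => measurable_Dd w k a b) (fun c _ => hZ1_word hq D.qq_pos w k c) (by positivity) ?_
  have h1 : ∀ (a b : ℤ), ∫⁻ c in Set.Icc del (1 - del),
      ‖St.Dd q D.qq N w k a b c - Dco D.qq (fun i θ => Ek M1 M2 k (D.lab (pcl D del c) i θ)) a b‖ₑ ^ 2
      ≤ ∫⁻ c in Set.Ioc (0 : ℝ) 1, ‖St.Dd q D.qq N w k a b c - DLab D.qq k lab a b c‖ₑ ^ 2 := by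
    intro a b
    rw [← setLIntegral_congr (Ico_ae_eq_Icc (a := del) (b := 1 - del) (μ := volume))]
    have h2 : ∫⁻ c in Set.Ico del (1 - del), ‖St.Dd q D.qq N w k a b c
          - Dco D.qq (fun i θ => Ek M1 M2 k (D.lab (pcl D del c) i θ)) a b‖ₑ ^ 2
        = ∫⁻ c in Set.Ico del (1 - del), ‖St.Dd q D.qq N w k a b c - DLab D.qq k lab a b c‖ₑ ^ 2 := by
      refine setLIntegral_congr_fun measurableSet_Ico fun c hc => ?_
      have h3 := pc'_eq D hd1 hc.2
      have h4 : Dco D.qq (fun i θ => Ek M1 M2 k (D.lab (pcl D del c) i θ)) a b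
          = DLab D.qq k lab a b c := by
        simp only [hlabdef, DLab, h3]
        rfl
      simp only [h4]
    rw [h2]
    refine lintegral_mono_set ?_
    intro c hc
    exact ⟨by linarith [hc.1], by linarith [hc.2]⟩
  refine (Finset.sum_le_sum (s := Finset.range D.qq) fun (a : ℕ) _ =>
    ENNReal.tsum_le_tsum fun b => h1 (a : ℤ) b).trans ?_
  rw [lintegral_sum_tsum (fun a b c => ‖St.Dd q D.qq N w k a b c - DLab D.qq k lab a b c‖ₑ ^ 2)
    (fun a b => ((measurable_Dd w k a b).sub (measurable_DLab hmeas k a b)).enorm.pow_const 2)]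
  refine (err_lab hq D.qq_pos D.cop hdiv hN hN' hlab hmeas w k hκ).trans ?_
  have h5 : volume (Sq ∩ Bad q D.qq M1 M2 N' lab w) ≤ ENNReal.ofReal β :=
    (ENNReal.le_ofReal_iff_toReal_le (volume_Sq_inter_ne_top _) hβ0).2 hw
  rw [ENNReal.ofReal_add (by positivity) (by positivity), ENNReal.ofReal_mul (by norm_num)]
  gcongr
  norm_num

end main

end Crest.Agent.R081.Dg
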