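import Crest.Agent.R081.Dg8

/-! Row 81, route B, node DGLUE, part 9: `St.DesStmt` from the label design. -/

set_option autoImplicit false

namespace Crest.Agent.R081.Dg

open MeasureTheory Crest.Agent.R075 Finset Crest.Agent.R081.DgA Crest.Agent.R081.Dl
open scoped ENNReal

section main

variable {q M1 M2 : ℕ} [NeZero M1] [NeZero M2] {Fam : Set (ZMod M1 × ZMod M2 → ℂ)} {e : ℝ}

omit [NeZero M1] in
theorem bezout (hcop : Nat.Coprime q M1) : ∃ N N' : ℤ, (M1 : ℤ) ∣ N * q - 1 ∧ (q : ℤ) ∣ N' * M1 - 1 := by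
  obtain ⟨u, v, h⟩ := (Nat.isCoprime_iff_coprime (m := q) (n := M1)).2 hcop
  exact ⟨u, v, ⟨-v, by linear_combination h⟩, ⟨-u, by linear_combination h⟩⟩

/-- the word of a label design -/
theorem exists_word (hq : 0 < q) (hdiv : q ∣ M1) (D : LabelDesign q (ZMod M1 × ZMod M2) Fam e)
    (he : 0 < e) {N' : ℤ} (hN' : (q : ℤ) ∣ N' * D.qq - 1) (del : ℝ) :
    ∃ w : Tw.Word,
      (volume (Sq ∩ Bad q D.qq M1 M2 N' (fun c i θ => D.lab (pc' D del c) i θ) w)).toReal ≤ 2 * e := by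
  set lab : ℝ → ℤ → ℝ → ZMod M1 × ZMod M2 := fun c i θ => D.lab (pc' D del c) i θ with hlabdef
  have hlab : ∀ c i θ, lab c (i + D.qq) θ = lab c i θ := fun c i θ => D.lab_per _ _ _
  have hmeas : ∀ i n, MeasurableSet {z : ℝ × ℝ | lab z.1 i z.2 = n} := fun i n =>
    measurableSet_piece (measurable_pc' D del) (pc'_lt D del) (fun p => D.lab p i) n
      (fun p => D.lab_meas p i n)
  have h1 := dist_piece (qq := D.qq) (measurable_pc' D del) (pc'_lt D del) D.lab D.lab_meas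
    (1 / (Fintype.card (ZMod M1 × ZMod M2) : ℝ)) e D.dist
  have h2 := dist_Lam (N' := N') hq D.qq_pos D.cop hdiv hlab hmeas
    (1 / (Fintype.card (ZMod M1 × ZMod M2) : ℝ)) e h1
  have hcard : (Fintype.card (ZMod M1 × ZMod M2) : ℝ) = (M1 : ℝ) * M2 := by
    rw [Fintype.card_prod, ZMod.card, ZMod.card]; push_cast; ring
  rw [hcard] at h2
  obtain ⟨w, hw⟩ := ShLab.exists_word_label hq hdiv (Lam q D.qq M1 M2 N' lab)
    (fun s => measurableSet_Lam hmeas s)
    (fun y => Lam_add_one_div hq D.qq_pos hdiv hN' hlab y) h2 he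
  refine ⟨w, ?_⟩
  have h3 : e + e = 2 * e := by ring
  rw [h3] at hw
  exact hw

end main

/-- the label statement for the group `ℤ/M1 × ℤ/M2` -/
def LabStmt : Prop :=
  ∀ (q : ℕ), 0 < q → ∀ (M1 M2 : ℕ) [NeZero M1] [NeZero M2] (Fam : Set (ZMod M1 × ZMod M2 → ℂ)),
    Fam.Finite → (∀ E ∈ Fam, ∀ s, ‖E s‖ = 1) → (∀ E ∈ Fam, ∑ s, E s = 0) → ∀ e : ℝ, 0 < e →
    Nonempty (LabelDesign q (ZMod M1 × ZMod M2) Fam e)

theorem not_dvd_of_lt {M : ℕ} {n : ℤ} (h0 : n ≠ 0) (h : n.natAbs < M) : ¬ ((M : ℤ) ∣ n) := by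
  intro hd
  have h1 := Int.natAbs_dvd_natAbs.2 hd
  rw [Int.natAbs_natCast] at h1
  have h2 := Nat.le_of_dvd (Int.natAbs_pos.2 h0) h1
  omega

theorem desStmt_of (hL : LabStmt) : St.DesStmt := by
  classical
  intro q hq K eps heps
  -- the small parameter
  obtain ⟨e, he0, he1, he2, he3⟩ : ∃ e : ℝ, 0 < e ∧ e ≤ 1 / 16 ∧ e ≤ eps ∧ e ≤ eps ^ 2 / 60 :=
    ⟨min (min (1 / 16) eps) (eps ^ 2 / 60), by positivity,
      (min_le_left _ _).trans (min_le_left _ _), (min_le_left _ _).trans (min_le_right _ _),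
      min_le_right _ _⟩
  -- the size of the grid
  set S : ℕ := ∑ k ∈ K, (k.1.natAbs + k.2.natAbs) with hS
  obtain ⟨R, hR⟩ := exists_nat_gt (2 * Real.pi * S / e + S)
  have hpi := Real.pi_pos
  have hR1 : (S : ℝ) < R := by
    have : 0 ≤ 2 * Real.pi * S / e := by positivity
    linarith
  have hR2 : 2 * Real.pi * S / e < R := by
    have : (0 : ℝ) ≤ S := Nat.cast_nonneg _
    linarith
  have hR0 : 0 < R := by
    have : (0 : ℝ) ≤ S := Nat.cast_nonneg _
    have h : (0 : ℝ) < R := by linarith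
    exact_mod_cast h
  have hSR : S < R := by exact_mod_cast hR1
  set M1 : ℕ := q * R with hM1
  set M2 : ℕ := R with hM2
  have hM10 : 0 < M1 := Nat.mul_pos hq hR0
  have : NeZero M1 := ⟨hM10.ne'⟩
  have : NeZero M2 := ⟨hR0.ne'⟩
  have hdiv : q ∣ M1 := Dvd.intro _ rfl
  have hle : ∀ k ∈ K, k.1.natAbs + k.2.natAbs ≤ S := fun k hk =>
    Finset.single_le_sum (f := fun k : ℤ × ℤ => k.1.natAbs + k.2.natAbs)
      (fun _ _ => Nat.zero_le _) hk
  have hRM : R ≤ M1 := Nat.le_mul_of_pos_left R hq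
  -- the family of characters
  set Fam : Set (ZMod M1 × ZMod M2 → ℂ) := (fun k => Ek M1 M2 k) '' {k | k ∈ K ∧ k ≠ 0} with hFam
  have hfin : Fam.Finite := by
    refine Set.Finite.image _ (K.finite_toSet.subset ?_)
    intro k hk; exact hk.1
  have huni : ∀ E ∈ Fam, ∀ s, ‖E s‖ = 1 := by
    rintro E ⟨k, _, rfl⟩ s
    exact norm_Ek k s
  have hsum : ∀ E ∈ Fam, ∑ s, E s = 0 := by
    rintro E ⟨k, ⟨hk, hk0⟩, rfl⟩
    refine sum_Ek k ?_
    have h1 := hle k hk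
    by_cases h : k.1 = 0
    · right
      refine not_dvd_of_lt ?_ (by omega)
      intro h2; exact hk0 (Prod.ext h h2)
    · left
      exact not_dvd_of_lt h (by omega)
  obtain ⟨D⟩ := hL q hq M1 M2 Fam hfin huni hsum e he0
  obtain ⟨N, N', hN, hN'⟩ := bezout D.cop
  obtain ⟨w, hw⟩ := exists_word hq hdiv D he0 hN' e
  have hd1 : e < 1 / 2 := by linarith
  refine ⟨{
    q2 := D.qq
    q2_pos := D.qq_pos
    cop := D.cop
    N := N
    hN := hN
    del := e
    del_pos := he0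
    del_lt := by linarith
    del_le := he2
    v := D.v
    v_pos := D.v_pos
    w := w
    B := D.B.toNat
    E := EC D e
    E_meas := EC_meas
    E_ne0 := EC_ne0
    E_B := EC_B
    E_sub := EC_sub hd1
    E_symm := EC_symm
    E_inj := EC_inj he0 hd1
    M := fun k => MC D e (Ek M1 M2 k)
    M_meas := fun k a b => MC_meas _ a b
    M_per := fun k a b c => MC_per _ a b c
    M_norm := fun k a b c => MC_norm hd1 (fun n => norm_Ek k n) a b c
    M_symm := fun k a b c => MC_symm (fun n => Ek_neg k n) a b c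
    err := ?_ }⟩
  intro k hk hk0
  have hκ : 2 * Real.pi * (|(k.1 : ℝ)| / M1 + |(k.2 : ℝ)| / M2) ≤ e := by
    have h1 : (|(k.1 : ℝ)| + |(k.2 : ℝ)|) ≤ S := by
      have := hle k hk
      have h2 : ((k.1.natAbs + k.2.natAbs : ℕ) : ℝ) ≤ S := by exact_mod_cast this
      rw [Nat.cast_add, Nat.cast_natAbs, Nat.cast_natAbs] at h2
      simpa using h2
    have hRr : (0 : ℝ) < R := by exact_mod_cast hR0
    have hM1r : (R : ℝ) ≤ M1 := by exact_mod_cast hRM
    have h3 : |(k.1 : ℝ)| / M1 + |(k.2 : ℝ)| / M2 ≤ S / R := by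
      calc |(k.1 : ℝ)| / M1 + |(k.2 : ℝ)| / M2 ≤ |(k.1 : ℝ)| / R + |(k.2 : ℝ)| / R := by
            gcongr
        _ = (|(k.1 : ℝ)| + |(k.2 : ℝ)|) / R := by ring
        _ ≤ S / R := by gcongr
    calc 2 * Real.pi * (|(k.1 : ℝ)| / M1 + |(k.2 : ℝ)| / M2) ≤ 2 * Real.pi * (S / R) := by gcongr
      _ = (2 * Real.pi * S / e) * (e / R) := by field_simp
      _ ≤ R * (e / R) := by gcongr
      _ = e := by field_simp
  have h1 := err_des hq hdiv D hN hN' he0 hd1 w (β := 2 * e) (by positivity) hw k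
    ⟨k, ⟨hk, hk0⟩, rfl⟩ hκ
  refine h1.trans (ENNReal.ofReal_le_ofReal ?_)
  have h2 : Kc e e ≤ 17 * e := by
    unfold Kc
    have h3 : 2 * e / (1 - 2 * e) ≤ (16 / 7) * e := by
      rw [div_le_iff₀ (by linarith)]
      nlinarith
    have h4 : 3 * (2 * e / (1 - 2 * e)) * (2 + 2 * e ^ 2) ≤ 3 * ((16 / 7) * e) * (2 + 2 * e ^ 2) := by
      gcongr
    have h5 : e ^ 2 ≤ e / 16 := by nlinarith
    have h6 : e ^ 2 ≤ 1 / 256 := by nlinarith
    have h7 : e * e ^ 2 ≤ e * (1 / 256) := by gcongr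
    nlinarith
  nlinarith

end Crest.Agent.R081.Dg
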