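import Crest.Agent.R081.DlC3
import Crest.Agent.R081.StDefs

/-!
# Row 81, route B: from a label design to the arcs and main coefficients of `St.Des` (c-side)
-/

set_option autoImplicit false

namespace Crest.Agent.R081.DgA

open MeasureTheory Set Crest.Agent.R075 Crest.Agent.R081.Dl Crest.Agent.R081.Tw

/-- the normalised parameter. -/
noncomputable def sc (del c : ℝ) : ℝ := (c - del) / (1 - 2 * del)

variable {q : ℕ} {Λ : Type} [Fintype Λ] {Fam : Set (Λ → ℂ)} {eps : ℝ}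
  (D : LabelDesign q Λ Fam eps) (del : ℝ)

/-- the piece of `c`. -/
noncomputable def pcl (c : ℝ) : ℕ := ⌊(D.P : ℝ) * sc del c⌋₊

/-- trimmed piece. -/
def J (p : ℕ) : Set ℝ := {c | (p:ℝ) + D.eta < D.P * sc del c ∧ D.P * sc del c < p + 1 - D.eta}

/-- the lines of `St.Des`. -/
def EC : Set (Cv.De D.qq) :=
  {x | ∃ p : ℕ, D.line p ((x.1.1.val : ℕ) : ℤ) x.1.2 ∧ x.2 ∈ J D del p}

lemma continuous_sc : Continuous (sc del) := by unfold sc; fun_prop

lemma isOpen_J (p : ℕ) : IsOpen (J D del p) := by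
  have h := continuous_sc del
  exact (isOpen_lt continuous_const (continuous_const.mul h)).inter
    (isOpen_lt (continuous_const.mul h) continuous_const)

lemma measurableSet_J (p : ℕ) : MeasurableSet (J D del p) := (isOpen_J D del p).measurableSet

variable {D del}

lemma pcl_of_mem {p : ℕ} {c : ℝ} (hc : c ∈ J D del p) : pcl D del c = p := by
  have h0 := D.eta_pos
  obtain ⟨h1, h2⟩ := hc
  have h3 : (0:ℝ) ≤ p := Nat.cast_nonneg p
  unfold pcl
  rw [Nat.floor_eq_iff (by linarith)]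
  constructor <;> linarith

lemma J_unique {p p' : ℕ} {c : ℝ} (hc : c ∈ J D del p) (hc' : c ∈ J D del p') : p = p' := by
  rw [← pcl_of_mem hc, pcl_of_mem hc']

lemma line_add_mul (p : ℕ) (a b k : ℤ) : D.line p (a + k * D.qq) b ↔ D.line p a b := by
  have hper : Function.Periodic (fun a : ℤ => D.line p a b) (D.qq : ℤ) :=
    fun a => propext (D.line_per p a b)
  have := hper.int_mul k a
  simpa using this

lemma line_val (p : ℕ) (a b : ℤ) :
    D.line p ((((a : ZMod D.qq)).val : ℕ) : ℤ) b ↔ D.line p a b := by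
  have : NeZero D.qq := ⟨D.qq_pos.ne'⟩
  rw [ZMod.val_intCast]
  have h : a % (D.qq : ℤ) = a + (-(a / D.qq)) * D.qq := by
    have := Int.emod_add_mul_ediv a D.qq
    linarith
  rw [h, line_add_mul]

lemma mem_EC {a b : ℤ} {c : ℝ} :
    (((a : ZMod D.qq), b), c) ∈ EC D del ↔ ∃ p, D.line p a b ∧ c ∈ J D del p := by
  refine exists_congr fun p => and_congr ?_ Iff.rfl
  exact line_val p a b

lemma mem_EC_iff {a b : ℤ} {p : ℕ} {c : ℝ} (hc : c ∈ J D del p) :
    (((a : ZMod D.qq), b), c) ∈ EC D del ↔ D.line p a b := by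
  rw [mem_EC]
  constructor
  · rintro ⟨p', h, hc'⟩
    rwa [J_unique hc hc']
  · intro h; exact ⟨p, h, hc⟩

theorem EC_meas (a : ZMod D.qq) (b : ℤ) : MeasurableSet {c : ℝ | ((a, b), c) ∈ EC D del} := by
  have : {c : ℝ | ((a, b), c) ∈ EC D del}
      = ⋃ p : ℕ, ({c | D.line p ((a.val : ℕ) : ℤ) b} ∩ J D del p) := by
    ext c
    rw [Set.mem_iUnion]
    rfl
  rw [this]
  refine MeasurableSet.iUnion fun p => MeasurableSet.inter ?_ (measurableSet_J D del p)
  by_cases h : D.line p ((a.val : ℕ) : ℤ) b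
  · simp [h]
  · simp [h]

theorem EC_ne0 (x : Cv.De D.qq) (hx : x ∈ EC D del) : x.1.2 ≠ 0 := by
  obtain ⟨p, hl, -⟩ := hx; exact D.line_ne _ _ _ hl

theorem EC_B (x : Cv.De D.qq) (hx : x ∈ EC D del) : |x.1.2| ≤ D.B.toNat := by
  obtain ⟨p, hl, -⟩ := hx
  exact le_trans (D.line_B _ _ _ hl) (Int.self_le_toNat _)

lemma sc_bounds (hd1 : del < 1 / 2) {p : ℕ} (hp : p < D.P) {c : ℝ} (hc : c ∈ J D del p) :
    0 < sc del c ∧ sc del c < 1 ∧ del < c ∧ c < 1 - del := by
  obtain ⟨h1, h2⟩ := hc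
  have h0 := D.eta_pos
  have hP : (0:ℝ) < D.P := by exact_mod_cast D.P_pos
  have hp' : (p:ℝ) + 1 ≤ D.P := by exact_mod_cast hp
  have hp0 : (0:ℝ) ≤ p := Nat.cast_nonneg p
  have h3 : 0 < sc del c := by
    by_contra hcon
    have : D.P * sc del c ≤ 0 := mul_nonpos_of_nonneg_of_nonpos hP.le (not_lt.1 hcon)
    linarith
  have h4 : sc del c < 1 := by
    by_contra hcon
    have : (D.P:ℝ) * 1 ≤ D.P * sc del c := mul_le_mul_of_nonneg_left (not_lt.1 hcon) hP.le
    linarith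
  have hd : 0 < 1 - 2 * del := by linarith
  refine ⟨h3, h4, ?_, ?_⟩
  · unfold sc at h3
    have := (div_pos_iff_of_pos_right hd).1 h3
    linarith
  · unfold sc at h4
    rw [div_lt_one hd] at h4
    linarith

theorem EC_sub (hd1 : del < 1 / 2) (x : Cv.De D.qq) (hx : x ∈ EC D del) :
    x.2 ∈ Set.Icc del (1 - del) := by
  obtain ⟨p, hl, hc⟩ := hx
  obtain ⟨-, -, h1, h2⟩ := sc_bounds hd1 (D.line_lt _ _ _ hl) hc
  exact ⟨h1.le, h2.le⟩

theorem EC_symm (x : Cv.De D.qq) (hx : x ∈ EC D del) : ((-x.1.1, -x.1.2), x.2) ∈ EC D del := by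
  have : NeZero D.qq := ⟨D.qq_pos.ne'⟩
  obtain ⟨p, hl, hc⟩ := hx
  have e : -x.1.1 = ((-((x.1.1.val : ℕ) : ℤ) : ℤ) : ZMod D.qq) := by
    push_cast
    rw [ZMod.natCast_zmod_val]
  rw [e, mem_EC]
  exact ⟨p, (D.line_symm _ _ _).2 hl, hc⟩

theorem EC_inj (hd0 : 0 < del) (hd1 : del < 1 / 2) (a b a' b' : ℤ) (c c' : ℝ)
    (hx : (((a : ZMod D.qq), b), c) ∈ EC D del) (hx' : (((a' : ZMod D.qq), b'), c') ∈ EC D del)
    (h : ∃ n : ℤ, ((a : ℝ) / D.qq + b * Fp D.v del c) - ((a' : ℝ) / D.qq + b' * Fp D.v del c') = n) :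
    (a : ZMod D.qq) = a' ∧ b = b' ∧ c = c' := by
  rw [mem_EC] at hx hx'
  obtain ⟨p, hl, hc⟩ := hx
  obtain ⟨p', hl', hc'⟩ := hx'
  obtain ⟨n, hn⟩ := h
  have hP : (0:ℝ) < D.P := by exact_mod_cast D.P_pos
  have hd : 0 < 1 - 2 * del := by linarith
  obtain ⟨-, -, h1, h2⟩ := sc_bounds hd1 (D.line_lt _ _ _ hl) hc
  obtain ⟨-, -, h1', h2'⟩ := sc_bounds hd1 (D.line_lt _ _ _ hl') hc'
  rw [Fp_eq _ hd0 h1.le h2.le, Fp_eq _ hd0 h1'.le h2'.le] at hn
  have e : ∀ (b : ℤ) (p : ℕ) (c : ℝ), (b:ℝ) * (D.v * (c - del) / (1 - 2 * del))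
      = b * D.v * (((p:ℝ) + (D.P * sc del c - p)) / D.P) := by
    intro b p c; unfold sc; field_simp; ring
  rw [e b p c, e b' p' c'] at hn
  obtain ⟨g1, g2⟩ := hc
  obtain ⟨g1', g2'⟩ := hc'
  obtain ⟨r1, r2, r3, r4⟩ := D.inj p p' a b a' b' hl hl' (D.P * sc del c - p)
    (D.P * sc del c' - p') (by linarith) (by linarith) (by linarith) (by linarith) n (by linarith)
  refine ⟨?_, r2, ?_⟩
  · rw [eq_comm]
    exact (ZMod.intCast_eq_intCast_iff_dvd_sub a' a D.qq).2 (by simpa using r4)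
  · subst r1
    have h3 : (D.P : ℝ) * sc del c = D.P * sc del c' := by linarith
    have h4 := mul_left_cancel₀ hP.ne' h3
    unfold sc at h4
    rw [div_left_inj' hd.ne'] at h4
    linarith

variable (D del)

/-- slope in the variable `c`. -/
noncomputable def vs : ℝ := D.v / (1 - 2 * del)

/-- main coefficients. -/
noncomputable def MC (E : Λ → ℂ) (a b : ℤ) (c : ℝ) : ℂ :=
  ∑ p ∈ Finset.range D.P, (J D del p).indicator
    (fun _ => mainC (vs D del) D.line D.ll D.amp E p a b) c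

variable {D del}

lemma MC_of_mem (E : Λ → ℂ) (a b : ℤ) {p : ℕ} (hp : p < D.P) {c : ℝ} (hc : c ∈ J D del p) :
    MC D del E a b c = mainC (vs D del) D.line D.ll D.amp E p a b := by
  unfold MC
  rw [Finset.sum_eq_single_of_mem p (Finset.mem_range.2 hp)]
  · rw [Set.indicator_of_mem hc]
  · intro p' _ hne
    rw [Set.indicator_of_notMem]
    intro hc'
    exact hne (J_unique hc' hc)

lemma MC_of_notMem (E : Λ → ℂ) (a b : ℤ) {c : ℝ} (hc : ∀ p < D.P, c ∉ J D del p) :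
    MC D del E a b c = 0 := by
  unfold MC
  refine Finset.sum_eq_zero fun p hp => ?_
  rw [Set.indicator_of_notMem (hc p (Finset.mem_range.1 hp))]

theorem MC_meas (E : Λ → ℂ) (a b : ℤ) : Measurable (MC D del E a b) := by
  unfold MC
  exact Finset.measurable_sum _ fun p _ => measurable_const.indicator (measurableSet_J D del p)

lemma mainC_per (w : ℝ) (E : Λ → ℂ) (p : ℕ) (a b : ℤ) :
    mainC w D.line D.ll D.amp E p (a + D.qq) b = mainC w D.line D.ll D.amp E p a b := by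
  classical
  unfold mainC
  rw [D.ll_per, D.amp_per]
  by_cases h : D.line p a b
  · rw [if_pos h, if_pos ((D.line_per _ _ _).2 h)]
  · rw [if_neg h, if_neg (fun h' => h ((D.line_per _ _ _).1 h'))]

theorem MC_per (E : Λ → ℂ) (a b : ℤ) (c : ℝ) :
    MC D del E (a + D.qq) b c = MC D del E a b c := by
  unfold MC
  simp only [mainC_per]

lemma mainC_norm {w : ℝ} (hw : 0 ≤ w) {E : Λ → ℂ} (hE : ∀ n, ‖E n‖ = 1) (p : ℕ) (a b : ℤ) [Decidable (D.line p a b)] :
    ‖mainC w D.line D.ll D.amp E p a b‖ ^ 2 = if D.line p a b then |(b:ℝ)| * w else 0 := by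
  unfold mainC
  by_cases h : D.line p a b
  · rw [if_pos h, if_pos h, norm_mul, norm_mul, hE, D.amp_norm, mul_one, mul_one,
      Complex.norm_real, Real.norm_of_nonneg (Real.sqrt_nonneg _), Real.sq_sqrt (by positivity)]
  · rw [if_neg h, if_neg h, norm_zero]; norm_num

lemma mainC_symm {w : ℝ} {E E' : Λ → ℂ} (hE : ∀ n, E' n = (starRingEnd ℂ) (E n)) (p : ℕ) (a b : ℤ) :
    mainC w D.line D.ll D.amp E' p (-a) (-b)
      = (starRingEnd ℂ) (mainC w D.line D.ll D.amp E p a b) := by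
  classical
  unfold mainC
  rw [D.ll_symm, D.amp_symm, hE]
  by_cases h : D.line p a b
  · rw [if_pos h, if_pos ((D.line_symm _ _ _).2 h)]
    simp
  · rw [if_neg h, if_neg (fun h' => h ((D.line_symm _ _ _).1 h'))]
    simp

lemma vs_pos (hd1 : del < 1 / 2) : 0 < vs D del := div_pos D.v_pos (by linarith)

theorem MC_norm (hd1 : del < 1 / 2) {E : Λ → ℂ} (hE : ∀ n, ‖E n‖ = 1) (a b : ℤ) (c : ℝ) :
    ‖MC D del E a b c‖ ^ 2
      = Set.indicator {c : ℝ | (((a : ZMod D.qq), b), c) ∈ EC D del}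
          (fun _ => |(b : ℝ)| * (D.v / (1 - 2 * del))) c := by
  classical
  by_cases h : ∃ p < D.P, c ∈ J D del p
  · obtain ⟨p, hp, hc⟩ := h
    rw [MC_of_mem E a b hp hc, mainC_norm (vs_pos hd1).le hE]
    by_cases hl : D.line p a b
    · rw [if_pos hl, Set.indicator_of_mem]
      · rfl
      · exact (mem_EC_iff hc).2 hl
    · rw [if_neg hl, Set.indicator_of_notMem]
      intro hcon
      exact hl ((mem_EC_iff hc).1 hcon)
  · push Not at h
    rw [MC_of_notMem E a b h, Set.indicator_of_notMem]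
    · simp
    · intro hcon
      obtain ⟨p, hl, hc⟩ := mem_EC.1 hcon
      exact h p (D.line_lt _ _ _ hl) hc

theorem MC_symm {E E' : Λ → ℂ} (hE : ∀ n, E' n = (starRingEnd ℂ) (E n)) (a b : ℤ) (c : ℝ) :
    MC D del E' (-a) (-b) c = (starRingEnd ℂ) (MC D del E a b c) := by
  unfold MC
  rw [map_sum]
  refine Finset.sum_congr rfl fun p _ => ?_
  by_cases hc : c ∈ J D del p
  · rw [Set.indicator_of_mem hc, Set.indicator_of_mem hc, mainC_symm hE]
  · rw [Set.indicator_of_notMem hc, Set.indicator_of_notMem hc, map_zero]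

end Crest.Agent.R081.DgA
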