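import Crest.Agent.R081.DlC1

/-!
# Row 81, route B, node DL-C (helper919), part 2: closeness to a finite sum of lines
-/

set_option autoImplicit false

namespace Crest.Agent.R081.DlC

open MeasureTheory Finset Crest.Agent.R075

/-- the coefficient of one line -/
lemma coef_line {n : ℕ} (hn : 0 < n) (α : ℂ) (a' b' a b : ℤ) :
    coef n (fun i t => α * ee ((a' : ℝ) * i / n + b' * t)) a b
      = if b = b' ∧ (n : ℤ) ∣ a - a' then α else 0 := by
  classical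
  have hn0 : (n : ℂ) ≠ 0 := by exact_mod_cast hn.ne'
  unfold coef
  have h1 : ∀ i ∈ range n, ∫ t in (0:ℝ)..1, α * ee ((a' : ℝ) * (((i : ℕ) : ℤ) : ℝ) / n + b' * t)
        * ee (-(a * (i : ℕ) / n) - b * t)
      = (if b = b' then α else 0) * ee ((((a' - a : ℤ)) : ℝ) * i / n) := by
    intro i _
    have e1 : ∀ t : ℝ, α * ee ((a' : ℝ) * (((i : ℕ) : ℤ) : ℝ) / n + b' * t)
        * ee (-(a * (i : ℕ) / n) - b * t)
        = (α * ee ((((a' - a : ℤ)) : ℝ) * i / n)) * ee (((b' - b : ℤ) : ℝ) * t) := by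
      intro t
      rw [mul_assoc, ← ee_add, mul_assoc, ← ee_add]
      congr 2
      push_cast
      ring
    simp only [e1]
    rw [intervalIntegral.integral_const_mul, integral_ee]
    by_cases hb : b = b'
    · subst hb; simp
    · rw [if_neg (fun h => hb (by omega)), if_neg hb, zero_mul, mul_zero]
  rw [sum_congr rfl h1, ← mul_sum]
  have h2 := sum_char hn (a' - a)
  rw [h2]
  by_cases hb : b = b'
  · by_cases hd : (n : ℤ) ∣ a - a'
    · have hd' : (n : ℤ) ∣ a' - a := by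
        have := (dvd_neg (a := (n : ℤ)) (b := a - a')).2 hd
        rwa [neg_sub] at this
      rw [if_pos hb, if_pos hd', if_pos ⟨hb, hd⟩]
      field_simp
    · have hd' : ¬ (n : ℤ) ∣ a' - a := by
        intro h
        apply hd
        have := (dvd_neg (a := (n : ℤ)) (b := a' - a)).2 h
        rwa [neg_sub] at this
      have h3 : ¬ (b = b' ∧ (n : ℤ) ∣ a - a') := fun h => hd h.2
      rw [if_neg hd', if_neg h3]
      simp
  · have h3 : ¬ (b = b' ∧ (n : ℤ) ∣ a - a') := fun h => hb h.1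
    rw [if_neg hb, if_neg h3]
    simp

lemma coef_sub {n : ℕ} {W V : ℤ → ℝ → ℂ} (hW : ∀ i, Measurable (W i)) (hV : ∀ i, Measurable (V i))
    {C C' : ℝ} (hbW : ∀ i t, ‖W i t‖ ≤ C) (hbV : ∀ i t, ‖V i t‖ ≤ C') (a b : ℤ) :
    coef n (fun i t => W i t - V i t) a b = coef n W a b - coef n V a b := by
  unfold coef
  rw [← mul_sub, ← sum_sub_distrib]
  congr 1
  refine sum_congr rfl fun i _ => ?_
  have m0 : Measurable fun t : ℝ => ee (-(a * (i : ℕ) / n : ℝ) - b * t) := measurable_ee.comp (by fun_prop)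
  rw [← intervalIntegral.integral_sub]
  · congr 1
    funext t
    rw [sub_mul]
  · refine ii_of_bdd (f := fun t => W i t * ee (-(a * (i : ℕ) / n : ℝ) - b * t)) (C := C) ((hW i).mul m0)
      (fun t => ?_) 0 1
    rw [norm_mul, norm_ee, mul_one]; exact hbW i t
  · refine ii_of_bdd (f := fun t => V i t * ee (-(a * (i : ℕ) / n : ℝ) - b * t)) (C := C') ((hV i).mul m0)
      (fun t => ?_) 0 1
    rw [norm_mul, norm_ee, mul_one]; exact hbV i t

lemma coef_sum {n : ℕ} {Λ : Type*} (S : Finset Λ) {V : Λ → ℤ → ℝ → ℂ} (hV : ∀ l i, Measurable (V l i))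
    {C : Λ → ℝ} (hbV : ∀ l i t, ‖V l i t‖ ≤ C l) (a b : ℤ) :
    coef n (fun i t => ∑ l ∈ S, V l i t) a b = ∑ l ∈ S, coef n (V l) a b := by
  unfold coef
  rw [← mul_sum, sum_comm]
  congr 1
  refine sum_congr rfl fun i _ => ?_
  have m0 : Measurable fun t : ℝ => ee (-(a * (i : ℕ) / n : ℝ) - b * t) := measurable_ee.comp (by fun_prop)
  rw [← intervalIntegral.integral_finsetSum]
  · congr 1
    funext t
    rw [sum_mul]
  · intro l _
    refine ii_of_bdd (f := fun t => V l i t * ee (-(a * (i : ℕ) / n : ℝ) - b * t)) (C := C l) ((hV l i).mul m0)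
      (fun t => ?_) 0 1
    rw [norm_mul, norm_ee, mul_one]; exact hbV l i t

/-- the finite sum of lines -/
noncomputable def lineSum {Λ : Type*} (S : Finset Λ) (n : ℕ) (α : Λ → ℂ) (aL bL : Λ → ℤ) (i : ℤ) (t : ℝ) : ℂ :=
  ∑ l ∈ S, α l * ee ((aL l : ℝ) * i / n + bL l * t)

/-- the main coefficients -/
noncomputable def mainC {Λ : Type*} (S : Finset Λ) (n : ℕ) (α : Λ → ℂ) (aL bL : Λ → ℤ) (a b : ℤ) : ℂ :=
  by classical exact ∑ l ∈ S, if b = bL l ∧ (n : ℤ) ∣ a - aL l then α l else 0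

lemma coef_lineSum {Λ : Type*} (S : Finset Λ) {n : ℕ} (hn : 0 < n) (α : Λ → ℂ) (aL bL : Λ → ℤ) (a b : ℤ) :
    coef n (lineSum S n α aL bL) a b = mainC S n α aL bL a b := by
  classical
  unfold lineSum mainC
  rw [coef_sum S (V := fun l i t => α l * ee ((aL l : ℝ) * i / n + bL l * t)) (C := fun l => ‖α l‖)]
  · exact sum_congr rfl fun l _ => coef_line hn _ _ _ _ _
  · intro l i
    exact (measurable_ee.comp (by fun_prop)).const_mul _
  · intro l i t
    rw [norm_mul, norm_ee, mul_one]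

lemma measurable_lineSum {Λ : Type*} (S : Finset Λ) (n : ℕ) (α : Λ → ℂ) (aL bL : Λ → ℤ) (i : ℤ) :
    Measurable (lineSum S n α aL bL i) := by
  unfold lineSum
  exact Finset.measurable_sum _ fun l _ => (measurable_ee.comp (by fun_prop)).const_mul _

lemma norm_lineSum_le {Λ : Type*} (S : Finset Λ) (n : ℕ) (α : Λ → ℂ) (aL bL : Λ → ℤ) (i : ℤ) (t : ℝ) :
    ‖lineSum S n α aL bL i t‖ ≤ ∑ l ∈ S, ‖α l‖ := by
  unfold lineSum
  refine (norm_sum_le _ _).trans (sum_le_sum fun l _ => ?_)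
  rw [norm_mul, norm_ee, mul_one]

/-- **(C1)** L² closeness to a finite sum of lines gives closeness of the coefficients. -/
theorem lines_close {n : ℕ} (hn : 0 < n) {U : ℤ → ℝ → ℂ} (hm : ∀ i, Measurable (U i)) {C : ℝ}
    (hb : ∀ i t, ‖U i t‖ ≤ C) {Λ : Type*} (S : Finset Λ) (α : Λ → ℂ) (aL bL : Λ → ℤ) {e : ℝ}
    (hL2 : (1 / (n : ℝ)) * ∑ i ∈ range n, ∫ t in (0:ℝ)..1, ‖U i t - lineSum S n α aL bL i t‖ ^ 2 ≤ e)
    (Bs : Finset ℤ) :
    ∑ a ∈ range n, ∑ b ∈ Bs, ‖coef n U a b - mainC S n α aL bL a b‖ ^ 2 ≤ e := by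
  have h1 : ∀ (a : ℕ) (b : ℤ), coef n U a b - mainC S n α aL bL a b
      = coef n (fun i t => U i t - lineSum S n α aL bL i t) a b := by
    intro a b
    rw [coef_sub hm (measurable_lineSum S n α aL bL) hb (norm_lineSum_le S n α aL bL), coef_lineSum S hn]
  simp only [h1]
  refine le_trans (bessel hn (W := fun i t => U i t - lineSum S n α aL bL i t)
    (fun i => (hm i).sub (measurable_lineSum S n α aL bL i)) (C := C + ∑ l ∈ S, ‖α l‖) (fun i t => ?_) Bs) hL2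
  exact (norm_sub_le _ _).trans (add_le_add (hb i t) (norm_lineSum_le S n α aL bL i t))

/-- the value of the main coefficient on a line -/
lemma mainC_line {Λ : Type*} (S : Finset Λ) {n : ℕ} (α : Λ → ℂ) (aL bL : Λ → ℤ)
    (hinj : ∀ l ∈ S, ∀ l' ∈ S, bL l = bL l' → (n : ℤ) ∣ aL l - aL l' → l = l') {l : Λ} (hl : l ∈ S)
    {a b : ℤ} (hb : b = bL l) (ha : (n : ℤ) ∣ a - aL l) : mainC S n α aL bL a b = α l := by
  classical
  unfold mainC
  rw [sum_eq_single l]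
  · rw [if_pos ⟨hb, ha⟩]
  · intro l' hl' hne
    rw [if_neg]
    rintro ⟨h1, h2⟩
    apply hne
    refine hinj l' hl' l hl (by rw [← hb, h1]) ?_
    have := dvd_sub ha h2
    have e : a - aL l - (a - aL l') = aL l' - aL l := by ring
    rwa [e] at this
  · intro h; exact absurd hl h

/-- outside the lines the main coefficient vanishes -/
lemma mainC_off {Λ : Type*} (S : Finset Λ) {n : ℕ} (α : Λ → ℂ) (aL bL : Λ → ℤ) {a b : ℤ}
    (h : ∀ l ∈ S, ¬ (b = bL l ∧ (n : ℤ) ∣ a - aL l)) : mainC S n α aL bL a b = 0 := by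
  classical
  unfold mainC
  exact sum_eq_zero fun l hl => if_neg (h l hl)

/-- from amplitudes to masses -/
lemma mass_close {κ : Type*} (S : Finset κ) (x y : κ → ℂ) {e X : ℝ} (he : 0 ≤ e)
    (hxy : ∑ j ∈ S, ‖x j - y j‖ ^ 2 ≤ e) (hX : ∑ j ∈ S, ‖x j‖ ^ 2 ≤ X) :
    ∑ j ∈ S, |‖x j‖ ^ 2 - ‖y j‖ ^ 2| ≤ 2 * Real.sqrt X * Real.sqrt e + e := by
  have hX0 : 0 ≤ X := le_trans (sum_nonneg fun j _ => by positivity) hX
  have h1 : ∀ j ∈ S, |‖x j‖ ^ 2 - ‖y j‖ ^ 2| ≤ 2 * (‖x j‖ * ‖x j - y j‖) + ‖x j - y j‖ ^ 2 := by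
    intro j _
    have a1 : ‖y j‖ ≤ ‖x j‖ + ‖x j - y j‖ := by
      have := norm_sub_le (x j) (x j - y j)
      rwa [sub_sub_cancel] at this
    have a2 : ‖x j‖ ≤ ‖y j‖ + ‖x j - y j‖ := by
      have := norm_add_le (y j) (x j - y j)
      rwa [add_sub_cancel] at this
    have n1 := norm_nonneg (x j)
    have n2 := norm_nonneg (y j)
    have n3 := norm_nonneg (x j - y j)
    rw [abs_le]
    constructor
    · nlinarith
    · nlinarith
  have hcs : ∑ j ∈ S, ‖x j‖ * ‖x j - y j‖ ≤ Real.sqrt X * Real.sqrt e := by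
    refine (Real.sum_mul_le_sqrt_mul_sqrt S _ _).trans ?_
    exact mul_le_mul (Real.sqrt_le_sqrt hX) (Real.sqrt_le_sqrt hxy) (Real.sqrt_nonneg _) (Real.sqrt_nonneg _)
  calc ∑ j ∈ S, |‖x j‖ ^ 2 - ‖y j‖ ^ 2| ≤ ∑ j ∈ S, (2 * (‖x j‖ * ‖x j - y j‖) + ‖x j - y j‖ ^ 2) :=
        sum_le_sum h1
    _ = 2 * ∑ j ∈ S, ‖x j‖ * ‖x j - y j‖ + ∑ j ∈ S, ‖x j - y j‖ ^ 2 := by
        rw [sum_add_distrib, mul_sum]
    _ ≤ 2 * (Real.sqrt X * Real.sqrt e) + e := by linarith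
    _ = _ := by ring

/-- **(C1), mass form** -/
theorem lines_mass {n : ℕ} (hn : 0 < n) {U : ℤ → ℝ → ℂ} (hm : ∀ i, Measurable (U i))
    (hb : ∀ i t, ‖U i t‖ ≤ 1) {Λ : Type*} (S : Finset Λ) (α : Λ → ℂ) (aL bL : Λ → ℤ) {e : ℝ}
    (hL2 : (1 / (n : ℝ)) * ∑ i ∈ range n, ∫ t in (0:ℝ)..1, ‖U i t - lineSum S n α aL bL i t‖ ^ 2 ≤ e)
    (Bs : Finset ℤ) :
    ∑ a ∈ range n, ∑ b ∈ Bs, |‖coef n U a b‖ ^ 2 - ‖mainC S n α aL bL a b‖ ^ 2| ≤ 2 * Real.sqrt e + e := by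
  have he : 0 ≤ e := by
    refine le_trans ?_ hL2
    refine mul_nonneg (by positivity) (sum_nonneg fun i _ => ?_)
    exact intervalIntegral.integral_nonneg zero_le_one fun t _ => by positivity
  have h1 := lines_close hn hm hb S α aL bL hL2 Bs
  have h2 : ∑ a ∈ range n, ∑ b ∈ Bs, ‖coef n U a b‖ ^ 2 ≤ 1 := by
    refine (bessel hn hm hb Bs).trans ?_
    have hn0 : (0:ℝ) < n := by exact_mod_cast hn
    have h3 : ∑ i ∈ range n, ∫ t in (0:ℝ)..1, ‖U i t‖ ^ 2 ≤ ∑ i ∈ range n, (1:ℝ) := by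
      refine sum_le_sum fun i _ => ?_
      have : ∫ t in (0:ℝ)..1, ‖U i t‖ ^ 2 ≤ ∫ t in (0:ℝ)..1, (1:ℝ) := by
        refine intervalIntegral.integral_mono_on zero_le_one
          (ii_of_bdd' ((hm i).norm.pow_const 2) (C := 1) (fun t => ?_) 0 1) (by simp) fun t _ => ?_
        · rw [norm_pow, norm_norm]
          exact pow_le_one₀ (norm_nonneg _) (hb i t)
        · exact pow_le_one₀ (norm_nonneg _) (hb i t)
      simpa using this
    rw [sum_const, card_range, nsmul_eq_mul, mul_one] at h3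
    rw [one_div, inv_mul_le_iff₀ hn0]
    linarith
  rw [← sum_product'] at h1 h2 ⊢
  have := mass_close (range n ×ˢ Bs) (fun j => coef n U j.1 j.2) (fun j => mainC S n α aL bL j.1 j.2) he h1 h2
  rw [Real.sqrt_one, mul_one] at this
  exact this

end Crest.Agent.R081.DlC
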