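import Crest.Agent.R081.FmDefs
import Crest.Agent.R081.TwDefs

/-! # Row 81, route B, node D2 (helper725), part 1: the zero mode, real-variable part

`Bk q w k y1 = ∫_0^1 ek k (A (y1, θ)) dθ`, `A = Word.act q w`;
`Dbar x = (1/N) ∑_{i<N} Bk ((x+i)/N)`. -/

set_option autoImplicit false

namespace Crest.Agent.R081.Dt

open MeasureTheory Crest.AnalysisR.Torus3 Crest.Agent.R075 Crest.Agent.R081.Fm Crest.Agent.R081.Tw
open scoped Interval

/-! ### `ek` -/

theorem ek_add_int (k : ℤ × ℤ) (y : ℝ × ℝ) (m n : ℤ) :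
    ek k (y + ((m : ℝ), (n : ℝ))) = ek k y := by
  unfold ek
  have : (k.1 : ℝ) * (y + ((m : ℝ), (n : ℝ))).1 + k.2 * (y + ((m : ℝ), (n : ℝ))).2
      = (k.1 * y.1 + k.2 * y.2) + ((k.1 * m + k.2 * n : ℤ) : ℝ) := by
    push_cast
    simp only [Prod.fst_add, Prod.snd_add]
    ring
  rw [this, ee_add_int]

theorem ek_add (k : ℤ × ℤ) (y z : ℝ × ℝ) : ek k (y + z) = ek k y * ek k z := by
  unfold ek
  rw [← ee_add]
  congr 1
  simp only [Prod.fst_add, Prod.snd_add]
  ring

theorem norm_ek (k : ℤ × ℤ) (y : ℝ × ℝ) : ‖ek k y‖ = 1 := norm_ee _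

theorem continuous_ek (k : ℤ × ℤ) : Continuous (ek k) := by
  unfold ek
  exact ee_continuous.comp ((continuous_const.mul continuous_fst).add
    (continuous_const.mul continuous_snd))

/-! ### the fibre average -/

section avg
variable (q : ℕ) (w : Word) (k : ℤ × ℤ)

theorem continuous_act : Continuous (Word.act q w) := (Word.contDiff_act q w).continuous

/-- the average of `e(k·A)` over the second variable -/
noncomputable def Bk (x : ℝ) : ℂ := ∫ t in (0:ℝ)..1, ek k (Word.act q w (x, t))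

theorem per_t (x t : ℝ) : ek k (Word.act q w (x, t + 1)) = ek k (Word.act q w (x, t)) := by
  have h : ((x, t + 1) : ℝ × ℝ) = (x, t) + (((0:ℤ) : ℝ), ((1:ℤ) : ℝ)) := by simp
  rw [h, Word.act_add_int, ek_add_int]

theorem continuous_kA : Continuous fun y : ℝ × ℝ => ek k (Word.act q w y) :=
  (continuous_ek k).comp (continuous_act q w)

theorem Bk_shift (x s : ℝ) : ∫ t in (0:ℝ)..1, ek k (Word.act q w (x, t - s)) = Bk q w k x := by
  have hper : Function.Periodic (fun t : ℝ => ek k (Word.act q w (x, t))) 1 := fun t => per_t q w k x t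
  have h1 : ∫ t in (0:ℝ)..1, ek k (Word.act q w (x, t - s))
      = ∫ t in (0 - s)..(1 - s), ek k (Word.act q w (x, t)) :=
    intervalIntegral.integral_comp_sub_right (fun t => ek k (Word.act q w (x, t))) s
  have h2 := hper.intervalIntegral_add_eq (0 - s) 0
  rw [h1]
  rw [show (1 : ℝ) - s = (0 - s) + 1 by ring, h2]
  simp [Bk]

theorem Bk_add_one (x : ℝ) : Bk q w k (x + 1) = Bk q w k x := by
  unfold Bk
  congr 1
  funext t
  have h : ((x + 1, t) : ℝ × ℝ) = (x, t) + (((1:ℤ) : ℝ), ((0:ℤ) : ℝ)) := by simp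
  rw [h, Word.act_add_int, ek_add_int]

theorem Bk_add_div (hq : q ≠ 0) (x : ℝ) (m : ℤ) :
    Bk q w k (x + (m : ℝ) / q) = ee (k.1 * (m / q)) * Bk q w k x := by
  unfold Bk
  rw [← intervalIntegral.integral_const_mul]
  congr 1
  funext t
  have h : ((x + (m:ℝ) / q, t) : ℝ × ℝ) = (x, t) + ((m:ℝ) / q, 0) := by simp
  rw [h, Word.act_add_div hq, ek_add, mul_comm]
  congr 1
  unfold ek
  simp

theorem continuous_Bk : Continuous (Bk q w k) := by
  unfold Bk
  exact intervalIntegral.continuous_parametric_intervalIntegral_of_continuous'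
    (f := fun x t => ek k (Word.act q w (x, t))) (continuous_kA q w k) 0 1

theorem norm_Bk_le (x : ℝ) : ‖Bk q w k x‖ ≤ 1 := by
  unfold Bk
  have := intervalIntegral.norm_integral_le_of_norm_le_const (a := (0:ℝ)) (b := 1) (C := 1)
    (f := fun t => ek k (Word.act q w (x, t))) (fun t _ => (norm_ek k _).le)
  simpa using this

/-- average over the `N` points `(x+i)/N` -/
noncomputable def Dbar (N : ℕ) (x : ℝ) : ℂ :=
  (1 / (N : ℂ)) * ∑ i ∈ Finset.range N, Bk q w k ((x + i) / N)

theorem continuous_Dbar (N : ℕ) : Continuous (Dbar q w k N) := by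
  unfold Dbar
  refine continuous_const.mul (continuous_finsetSum _ fun i _ => ?_)
  exact (continuous_Bk q w k).comp (by fun_prop)

theorem Dbar_add_one {N : ℕ} (hN : N ≠ 0) (x : ℝ) : Dbar q w k N (x + 1) = Dbar q w k N x := by
  unfold Dbar
  congr 1
  have hN' : (N : ℝ) ≠ 0 := by exact_mod_cast hN
  have h1 : ∀ i : ℕ, Bk q w k ((x + 1 + i) / N) = Bk q w k ((x + ((i + 1 : ℕ) : ℝ)) / N) := by
    intro i; congr 2; push_cast; ring
  simp only [h1]
  have h2 := Finset.sum_range_succ (fun i : ℕ => Bk q w k ((x + (i : ℝ)) / N)) N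
  have h3 := Finset.sum_range_succ' (fun i : ℕ => Bk q w k ((x + (i : ℝ)) / N)) N
  have h4 : Bk q w k ((x + (N : ℝ)) / N) = Bk q w k ((x + ((0:ℕ) : ℝ)) / N) := by
    rw [show (x + (N : ℝ)) / N = (x + ((0:ℕ):ℝ)) / N + 1 by field_simp; push_cast; ring, Bk_add_one]
  rw [h4] at h2
  rw [h2] at h3
  exact (add_right_cancel h3).symm

/-- the zero mode formula -/
theorem zero_formula {N : ℕ} (hN : N ≠ 0) {v : ℝ → ℂ} (hv : Continuous v)
    (hv1 : ∀ c, v (c + 1) = v c) {β : ℝ → ℝ} (hβ : Continuous β) (hβ1 : ∀ c, β (c + 1) = β c)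
    (c' : ℝ) :
    ∫ x in (0:ℝ)..1, v (N * x - c') * Bk q w k (x - β (N * x - c') / N)
      = ∫ c in (0:ℝ)..1, v c * Dbar q w k N (c + c' - β c) := by
  have hN' : (N : ℝ) ≠ 0 := by exact_mod_cast hN
  set G : ℝ → ℂ := fun c => v c * Bk q w k ((c + c' - β c) / N) with hG
  have hGc : Continuous G := hv.mul ((continuous_Bk q w k).comp (by fun_prop))
  have e1 : ∀ x : ℝ, v (N * x - c') * Bk q w k (x - β (N * x - c') / N) = G (N * x - c') := by
    intro x
    simp only [hG]
    congr 2
    field_simp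
    ring
  simp only [e1]
  rw [intervalIntegral.integral_comp_mul_sub G hN' c']
  have hper : Function.Periodic G N := by
    intro c
    simp only [hG]
    have h1 : ∀ n : ℕ, v (c + n) = v c := by
      intro n
      induction n with
      | zero => simp
      | succ n ih => rw [Nat.cast_succ, ← add_assoc, hv1, ih]
    have h2 : ∀ n : ℕ, β (c + n) = β c := by
      intro n
      induction n with
      | zero => simp
      | succ n ih => rw [Nat.cast_succ, ← add_assoc, hβ1, ih]
    rw [h1, h2, show (c + N + c' - β c) / N = (c + c' - β c) / N + 1 by field_simp; ring, Bk_add_one]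
  have h3 := hper.intervalIntegral_add_eq (N * 0 - c') 0
  rw [show (N : ℝ) * 1 - c' = (N * 0 - c') + N by ring, h3, zero_add]
  have h4 : ∫ c in (0:ℝ)..N, G c = ∑ i ∈ Finset.range N, ∫ c in (i:ℝ)..((i + 1 : ℕ) : ℝ), G c := by
    have := intervalIntegral.sum_integral_adjacent_intervals (f := G) (μ := volume)
      (a := fun i : ℕ => (i : ℝ)) (n := N) (fun i _ => hGc.intervalIntegrable _ _)
    rw [this]; simp
  have h5 : ∀ i : ℕ, ∫ c in (i:ℝ)..((i + 1 : ℕ) : ℝ), G c
      = ∫ c in (0:ℝ)..1, v c * Bk q w k ((c + c' - β c + i) / N) := by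
    intro i
    have h1 : ∀ (c : ℝ) (n : ℕ), v (c + n) = v c := by
      intro c n
      induction n with
      | zero => simp
      | succ n ih => rw [Nat.cast_succ, ← add_assoc, hv1, ih]
    have h2 : ∀ (c : ℝ) (n : ℕ), β (c + n) = β c := by
      intro c n
      induction n with
      | zero => simp
      | succ n ih => rw [Nat.cast_succ, ← add_assoc, hβ1, ih]
    have h6 := intervalIntegral.integral_comp_add_right (a := 0) (b := 1) G (i : ℝ)
    rw [zero_add] at h6
    rw [show (((i + 1 : ℕ) : ℝ)) = 1 + i by push_cast; ring, ← h6]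
    congr 1
    funext c
    simp only [hG]
    rw [h1, h2]
    congr 2
    ring
  rw [h4]
  simp only [h5]
  rw [← intervalIntegral.integral_finsetSum]
  · rw [← intervalIntegral.integral_smul]
    congr 1
    funext c
    unfold Dbar
    rw [← Finset.mul_sum, Complex.real_smul]
    push_cast
    ring
  · intro i _
    exact (hv.mul ((continuous_Bk q w k).comp (by fun_prop))).intervalIntegrable _ _

/-- for `q ∤ k1` the average over `N = q q''` points vanishes -/
theorem Dbar_eq_zero {q'' : ℕ} (hq : q ≠ 0) (hq'' : q'' ≠ 0) (hk : ¬ (q : ℤ) ∣ k.1) (x : ℝ) :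
    Dbar q w k (q * q'') x = 0 := by
  have hq' : (q : ℝ) ≠ 0 := by exact_mod_cast hq
  have hq2 : (q'' : ℝ) ≠ 0 := by exact_mod_cast hq''
  -- `Dbar (x) = ee(k1/q) Dbar(x)` by the shift `i ↦ i + q''`
  have hshift : Dbar q w k (q * q'') (x + q'') = ee (k.1 / q) * Dbar q w k (q * q'') x := by
    have hs : ∑ i ∈ Finset.range (q * q''), Bk q w k ((x + q'' + i) / ((q * q'' : ℕ) : ℝ))
        = ee (k.1 / q) * ∑ i ∈ Finset.range (q * q''), Bk q w k ((x + i) / ((q * q'' : ℕ) : ℝ)) := by
      rw [Finset.mul_sum]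
      refine Finset.sum_congr rfl fun i _ => ?_
      have h1 := Bk_add_div q w k hq ((x + i) / ((q * q'' : ℕ) : ℝ)) 1
      have h2 : (x + q'' + i) / ((q * q'' : ℕ) : ℝ) = (x + i) / ((q * q'' : ℕ) : ℝ) + ((1:ℤ):ℝ) / q := by
        push_cast
        field_simp
        ring
      rw [h2, h1]
      congr 2
      push_cast
      ring
    unfold Dbar
    rw [hs]
    ring
  have hper : ∀ n : ℕ, Dbar q w k (q * q'') (x + n) = Dbar q w k (q * q'') x := by
    intro n
    induction n with
    | zero => simp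
    | succ n ih =>
      rw [Nat.cast_succ, ← add_assoc, Dbar_add_one q w k (Nat.mul_ne_zero hq hq''), ih]
  rw [hper] at hshift
  have hne : ee (k.1 / q) ≠ 1 := by
    intro h
    apply hk
    unfold ee at h
    rw [Complex.exp_eq_one_iff] at h
    obtain ⟨n, hn⟩ := h
    have hpi : (2 * (Real.pi : ℂ) * Complex.I) ≠ 0 := by simp [Real.pi_ne_zero, Complex.I_ne_zero]
    have h3 : (((k.1 : ℝ) / q : ℝ) : ℂ) = n := by
      have : (2 * (Real.pi : ℂ) * Complex.I) * (((k.1 : ℝ) / q : ℝ) : ℂ)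
          = (2 * (Real.pi : ℂ) * Complex.I) * n := by rw [hn]; ring
      exact mul_left_cancel₀ hpi this
    have h4 : (k.1 : ℝ) / q = n := by exact_mod_cast h3
    refine ⟨n, ?_⟩
    rw [div_eq_iff hq'] at h4
    have h5 : (k.1 : ℝ) = ((n * q : ℤ) : ℝ) := by push_cast; exact h4
    have h6 : k.1 = n * q := by exact_mod_cast h5
    rw [h6, mul_comm]
  have : (1 - ee (k.1 / q)) * Dbar q w k (q * q'') x = 0 := by
    rw [sub_mul, one_mul, ← hshift, sub_self]
  rcases mul_eq_zero.1 this with h | h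
  · exact absurd (sub_eq_zero.1 h).symm hne
  · exact h

end avg

end Crest.Agent.R081.Dt
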