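import Crest.Agent.R081.Dt1

/-! # Row 81, route B, node D2 (helper725), part 2: norm bound of the zero mode -/

set_option autoImplicit false

namespace Crest.Agent.R081.Dt

open MeasureTheory Crest.AnalysisR.Torus3 Crest.Agent.R075 Crest.Agent.R081.Fm Crest.Agent.R081.Tw
open scoped Interval

/-- Cauchy–Schwarz on `[0,1]` with a unimodular weight -/
theorem sq_norm_integral_le {g : ℝ → ℂ} (hg : Continuous g) :
    ‖∫ c in (0:ℝ)..1, g c‖ ^ 2 ≤ ∫ c in (0:ℝ)..1, ‖g c‖ ^ 2 := by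
  have h1 : ‖∫ c in (0:ℝ)..1, g c‖ ≤ ∫ c in (0:ℝ)..1, ‖g c‖ :=
    intervalIntegral.norm_integral_le_integral_norm (by norm_num)
  set m : ℝ := ∫ c in (0:ℝ)..1, ‖g c‖ with hm
  have hm0 : 0 ≤ m := intervalIntegral.integral_nonneg (by norm_num) fun _ _ => norm_nonneg _
  have hgn : Continuous fun c => ‖g c‖ := hg.norm
  have h2 : 0 ≤ ∫ c in (0:ℝ)..1, (‖g c‖ - m) ^ 2 :=
    intervalIntegral.integral_nonneg (by norm_num) fun _ _ => sq_nonneg _
  have h3 : ∫ c in (0:ℝ)..1, (‖g c‖ - m) ^ 2 = (∫ c in (0:ℝ)..1, ‖g c‖ ^ 2) - m ^ 2 := by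
    have e : ∀ c, (‖g c‖ - m) ^ 2 = ‖g c‖ ^ 2 - 2 * m * ‖g c‖ + m ^ 2 := fun c => by ring
    simp only [e]
    rw [intervalIntegral.integral_add, intervalIntegral.integral_sub,
      intervalIntegral.integral_const_mul, intervalIntegral.integral_const]
    · rw [← hm]; simp; ring
    · exact (hgn.pow 2).intervalIntegrable _ _
    · exact (hgn.const_mul _).intervalIntegrable _ _
    · exact ((hgn.pow 2).sub (hgn.const_mul _)).intervalIntegrable _ _
    · exact continuous_const.intervalIntegrable _ _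
  rw [h3] at h2
  calc ‖∫ c in (0:ℝ)..1, g c‖ ^ 2 ≤ m ^ 2 := by gcongr
    _ ≤ _ := by linarith

/-- the `L²` norm of the zero mode -/
theorem zero_norm {D : ℝ → ℂ} (hD : Continuous D) (hD1 : ∀ x, D (x + 1) = D x) {v : ℝ → ℂ}
    (hv : Continuous v) (hvn : ∀ c, ‖v c‖ ≤ 1) {β : ℝ → ℝ} (hβ : Continuous β) :
    ∫ c' in (0:ℝ)..1, ‖∫ c in (0:ℝ)..1, v c * D (c + c' - β c)‖ ^ 2
      ≤ ∫ x in (0:ℝ)..1, ‖D x‖ ^ 2 := by
  have hcont : Continuous fun p : ℝ × ℝ => v p.2 * D (p.2 + p.1 - β p.2) :=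
    (hv.comp continuous_snd).mul (hD.comp (by fun_prop))
  have h1 : ∀ c' : ℝ, ‖∫ c in (0:ℝ)..1, v c * D (c + c' - β c)‖ ^ 2
      ≤ ∫ c in (0:ℝ)..1, ‖D (c + c' - β c)‖ ^ 2 := by
    intro c'
    refine (sq_norm_integral_le (g := fun c => v c * D (c + c' - β c)) ?_).trans ?_
    · exact hcont.comp (continuous_const.prodMk continuous_id)
    · refine intervalIntegral.integral_mono_on (by norm_num) ?_ ?_ fun c _ => ?_
      · exact ((hcont.comp (continuous_const.prodMk continuous_id)).norm.pow 2).intervalIntegrable _ _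
      · exact ((hD.comp (by fun_prop)).norm.pow 2).intervalIntegrable _ _
      · rw [norm_mul]
        have := mul_le_of_le_one_left (norm_nonneg (D (c + c' - β c))) (hvn c)
        gcongr
  have hI : Continuous fun p : ℝ × ℝ => ‖D (p.2 + p.1 - β p.2)‖ ^ 2 :=
    (hD.comp (by fun_prop)).norm.pow 2
  have h2 : ∫ c' in (0:ℝ)..1, ‖∫ c in (0:ℝ)..1, v c * D (c + c' - β c)‖ ^ 2
      ≤ ∫ c' in (0:ℝ)..1, ∫ c in (0:ℝ)..1, ‖D (c + c' - β c)‖ ^ 2 := by
    refine intervalIntegral.integral_mono_on (by norm_num) ?_ ?_ fun c' _ => h1 c'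
    · refine Continuous.intervalIntegrable ?_ _ _
      exact (intervalIntegral.continuous_parametric_intervalIntegral_of_continuous'
        (f := fun c' c => v c * D (c + c' - β c)) hcont 0 1).norm.pow 2
    · refine Continuous.intervalIntegrable ?_ _ _
      exact intervalIntegral.continuous_parametric_intervalIntegral_of_continuous'
        (f := fun c' c => ‖D (c + c' - β c)‖ ^ 2) hI 0 1
  refine h2.trans (le_of_eq ?_)
  have h3 : ∫ c' in (0:ℝ)..1, ∫ c in (0:ℝ)..1, ‖D (c + c' - β c)‖ ^ 2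
      = ∫ c in (0:ℝ)..1, ∫ c' in (0:ℝ)..1, ‖D (c + c' - β c)‖ ^ 2 := by
    simp only [intervalIntegral.integral_of_le (zero_le_one : (0:ℝ) ≤ 1)]
    rw [integral_integral_swap]
    have : IntegrableOn (fun p : ℝ × ℝ => ‖D (p.2 + p.1 - β p.2)‖ ^ 2)
        (Set.Icc 0 1 ×ˢ Set.Icc 0 1) (volume.prod volume) :=
      hI.continuousOn.integrableOn_compact (isCompact_Icc.prod isCompact_Icc)
    have h4 := this.mono_set (Set.prod_mono Set.Ioc_subset_Icc_self Set.Ioc_subset_Icc_self)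
    rw [IntegrableOn, ← Measure.prod_restrict] at h4
    exact h4
  rw [h3]
  have hper : Function.Periodic (fun x : ℝ => ‖D x‖ ^ 2) 1 := fun x => by
    show ‖D (x + 1)‖ ^ 2 = ‖D x‖ ^ 2
    rw [hD1]
  have h5 : ∀ c : ℝ, ∫ c' in (0:ℝ)..1, ‖D (c + c' - β c)‖ ^ 2 = ∫ x in (0:ℝ)..1, ‖D x‖ ^ 2 := by
    intro c
    have e1 : ∫ c' in (0:ℝ)..1, ‖D (c + c' - β c)‖ ^ 2
        = ∫ x in (0 + (c - β c))..(1 + (c - β c)), ‖D x‖ ^ 2 := by
      rw [← intervalIntegral.integral_comp_add_right (fun x => ‖D x‖ ^ 2) (c - β c)]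
      congr 1
      funext c'
      congr 3
      ring
    have e2 := hper.intervalIntegral_add_eq (0 + (c - β c)) 0
    rw [e1, show (1 : ℝ) + (c - β c) = (0 + (c - β c)) + 1 by ring, e2, zero_add]
  simp only [h5]
  simp

end Crest.Agent.R081.Dt
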