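import Crest.Agent.R081.Dt2
import Crest.Agent.R081.FmBase

/-! # Row 81, route B, node D2 (helper725), part 3: the zero mode of `F ∘ Φ`, `Φ = K ∘ Lin` -/

set_option autoImplicit false

namespace Crest.Agent.R081.Dt

open MeasureTheory Crest.AnalysisR.Torus3 Crest.Agent.R075 Crest.Agent.R081.Fm Crest.Agent.R081.Tw
open scoped Interval ENNReal

/-- the pointwise formula of `Φ = K ∘ Lin` (`c = N θ1 - c'`), for ALL points -/
def PF (q N : ℕ) (w : Word) (χ β F : ℝ → ℝ) (Φ : T3 → T3) : Prop :=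
  ∀ c' t1 t2 : ℝ, Φ (P3 (c', (t1, t2))) = P3 (N * t1 - c', (0, χ (N * t1 - c')) +
    Word.act q w (t1 - β (N * t1 - c') / N, t2 - β (N * t1 - c') * F c'))

theorem integral_I01 (g : ℝ → ℂ) : ∫ x, g x ∂I01 = ∫ x in (0:ℝ)..1, g x := by
  rw [intervalIntegral.integral_of_le zero_le_one, I01]

theorem integral_I01_real (g : ℝ → ℝ) : ∫ x, g x ∂I01 = ∫ x in (0:ℝ)..1, g x := by
  rw [intervalIntegral.integral_of_le zero_le_one, I01]

theorem fc_zero_char {q N : ℕ} (hN : N ≠ 0) {w : Word} {χ β F : ℝ → ℝ} {Φ : T3 → T3}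
    (hΦ : PF q N w χ β F Φ) (hχ : Continuous χ) (hχ1 : ∀ c, ∃ d : ℤ, χ (c + 1) = χ c + d)
    (hβ : Continuous β) (hβ1 : ∀ c, β (c + 1) = β c)
    {f : T3 → ℂ} {l : ℤ} {k : ℤ × ℤ} (hf : ∀ c y, f (P3 (c, y)) = ee (l * c) * ek k y) (c' : ℝ) :
    fc (f ∘ Φ) 0 c' = ∫ c in (0:ℝ)..1,
      (ee (l * c) * ee (k.2 * χ c)) * Dbar q w k N (c + c' - β c) := by
  set v : ℝ → ℂ := fun c => ee (l * c) * ee (k.2 * χ c) with hv
  have hvc : Continuous v := by
    refine (ee_continuous.comp (by fun_prop)).mul (ee_continuous.comp (by fun_prop))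
  have hv1 : ∀ c, v (c + 1) = v c := by
    intro c
    simp only [hv]
    obtain ⟨d, hd⟩ := hχ1 c
    rw [hd]
    have e1 : (l : ℝ) * (c + 1) = l * c + (l : ℤ) := by ring
    have e2 : (k.2 : ℝ) * (χ c + d) = k.2 * χ c + ((k.2 * d : ℤ) : ℝ) := by push_cast; ring
    rw [e1, e2, ee_add_int, ee_add_int]
  have hvn : ∀ c, ‖v c‖ = 1 := by
    intro c
    simp only [hv]
    rw [norm_mul, norm_ee, norm_ee, one_mul]
  set G : ℝ × ℝ → ℂ := fun y => v (N * y.1 - c') *
    ek k (Word.act q w (y.1 - β (N * y.1 - c') / N, y.2 - β (N * y.1 - c') * F c')) with hG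
  have hGc : Continuous G := by
    refine (hvc.comp (by fun_prop)).mul ((continuous_kA q w k).comp ?_)
    have h1 : Continuous fun y : ℝ × ℝ => β (N * y.1 - c') := hβ.comp (by fun_prop)
    exact (continuous_fst.sub (h1.div_const _)).prodMk (continuous_snd.sub (h1.mul_const _))
  have hGn : ∀ y, ‖G y‖ ≤ 1 := by
    intro y
    simp only [hG]
    rw [norm_mul, hvn, one_mul, norm_ek]
  have hGi : Integrable G (I01.prod I01) :=
    Integrable.of_bound hGc.aestronglyMeasurable 1 (Filter.Eventually.of_forall hGn)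
  have e1 : fc (f ∘ Φ) 0 c' = ∫ y, G y ∂(I01.prod I01) := by
    unfold fc
    congr 1
    funext y
    have h0 : ek (-0 : ℤ × ℤ) y = 1 := by
      unfold ek
      simp [ee]
    rw [h0, one_mul, Function.comp_apply]
    have h1 := hΦ c' y.1 y.2
    rw [Prod.mk.eta] at h1
    rw [h1, hf, ek_add, ← mul_assoc]
    simp only [hG, hv]
    congr 2
    unfold ek
    simp
  rw [e1, integral_prod _ hGi]
  rw [integral_I01]
  rw [← zero_formula q w k hN hvc hv1 hβ hβ1 c']
  refine intervalIntegral.integral_congr fun x _ => ?_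
  rw [integral_I01]
  simp only [hG]
  rw [intervalIntegral.integral_const_mul, Bk_shift]

end Crest.Agent.R081.Dt
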