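import Crest.Agent.R081.Dt3

/-! # Row 81, route B, node D2 (helper725), part 4: trigonometric approximation -/

set_option autoImplicit false

namespace Crest.Agent.R081.Dt

open MeasureTheory Crest.AnalysisR.Torus3 Crest.Agent.R075 Crest.Agent.R081.Fm Crest.Agent.R081.Tw
open scoped Interval ENNReal

theorem mF_P3 (n : Fin 3 → ℤ) (c : ℝ) (y : ℝ × ℝ) :
    UnitAddTorus.mFourier n (P3 (c, y)) = ee (n 0 * c) * ek (n 1, n 2) y := by
  have h : ∀ (n : ℤ) (x : ℝ), (fourier n (x : UnitAddCircle) : ℂ) = ee (n * x) := by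
    intro n x
    rw [fourier_coe_apply]
    unfold ee
    congr 1
    push_cast
    ring
  have e : UnitAddTorus.mFourier n (P3 (c, y)) =
      fourier (n 0) ((c : ℝ) : UnitAddCircle) * (fourier (n 1) ((y.1 : ℝ) : UnitAddCircle) *
        fourier (n 2) ((y.2 : ℝ) : UnitAddCircle)) := by
    simp [UnitAddTorus.mFourier, P3, proj, Fin.prod_univ_three, mul_assoc]
  rw [e, h, h, h, ek, ee_add]

theorem vol_T3 : (volume : Measure T3) = Measure.pi (fun _ => AddCircle.haarAddCircle) := by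
  change Measure.pi (fun _ => (volume : Measure UnitAddCircle)) = _
  rw [vol_circle]

theorem approx_trig {F : T3 → ℂ} (hF : MemLp F 2 volume) (hF0 : ∫ x, F x = 0) {ε : ℝ}
    (hε : 0 < ε) :
    ∃ (s : Finset (Fin 3 → ℤ)) (a : (Fin 3 → ℤ) → ℂ), (0 : Fin 3 → ℤ) ∉ s ∧
      eLpNorm (fun x => F x - ∑ n ∈ s, a n * UnitAddTorus.mFourier n x) 2 volume
        ≤ ENNReal.ofReal ε := by
  rw [vol_T3] at hF hF0 ⊢
  set f := hF.toLp F with hf
  have h1 := UnitAddTorus.hasSum_mFourier_series_L2 (d := Fin 3) f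
  obtain ⟨s, hs⟩ := (Metric.tendsto_nhds.1 h1 ε hε).exists
  refine ⟨s.erase 0, UnitAddTorus.mFourierCoeff f, by simp, ?_⟩
  have h0 : UnitAddTorus.mFourierCoeff f 0 = 0 := by
    unfold UnitAddTorus.mFourierCoeff
    rw [← hF0]
    refine integral_congr_ae ?_
    filter_upwards [hF.coeFn_toLp] with x hx
    rw [neg_zero, UnitAddTorus.mFourier_zero]
    simp [hf, hx]
  have h2 : ∑ n ∈ s.erase 0, UnitAddTorus.mFourierCoeff f n • UnitAddTorus.mFourierLp 2 n
      = ∑ n ∈ s, UnitAddTorus.mFourierCoeff f n • UnitAddTorus.mFourierLp (d := Fin 3) 2 n := by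
    refine Finset.sum_subset (Finset.erase_subset _ _) fun n hn hn2 => ?_
    have : n = 0 := by
      by_contra h
      exact hn2 (Finset.mem_erase.2 ⟨h, hn⟩)
    rw [this, h0, zero_smul]
  rw [dist_comm, dist_eq_norm] at hs
  have h3 : (⇑(f - ∑ n ∈ s.erase 0, UnitAddTorus.mFourierCoeff f n •
      UnitAddTorus.mFourierLp (d := Fin 3) 2 n) : T3 → ℂ)
      =ᵐ[Measure.pi (fun _ => AddCircle.haarAddCircle)]
      fun x => F x - ∑ n ∈ s.erase 0, UnitAddTorus.mFourierCoeff f n * UnitAddTorus.mFourier n x := by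
    have a1 := Lp.coeFn_sub f (∑ n ∈ s.erase 0, UnitAddTorus.mFourierCoeff f n •
      UnitAddTorus.mFourierLp (d := Fin 3) 2 n)
    have a2 := Lp.coeFn_finsetSum (s.erase 0) (fun n => UnitAddTorus.mFourierCoeff f n •
      UnitAddTorus.mFourierLp (d := Fin 3) 2 n)
    have a3 : ∀ᵐ x ∂(Measure.pi (fun _ => AddCircle.haarAddCircle)), ∀ n : Fin 3 → ℤ,
        (⇑(UnitAddTorus.mFourierCoeff f n • UnitAddTorus.mFourierLp (d := Fin 3) 2 n) : T3 → ℂ) x
          = UnitAddTorus.mFourierCoeff f n * UnitAddTorus.mFourier n x := by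
      rw [ae_all_iff]
      intro n
      filter_upwards [UnitAddTorus.coeFn_mFourierLp 2 n, Lp.coeFn_smul
        (UnitAddTorus.mFourierCoeff f n) (UnitAddTorus.mFourierLp (d := Fin 3) 2 n)] with x hx hx2
      rw [hx2, Pi.smul_apply, hx, smul_eq_mul]
    filter_upwards [a1, a2, a3, hF.coeFn_toLp] with x b1 b2 b3 b4
    rw [b1, Pi.sub_apply, b2, Finset.sum_apply, b4]
    congr 1
    exact Finset.sum_congr rfl fun n _ => b3 n
  rw [← eLpNorm_congr_ae h3, ← Lp.enorm_def, h2, ← ofReal_norm]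
  exact ENNReal.ofReal_le_ofReal hs.le

end Crest.Agent.R081.Dt
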