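import Crest.Agent.R081.Dt4

/-! # Row 81, route B, node D2 (helper725), part 5: the zero mode of `F ∘ Φ` is small -/

set_option autoImplicit false

namespace Crest.Agent.R081.Dt

open MeasureTheory Crest.AnalysisR.Torus3 Crest.Agent.R075 Crest.Agent.R081.Fm Crest.Agent.R081.Tw
open scoped Interval ENNReal

theorem eLpNorm_two_le {α : Type*} [MeasurableSpace α] {μ : Measure α} {g : α → ℂ} {a : ℝ≥0∞}
    (h : ∫⁻ x, ‖g x‖ₑ ^ 2 ∂μ ≤ a ^ 2) : eLpNorm g 2 μ ≤ a := by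
  rw [eLpNorm_eq_lintegral_rpow_enorm_toReal (by norm_num) (by norm_num)]
  simp only [ENNReal.toReal_ofNat, ENNReal.rpow_ofNat]
  calc (∫⁻ x, ‖g x‖ₑ ^ 2 ∂μ) ^ (1 / (2:ℝ)) ≤ (a ^ 2) ^ (1 / (2:ℝ)) :=
        ENNReal.rpow_le_rpow h (by norm_num)
    _ = a := by
        rw [← ENNReal.rpow_natCast, ← ENNReal.rpow_mul]
        norm_num

theorem lintegral_two_eq {α : Type*} [MeasurableSpace α] {μ : Measure α} (g : α → ℂ) :
    ∫⁻ x, ‖g x‖ₑ ^ 2 ∂μ = (eLpNorm g 2 μ) ^ 2 := by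
  rw [eLpNorm_eq_lintegral_rpow_enorm_toReal (by norm_num) (by norm_num)]
  simp only [ENNReal.toReal_ofNat, ENNReal.rpow_ofNat]
  rw [← ENNReal.rpow_natCast, ← ENNReal.rpow_mul]
  norm_num

theorem eLpNorm_le_of_integral {g : ℝ → ℂ} (hg : Continuous g) {ε : ℝ} (hε : 0 ≤ ε)
    (h : ∫ c in (0:ℝ)..1, ‖g c‖ ^ 2 ≤ ε ^ 2) : eLpNorm g 2 I01 ≤ ENNReal.ofReal ε := by
  refine eLpNorm_two_le ?_
  rw [← integral_I01_real] at h
  have hi : Integrable (fun c => ‖g c‖ ^ 2) I01 := by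
    have := (hg.norm.pow 2).intervalIntegrable (μ := volume) 0 1
    exact (intervalIntegrable_iff_integrableOn_Ioc_of_le zero_le_one).1 this
  have e2 : ∀ z, ‖g z‖ₑ ^ 2 = ENNReal.ofReal (‖g z‖ ^ 2) := by
    intro z
    rw [ENNReal.ofReal_pow (norm_nonneg _), ofReal_norm]
  simp only [e2]
  rw [← ofReal_integral_eq_lintegral_ofReal hi (Filter.Eventually.of_forall fun z => by positivity),
    ← ENNReal.ofReal_pow hε]
  exact ENNReal.ofReal_le_ofReal h

/-- norm of the zero mode -/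
noncomputable def NZ (f : T3 → ℂ) : ℝ≥0∞ := eLpNorm (fc f 0) 2 I01

theorem NZ_add {f g : T3 → ℂ} (hf : Integrable f volume) (hg : Integrable g volume) :
    NZ (f + g) ≤ NZ f + NZ g := by
  unfold NZ
  have h := ae_muX.1 (fc_add hf hg) 0
  have h' : fc (f + g) 0 =ᵐ[I01] fc f 0 + fc g 0 := by
    filter_upwards [h] with c hc
    exact hc
  rw [eLpNorm_congr_ae h']
  exact eLpNorm_add_le (aesm_fc hf.aestronglyMeasurable 0) (aesm_fc hg.aestronglyMeasurable 0)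
    (by norm_num)

theorem NZ_smul (a : ℂ) (f : T3 → ℂ) : NZ (a • f) = ‖a‖ₑ * NZ f := by
  unfold NZ
  have : fc (a • f) 0 = a • fc f 0 := by
    funext c
    rw [fc_smul]
    rfl
  rw [this, eLpNorm_const_smul]

theorem NZ_sum {ι : Type*} (s : Finset ι) (f : ι → T3 → ℂ) (hf : ∀ i ∈ s, Integrable (f i) volume) :
    NZ (∑ i ∈ s, f i) ≤ ∑ i ∈ s, NZ (f i) := by
  classical
  induction s using Finset.induction_on with
  | empty =>
    have : fc (0 : T3 → ℂ) 0 = 0 := by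
      funext c
      simp [fc]
    simp [NZ, this]
  | insert i s hi ih =>
    rw [Finset.sum_insert hi, Finset.sum_insert hi]
    refine (NZ_add (hf i (Finset.mem_insert_self _ _)) ?_).trans ?_
    · have := integrable_finsetSum s (f := f) (μ := volume)
        fun j hj => hf j (Finset.mem_insert_of_mem hj)
      refine this.congr (Filter.Eventually.of_forall fun x => ?_)
      simp
    · gcongr
      exact ih fun j hj => hf j (Finset.mem_insert_of_mem hj)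

theorem NZ_le {f : T3 → ℂ} (hf : MemLp f 2 volume) : NZ f ≤ eLpNorm f 2 volume := by
  unfold NZ
  refine eLpNorm_two_le ?_
  rw [← lintegral_two_eq, ← lintegral_fcX hf, lintegral_muX]
  exact ENNReal.le_tsum (f := fun k => ∫⁻ c, ‖fcX f (k, c)‖ₑ ^ 2 ∂I01) 0

/-- the zero mode of a character composed with `Φ` -/
theorem NZ_char {q N : ℕ} (hN : N ≠ 0) {w : Word} {χ β F : ℝ → ℝ} {Φ : T3 → T3}
    (hΦ : PF q N w χ β F Φ) (hχ : Continuous χ) (hχ1 : ∀ c, ∃ d : ℤ, χ (c + 1) = χ c + d)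
    (hβ : Continuous β) (hβ1 : ∀ c, β (c + 1) = β c)
    {f : T3 → ℂ} {l : ℤ} {k : ℤ × ℤ} (hf : ∀ c y, f (P3 (c, y)) = ee (l * c) * ek k y)
    {ε : ℝ} (hε : 0 ≤ ε) (hD : ∫ x in (0:ℝ)..1, ‖Dbar q w k N x‖ ^ 2 ≤ ε ^ 2) :
    NZ (f ∘ Φ) ≤ ENNReal.ofReal ε := by
  have e1 : fc (f ∘ Φ) 0 = fun c' => ∫ c in (0:ℝ)..1,
      (ee (l * c) * ee (k.2 * χ c)) * Dbar q w k N (c + c' - β c) := by
    funext c'
    exact fc_zero_char hN hΦ hχ hχ1 hβ hβ1 hf c'
  have hvc : Continuous fun c : ℝ => ee (l * c) * ee (k.2 * χ c) :=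
    (ee_continuous.comp (by fun_prop)).mul (ee_continuous.comp (by fun_prop))
  unfold NZ
  rw [e1]
  refine eLpNorm_le_of_integral ?_ hε ?_
  · have hcont : Continuous fun p : ℝ × ℝ => (ee (l * p.2) * ee (k.2 * χ p.2)) *
        Dbar q w k N (p.2 + p.1 - β p.2) :=
      (hvc.comp continuous_snd).mul ((continuous_Dbar q w k N).comp (by fun_prop))
    exact intervalIntegral.continuous_parametric_intervalIntegral_of_continuous'
      (f := fun c' c => (ee (l * c) * ee (k.2 * χ c)) * Dbar q w k N (c + c' - β c)) hcont 0 1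
  · refine (zero_norm (continuous_Dbar q w k N) (Dbar_add_one q w k hN) hvc ?_ hβ).trans hD
    intro c
    rw [norm_mul, norm_ee, norm_ee, one_mul]

theorem Dbar_zero {q N : ℕ} (hN : N ≠ 0) (w : Word) (x : ℝ) : Dbar q w 0 N x = 1 := by
  have hN' : (N : ℂ) ≠ 0 := by exact_mod_cast hN
  have h1 : ∀ x, Bk q w 0 x = 1 := by
    intro x
    unfold Bk
    have : ∀ y, ek (0 : ℤ × ℤ) y = 1 := by
      intro y; unfold ek; simp [ee]
    simp [this]
  unfold Dbar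
  simp only [h1]
  simp [hN']

theorem integral_ee_zero {l : ℤ} (hl : l ≠ 0) : ∫ c in (0:ℝ)..1, ee (l * c) = 0 := by
  have h : ∀ c : ℝ, ee (l * c) = Complex.exp ((2 * Real.pi * Complex.I * l) * c) := by
    intro c
    unfold ee
    congr 1
    push_cast
    ring
  simp only [h]
  have hne : (2 * Real.pi * Complex.I * l : ℂ) ≠ 0 := by
    simp [Real.pi_ne_zero, Complex.I_ne_zero, hl]
  rw [integral_exp_mul_complex hne]
  have : Complex.exp (2 * Real.pi * Complex.I * l * ((1:ℝ) : ℂ)) = 1 := by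
    rw [Complex.exp_eq_one_iff]
    exact ⟨l, by push_cast; ring⟩
  rw [this]
  simp

/-- the zero mode of `e(l c)`, `l ≠ 0`, composed with `Φ` vanishes -/
theorem NZ_char_zero {q N : ℕ} (hN : N ≠ 0) {w : Word} {χ β F : ℝ → ℝ} {Φ : T3 → T3}
    (hΦ : PF q N w χ β F Φ) (hχ : Continuous χ) (hχ1 : ∀ c, ∃ d : ℤ, χ (c + 1) = χ c + d)
    (hβ : Continuous β) (hβ1 : ∀ c, β (c + 1) = β c)
    {f : T3 → ℂ} {l : ℤ} (hl : l ≠ 0) (hf : ∀ c y, f (P3 (c, y)) = ee (l * c) * ek 0 y) :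
    NZ (f ∘ Φ) = 0 := by
  have e1 : fc (f ∘ Φ) 0 = 0 := by
    funext c'
    rw [fc_zero_char hN hΦ hχ hχ1 hβ hβ1 hf c']
    simp only [Dbar_zero hN, mul_one]
    have : ∀ c, ee (l * c) * ee (((0 : ℤ × ℤ).2 : ℝ) * χ c) = ee (l * c) := by
      intro c
      simp [ee]
    simp only [this]
    rw [integral_ee_zero hl]
    rfl
  unfold NZ
  rw [e1]
  simp

end Crest.Agent.R081.Dt
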