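import Crest.Agent.R081.Dt5

/-! # Row 81, route B, node D2 (helper725), part 6: final statements

* `zero_mode` (D2b): for `F` square integrable of mean zero the zero mode of `F ∘ Φ` is small for
  every `Φ = K ∘ Lin` whose finitely many averaged coefficients `Dbar k` are small in `L²(0,1)`;
* `abs_cont` (D2a): the mass of `F ∘ Φ` on a small set is small uniformly in the measure
  preserving `Φ`. -/

set_option autoImplicit false

namespace Crest.Agent.R081.Dt

open MeasureTheory Crest.AnalysisR.Torus3 Crest.Agent.R075 Crest.Agent.R081.Fm Crest.Agent.R081.Tw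
open scoped Interval ENNReal

theorem memLp_mF (n : Fin 3 → ℤ) :
    MemLp (fun x : T3 => UnitAddTorus.mFourier n x) 2 volume := by
  refine MemLp.of_bound (UnitAddTorus.mFourier n).continuous.aestronglyMeasurable 1
    (Filter.Eventually.of_forall fun x => ?_)
  have := (UnitAddTorus.mFourier n).norm_coe_le_norm x
  rwa [UnitAddTorus.mFourier_norm] at this

theorem zero_mode {F : T3 → ℂ} (hF : MemLp F 2 volume) (hF0 : ∫ x, F x = 0) {ε : ℝ}
    (hε : 0 < ε) :
    ∃ (K : Finset (ℤ × ℤ)) (ε' : ℝ), (∀ k ∈ K, k ≠ 0) ∧ 0 < ε' ∧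
      ∀ (Φ : T3 → T3), MeasurePreserving Φ volume volume →
      ∀ (q q2 : ℕ), q ≠ 0 → q2 ≠ 0 → ∀ (w : Word) (χ β Fc : ℝ → ℝ),
        PF q (q * q2) w χ β Fc Φ → Continuous χ → (∀ c, ∃ d : ℤ, χ (c + 1) = χ c + d) →
        Continuous β → (∀ c, β (c + 1) = β c) →
        (∀ k ∈ K, (q : ℤ) ∣ k.1 → ∫ x in (0:ℝ)..1, ‖Dbar q w k (q * q2) x‖ ^ 2 ≤ ε' ^ 2) →
        eLpNorm (fc (F ∘ Φ) 0) 2 I01 ≤ ENNReal.ofReal ε := by
  classical
  obtain ⟨s, a, hs0, hs⟩ := approx_trig hF hF0 (half_pos hε)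
  set C : ℝ := ∑ n ∈ s, ‖a n‖ with hC
  have hC0 : 0 ≤ C := Finset.sum_nonneg fun _ _ => norm_nonneg _
  set ε' : ℝ := ε / (2 * (C + 1)) with hε'
  have hε'0 : 0 < ε' := by positivity
  refine ⟨(s.image fun n => (n 1, n 2)).erase 0, ε', fun k hk => (Finset.mem_erase.1 hk).1, hε'0, ?_⟩
  intro Φ hmp q q2 hq hq2 w χ β Fc hPF hχ hχ1 hβ hβ1 hD
  have hN : q * q2 ≠ 0 := Nat.mul_ne_zero hq hq2
  set E : (Fin 3 → ℤ) → T3 → ℂ := fun n => fun x => UnitAddTorus.mFourier n x with hE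
  have hEΦ : ∀ n, MemLp (E n ∘ Φ) 2 volume := fun n => (memLp_mF n).comp_measurePreserving hmp
  set R : T3 → ℂ := fun x => F x - ∑ n ∈ s, a n * UnitAddTorus.mFourier n x with hR
  have hRm : MemLp R 2 volume := by
    have h1 : MemLp (fun x : T3 => ∑ n ∈ s, a n * UnitAddTorus.mFourier n x) 2 volume :=
      memLp_finsetSum s fun n _ => (memLp_mF n).const_mul (a n)
    exact hF.sub h1
  have hRΦ : MemLp (R ∘ Φ) 2 volume := hRm.comp_measurePreserving hmp
  have hsplit : F ∘ Φ = R ∘ Φ + ∑ n ∈ s, a n • (E n ∘ Φ) := by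
    funext x
    simp [hR, hE, Finset.sum_apply]
  have hchar : ∀ n ∈ s, NZ (a n • (E n ∘ Φ)) ≤ ‖a n‖ₑ * ENNReal.ofReal ε' := by
    intro n hn
    rw [NZ_smul]
    gcongr
    have hf : ∀ (c : ℝ) (y : ℝ × ℝ), E n (P3 (c, y)) = ee (n 0 * c) * ek (n 1, n 2) y :=
      fun c y => mF_P3 n c y
    by_cases hk : ((n 1, n 2) : ℤ × ℤ) = 0
    · have hn0 : n 0 ≠ 0 := by
        intro h
        apply hs0
        have h1 : n 1 = 0 := congrArg Prod.fst hk
        have h2 : n 2 = 0 := congrArg Prod.snd hk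
        have : n = 0 := by
          funext i
          fin_cases i
          · exact h
          · exact h1
          · exact h2
        rw [← this]
        exact hn
      rw [hk] at hf
      rw [NZ_char_zero hN hPF hχ hχ1 hβ hβ1 hn0 hf]
      exact zero_le
    · refine NZ_char hN hPF hχ hχ1 hβ hβ1 hf hε'0.le ?_
      by_cases hdvd : (q : ℤ) ∣ ((n 1, n 2) : ℤ × ℤ).1
      · exact hD _ (Finset.mem_erase.2 ⟨hk, Finset.mem_image.2 ⟨n, hn, rfl⟩⟩) hdvd
      · simp only [Dbar_eq_zero q w _ hq hq2 hdvd]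
        simp only [norm_zero]
        simp
        positivity
  have h1 : NZ (F ∘ Φ) ≤ NZ (R ∘ Φ) + ∑ n ∈ s, NZ (a n • (E n ∘ Φ)) := by
    rw [hsplit]
    have hint : ∀ n ∈ s, Integrable (a n • (E n ∘ Φ)) volume := fun n _ =>
      ((hEΦ n).const_smul (a n)).integrable (by norm_num)
    refine (NZ_add (hRΦ.integrable (by norm_num)) ?_).trans ?_
    · have := integrable_finsetSum s (f := fun n => a n • (E n ∘ Φ)) (μ := volume) hint
      refine this.congr (Filter.Eventually.of_forall fun x => ?_)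
      simp
    · gcongr
      exact NZ_sum s _ hint
  have h2 : NZ (R ∘ Φ) ≤ ENNReal.ofReal (ε / 2) := by
    refine (NZ_le hRΦ).trans ?_
    rw [eLpNorm_comp_measurePreserving hRm.aestronglyMeasurable hmp]
    exact hs
  have h3 : ∑ n ∈ s, NZ (a n • (E n ∘ Φ)) ≤ ENNReal.ofReal (ε / 2) := by
    calc ∑ n ∈ s, NZ (a n • (E n ∘ Φ)) ≤ ∑ n ∈ s, ‖a n‖ₑ * ENNReal.ofReal ε' :=
          Finset.sum_le_sum hchar
      _ = ENNReal.ofReal (C * ε') := by
          rw [← Finset.sum_mul, ENNReal.ofReal_mul hC0, hC,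
            ENNReal.ofReal_sum_of_nonneg fun _ _ => norm_nonneg _]
          simp only [ofReal_norm]
      _ ≤ ENNReal.ofReal (ε / 2) := by
          refine ENNReal.ofReal_le_ofReal ?_
          rw [hε', mul_div_assoc', div_le_div_iff₀ (by positivity) (by norm_num)]
          nlinarith
  calc eLpNorm (fc (F ∘ Φ) 0) 2 I01 = NZ (F ∘ Φ) := rfl
    _ ≤ ENNReal.ofReal (ε / 2) + ENNReal.ofReal (ε / 2) := h1.trans (add_le_add h2 h3)
    _ = ENNReal.ofReal ε := by
        rw [← ENNReal.ofReal_add (by positivity) (by positivity), add_halves]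

/-- (D2a): absolute continuity, uniformly in the measure preserving map -/
theorem abs_cont {α β : Type*} [MeasurableSpace α] [MeasurableSpace β] {μ : Measure α}
    {ν : Measure β} {F : α → ℂ} (hF : MemLp F 2 μ) {ε : ℝ} (hε : 0 < ε) :
    ∃ δ : ℝ, 0 < δ ∧ ∀ Φ : β → α, MeasurePreserving Φ ν μ → ∀ B : Set β, MeasurableSet B →
      ν B ≤ ENNReal.ofReal δ → eLpNorm (B.indicator (F ∘ Φ)) 2 ν ≤ ENNReal.ofReal ε := by
  obtain ⟨g, hg, hgm⟩ := hF.exists_simpleFunc_eLpNorm_sub_lt (by norm_num)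
    (ε := ENNReal.ofReal (ε / 2)) (by simpa using hε)
  obtain ⟨C, hC⟩ := g.exists_forall_norm_le
  set C' : ℝ := max C 0 + 1 with hC'
  have hC'0 : 0 < C' := by positivity
  have hCC : ∀ x, ‖g x‖ ≤ C' := fun x => (hC x).trans (by
    have := le_max_left C 0
    linarith)
  refine ⟨(ε / (2 * C')) ^ 2, by positivity, fun Φ hmp B hB hμ => ?_⟩
  have hRm : MemLp (F - ⇑g) 2 μ := hF.sub hgm
  have hsplit : F ∘ Φ = (⇑g ∘ Φ) + ((F - ⇑g) ∘ Φ) := by
    funext x
    simp
  have h1 : eLpNorm (B.indicator (F ∘ Φ)) 2 ν ≤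
      eLpNorm (B.indicator (⇑g ∘ Φ)) 2 ν + eLpNorm (B.indicator ((F - ⇑g) ∘ Φ)) 2 ν := by
    rw [hsplit, Set.indicator_add']
    exact eLpNorm_add_le ((hgm.comp_measurePreserving hmp).aestronglyMeasurable.indicator hB)
      ((hRm.comp_measurePreserving hmp).aestronglyMeasurable.indicator hB) (by norm_num)
  have h2 : eLpNorm (B.indicator ((F - ⇑g) ∘ Φ)) 2 ν ≤ ENNReal.ofReal (ε / 2) := by
    refine (eLpNorm_indicator_le _).trans ?_
    rw [eLpNorm_comp_measurePreserving hRm.aestronglyMeasurable hmp]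
    exact hg.le
  have h3 : eLpNorm (B.indicator (⇑g ∘ Φ)) 2 ν ≤ ENNReal.ofReal (ε / 2) := by
    refine eLpNorm_two_le ?_
    calc ∫⁻ x, ‖B.indicator (⇑g ∘ Φ) x‖ₑ ^ 2 ∂ν
        ≤ ∫⁻ x, B.indicator (fun _ => ENNReal.ofReal C' ^ 2) x ∂ν := by
          refine lintegral_mono fun x => ?_
          by_cases hx : x ∈ B
          · simp only [Set.indicator_of_mem hx, Function.comp_apply]
            gcongr
            rw [← ofReal_norm]
            exact ENNReal.ofReal_le_ofReal (hCC _)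
          · simp [Set.indicator_of_notMem hx]
      _ = ENNReal.ofReal C' ^ 2 * ν B := by
          rw [lintegral_indicator hB]
          simp
      _ ≤ ENNReal.ofReal C' ^ 2 * ENNReal.ofReal ((ε / (2 * C')) ^ 2) := by gcongr
      _ = ENNReal.ofReal (ε / 2) ^ 2 := by
          rw [← ENNReal.ofReal_pow hC'0.le, ← ENNReal.ofReal_mul (by positivity),
            ← ENNReal.ofReal_pow (by positivity)]
          congr 1
          field_simp
  calc eLpNorm (B.indicator (F ∘ Φ)) 2 ν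
      ≤ ENNReal.ofReal (ε / 2) + ENNReal.ofReal (ε / 2) := h1.trans (add_le_add h3 h2)
    _ = ENNReal.ofReal ε := by
        rw [← ENNReal.ofReal_add (by positivity) (by positivity), add_halves]

end Crest.Agent.R081.Dt
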