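import Mathlib

/-!
# Row 81, node FLAT, abstract part

`X` a measure space (modes), `ν : X → ℝ/ℤ` the frequency, `S ⊆ X` a mode set on which `ν` is
injective with a measurable section `m`, `G` supported on `S` with `|G|² mu` pushed to Haar measure
(full cover + flatness).  Then the correlations of `G` are exactly those of an orthonormal orbit and
the distance of `F` to the Laurent polynomials in `ν` times `G` is the norm of `F` off `S`.
-/

set_option autoImplicit false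

namespace Crest.Agent.R081.Flat

open MeasureTheory AddCircle Filter
open scoped ENNReal

theorem vol_eq_haar : (volume : Measure UnitAddCircle) = haarAddCircle := by
  rw [volume_eq_smul_haarAddCircle]; simp

/-- trigonometric polynomial on the circle -/
noncomputable def tp (p : ℤ →₀ ℂ) (t : UnitAddCircle) : ℂ := p.sum fun n a => a * fourier n t

theorem continuous_tp (p : ℤ →₀ ℂ) : Continuous (tp p) := by
  unfold tp Finsupp.sum
  fun_prop

theorem measurable_tp (p : ℤ →₀ ℂ) : Measurable (tp p) := (continuous_tp p).measurable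

theorem exists_tp {r : UnitAddCircle → ℂ} (hr : MemLp r 2 (volume : Measure UnitAddCircle))
    {η : ℝ} (hη : 0 < η) :
    ∃ p : ℤ →₀ ℂ, eLpNorm (fun t => r t - tp p t) 2 (volume : Measure UnitAddCircle) ≤
      ENNReal.ofReal η := by
  rw [vol_eq_haar] at hr ⊢
  have hd := span_fourierLp_closure_eq_top (T := (1 : ℝ)) (p := 2) (by simp)
  have hmem : hr.toLp r ∈
      (Submodule.span ℂ (Set.range (@fourierLp (1 : ℝ) _ 2 _))).topologicalClosure := by
    rw [hd]; trivial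
  rw [← SetLike.mem_coe, Submodule.topologicalClosure_coe, Metric.mem_closure_iff] at hmem
  obtain ⟨b, hb, hdist⟩ := hmem η hη
  rw [SetLike.mem_coe, Finsupp.mem_span_range_iff_exists_finsupp] at hb
  obtain ⟨p, rfl⟩ := hb
  refine ⟨p, ?_⟩
  have h1 : (p.sum fun i a => a • (@fourierLp (1 : ℝ) _ 2 _ i)) =
      ContinuousMap.toLp (E := ℂ) 2 (haarAddCircle (T := (1 : ℝ))) ℂ
        (∑ i ∈ p.support, p i • fourier i) := by
    rw [map_sum, Finsupp.sum]
    refine Finset.sum_congr rfl fun i _ => ?_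
    rw [map_smul]
  have h2 : ⇑(p.sum fun i a => a • (@fourierLp (1 : ℝ) _ 2 _ i)) =ᵐ[haarAddCircle] tp p := by
    rw [h1]
    refine (ContinuousMap.coeFn_toLp (p := 2) (𝕜 := ℂ) haarAddCircle _).trans ?_
    refine Eventually.of_forall fun t => ?_
    simp [tp, Finsupp.sum]
  rw [Lp.dist_def] at hdist
  have h3 : eLpNorm (fun t => r t - tp p t) 2 haarAddCircle =
      eLpNorm (⇑(hr.toLp r) - ⇑(p.sum fun i a => a • (@fourierLp (1 : ℝ) _ 2 _ i))) 2
        haarAddCircle := by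
    refine eLpNorm_congr_ae ?_
    filter_upwards [h2, hr.coeFn_toLp] with t e1 e2
    simp [e1, e2]
  rw [h3, ENNReal.le_ofReal_iff_toReal_le ?_ hη.le]
  · exact hdist.le
  · exact ((Lp.memLp _).sub (Lp.memLp _)).eLpNorm_ne_top

variable {X : Type*} [MeasurableSpace X] {mu : Measure X}

/-- `|G|² mu` is pushed to Haar measure by `ν`. -/
def Push (mu : Measure X) (ν : X → UnitAddCircle) (G : X → ℂ) : Prop :=
  Measure.map ν (mu.withDensity fun x => ‖G x‖ₑ ^ 2) = (volume : Measure UnitAddCircle)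

theorem Push.lintegral {ν : X → UnitAddCircle} {G : X → ℂ} (hP : Push mu ν G)
    (hν : Measurable ν) (hG : AEMeasurable G mu) {h : UnitAddCircle → ℝ≥0∞} (hh : Measurable h) :
    ∫⁻ t, h t = ∫⁻ x, ‖G x‖ₑ ^ 2 * h (ν x) ∂mu := by
  rw [← hP, lintegral_map hh hν, lintegral_withDensity_eq_lintegral_mul₀']
  · rfl
  · exact (hG.enorm.pow_const 2)
  · exact (hh.comp hν).aemeasurable

theorem Push.memLp {ν : X → UnitAddCircle} {G : X → ℂ} (hP : Push mu ν G)
    (hν : Measurable ν) (hG : AEMeasurable G mu) : MemLp G 2 mu := by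
  refine ⟨hG.aestronglyMeasurable, ?_⟩
  rw [eLpNorm_lt_top_iff_lintegral_rpow_enorm_lt_top (by simp) (by simp)]
  have h1 := hP.lintegral hν hG (h := fun _ => 1) measurable_const
  simp only [mul_one, lintegral_const, one_mul] at h1
  have h2 : ∫⁻ x, ‖G x‖ₑ ^ (ENNReal.toReal 2) ∂mu = ∫⁻ x, ‖G x‖ₑ ^ 2 ∂mu := by
    refine lintegral_congr fun x => ?_
    rw [ENNReal.toReal_ofNat, ENNReal.rpow_two]
  rw [h2, ← h1, UnitAddCircle.measure_univ]
  exact ENNReal.one_lt_top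

/-- exact correlations -/
theorem Push.corr {ν : X → UnitAddCircle} {G : X → ℂ} (hP : Push mu ν G)
    (hν : Measurable ν) (hG : AEMeasurable G mu) (n : ℤ) :
    ∫ x, fourier n (ν x) * ((‖G x‖ ^ 2 : ℝ) : ℂ) ∂mu = if n = 0 then 1 else 0 := by
  have h1 : ∫ x, fourier n (ν x) * ((‖G x‖ ^ 2 : ℝ) : ℂ) ∂mu =
      ∫ x, (fourier n (ν x) : ℂ) ∂(mu.withDensity fun x => ‖G x‖ₑ ^ 2) := by
    have e1 := integral_withDensity_eq_integral_toReal_smul₀ (μ := mu)
      (f := fun x => ‖G x‖ₑ ^ 2) (hG.enorm.pow_const 2)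
      (Eventually.of_forall fun x => by simp) (fun x => (fourier n (ν x) : ℂ))
    rw [e1]
    refine integral_congr_ae (Eventually.of_forall fun x => ?_)
    simp only [ENNReal.toReal_pow, toReal_enorm]
    rw [Complex.real_smul, mul_comm]
  have h2 : ∫ x, (fourier n (ν x) : ℂ) ∂(mu.withDensity fun x => ‖G x‖ₑ ^ 2) =
      ∫ t, (fourier n t : ℂ) ∂(volume : Measure UnitAddCircle) := by
    rw [← hP, integral_map hν.aemeasurable]
    exact (fourier (T := (1 : ℝ)) n).continuous.aestronglyMeasurable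
  rw [h1, h2, vol_eq_haar]
  have h4 := fourierCoeff_fourier (T := (1 : ℝ)) n
  have h5 : fourierCoeff (T := (1 : ℝ)) (⇑(fourier n)) 0 =
      ∫ t : UnitAddCircle, (fourier n t : ℂ) ∂haarAddCircle := by
    rw [fourierCoeff]
    simp
  rw [← h5, h4]
  by_cases hn : n = 0
  · subst hn; simp
  · rw [if_neg hn, Pi.single_apply, if_neg]
    exact fun h => hn h.symm

/-- **Distance.** -/
theorem Push.dist {ν : X → UnitAddCircle} {G : X → ℂ} (hP : Push mu ν G)
    (hν : Measurable ν) (hG : AEMeasurable G mu) {S : Set X} (hS : MeasurableSet S)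
    {m : UnitAddCircle → X} (hm : Measurable m) (hmS : ∀ x ∈ S, m (ν x) = x)
    (hG0 : ∀ᵐ x ∂mu, x ∉ S → G x = 0) (hG1 : ∀ᵐ x ∂mu, x ∈ S → G x ≠ 0)
    {F : X → ℂ} (hF : MemLp F 2 mu) {η : ℝ} (hη : 0 < η) :
    ∃ p : ℤ →₀ ℂ, ∫⁻ x, ‖F x - tp p (ν x) * G x‖ₑ ^ 2 ∂mu ≤
      ∫⁻ x in Sᶜ, ‖F x‖ₑ ^ 2 ∂mu + ENNReal.ofReal (η ^ 2) := by
  -- measurable representatives
  set F' := hF.1.aemeasurable.mk F with hF'
  have hF'm : Measurable F' := hF.1.aemeasurable.measurable_mk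
  have hFF' : F =ᵐ[mu] F' := hF.1.aemeasurable.ae_eq_mk
  set G' := hG.mk G with hG'
  have hG'm : Measurable G' := hG.measurable_mk
  have hGG' : G =ᵐ[mu] G' := hG.ae_eq_mk
  set r : UnitAddCircle → ℂ := fun t => F' (m t) / G' (m t) with hr
  have hrm : Measurable r := (hF'm.comp hm).div (hG'm.comp hm)
  have hrS : ∀ᵐ x ∂mu, x ∈ S → r (ν x) * G x = F x := by
    filter_upwards [hFF', hGG', hG1] with x e1 e2 e3 hx
    have e4 : G x ≠ 0 := e3 hx
    rw [hr]
    simp only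
    rw [hmS x hx, ← e1, ← e2]
    field_simp
  have hF2 : ∫⁻ x, ‖F x‖ₑ ^ 2 ∂mu < ⊤ := by
    have h := hF.2
    rw [eLpNorm_lt_top_iff_lintegral_rpow_enorm_lt_top (by simp) (by simp)] at h
    have h2 : ∫⁻ x, ‖F x‖ₑ ^ (ENNReal.toReal 2) ∂mu = ∫⁻ x, ‖F x‖ₑ ^ 2 ∂mu := by
      refine lintegral_congr fun x => ?_
      rw [ENNReal.toReal_ofNat, ENNReal.rpow_two]
    rwa [h2] at h
  have hr2 : MemLp r 2 (volume : Measure UnitAddCircle) := by
    refine ⟨hrm.aestronglyMeasurable, ?_⟩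
    rw [eLpNorm_lt_top_iff_lintegral_rpow_enorm_lt_top (by simp) (by simp)]
    have h2 : ∫⁻ t, ‖r t‖ₑ ^ (ENNReal.toReal 2) = ∫⁻ t, ‖r t‖ₑ ^ 2 := by
      refine lintegral_congr fun x => ?_
      rw [ENNReal.toReal_ofNat, ENNReal.rpow_two]
    rw [h2, hP.lintegral hν hG (hrm.enorm.pow_const 2)]
    refine lt_of_le_of_lt (lintegral_mono_ae ?_) hF2
    filter_upwards [hrS, hG0] with x e1 e2
    by_cases hx : x ∈ S
    · rw [← e1 hx, enorm_mul, mul_pow, mul_comm]
    · rw [e2 hx]; simp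
  obtain ⟨p, hp⟩ := exists_tp hr2 hη
  refine ⟨p, ?_⟩
  have hp2 : ∫⁻ t, ‖r t - tp p t‖ₑ ^ 2 ≤ ENNReal.ofReal (η ^ 2) := by
    have h1 : eLpNorm (fun t => r t - tp p t) 2 (volume : Measure UnitAddCircle) ^ 2 =
        ∫⁻ t, ‖r t - tp p t‖ₑ ^ 2 := by
      rw [eLpNorm_eq_lintegral_rpow_enorm_toReal (by simp) (by simp)]
      simp only [ENNReal.toReal_ofNat]
      rw [← ENNReal.rpow_natCast, ← ENNReal.rpow_mul]
      simp
    rw [← h1, ENNReal.ofReal_pow hη.le]
    gcongr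
  calc ∫⁻ x, ‖F x - tp p (ν x) * G x‖ₑ ^ 2 ∂mu
      ≤ ∫⁻ x, (Sᶜ.indicator (fun x => ‖F x‖ₑ ^ 2) x +
          ‖G x‖ₑ ^ 2 * ‖r (ν x) - tp p (ν x)‖ₑ ^ 2) ∂mu := by
        refine lintegral_mono_ae ?_
        filter_upwards [hrS, hG0] with x e1 e2
        by_cases hx : x ∈ S
        · rw [Set.indicator_of_notMem (by simpa using hx), zero_add, ← mul_pow, ← enorm_mul,
            mul_sub, mul_comm (G x) (r (ν x)), e1 hx, mul_comm (G x)]
        · rw [Set.indicator_of_mem (by simpa using hx), e2 hx]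
          simp
    _ = ∫⁻ x in Sᶜ, ‖F x‖ₑ ^ 2 ∂mu + ∫⁻ t, ‖r t - tp p t‖ₑ ^ 2 := by
        have e0 := hP.lintegral hν hG (h := fun t => ‖r t - tp p t‖ₑ ^ 2)
          ((hrm.sub (measurable_tp p)).enorm.pow_const 2)
        rw [lintegral_add_right' _ ?_, lintegral_indicator hS.compl, e0]
        · exact (hG.enorm.pow_const 2).mul
            (((hrm.sub (measurable_tp p)).comp hν).enorm.pow_const 2).aemeasurable
    _ ≤ _ := by gcongr

end Crest.Agent.R081.Flat
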