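import Mathlib

/-!
Row 81 (route B): change of variables for families of affine branches over the circle.
-/

set_option autoImplicit false

namespace Crest.Agent.R081.Ms

open MeasureTheory Set Filter Topology
open scoped ENNReal

theorem lintegral_unfold (f : ℝ → ℝ≥0∞) (hf : Measurable f) :
    ∫⁻ x, f x = ∫⁻ x in Ico (0:ℝ) 1, ∑' m : ℤ, f (x + m) := by
  have hm : ∀ m : ℤ, Measurable (fun x : ℝ => f (x + m)) :=
    fun m => hf.comp (measurable_id.add_const _)
  rw [lintegral_tsum (fun m => (hm m).aemeasurable)]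
  have h1 : ∫⁻ x, f x = ∫⁻ x in (⋃ m : ℤ, Ico (m:ℝ) (m+1)), f x := by
    rw [iUnion_Ico_intCast ℝ, setLIntegral_univ]
  rw [h1, lintegral_iUnion (fun m => measurableSet_Ico) (pairwise_disjoint_Ico_intCast ℝ)]
  refine tsum_congr fun m => ?_
  have hmp : MeasurePreserving (fun x : ℝ => x + m) volume volume :=
    measurePreserving_add_right volume (m:ℝ)
  have hemb : MeasurableEmbedding (fun x : ℝ => x + m) :=
    measurableEmbedding_addRight (m:ℝ)
  have := hmp.setLIntegral_comp_preimage_emb hemb f (Ico (m:ℝ) (m+1))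
  rw [← this]
  congr 2
  ext x
  simp only [mem_preimage, mem_Ico]
  constructor
  · rintro ⟨h, h'⟩; constructor <;> linarith
  · rintro ⟨h, h'⟩; constructor <;> linarith

theorem lintegral_affine (s t : ℝ) (hs : s ≠ 0) (G : ℝ → ℝ≥0∞) (hG : Measurable G) :
    ∫⁻ c, ENNReal.ofReal |s| * G (s * c + t) = ∫⁻ x, G x := by
  have hm : Measurable (fun c : ℝ => G (s * c + t)) :=
    hG.comp ((measurable_const.mul measurable_id).add_const t)
  rw [lintegral_const_mul _ hm]
  have h1 : ∫⁻ c, G (s * c + t) = ∫⁻ y, G (y + t) ∂(Measure.map (fun c : ℝ => s * c) volume) := by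
    have hm2 : Measurable (fun y : ℝ => G (y + t)) := hG.comp (measurable_id.add_const t)
    have hm3 : Measurable (fun c : ℝ => s * c) := measurable_const.mul measurable_id
    rw [lintegral_map hm2 hm3]
  rw [h1, Real.map_volume_mul_left hs, lintegral_smul_measure, smul_eq_mul,
    lintegral_add_right_eq_self, ← mul_assoc, ← ENNReal.ofReal_mul (abs_nonneg _), ← abs_mul,
    mul_inv_cancel₀ hs]
  simp

/-- number of branches over `x` (mod 1). -/
noncomputable def cnt {ι : Type*} (A : ι → Set ℝ) (s t : ι → ℝ) (x : ℝ) : ℝ≥0∞ :=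
  ∑' i, ∑' m : ℤ, (A i).indicator 1 ((x + m - t i) / s i)

theorem cv {ι : Type*} [Countable ι] (A : ι → Set ℝ) (hA : ∀ i, MeasurableSet (A i))
    (s t : ι → ℝ) (hs : ∀ i, s i ≠ 0) (phi : ℝ → ℝ≥0∞) (hphi : Measurable phi)
    (hper : ∀ x (m : ℤ), phi (x + m) = phi x) :
    ∑' i, ∫⁻ c in A i, ENNReal.ofReal |s i| * phi (s i * c + t i) =
      ∫⁻ x in Ico (0:ℝ) 1, phi x * cnt A s t x := by
  have hmi : ∀ i, Measurable (fun x : ℝ => (A i).indicator (1 : ℝ → ℝ≥0∞) ((x - t i) / s i)) := by
    intro i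
    exact (measurable_one.indicator (hA i)).comp ((measurable_id.sub_const _).div_const _)
  have h1 : ∀ i, ∫⁻ c in A i, ENNReal.ofReal |s i| * phi (s i * c + t i) =
      ∫⁻ x in Ico (0:ℝ) 1, ∑' m : ℤ, phi x * (A i).indicator 1 ((x + m - t i) / s i) := by
    intro i
    have e1 : ∫⁻ c in A i, ENNReal.ofReal |s i| * phi (s i * c + t i) =
        ∫⁻ c, ENNReal.ofReal |s i| *
          ((fun x => phi x * (A i).indicator 1 ((x - t i) / s i)) (s i * c + t i)) := by
      rw [← lintegral_indicator (hA i)]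
      refine lintegral_congr fun c => ?_
      have hc : (s i * c + t i - t i) / s i = c := by
        rw [add_sub_cancel_right, mul_div_cancel_left₀ _ (hs i)]
      simp only [hc]
      by_cases h : c ∈ A i
      · simp [indicator_of_mem h]
      · simp [indicator_of_notMem h]
    have hm : Measurable (fun x : ℝ => phi x * (A i).indicator (1 : ℝ → ℝ≥0∞) ((x - t i) / s i)) :=
      hphi.mul (hmi i)
    rw [e1, lintegral_affine (s i) (t i) (hs i)
      (fun x => phi x * (A i).indicator 1 ((x - t i) / s i)) hm, lintegral_unfold _ hm]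
    refine lintegral_congr fun x => tsum_congr fun m => ?_
    simp only [hper]
  simp_rw [h1]
  rw [← lintegral_tsum]
  · refine lintegral_congr fun x => ?_
    rw [cnt, ← ENNReal.tsum_mul_left]
    refine tsum_congr fun i => ?_
    rw [ENNReal.tsum_mul_left]
  · intro i
    refine (Measurable.tsum fun m => ?_).aemeasurable
    refine hphi.mul ?_
    have : (fun x : ℝ => (A i).indicator (1 : ℝ → ℝ≥0∞) ((x + m - t i) / s i)) =
        (fun x : ℝ => (A i).indicator (1 : ℝ → ℝ≥0∞) ((x - t i) / s i)) ∘ (fun x => x + m) := rfl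
    rw [this]
    exact (hmi i).comp (measurable_id.add_const _)

/-- If exactly one branch lies over `x`, the count is one. -/
theorem cnt_eq_one {ι : Type*} (A : ι → Set ℝ) (s t : ι → ℝ) (hs : ∀ i, s i ≠ 0) (x : ℝ)
    (hinj : ∀ i c i' c', c ∈ A i → c' ∈ A i' →
      (∃ m : ℤ, (s i * c + t i) - (s i' * c' + t i') = m) → i = i' ∧ c = c')
    (hex : ∃ i c, c ∈ A i ∧ ∃ m : ℤ, s i * c + t i - x = m) :
    cnt A s t x = 1 := by
  classical
  obtain ⟨i, c, hc, m, hm⟩ := hex
  have hcm : (x + m - t i) / s i = c := by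
    rw [div_eq_iff (hs i)]; linarith
  rw [cnt, tsum_eq_single i, tsum_eq_single m]
  · rw [hcm, indicator_of_mem hc]; rfl
  · intro m' hm'
    by_contra hne
    have hmem : (x + m' - t i) / s i ∈ A i := by
      by_contra h
      exact hne (indicator_of_notMem h _)
    have := hinj i c i _ hc hmem ⟨m - m', by
      rw [mul_div_cancel₀ _ (hs i)]; push_cast; linarith⟩
    apply hm'
    have h2 := this.2
    rw [eq_div_iff (hs i)] at h2
    have h3 : (m' : ℝ) = m := by linarith
    exact_mod_cast h3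
  · intro i' hi'
    rw [ENNReal.tsum_eq_zero]
    intro m'
    by_contra hne
    have hmem : (x + m' - t i') / s i' ∈ A i' := by
      by_contra h
      exact hne (indicator_of_notMem h _)
    have := hinj i c i' _ hc hmem ⟨m - m', by
      rw [mul_div_cancel₀ _ (hs i')]; push_cast; linarith⟩
    exact hi' this.1.symm

theorem cnt_eq_zero {ι : Type*} (A : ι → Set ℝ) (s t : ι → ℝ) (hs : ∀ i, s i ≠ 0) (x : ℝ)
    (hex : ¬ ∃ i c, c ∈ A i ∧ ∃ m : ℤ, s i * c + t i - x = m) :
    cnt A s t x = 0 := by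
  rw [cnt, ENNReal.tsum_eq_zero]
  intro i
  rw [ENNReal.tsum_eq_zero]
  intro m
  by_contra hne
  have hmem : (x + m - t i) / s i ∈ A i := by
    by_contra h
    exact hne (indicator_of_notMem h _)
  exact hex ⟨i, _, hmem, m, by rw [mul_div_cancel₀ _ (hs i)]; ring⟩

end Crest.Agent.R081.Ms
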