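import Crest.Agent.R081.Flat1
import Crest.Agent.R081.Cv1
import Crest.Agent.R081.MsCV
import Crest.Agent.R081.FmDefs

/-!
# Row 81, node FLAT, part 2: sections, and the push-forward property from the cover property
-/

set_option autoImplicit false

namespace Crest.Agent.R081.Flat

open MeasureTheory Set Filter Crest.Agent.R081.Cv Crest.Agent.R081.Fm
open scoped ENNReal

/-- a measurable section on a full subset of `S` -/
theorem exists_section {X : Type*} [MeasurableSpace X] [StandardBorelSpace X] [Nonempty X]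
    {mu : Measure X} {ν : X → UnitAddCircle} {G : X → ℂ} (hP : Push mu ν G)
    (hν : Measurable ν) (hG : AEMeasurable G mu) {S : Set X} (hS : MeasurableSet S)
    (hG1 : ∀ᵐ x ∂mu, x ∈ S → G x ≠ 0)
    (hinj : ∀ᵐ t ∂(volume : Measure UnitAddCircle), ∀ x ∈ S, ∀ y ∈ S, ν x = t → ν y = t → x = y) :
    ∃ S' ⊆ S, MeasurableSet S' ∧ mu (S \ S') = 0 ∧
      ∃ m : UnitAddCircle → X, Measurable m ∧ ∀ x ∈ S', m (ν x) = x := by
  set N := toMeasurable (volume : Measure UnitAddCircle)
    {t | ¬ ∀ x ∈ S, ∀ y ∈ S, ν x = t → ν y = t → x = y} with hN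
  have hN0 : volume N = 0 := by
    rw [hN, measure_toMeasurable]; exact hinj
  have hNm : MeasurableSet N := measurableSet_toMeasurable _ _
  have hNs : ∀ t, t ∉ N → ∀ x ∈ S, ∀ y ∈ S, ν x = t → ν y = t → x = y := by
    intro t ht
    by_contra h
    exact ht (subset_toMeasurable _ _ h)
  set S' := S ∩ ν ⁻¹' Nᶜ with hS'
  have hS'm : MeasurableSet S' := hS.inter (hν hNm.compl)
  refine ⟨S', inter_subset_left, hS'm, ?_, ?_⟩
  · have h1 : (mu.withDensity fun x => ‖G x‖ₑ ^ 2) (ν ⁻¹' N) = 0 := by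
      rw [← Measure.map_apply hν hNm]
      have : Measure.map ν (mu.withDensity fun x => ‖G x‖ₑ ^ 2) =
        (volume : Measure UnitAddCircle) := hP
      rw [this, hN0]
    rw [withDensity_apply _ (hν hNm), lintegral_eq_zero_iff' (hG.enorm.pow_const 2).restrict] at h1
    have h2 : ∀ᵐ x ∂mu, x ∈ ν ⁻¹' N → G x = 0 := by
      have := (ae_restrict_iff' (hν hNm)).1 h1
      filter_upwards [this] with x hx hxN
      have := hx hxN
      simpa using this
    have h3 : S \ S' = S ∩ ν ⁻¹' N := by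
      ext x; simp [hS']
    rw [h3]
    have h4 : ∀ᵐ x ∂mu, x ∉ S ∩ ν ⁻¹' N := by
      filter_upwards [h2, hG1] with x e1 e2 hx
      exact e2 hx.1 (e1 hx.2)
    exact measure_eq_zero_iff_ae_notMem.2 h4
  · have : StandardBorelSpace S' := hS'm.standardBorel
    set f : S' → UnitAddCircle := fun x => ν x with hf
    have hfm : Measurable f := hν.comp measurable_subtype_coe
    have hfi : Function.Injective f := by
      rintro ⟨x, hx⟩ ⟨y, hy⟩ hxy
      have hx2 : ν x ∉ N := hx.2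
      exact Subtype.ext (hNs (ν x) hx2 x hx.1 y hy.1 rfl hxy.symm)
    obtain ⟨m, hm, hmf⟩ := (hfm.measurableEmbedding hfi).exists_measurable_extend
      (measurable_subtype_coe (p := fun x => x ∈ S')) (fun _ => inferInstance)
    refine ⟨m, hm, fun x hx => ?_⟩
    exact congrFun hmf ⟨x, hx⟩

/-- **Distance**, with a.e. injectivity only. -/
theorem Push.dist_ae {X : Type*} [MeasurableSpace X] [StandardBorelSpace X] [Nonempty X]
    {mu : Measure X} {ν : X → UnitAddCircle} {G : X → ℂ} (hP : Push mu ν G)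
    (hν : Measurable ν) (hG : AEMeasurable G mu) {S : Set X} (hS : MeasurableSet S)
    (hG0 : ∀ᵐ x ∂mu, x ∉ S → G x = 0) (hG1 : ∀ᵐ x ∂mu, x ∈ S → G x ≠ 0)
    (hinj : ∀ᵐ t ∂(volume : Measure UnitAddCircle), ∀ x ∈ S, ∀ y ∈ S, ν x = t → ν y = t → x = y)
    {F : X → ℂ} (hF : MemLp F 2 mu) {η : ℝ} (hη : 0 < η) :
    ∃ p : ℤ →₀ ℂ, ∫⁻ x, ‖F x - tp p (ν x) * G x‖ₑ ^ 2 ∂mu ≤
      ∫⁻ x in Sᶜ, ‖F x‖ₑ ^ 2 ∂mu + ENNReal.ofReal (η ^ 2) := by
  obtain ⟨S', hsub, hS'm, h0, m, hm, hmS⟩ := exists_section hP hν hG hS hG1 hinj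
  have hnull : ∀ᵐ x ∂mu, x ∉ S \ S' := measure_eq_zero_iff_ae_notMem.1 h0
  have hG0' : ∀ᵐ x ∂mu, x ∉ S' → G x = 0 := by
    filter_upwards [hnull, hG0] with x e1 e2 hx
    exact e2 fun h => e1 ⟨h, hx⟩
  have hG1' : ∀ᵐ x ∂mu, x ∈ S' → G x ≠ 0 := by
    filter_upwards [hG1] with x e1 hx
    exact e1 (hsub hx)
  obtain ⟨p, hp⟩ := hP.dist hν hG hS'm hm hmS hG0' hG1' hF hη
  refine ⟨p, hp.trans (le_of_eq ?_)⟩
  congr 1
  refine setLIntegral_congr ?_
  have : ∀ᵐ x ∂mu, (x ∈ S'ᶜ) = (x ∈ Sᶜ) := by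
    filter_upwards [hnull] with x e1
    apply propext
    constructor
    · intro h hx; exact e1 ⟨hx, h⟩
    · intro h hx; exact h (hsub hx)
  exact this

/-- the frequency of a mode, on the circle -/
noncomputable def nuC (P : ℤ) (q : ℕ) (psi : ℝ → ℝ) (p : Md) : UnitAddCircle :=
  ((nuT P q psi p : ℝ) : UnitAddCircle)

theorem hit_iff (nu : Md → ℝ) (p : Md) (x : ℝ) :
    hit nu p x ↔ ((nu p : ℝ) : UnitAddCircle) = (x : UnitAddCircle) := by
  rw [← sub_eq_zero, ← AddCircle.coe_sub, AddCircle.coe_eq_zero_iff]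
  unfold hit
  constructor
  · rintro ⟨m, hm⟩; exact ⟨m, by rw [hm]; simp⟩
  · rintro ⟨m, hm⟩; exact ⟨m, by simp at hm; linarith⟩

theorem measurable_nuT (P : ℤ) (q : ℕ) {psi : ℝ → ℝ} (hpsi : Measurable psi) :
    Measurable (nuT P q psi) := by
  unfold nuT
  have h1 : Measurable fun p : Md => ((p.1.1 : ℤ) : ℝ) :=
    (measurable_from_top (f := fun k : ℤ => (k : ℝ))).comp (measurable_fst.comp measurable_fst)
  have h2 : Measurable fun p : Md => ((p.1.2 : ℤ) : ℝ) :=
    (measurable_from_top (f := fun k : ℤ => (k : ℝ))).comp (measurable_snd.comp measurable_fst)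
  exact ((h1.mul_const _).div_const _).add (h2.mul (hpsi.comp measurable_snd))

theorem measurable_nuC (P : ℤ) (q : ℕ) {psi : ℝ → ℝ} (hpsi : Measurable psi) :
    Measurable (nuC P q psi) :=
  (AddCircle.measurable_mk').comp (measurable_nuT P q hpsi)

/-- the cover property gives a.e. injectivity on the circle -/
theorem inj_of_cov {P : ℤ} {q : ℕ} {psi : ℝ → ℝ} {S : Set Md} (hcov : Cov (nuT P q psi) S) :
    ∀ᵐ t ∂(volume : Measure UnitAddCircle), ∀ x ∈ S, ∀ y ∈ S,
      nuC P q psi x = t → nuC P q psi y = t → x = y := by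
  have h1 : ∀ᵐ t ∂(Measure.map ((↑) : ℝ → UnitAddCircle) (volume.restrict (Ioc (0 : ℝ) (0 + 1)))),
      ∀ x ∈ S, ∀ y ∈ S, nuC P q psi x = t → nuC P q psi y = t → x = y := by
    -- use a measurable null set
    set B := {x : ℝ | ¬ ∃! p, p ∈ S ∧ hit (nuT P q psi) p x} with hB
    have hB0 : volume B = 0 := hcov
    set N0 := toMeasurable (volume : Measure ℝ) B with hN0
    have hN0' : volume N0 = 0 := by rw [hN0, measure_toMeasurable]; exact hB0
    have hN0m : MeasurableSet N0 := measurableSet_toMeasurable _ _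
    -- the circle set
    set N : Set UnitAddCircle :=
      (AddCircle.measurableEquivIoc (1 : ℝ) 0) ⁻¹' (Subtype.val ⁻¹' N0) with hN
    have hNm : MeasurableSet N :=
      (AddCircle.measurableEquivIoc (1 : ℝ) 0).measurable (measurable_subtype_coe hN0m)
    have h2 : Measure.map ((↑) : ℝ → UnitAddCircle) (volume.restrict (Ioc (0 : ℝ) (0 + 1))) N
        = 0 := by
      rw [Measure.map_apply AddCircle.measurable_mk' hNm]
      have h3 : volume.restrict (Ioc (0 : ℝ) (0 + 1)) (((↑) : ℝ → UnitAddCircle) ⁻¹' N) ≤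
          volume N0 := by
        rw [Measure.restrict_apply (AddCircle.measurable_mk' hNm)]
        refine measure_mono ?_
        rintro x ⟨hx1, hx2⟩
        have h4 : (AddCircle.measurableEquivIoc (1 : ℝ) 0 (x : UnitAddCircle) : ℝ) = x := by
          have := AddCircle.equivIoc_coe_of_mem (p := (1 : ℝ)) (a := 0) hx2
          exact this
        have h5 : (AddCircle.measurableEquivIoc (1 : ℝ) 0 (x : UnitAddCircle) : ℝ) ∈ N0 := hx1
        rwa [h4] at h5
      exact le_antisymm (h3.trans hN0'.le) bot_le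
    have h3 : ∀ᵐ t ∂(Measure.map ((↑) : ℝ → UnitAddCircle)
        (volume.restrict (Ioc (0 : ℝ) (0 + 1)))), t ∉ N := by
      rw [ae_iff]; simpa using h2
    filter_upwards [h3] with t ht x hx y hy hxt hyt
    set s : ℝ := (AddCircle.measurableEquivIoc (1 : ℝ) 0 t : ℝ) with hs
    have hst : (s : UnitAddCircle) = t := AddCircle.coe_equivIoc (p := (1 : ℝ)) (a := 0)
    have hsN : s ∉ N0 := ht
    have hsB : s ∉ B := fun h => hsN (subset_toMeasurable _ _ h)
    have hex : ∃! p, p ∈ S ∧ hit (nuT P q psi) p s := by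
      by_contra h; exact hsB h
    refine hex.unique ⟨hx, ?_⟩ ⟨hy, ?_⟩
    · rw [hit_iff, hst]; exact hxt
    · rw [hit_iff, hst]; exact hyt
  rwa [(UnitAddCircle.measurePreserving_mk 0).map_eq] at h1

end Crest.Agent.R081.Flat
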