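import Crest.Agent.R081.Flat2

/-!
# Row 81, node FLAT, part 3: the push-forward property from the cover property
-/

set_option autoImplicit false

namespace Crest.Agent.R081.Flat

open MeasureTheory Set Filter Crest.Agent.R081.Cv Crest.Agent.R081.Fm Crest.Agent.R081.Ms
open scoped ENNReal

theorem cnt_eq_one_at {ι : Type*} (A : ι → Set ℝ) (s t : ι → ℝ) (hs : ∀ i, s i ≠ 0) (x : ℝ)
    (hu : ∃! p : ι × ℝ, p.2 ∈ A p.1 ∧ ∃ m : ℤ, s p.1 * p.2 + t p.1 - x = m) :
    cnt A s t x = 1 := by
  obtain ⟨⟨i, c⟩, ⟨hc, m, hm⟩, huq⟩ := hu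
  simp only at hc hm
  have hcm : (x + m - t i) / s i = c := by
    rw [div_eq_iff (hs i)]; linarith
  have key : ∀ i' (m' : ℤ), (x + m' - t i') / s i' ∈ A i' → i' = i ∧ m' = m := by
    intro i' m' hmem
    have h1 := huq (i', (x + m' - t i') / s i') ⟨hmem, m', by
      simp only
      rw [mul_div_cancel₀ _ (hs i')]; ring⟩
    rw [Prod.mk.injEq] at h1
    obtain ⟨h2, h3⟩ := h1
    subst h2
    refine ⟨rfl, ?_⟩
    rw [← hcm, div_left_inj' (hs i')] at h3
    have h4 : (m' : ℝ) = m := by linarith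
    exact_mod_cast h4
  rw [cnt, tsum_eq_single i, tsum_eq_single m]
  · rw [hcm, indicator_of_mem hc]; rfl
  · intro m' hm'
    by_contra hne
    have hmem : (x + m' - t i) / s i ∈ A i := by
      by_contra h
      exact hne (indicator_of_notMem h _)
    exact hm' (key i m' hmem).2
  · intro i' hi'
    rw [ENNReal.tsum_eq_zero]
    intro m'
    by_contra hne
    have hmem : (x + m' - t i') / s i' ∈ A i' := by
      by_contra h
      exact hne (indicator_of_notMem h _)
    exact hi' (key i' m' hmem).1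

theorem push_of_cov {P : ℤ} {q : ℕ} {psi : ℝ → ℝ} (hpsi : Measurable psi) {al de : ℝ}
    (hal : 0 < al) (hlin : ∀ c ∈ Icc de (1 - de), psi c = al * (c - de)) {S : Set Md}
    (hS : MeasurableSet S) (hSJ : ∀ p ∈ S, p.2 ∈ Icc de (1 - de)) (hde : 0 < de)
    (hS2 : ∀ p ∈ S, p.1.2 ≠ 0) (hcov : Cov (nuT P q psi) S) {G : Md → ℂ}
    (hG : AEMeasurable G muX)
    (hGS : ∀ᵐ p ∂muX, ‖G p‖ ^ 2 = S.indicator (fun p => |(p.1.2 : ℝ)| * al) p) :
    Push muX (nuC P q psi) G := by
  classical
  refine Measure.ext fun B hB => ?_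
  have hνm := measurable_nuC P q hpsi
  rw [Measure.map_apply hνm hB, withDensity_apply _ (hνm hB), ← lintegral_indicator (hνm hB)]
  set phi : ℝ → ℝ≥0∞ := fun x => B.indicator 1 ((x : ℝ) : UnitAddCircle) with hphi
  have hphim : Measurable phi := (measurable_one.indicator hB).comp AddCircle.measurable_mk'
  set A : ℤ × ℤ → Set ℝ := fun k => {c | (k, c) ∈ S} with hA
  have hAm : ∀ k, MeasurableSet (A k) := fun k => hS.preimage measurable_prodMk_left
  set s : ℤ × ℤ → ℝ := fun k => if k.2 = 0 then 1 else k.2 * al with hs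
  set t : ℤ × ℤ → ℝ := fun k => (k.1 : ℝ) * P / q - k.2 * al * de with ht
  have hs0 : ∀ k, s k ≠ 0 := by
    intro k
    rw [hs]
    by_cases h : k.2 = 0
    · simp [h]
    · simp only [h, if_false]
      have : (k.2 : ℝ) ≠ 0 := by exact_mod_cast h
      positivity
  have hnu : ∀ k c, c ∈ A k → nuT P q psi (k, c) = s k * c + t k := by
    intro k c hc
    have h1 : k.2 ≠ 0 := hS2 _ hc
    have h2 := hlin c (hSJ _ hc)
    simp only [nuT, h2, hs, ht, h1, if_false]
    ring
  have habs : ∀ k c, c ∈ A k → |s k| = |(k.2 : ℝ)| * al := by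
    intro k c hc
    have h1 : k.2 ≠ 0 := hS2 _ hc
    simp only [hs, h1, if_false]
    rw [abs_mul, abs_of_pos hal]
  -- step 1
  have e1 : ∫⁻ p, (nuC P q psi ⁻¹' B).indicator (fun p => ‖G p‖ₑ ^ 2) p ∂muX =
      ∫⁻ p, S.indicator (fun p => ENNReal.ofReal |s p.1| * phi (s p.1 * p.2 + t p.1)) p ∂muX := by
    refine lintegral_congr_ae ?_
    filter_upwards [hGS] with p hp
    have hn : ‖G p‖ₑ ^ 2 = ENNReal.ofReal (S.indicator (fun p => |(p.1.2 : ℝ)| * al) p) := by
      rw [← hp, ENNReal.ofReal_pow (norm_nonneg _), ofReal_norm]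
    by_cases hpS : p ∈ S
    · have hpA : p.2 ∈ A p.1 := hpS
      rw [indicator_of_mem hpS, ← hnu p.1 p.2 hpA, habs p.1 p.2 hpA]
      by_cases hpB : p ∈ nuC P q psi ⁻¹' B
      · rw [indicator_of_mem hpB, hn, indicator_of_mem hpS]
        have : phi (nuT P q psi (p.1, p.2)) = 1 := by
          rw [hphi]
          exact indicator_of_mem (show ((nuT P q psi p : ℝ) : UnitAddCircle) ∈ B from hpB) _
        rw [this, mul_one]
      · rw [indicator_of_notMem hpB]
        have : phi (nuT P q psi (p.1, p.2)) = 0 := by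
          rw [hphi]
          exact indicator_of_notMem (show ((nuT P q psi p : ℝ) : UnitAddCircle) ∉ B from hpB) _
        rw [this, mul_zero]
    · rw [indicator_of_notMem hpS]
      by_cases hpB : p ∈ nuC P q psi ⁻¹' B
      · rw [indicator_of_mem hpB, hn, indicator_of_notMem hpS]; simp
      · rw [indicator_of_notMem hpB]
  have hsm : Measurable fun p : Md => s p.1 :=
    (measurable_of_countable s).comp measurable_fst
  have htm : Measurable fun p : Md => t p.1 :=
    (measurable_of_countable t).comp measurable_fst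
  have hmeas : Measurable
      (S.indicator (fun p : Md => ENNReal.ofReal |s p.1| * phi (s p.1 * p.2 + t p.1))) := by
    refine Measurable.indicator ?_ hS
    refine (hsm.abs.ennreal_ofReal).mul (hphim.comp ?_)
    exact (hsm.mul measurable_snd).add htm
  have hsf : SFinite I01 := by unfold I01; infer_instance
  rw [e1, muX, lintegral_prod _ hmeas.aemeasurable, lintegral_count]
  -- step 2
  have e2 : ∀ k : ℤ × ℤ, ∫⁻ c, S.indicator
      (fun p : Md => ENNReal.ofReal |s p.1| * phi (s p.1 * p.2 + t p.1)) (k, c) ∂I01 =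
      ∫⁻ c in A k, ENNReal.ofReal |s k| * phi (s k * c + t k) := by
    intro k
    rw [I01, ← lintegral_indicator measurableSet_Ioc, ← lintegral_indicator (hAm k)]
    refine lintegral_congr fun c => ?_
    by_cases hc : c ∈ A k
    · have hcJ := hSJ _ (show (k, c) ∈ S from hc)
      have hc1 : c ∈ Ioc (0 : ℝ) 1 := ⟨by linarith [hcJ.1], by linarith [hcJ.2]⟩
      rw [indicator_of_mem hc1, indicator_of_mem hc, indicator_of_mem (show (k, c) ∈ S from hc)]
    · rw [indicator_of_notMem hc]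
      by_cases hc1 : c ∈ Ioc (0 : ℝ) 1
      · rw [indicator_of_mem hc1, indicator_of_notMem (show (k, c) ∉ S from hc)]
      · rw [indicator_of_notMem hc1]
  rw [tsum_congr e2, cv A hAm s t hs0 phi hphim (fun x m => by
    rw [hphi]
    simp only
    congr 1
    rw [AddCircle.coe_add]
    have : ((m : ℝ) : UnitAddCircle) = 0 := by
      rw [AddCircle.coe_eq_zero_iff]; exact ⟨m, by simp⟩
    rw [this, add_zero])]
  -- step 3: the count is one
  have e3 : ∫⁻ x in Ico (0 : ℝ) 1, phi x * cnt A s t x = ∫⁻ x in Ico (0 : ℝ) 1, phi x := by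
    refine lintegral_congr_ae ?_
    have h1 : ∀ᵐ x ∂(volume.restrict (Ico (0 : ℝ) 1)), ∃! p, p ∈ S ∧ hit (nuT P q psi) p x :=
      ae_restrict_of_ae hcov
    filter_upwards [h1] with x hx
    rw [cnt_eq_one_at A s t hs0 x, mul_one]
    obtain ⟨p, ⟨hpS, m, hm⟩, hpu⟩ := hx
    have hpA : p.2 ∈ A p.1 := hpS
    refine ⟨(p.1, p.2), ⟨hpA, m, ?_⟩, ?_⟩
    · simp only
      rw [← hnu p.1 p.2 hpA]
      have : nuT P q psi (p.1, p.2) = x + m := hm
      rw [this]; ring
    · rintro ⟨k, c⟩ ⟨hkc, m', hm'⟩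
      simp only at hkc hm'
      have := hpu (k, c) ⟨hkc, m', by rw [hnu k c hkc]; linarith⟩
      rw [this]
  rw [e3, setLIntegral_congr Ico_ae_eq_Ioc]
  have h4 := (UnitAddCircle.measurePreserving_mk 0).lintegral_comp
    (f := B.indicator (1 : UnitAddCircle → ℝ≥0∞)) (measurable_one.indicator hB)
  rw [zero_add] at h4
  rw [h4, lintegral_indicator_one hB]

end Crest.Agent.R081.Flat
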