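import Crest.Agent.R081.SmLimit
import Crest.Agent.R081.Glue

/-!
# Row 81: induction and limit.  One-step proposition ==> S0108.
-/

set_option autoImplicit false

namespace Crest.Agent.R081.Ind

open MeasureTheory Filter Topology Crest.AnalysisR.Torus3 Crest.Agent.R081.Sm Crest.Agent.R081.Glue
open scoped RealInnerProductSpace ContDiff ENNReal

/-- real `L²` of the torus -/
abbrev HR : Type := Lp ℝ 2 (volume : Measure T3)

/-- volume preservation of the torus map of a lifted diffeomorphism -/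
def MPr (A : LD) : Prop := MeasurePreserving A.perm (volume : Measure T3) volume

theorem MPr.symm {A : LD} (hA : MPr A) :
    MeasurePreserving A.perm.symm (volume : Measure T3) volume := by
  let e : T3 ≃ᵐ T3 := ⟨A.perm, A.measurable_perm, A.measurable_perm_symm⟩
  exact MeasurePreserving.symm e hA

/-- Koopman operator on real `L²` -/
noncomputable def U (A : LD) (hA : MPr A) : HR ≃ₗᵢ[ℝ] HR := koop A.perm hA hA.symm

theorem coeFn_U_zpow (A : LD) (hA : MPr A) (k : ℤ) (f : HR) :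
    ((U A hA) ^ k) f =ᵐ[volume] f ∘ ⇑(A.perm ^ k) := coeFn_koop_zpow A.perm hA hA.symm k f

/-- polynomial in `U` applied to a vector -/
noncomputable def pol (A : LD) (hA : MPr A) (p : ℤ →₀ ℝ) (f : HR) : HR :=
  p.sum fun k a => a • (((U A hA) ^ k) f)

/-- a system: volume preserving diffeomorphism and a mean zero vector with Lebesgue spectral
measure -/
structure Sys where
  A : LD
  mp : MPr A
  g : HR
  g0 : ∫ x, g x = 0
  on : ∀ k : ℤ, ⟪((U A mp) ^ k) g, g⟫ = if k = 0 then (1 : ℝ) else 0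

/-- closeness of two lifted diffeomorphisms -/
def Close (r : ℕ) (ε : ℝ) (A B : LD) : Prop :=
  Bd r ε (fun x => B.F x - A.F x) ∧ Bd r ε (fun x => B.H x - A.H x)

theorem Close.mono {r r' : ℕ} {ε ε' : ℝ} {A B : LD} (h : Close r ε A B) (hr : r' ≤ r)
    (hε : ε ≤ ε') : Close r' ε' A B := ⟨h.1.mono hr hε, h.2.mono hr hε⟩

theorem norm_le_of_bd {r : ℕ} {ε : ℝ} {f : E3 → E3} (h : Bd r ε f) (x : E3) : ‖f x‖ ≤ ε := by
  have := h 0 (Nat.zero_le _) x
  rwa [norm_iteratedFDeriv_zero] at this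

/-- strong convergence of the Koopman operators -/
theorem conv_U {L : ℕ → LD} {A : LD} (h : Conv L A) (hmp : ∀ n, MPr (L n)) (hA : MPr A) (k : ℤ)
    (f : HR) : Tendsto (fun n => ((U (L n) (hmp n)) ^ k) f) atTop (𝓝 (((U A hA) ^ k) f)) := by
  rw [tendsto_iff_norm_sub_tendsto_zero]
  have h1 := h.l2 hmp k (Lp.memLp f)
  have h2 := (ENNReal.tendsto_toReal (a := 0) (by norm_num)).comp h1
  simp only [ENNReal.toReal_zero] at h2
  refine h2.congr fun n => ?_
  rw [Function.comp_apply, Lp.norm_def]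
  congr 1
  refine eLpNorm_congr_ae ?_
  filter_upwards [Lp.coeFn_sub (((U (L n) (hmp n)) ^ k) f) (((U A hA) ^ k) f),
    coeFn_U_zpow (L n) (hmp n) k f, coeFn_U_zpow A hA k f] with x e1 e2 e3
  rw [e1, Pi.sub_apply, e2, e3]
  rfl

/-- continuity of `B ↦ U_B^k f` at `A` -/
theorem stab1 (A : LD) (hA : MPr A) (f : HR) (k : ℤ) {η : ℝ} (hη : 0 < η) :
    ∃ δ : ℝ, 0 < δ ∧ ∀ (B : LD) (hB : MPr B), Close 0 δ A B →
      ‖((U B hB) ^ k) f - ((U A hA) ^ k) f‖ ≤ η := by
  by_contra hcon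
  push Not at hcon
  have hd : ∀ n : ℕ, (0 : ℝ) < 1 / ((n : ℝ) + 1) := fun n => by positivity
  choose B hB hcl hgt using fun n : ℕ => hcon (1 / ((n : ℝ) + 1)) (hd n)
  have hconv : Conv B A := by
    refine ⟨fun n => 1 / ((n : ℝ) + 1), tendsto_one_div_add_atTop_nhds_zero_nat, fun n x => ?_⟩
    exact ⟨norm_le_of_bd (hcl n).1 x, norm_le_of_bd (hcl n).2 x⟩
  have h1 := conv_U hconv hB hA k f
  rw [tendsto_iff_norm_sub_tendsto_zero] at h1
  have h2 := ge_of_tendsto h1 (Eventually.of_forall fun n => (hgt n).le)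
  exact absurd h2 (not_le.2 hη)

theorem norm_U_zpow (A : LD) (hA : MPr A) (k : ℤ) (f : HR) : ‖((U A hA) ^ k) f‖ = ‖f‖ :=
  LinearIsometryEquiv.norm_map _ _

theorem pol_sub (A : LD) (hA : MPr A) (p : ℤ →₀ ℝ) (f f' : HR) :
    pol A hA p f - pol A hA p f' = pol A hA p (f - f') := by
  unfold pol Finsupp.sum
  rw [← Finset.sum_sub_distrib]
  refine Finset.sum_congr rfl fun k _ => ?_
  beta_reduce
  rw [map_sub, smul_sub]

theorem norm_pol_le (A : LD) (hA : MPr A) (p : ℤ →₀ ℝ) (f : HR) :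
    ‖pol A hA p f‖ ≤ (p.sum fun _ a => |a|) * ‖f‖ := by
  unfold pol Finsupp.sum
  rw [Finset.sum_mul]
  refine (norm_sum_le _ _).trans (Finset.sum_le_sum fun k _ => ?_)
  rw [norm_smul, norm_U_zpow, Real.norm_eq_abs]

/-- continuity of `(B, g') ↦ p(U_B) g'` -/
theorem stab (A : LD) (hA : MPr A) (f : HR) (p : ℤ →₀ ℝ) {η : ℝ} (hη : 0 < η) :
    ∃ δ : ℝ, 0 < δ ∧ ∀ (B : LD) (hB : MPr B) (f' : HR), Close 0 δ A B → ‖f' - f‖ ≤ δ →
      ‖pol B hB p f' - pol A hA p f‖ ≤ η := by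
  set C : ℝ := p.sum fun _ a => |a| with hC
  have hC0 : 0 ≤ C := Finset.sum_nonneg fun k _ => abs_nonneg _
  have hη2 : 0 < η / (2 * (C + 1)) := by positivity
  choose δ hδ0 hδ using fun k : ℤ => stab1 A hA f k hη2
  have hex : ∃ d : ℝ, 0 < d ∧ ∀ k ∈ p.support, d ≤ δ k := by
    by_cases hs : p.support.Nonempty
    · refine ⟨p.support.inf' hs δ, ?_, fun k hk => Finset.inf'_le _ hk⟩
      rw [Finset.lt_inf'_iff]
      exact fun k _ => hδ0 k
    · refine ⟨1, one_pos, fun k hk => absurd ⟨k, hk⟩ hs⟩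
  obtain ⟨d, hd0, hd⟩ := hex
  refine ⟨min d (η / (2 * (C + 1))), lt_min hd0 hη2, fun B hB f' hcl hf => ?_⟩
  have h1 : ‖pol B hB p f' - pol B hB p f‖ ≤ C * (η / (2 * (C + 1))) := by
    rw [pol_sub]
    refine (norm_pol_le B hB p _).trans ?_
    exact mul_le_mul_of_nonneg_left (hf.trans (min_le_right _ _)) hC0
  have h2 : ‖pol B hB p f - pol A hA p f‖ ≤ C * (η / (2 * (C + 1))) := by
    unfold pol Finsupp.sum
    rw [← Finset.sum_sub_distrib]
    refine (norm_sum_le _ _).trans ?_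
    rw [hC, Finsupp.sum, Finset.sum_mul]
    refine Finset.sum_le_sum fun k hk => ?_
    rw [← smul_sub, norm_smul, Real.norm_eq_abs]
    refine mul_le_mul_of_nonneg_left ?_ (abs_nonneg _)
    exact hδ k B hB (hcl.mono le_rfl ((min_le_left _ _).trans (hd k hk)))
  have h3 : C * (η / (2 * (C + 1))) ≤ η / 2 := by
    rw [mul_div_assoc']
    rw [div_le_div_iff₀ (by positivity) (by norm_num)]
    nlinarith
  calc ‖pol B hB p f' - pol A hA p f‖
      = ‖(pol B hB p f' - pol B hB p f) + (pol B hB p f - pol A hA p f)‖ := by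
        congr 1; abel
    _ ≤ _ := norm_add_le _ _
    _ ≤ η / 2 + η / 2 := add_le_add (h1.trans h3) (h2.trans h3)
    _ = η := by ring

/-- continuity, finite list version -/
theorem stabList (A : LD) (hA : MPr A) (f : HR) (P : List (ℤ →₀ ℝ)) {η : ℝ} (hη : 0 < η) :
    ∃ δ : ℝ, 0 < δ ∧ ∀ (B : LD) (hB : MPr B) (f' : HR), Close 0 δ A B → ‖f' - f‖ ≤ δ →
      ∀ p ∈ P, ‖pol B hB p f' - pol A hA p f‖ ≤ η := by
  induction P with
  | nil => exact ⟨1, one_pos, fun _ _ _ _ _ p hp => by simp at hp⟩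
  | cons a P ih =>
    obtain ⟨δ1, h1, h1'⟩ := ih
    obtain ⟨δ2, h2, h2'⟩ := stab A hA f a hη
    refine ⟨min δ1 δ2, lt_min h1 h2, fun B hB f' hcl hf p hp => ?_⟩
    rcases List.mem_cons.1 hp with rfl | hp
    · exact h2' B hB f' (hcl.mono le_rfl (min_le_right _ _)) (hf.trans (min_le_right _ _))
    · exact h1' B hB f' (hcl.mono le_rfl (min_le_left _ _)) (hf.trans (min_le_left _ _)) p hp

end Crest.Agent.R081.Ind
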