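import Crest.Agent.R081.Flat3
import Crest.Agent.R081.FmTwist
import Crest.Agent.R081.StDefs
import Crest.Agent.R081.Ind

/-!
# Row 81, node FLAT, part 4: the stages of route B
-/

set_option autoImplicit false

namespace Crest.Agent.R081.Flat

open MeasureTheory Set Filter Crest.AnalysisR.Torus3 Crest.Agent.R075 Crest.Agent.R081.Cv
  Crest.Agent.R081.Fm Crest.Agent.R081.St Crest.Agent.R081.Ind Crest.Agent.R081.Sm
  Crest.Agent.R081.Tw
open scoped ENNReal ComplexConjugate RealInnerProductSpace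

theorem nuT_eq (t : TwD) (x : X) : nuT t.P t.q t.psi x = t.nu x := by
  unfold nuT TwD.nu
  rw [mul_div_assoc]

theorem cov_of_modes {t : TwD} (M : Modes t) : Cov (nuT t.P t.q t.psi) M.S := by
  filter_upwards [M.full] with x hx
  obtain ⟨y, hy, n, hn⟩ := hx
  refine ⟨y, ⟨hy, n, by rw [nuT_eq]; linarith⟩, ?_⟩
  rintro z ⟨hz, m, hm⟩
  refine M.inj z hz y hy ⟨m - n, ?_⟩
  rw [nuT_eq] at hm
  push_cast
  linarith

theorem isTw_R (t : TwD) : IsTw t.R.perm (t.P / t.q) t.psi := by
  intro c y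
  unfold P3
  rw [LD.perm_proj]
  rfl

theorem nu_eq (t : TwD) (x : X) : nu (t.P / t.q) t.psi x = t.nu x := rfl

theorem ee_nu (t : TwD) (n : ℤ) (x : X) :
    ee (n * nu (t.P / t.q) t.psi x) = fourier n (nuC t.P t.q t.psi x) := by
  unfold nuC
  rw [nuT_eq, nu_eq, fourier_coe_apply]
  unfold ee
  congr 1
  push_cast
  ring

theorem push_stage (s : Stage) :
    Push muX (nuC s.t.P s.t.q s.t.psi) (fcX (fun y => (s.g y : ℂ))) := by
  refine push_of_cov s.t.smooth.continuous.measurable s.t.al_pos s.t.lin s.M.meas s.M.sub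
    s.t.del_pos s.M.ne0 (cov_of_modes s.M) ?_ s.flat
  exact (memLp_fcX s.g_lp.ofReal).aestronglyMeasurable.aemeasurable

theorem mp_R (t : TwD) : MP t.R := (isTw_R t).measurePreserving t.R.measurable_perm

theorem mpT (s : Stage) : MPr s.T := by
  have h : MP (TT s.t s.H) := (s.mpH.comp (mp_R s.t)).comp s.mpH.inv
  unfold MP at h
  unfold MPr
  rw [s.hT]
  exact h

theorem perm_T (s : Stage) : s.T.perm = s.H.perm * s.t.R.perm * s.H.perm⁻¹ := by
  rw [s.hT]
  unfold TT
  rw [LD.perm_comp, LD.perm_comp, LD.perm_inv]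

theorem perm_T_zpow (s : Stage) (k : ℤ) :
    s.T.perm ^ k = s.H.perm * s.t.R.perm ^ k * s.H.perm⁻¹ := by
  rw [perm_T, conj_zpow]

theorem mpHs (s : Stage) : MeasurePreserving s.H.perm.symm (volume : Measure T3) volume :=
  MPr.symm s.mpH

theorem gT_lp (s : Stage) : MemLp s.gT 2 volume := s.g_lp.comp_measurePreserving (mpHs s)

theorem gT_zpow (s : Stage) (k : ℤ) (y : T3) :
    s.gT ((s.T.perm ^ k) (s.H.perm y)) = s.g ((s.t.R.perm ^ k) y) := by
  unfold Stage.gT
  rw [perm_T_zpow]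
  simp

theorem gT_H (s : Stage) (y : T3) : s.gT (s.H.perm y) = s.g y := by
  unfold Stage.gT
  simp

/-! ### correlations and mean -/

theorem corr_gT (s : Stage) (k : ℤ) :
    ∫ x, s.gT ((s.T.perm ^ k) x) * s.gT x = if k = 0 then (1 : ℝ) else 0 := by
  have h1 : ∫ x, s.gT ((s.T.perm ^ k) x) * s.gT x =
      ∫ y, s.g ((s.t.R.perm ^ k) y) * s.g y := by
    have e := (s.mpH : MeasurePreserving s.H.perm volume volume).integral_comp'
      (f := ⟨s.H.perm, s.H.measurable_perm, s.H.measurable_perm_symm⟩)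
      (fun x => s.gT ((s.T.perm ^ k) x) * s.gT x)
    rw [← e]
    refine integral_congr_ae (Eventually.of_forall fun y => ?_)
    show s.gT ((s.T.perm ^ k) (s.H.perm y)) * s.gT (s.H.perm y) = _
    rw [gT_zpow, gT_H]
  have h2 := corr (isTw_R s.t) k (mp_zpow (mp_R s.t) k) (s.g_lp.ofReal (K := ℂ))
    (s.g_lp.ofReal (K := ℂ))
  have h3 := (push_stage s).corr (measurable_nuC _ _ s.t.smooth.continuous.measurable)
    (memLp_fcX (s.g_lp.ofReal (K := ℂ))).aestronglyMeasurable.aemeasurable k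
  have h4 : ((∫ x, s.gT ((s.T.perm ^ k) x) * s.gT x : ℝ) : ℂ) =
      if k = 0 then (1 : ℂ) else 0 := by
    rw [h1, ← h3, ← integral_complex_ofReal]
    refine Eq.trans (integral_congr_ae (Eventually.of_forall fun y => ?_)) (h2.trans ?_)
    · simp
    · refine integral_congr_ae (Eventually.of_forall fun x => ?_)
      simp only
      rw [ee_nu]
      congr 1
      rw [RCLike.mul_conj]
      norm_num
  by_cases hk : k = 0
  · rw [if_pos hk] at h4 ⊢; exact_mod_cast h4
  · rw [if_neg hk] at h4 ⊢; exact_mod_cast h4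

theorem mean_eq {f : T3 → ℂ} (hf : Integrable f volume) :
    ∫ x, f x = ∫ c, fc f 0 c ∂I01 := by
  have h1 : ∫ x, f x = ∫ p, f (C3 p) ∂(I01.prod volume) := by
    have := mp_C3.map_eq
    rw [← this, integral_map mp_C3.measurable.aemeasurable]
    rw [this]
    exact hf.aestronglyMeasurable
  have h2 : Integrable (fun p => f (C3 p)) (I01.prod volume) :=
    (mp_C3.integrable_comp hf.aestronglyMeasurable).2 hf
  rw [h1, integral_prod _ h2]
  refine integral_congr_ae (Eventually.of_forall fun c => ?_)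
  simp only
  rw [fc_eq]
  have : kv 0 = 0 := by funext i; fin_cases i <;> simp [kv]
  rw [this, neg_zero]
  simp [UnitAddTorus.mFourier]

theorem gT_mean (s : Stage) : ∫ x, s.gT x = 0 := by
  have h1 : ∫ x, s.gT x = ∫ y, s.g y := by
    have e := (s.mpH : MeasurePreserving s.H.perm volume volume).integral_comp'
      (f := ⟨s.H.perm, s.H.measurable_perm, s.H.measurable_perm_symm⟩) s.gT
    rw [← e]
    refine integral_congr_ae (Eventually.of_forall fun y => ?_)
    exact gT_H s y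
  have hi : Integrable (fun y => (s.g y : ℂ)) volume :=
    (s.g_lp.integrable (by norm_num)).ofReal
  have h2 : ((∫ x, s.gT x : ℝ) : ℂ) = 0 := by
    rw [h1, ← integral_complex_ofReal, mean_eq hi]
    have h3 := ae_muX.1 s.flat 0
    have : (fun c => fc (fun y => (s.g y : ℂ)) 0 c) =ᵐ[I01] 0 := by
      filter_upwards [h3] with c hc
      have h4 : ((0, c) : X) ∉ s.M.S := fun h => s.M.ne0 _ h rfl
      rw [indicator_of_notMem h4] at hc
      have h5 : ‖fcX (fun y => (s.g y : ℂ)) (0, c)‖ = 0 := by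
        simpa using hc
      exact norm_eq_zero.1 h5
    rw [integral_congr_ae this]
    simp
  exact_mod_cast h2

/-! ### the system of a stage -/

theorem inner_HR (u v : HR) : ⟪u, v⟫ = ∫ x, u x * v x := by
  rw [MeasureTheory.L2.inner_def]
  refine integral_congr_ae (Eventually.of_forall fun x => ?_)
  simp [mul_comm]

/-- the function of a stage as a vector of real `L²` -/
noncomputable def gL (s : Stage) : HR := (gT_lp s).toLp s.gT

theorem gL_coe (s : Stage) : gL s =ᵐ[volume] s.gT := (gT_lp s).coeFn_toLp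

theorem U_gL (s : Stage) (k : ℤ) :
    ((U s.T (mpT s)) ^ k) (gL s) =ᵐ[volume] fun x => s.gT ((s.T.perm ^ k) x) := by
  refine (coeFn_U_zpow s.T (mpT s) k (gL s)).trans ?_
  exact (mp_zpow (mpT s) k).quasiMeasurePreserving.ae_eq_comp (gL_coe s)

/-- the system of a stage -/
noncomputable def sys (s : Stage) : Sys where
  A := s.T
  mp := mpT s
  g := gL s
  g0 := by rw [integral_congr_ae (gL_coe s)]; exact gT_mean s
  on := fun k => by
    rw [inner_HR, ← corr_gT s k]
    refine integral_congr_ae ?_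
    filter_upwards [U_gL s k, gL_coe s] with x h1 h2
    rw [h1, h2]

/-! ### distance -/

theorem fcX_sum {ι : Type*} (I : Finset ι) (a : ι → ℂ) (f : ι → T3 → ℂ)
    (hf : ∀ i ∈ I, Integrable (f i) volume) :
    fcX (fun x => ∑ i ∈ I, a i * f i x) =ᵐ[muX] fun x => ∑ i ∈ I, a i * fcX (f i) x := by
  classical
  induction I using Finset.induction_on with
  | empty =>
    refine Eventually.of_forall fun x => ?_
    simp [fcX, fc]
  | insert i I hi ih =>
    have h1 := ih fun j hj => hf j (Finset.mem_insert_of_mem hj)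
    have h2 : Integrable (a i • f i) volume := (hf i (Finset.mem_insert_self _ _)).smul _
    have h3 : Integrable (fun x => ∑ i ∈ I, a i * f i x) volume :=
      integrable_finsetSum _ fun j hj => (hf j (Finset.mem_insert_of_mem hj)).const_mul _
    have h4 := fc_add h2 h3
    have h5 : (fun x => ∑ j ∈ insert i I, a j * f j x) =
        a i • f i + fun x => ∑ i ∈ I, a i * f i x := by
      funext x
      rw [Finset.sum_insert hi]
      rfl
    rw [h5]
    filter_upwards [h1, h4] with x e1 e2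
    rw [e2, Pi.add_apply, e1, fcX_smul, Finset.sum_insert hi]
    rfl

/-- distance to the cyclic space, in twist coordinates -/
theorem dist_tw (s : Stage) {F : T3 → ℂ} (hF : MemLp F 2 volume) {η : ℝ} (hη : 0 < η) :
    ∃ p : ℤ →₀ ℂ, ∫⁻ x, ‖F x - ∑ n ∈ p.support, p n * (s.g ((s.t.R.perm ^ n) x) : ℂ)‖ₑ ^ 2 ≤
      ∫⁻ x in s.M.Sᶜ, ‖fcX F x‖ₑ ^ 2 ∂muX + ENNReal.ofReal (η ^ 2) := by
  have hg := s.g_lp.ofReal (K := ℂ)
  have hG0 : ∀ᵐ x ∂muX, x ∉ s.M.S → fcX (fun y => (s.g y : ℂ)) x = 0 := by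
    filter_upwards [s.flat] with x hx h
    rw [indicator_of_notMem h] at hx
    have h5 : ‖fcX (fun y => (s.g y : ℂ)) x‖ = 0 := by simpa using hx
    exact norm_eq_zero.1 h5
  have hG1 : ∀ᵐ x ∂muX, x ∈ s.M.S → fcX (fun y => (s.g y : ℂ)) x ≠ 0 := by
    filter_upwards [s.flat] with x hx h h0
    rw [indicator_of_mem h, h0] at hx
    have h1 : (0 : ℝ) < |(x.1.2 : ℝ)| := by
      rw [abs_pos]; exact_mod_cast s.M.ne0 x h
    have h2 := mul_pos h1 s.t.al_pos
    simp only [norm_zero] at hx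
    rw [← hx] at h2
    norm_num at h2
  obtain ⟨p, hp⟩ := (push_stage s).dist_ae (measurable_nuC _ _ s.t.smooth.continuous.measurable)
    (memLp_fcX hg).aestronglyMeasurable.aemeasurable s.M.meas hG0 hG1
    (inj_of_cov (cov_of_modes s.M)) (memLp_fcX hF) hη
  refine ⟨p, le_of_eq_of_le ?_ hp⟩
  have hgn : ∀ n : ℤ, MemLp (fun x => (s.g ((s.t.R.perm ^ n) x) : ℂ)) 2 volume := fun n =>
    hg.comp_measurePreserving (mp_zpow (mp_R s.t) n)
  have hsum : MemLp (fun x => ∑ n ∈ p.support, p n * (s.g ((s.t.R.perm ^ n) x) : ℂ)) 2 volume :=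
    memLp_finsetSum _ fun n _ => (hgn n).const_mul _
  rw [← lintegral_fcX (f := fun x => F x -
    ∑ n ∈ p.support, p n * (s.g ((s.t.R.perm ^ n) x) : ℂ)) (hF.sub hsum)]
  refine lintegral_congr_ae ?_
  have e1 := fcX_sum p.support (fun n => p n) (fun n x => (s.g ((s.t.R.perm ^ n) x) : ℂ))
    fun n _ => (hgn n).integrable (by norm_num)
  have e2 := fc_add (hF.integrable (by norm_num))
    ((hsum.integrable (by norm_num)).smul (-1 : ℂ))
  have e3 : (fun x => F x - ∑ n ∈ p.support, p n * (s.g ((s.t.R.perm ^ n) x) : ℂ)) =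
      F + (-1 : ℂ) • fun x => ∑ n ∈ p.support, p n * (s.g ((s.t.R.perm ^ n) x) : ℂ) := by
    funext x
    simp [sub_eq_add_neg]
  rw [e3]
  filter_upwards [e1, e2] with x h1 h2
  rw [h2, Pi.add_apply, fcX_smul, Pi.smul_apply, h1]
  congr 2
  rw [smul_eq_mul, neg_one_mul, ← sub_eq_add_neg]
  congr 1
  unfold tp Finsupp.sum
  rw [Finset.sum_mul]
  refine Finset.sum_congr rfl fun n _ => ?_
  have h3 := fcX_comp_tw_zpow (isTw_R s.t) n (fun y => (s.g y : ℂ)) x
  rw [h3, ee_nu, mul_assoc]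

theorem enorm_sq_HR (u : HR) : ‖u‖ₑ ^ 2 = ∫⁻ x, ‖u x‖ₑ ^ 2 := by
  rw [Lp.enorm_def, eLpNorm_eq_lintegral_rpow_enorm_toReal (by norm_num) (by norm_num)]
  simp only [ENNReal.toReal_ofNat, one_div]
  rw [← ENNReal.rpow_natCast, ← ENNReal.rpow_mul]
  norm_num

theorem pol_coe (s : Stage) (p : ℤ →₀ ℝ) :
    pol s.T (mpT s) p (gL s) =ᵐ[volume]
      fun x => ∑ n ∈ p.support, p n * s.gT ((s.T.perm ^ n) x) := by
  have h1 : ∀ I : Finset ℤ, (∑ n ∈ I, p n • (((U s.T (mpT s)) ^ n) (gL s)) : HR) =ᵐ[volume]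
      fun x => ∑ n ∈ I, p n * s.gT ((s.T.perm ^ n) x) := by
    intro I
    induction I using Finset.induction_on with
    | empty =>
      simp only [Finset.sum_empty]
      exact Lp.coeFn_zero ℝ 2 (volume : Measure T3)
    | insert n I hn ih =>
      rw [Finset.sum_insert hn]
      filter_upwards [Lp.coeFn_add (p n • (((U s.T (mpT s)) ^ n) (gL s)))
        (∑ n ∈ I, p n • (((U s.T (mpT s)) ^ n) (gL s)) : HR), ih,
        Lp.coeFn_smul (p n) (((U s.T (mpT s)) ^ n) (gL s)), U_gL s n] with x a1 a2 a3 a4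
      rw [a1, Pi.add_apply, a2, a3, Pi.smul_apply, a4, Finset.sum_insert hn, smul_eq_mul]
  exact h1 p.support

theorem ofReal_D0 (s : Stage) {f : T3 → ℂ} (hf : MemLp f 2 volume) :
    ENNReal.ofReal (s.D0 f ^ 2) =
      ∫⁻ x in s.M.Sᶜ, ‖fcX (fun y => f (s.H.perm y)) x‖ₑ ^ 2 ∂muX := by
  have hF : MemLp (fun y => f (s.H.perm y)) 2 volume :=
    hf.comp_measurePreserving (s.mpH : MeasurePreserving s.H.perm volume volume)
  have h1 := (memLp_fcX hF).restrict s.M.Sᶜ
  unfold Stage.D0 Stage.nrm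
  rw [Real.sq_sqrt (integral_nonneg fun x => by positivity),
    ofReal_integral_eq_lintegral_ofReal (h1.integrable_norm_pow (by norm_num))
      (Eventually.of_forall fun x => by positivity)]
  refine lintegral_congr fun x => ?_
  rw [ENNReal.ofReal_pow (norm_nonneg _), ofReal_norm]

/-- **FLAT, (S1)** -/
theorem dist (s : Stage) (f : HR) {η : ℝ} (hη : 0 < η) :
    ∃ p : ℤ →₀ ℝ, ‖f - pol (sys s).A (sys s).mp p (sys s).g‖ ≤
      s.D0 (fun x => (f x : ℂ)) + η := by
  have hf : MemLp (fun x => (f x : ℂ)) 2 volume := (Lp.memLp f).ofReal (K := ℂ)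
  have hF : MemLp (fun y => (f (s.H.perm y) : ℂ)) 2 volume :=
    hf.comp_measurePreserving (s.mpH : MeasurePreserving s.H.perm volume volume)
  obtain ⟨p, hp⟩ := dist_tw s hF hη
  set pr : ℤ →₀ ℝ := p.mapRange Complex.re Complex.zero_re with hpr
  refine ⟨pr, ?_⟩
  have hD0 : 0 ≤ s.D0 (fun x => (f x : ℂ)) := Real.sqrt_nonneg _
  have hsum : ∀ G : ℤ → ℝ, ∑ n ∈ pr.support, pr n * G n = ∑ n ∈ p.support, (p n).re * G n := by
    intro G
    have e1 : ∀ n, pr n = (p n).re := fun n => by rw [hpr]; simp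
    simp only [e1]
    refine Finset.sum_subset ?_ ?_
    · intro n hn
      rw [Finsupp.mem_support_iff] at hn ⊢
      intro h
      apply hn
      rw [e1, h]; simp
    · intro n _ hn
      rw [Finsupp.notMem_support_iff, e1] at hn
      rw [hn, zero_mul]
  have h1 : ENNReal.ofReal (‖f - pol (sys s).A (sys s).mp pr (sys s).g‖ ^ 2) ≤
      ENNReal.ofReal ((s.D0 (fun x => (f x : ℂ)) + η) ^ 2) := by
    calc ENNReal.ofReal (‖f - pol (sys s).A (sys s).mp pr (sys s).g‖ ^ 2)
        = ∫⁻ x, ‖(f - pol s.T (mpT s) pr (gL s) : HR) x‖ₑ ^ 2 := by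
          rw [ENNReal.ofReal_pow (norm_nonneg _), ofReal_norm, enorm_sq_HR]
          rfl
      _ = ∫⁻ x, ‖f x - ∑ n ∈ p.support, (p n).re * s.gT ((s.T.perm ^ n) x)‖ₑ ^ 2 := by
          refine lintegral_congr_ae ?_
          filter_upwards [Lp.coeFn_sub f (pol s.T (mpT s) pr (gL s)), pol_coe s pr] with x a1 a2
          rw [a1, Pi.sub_apply, a2, hsum]
      _ = ∫⁻ y, ‖f (s.H.perm y) -
            ∑ n ∈ p.support, (p n).re * s.g ((s.t.R.perm ^ n) y)‖ₑ ^ 2 := by
          have e := (s.mpH : MeasurePreserving s.H.perm volume volume).lintegral_comp_emb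
            (MeasurableEquiv.measurableEmbedding
              ⟨s.H.perm, s.H.measurable_perm, s.H.measurable_perm_symm⟩)
            (fun x => ‖f x - ∑ n ∈ p.support, (p n).re * s.gT ((s.T.perm ^ n) x)‖ₑ ^ 2)
          rw [← e]
          refine lintegral_congr fun y => ?_
          simp only [gT_zpow]
      _ ≤ ∫⁻ y, ‖(f (s.H.perm y) : ℂ) -
            ∑ n ∈ p.support, p n * (s.g ((s.t.R.perm ^ n) y) : ℂ)‖ₑ ^ 2 := by
          refine lintegral_mono fun y => ?_
          gcongr
          rw [← ofReal_norm, ← ofReal_norm]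
          refine ENNReal.ofReal_le_ofReal ?_
          refine le_trans (le_of_eq ?_) (Complex.abs_re_le_norm _)
          rw [Real.norm_eq_abs]
          congr 1
          simp
      _ ≤ ENNReal.ofReal (s.D0 (fun x => (f x : ℂ)) ^ 2) + ENNReal.ofReal (η ^ 2) := by
          rw [ofReal_D0 s hf]; exact hp
      _ = ENNReal.ofReal (s.D0 (fun x => (f x : ℂ)) ^ 2 + η ^ 2) := by
          rw [ENNReal.ofReal_add (by positivity) (by positivity)]
      _ ≤ _ := ENNReal.ofReal_le_ofReal (by nlinarith)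
  rw [ENNReal.ofReal_le_ofReal_iff (by positivity)] at h1
  exact le_of_sq_le_sq h1 (by positivity)

end Crest.Agent.R081.Flat
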