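import Mathlib

/-!
# Row 81, node FRESNEL: Plancherel for functions in `L¹ ∩ L²` (helper326)
-/

set_option autoImplicit false

open MeasureTheory Filter Topology
open scoped ENNReal FourierTransform SchwartzMap ContDiff

noncomputable section

namespace Crest.Agent.R081.Fr

/-- the integral Fourier transform and the `L²` Fourier transform agree on `L¹ ∩ L²` -/
theorem fourier_ae_eq {f : ℝ → ℂ} (h1 : Integrable f) (h2 : MemLp f 2) :
    ((𝓕 (h2.toLp f) : Lp ℂ 2 (volume : Measure ℝ)) : ℝ → ℂ) =ᵐ[volume] 𝓕 f := by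
  set g : Lp ℂ 2 (volume : Measure ℝ) := 𝓕 (h2.toLp f) with hg
  have hcont : Continuous (𝓕 f) := by
    simpa using! VectorFourier.fourierIntegral_continuous (V := ℝ) (W := ℝ)
      Real.continuous_fourierChar (L := innerₗ ℝ) continuous_inner h1
  have key : ∀ u : 𝓢(ℝ, ℂ), ∫ x, u x • (g : ℝ → ℂ) x = ∫ x, u x • 𝓕 f x := by
    intro u
    have e1 : (g : 𝓢'(ℝ, ℂ)) u = ∫ x, u x • (g : ℝ → ℂ) x := Lp.toTemperedDistribution_apply g u
    have e2 : (g : 𝓢'(ℝ, ℂ)) = 𝓕 ((h2.toLp f : Lp ℂ 2 (volume : Measure ℝ)) : 𝓢'(ℝ, ℂ)) :=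
      (Lp.fourier_toTemperedDistribution_eq (h2.toLp f)).symm
    have e3 : (𝓕 ((h2.toLp f : Lp ℂ 2 (volume : Measure ℝ)) : 𝓢'(ℝ, ℂ))) u =
        ((h2.toLp f : Lp ℂ 2 (volume : Measure ℝ)) : 𝓢'(ℝ, ℂ)) (𝓕 u) := by
      simp
    have e4 : ((h2.toLp f : Lp ℂ 2 (volume : Measure ℝ)) : 𝓢'(ℝ, ℂ)) (𝓕 u) =
        ∫ x, (𝓕 u) x • ((h2.toLp f : Lp ℂ 2 (volume : Measure ℝ)) : ℝ → ℂ) x :=
      Lp.toTemperedDistribution_apply _ _
    have e5 : ∫ x, (𝓕 u) x • ((h2.toLp f : Lp ℂ 2 (volume : Measure ℝ)) : ℝ → ℂ) x =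
        ∫ x, (𝓕 u) x • f x := by
      apply integral_congr_ae
      filter_upwards [h2.coeFn_toLp] with x hx
      rw [hx]
    have e6 : ∫ x, (𝓕 (u : ℝ → ℂ)) x • f x = ∫ x, u x • 𝓕 f x := by
      simpa using! VectorFourier.integral_fourierIntegral_smul_eq_flip (L := innerₗ ℝ)
        (μ := (volume : Measure ℝ)) (ν := (volume : Measure ℝ))
        Real.continuous_fourierChar continuous_inner u.integrable h1
    rw [← e1, e2, e3, e4, e5, SchwartzMap.fourier_coe, e6]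
  have hgm : LocallyIntegrable (g : ℝ → ℂ) volume := (Lp.memLp g).locallyIntegrable (by norm_num)
  refine ae_eq_of_integral_contDiff_smul_eq hgm hcont.locallyIntegrable fun w hw hwc => ?_
  have hg₁ : HasCompactSupport (Complex.ofRealCLM ∘ w) := hwc.comp_left rfl
  have hg₂ : ContDiff ℝ ∞ (Complex.ofRealCLM ∘ w) := by fun_prop
  have := key (hg₁.toSchwartzMap hg₂)
  simpa using this

theorem memLp_fourier {f : ℝ → ℂ} (h1 : Integrable f) (h2 : MemLp f 2) :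
    MemLp (𝓕 f) 2 :=
  (Lp.memLp (𝓕 (h2.toLp f))).ae_eq (fourier_ae_eq h1 h2)

/-- Plancherel, `eLpNorm` form -/
theorem eLpNorm_fourier {f : ℝ → ℂ} (h1 : Integrable f) (h2 : MemLp f 2) :
    eLpNorm (𝓕 f) 2 volume = eLpNorm f 2 volume := by
  rw [← eLpNorm_congr_ae (fourier_ae_eq h1 h2), ← eLpNorm_congr_ae h2.coeFn_toLp,
    ← Lp.enorm_def, ← Lp.enorm_def, ← ofReal_norm, ← ofReal_norm, Lp.norm_fourier_eq]

end Crest.Agent.R081.Fr
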