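import Crest.Agent.R081.FrPl
import Crest.Agent.R075.Basic

/-!
# Row 81, node FRESNEL (helper326)

`T lam f x = √|lam| ∫ f(c) e(lam (c-x)^2/2) dc` is an isometry of `L² ∩ L¹` and
`T lam f - kap lam • f → 0` in `L²` as `|lam| → ∞`.
-/

set_option autoImplicit false

open MeasureTheory Filter Topology Complex
open scoped ENNReal FourierTransform SchwartzMap ContDiff

noncomputable section

namespace Crest.Agent.R081.Fr

open Crest.Agent.R075 (ee norm_ee ee_add ee_eq)

/-! ## scaling -/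

theorem eLpNorm_comp_mul {H : ℝ → ℂ} {a : ℝ} (ha : a ≠ 0) :
    eLpNorm (fun x => H (a * x)) 2 volume =
      ENNReal.ofReal (|a|⁻¹) ^ (1 / 2 : ℝ) * eLpNorm H 2 volume := by
  have h1 := (Homeomorph.mulLeft₀ a ha).measurableEmbedding.eLpNorm_map_measure
    (g := H) (p := 2) (μ := volume)
  have h2 : Measure.map (Homeomorph.mulLeft₀ a ha) (volume : Measure ℝ) =
      ENNReal.ofReal |a⁻¹| • volume := Real.map_volume_mul_left ha
  rw [h2] at h1
  have h3 : (H ∘ (Homeomorph.mulLeft₀ a ha)) = fun x => H (a * x) := by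
    funext x; rfl
  rw [h3] at h1
  rw [← h1, eLpNorm_smul_measure_of_ne_top (by norm_num), abs_inv, smul_eq_mul]
  congr 2
  norm_num

/-! ## the Fresnel operator -/

def T (lam : ℝ) (f : ℝ → ℂ) (x : ℝ) : ℂ :=
  (Real.sqrt |lam| : ℂ) * ∫ c, f c * ee (lam * (c - x) ^ 2 / 2)

theorem continuous_ee : Continuous ee := by
  unfold Crest.Agent.R075.ee; fun_prop

theorem T_eq (lam : ℝ) (f : ℝ → ℂ) (x : ℝ) :
    T lam f x = (Real.sqrt |lam| : ℂ) * ee (lam * x ^ 2 / 2) *
      𝓕 (fun c => f c * ee (lam * c ^ 2 / 2)) (lam * x) := by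
  unfold T
  rw [mul_assoc]
  congr 1
  rw [Real.fourier_real_eq_integral_exp_smul, ← integral_const_mul]
  refine integral_congr_ae (Eventually.of_forall fun c => ?_)
  simp only [smul_eq_mul]
  have e1 : cexp (((-2 * Real.pi * c * (lam * x) : ℝ) : ℂ) * I) = ee (-(c * (lam * x))) := by
    rw [ee_eq]; congr 2; push_cast; ring
  rw [e1]
  have e2 : lam * (c - x) ^ 2 / 2 = lam * x ^ 2 / 2 + (-(c * (lam * x)) + lam * c ^ 2 / 2) := by
    ring
  rw [e2, ee_add, ee_add]
  ring

theorem integrable_chirp {f : ℝ → ℂ} (h1 : Integrable f) {p : ℝ → ℝ} (hp : Continuous p) :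
    Integrable fun c => f c * ee (p c) := by
  refine h1.mul_bdd (c := 1) ((continuous_ee.comp hp).aestronglyMeasurable)
    (Eventually.of_forall fun c => by simp)

theorem memLp_chirp {f : ℝ → ℂ} (h2 : MemLp f 2) {p : ℝ → ℝ} (hp : Continuous p) :
    MemLp (fun c => f c * ee (p c)) 2 := by
  refine h2.of_le (h2.aestronglyMeasurable.mul (continuous_ee.comp hp).aestronglyMeasurable)
    (Eventually.of_forall fun c => by simp)

theorem eLpNorm_chirp {f : ℝ → ℂ} {p : ℝ → ℝ} :
    eLpNorm (fun c => f c * ee (p c)) 2 volume = eLpNorm f 2 volume := by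
  refine eLpNorm_congr_norm_ae (Eventually.of_forall fun c => by simp)

theorem continuous_fourier {f : ℝ → ℂ} (h1 : Integrable f) : Continuous (𝓕 f) := by
  simpa using! VectorFourier.fourierIntegral_continuous (V := ℝ) (W := ℝ)
    Real.continuous_fourierChar (L := innerₗ ℝ) continuous_inner h1

theorem continuous_T {lam : ℝ} {f : ℝ → ℂ} (h1 : Integrable f) : Continuous (T lam f) := by
  have e : T lam f = fun x => (Real.sqrt |lam| : ℂ) * ee (lam * x ^ 2 / 2) *
      𝓕 (fun c => f c * ee (lam * c ^ 2 / 2)) (lam * x) := by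
    funext x; exact T_eq lam f x
  rw [e]
  have hp : Continuous fun c : ℝ => lam * c ^ 2 / 2 := by fun_prop
  have h3 := continuous_fourier (integrable_chirp h1 hp)
  exact (continuous_const.mul (continuous_ee.comp hp)).mul
    (h3.comp (continuous_const.mul continuous_id))

theorem eLpNorm_T {lam : ℝ} (hlam : lam ≠ 0) {f : ℝ → ℂ} (h1 : Integrable f) (h2 : MemLp f 2) :
    eLpNorm (T lam f) 2 volume = eLpNorm f 2 volume := by
  have hp : Continuous fun c : ℝ => lam * c ^ 2 / 2 := by fun_prop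
  have e1 : eLpNorm (T lam f) 2 volume =
      eLpNorm ((Real.sqrt |lam| : ℂ) • fun x =>
        𝓕 (fun c => f c * ee (lam * c ^ 2 / 2)) (lam * x)) 2 volume := by
    refine eLpNorm_congr_norm_ae (Eventually.of_forall fun x => ?_)
    rw [T_eq]
    simp
  rw [e1, eLpNorm_const_smul, eLpNorm_comp_mul hlam,
    eLpNorm_fourier (integrable_chirp h1 hp) (memLp_chirp h2 hp), eLpNorm_chirp, ← mul_assoc]
  have e2 : ‖(Real.sqrt |lam| : ℂ)‖ₑ * ENNReal.ofReal (|lam|⁻¹) ^ (1 / 2 : ℝ) = 1 := by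
    have hl : 0 < |lam| := abs_pos.2 hlam
    rw [← ofReal_norm, Complex.norm_real, Real.norm_eq_abs, abs_of_nonneg (Real.sqrt_nonneg _),
      ENNReal.ofReal_rpow_of_nonneg (by positivity) (by norm_num),
      ← ENNReal.ofReal_mul (Real.sqrt_nonneg _), ← Real.sqrt_eq_rpow, ← Real.sqrt_mul hl.le,
      mul_inv_cancel₀ hl.ne', Real.sqrt_one, ENNReal.ofReal_one]
  rw [e2, one_mul]

theorem memLp_T {lam : ℝ} (hlam : lam ≠ 0) {f : ℝ → ℂ} (h1 : Integrable f) (h2 : MemLp f 2) :
    MemLp (T lam f) 2 :=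
  ⟨(continuous_T h1).aestronglyMeasurable, by rw [eLpNorm_T hlam h1 h2]; exact h2.2⟩

theorem T_sub {lam : ℝ} {f g : ℝ → ℂ} (hf : Integrable f) (hg : Integrable g) (x : ℝ) :
    T lam (fun c => f c - g c) x = T lam f x - T lam g x := by
  unfold T
  have hp : Continuous fun c : ℝ => lam * (c - x) ^ 2 / 2 := by fun_prop
  rw [← mul_sub, ← integral_sub (integrable_chirp hf hp) (integrable_chirp hg hp)]
  congr 1
  refine integral_congr_ae (Eventually.of_forall fun c => ?_)
  simp only [sub_mul]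

/-! ## the Gaussian identity -/

theorem gauss_shift {b : ℂ} (hb : 0 < b.re) (x : ℝ) :
    𝓕 (fun c : ℝ => cexp (-Real.pi * b * (c - x) ^ 2)) = fun t : ℝ =>
      1 / b ^ (1 / 2 : ℂ) * (cexp (-Real.pi / b * t ^ 2) * cexp (-2 * Real.pi * I * t * x)) := by
  have hb0 : b ≠ 0 := by
    rintro rfl; simp at hb
  have h := fourier_gaussian_pi' hb (b * x)
  have e1 : (fun c : ℝ => cexp (-Real.pi * b * (c - x) ^ 2)) =
      cexp (-Real.pi * b * x ^ 2) • fun c : ℝ =>
        cexp (-Real.pi * b * c ^ 2 + 2 * Real.pi * (b * x) * c) := by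
    funext c
    simp only [Pi.smul_apply, smul_eq_mul]
    rw [← Complex.exp_add]
    congr 1; ring
  rw [e1]
  have e2 : 𝓕 (cexp (-Real.pi * b * x ^ 2) • fun c : ℝ =>
        cexp (-Real.pi * b * c ^ 2 + 2 * Real.pi * (b * x) * c)) =
      cexp (-Real.pi * b * x ^ 2) • 𝓕 (fun c : ℝ =>
        cexp (-Real.pi * b * c ^ 2 + 2 * Real.pi * (b * x) * c)) := by
    funext t
    simp only [Pi.smul_apply, smul_eq_mul]
    rw [Real.fourier_real_eq_integral_exp_smul, Real.fourier_real_eq_integral_exp_smul,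
      ← integral_const_mul]
    refine integral_congr_ae (Eventually.of_forall fun c => ?_)
    simp only [Pi.smul_apply, smul_eq_mul]
    ring
  rw [e2, h]
  funext t
  simp only [Pi.smul_apply, smul_eq_mul]
  rw [← Complex.exp_add, mul_left_comm, ← Complex.exp_add]
  congr 2
  field_simp
  ring_nf
  rw [I_sq]
  ring

theorem gauss_identity {u : ℝ → ℂ} (hu : Integrable u) {b : ℂ} (hb : 0 < b.re) (x : ℝ) :
    ∫ c : ℝ, 𝓕 u c * cexp (-Real.pi * b * (c - x) ^ 2) =
      1 / b ^ (1 / 2 : ℂ) *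
        ∫ t : ℝ, u t * (cexp (-Real.pi / b * t ^ 2) * cexp (-2 * Real.pi * I * t * x)) := by
  have hint : Integrable (fun c : ℝ => cexp (-Real.pi * b * (c - x) ^ 2)) := by
    have h := (integrable_cexp_neg_mul_sq (b := Real.pi * b)
      (by simp only [Complex.re_ofReal_mul]; positivity)).comp_sub_right x
    refine h.congr (Eventually.of_forall fun c => ?_)
    simp only [neg_mul]
    push_cast
    rfl
  have h := VectorFourier.integral_fourierIntegral_smul_eq_flip (L := innerₗ ℝ)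
    (μ := (volume : Measure ℝ)) (ν := (volume : Measure ℝ))
    Real.continuous_fourierChar continuous_inner hu hint
  have h' : ∫ c : ℝ, 𝓕 u c * cexp (-Real.pi * b * (c - x) ^ 2) =
      ∫ t : ℝ, u t * 𝓕 (fun c : ℝ => cexp (-Real.pi * b * (c - x) ^ 2)) t := by
    simpa using! h
  rw [h', gauss_shift hb, ← integral_const_mul]
  refine integral_congr_ae (Eventually.of_forall fun t => ?_)
  ring

end Crest.Agent.R081.Fr
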