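import Crest.Agent.R081.Fresnel

/-!
# Row 81, node FRESNEL, part 2 (helper326): `T lam f - kap lam • f → 0`
-/

set_option autoImplicit false

open MeasureTheory Filter Topology Complex
open scoped ENNReal FourierTransform SchwartzMap ContDiff

noncomputable section

namespace Crest.Agent.R081.Fr

open Crest.Agent.R075 (ee norm_ee ee_add ee_eq)

/-- the unimodular constant -/
def kap (lam : ℝ) : ℂ := (Real.sqrt |lam| : ℂ) * (1 / (-(I * lam)) ^ (1 / 2 : ℂ))

theorem norm_kap {lam : ℝ} (hlam : lam ≠ 0) : ‖kap lam‖ = 1 := by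
  have hl : 0 < |lam| := abs_pos.2 hlam
  have h0 : -(I * (lam : ℂ)) ≠ 0 := by simp [hlam]
  unfold kap
  rw [norm_mul, norm_div, norm_one, Complex.norm_real, Real.norm_eq_abs,
    abs_of_nonneg (Real.sqrt_nonneg _)]
  have e : ‖(-(I * (lam : ℂ))) ^ (1 / 2 : ℂ)‖ = Real.sqrt |lam| := by
    rw [Complex.norm_cpow_of_ne_zero h0]
    have e1 : ‖-(I * (lam : ℂ))‖ = |lam| := by simp
    have e2 : (1 / 2 : ℂ).im = 0 := by simp
    have e3 : (1 / 2 : ℂ).re = 1 / 2 := by simp
    rw [e1, e2, e3, mul_zero, Real.exp_zero, div_one, Real.sqrt_eq_rpow]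
  rw [e, mul_one_div, div_self (Real.sqrt_pos.2 hl).ne']

theorem fresnel_identity {u : ℝ → ℂ} (hu : Integrable u) (hFu : Integrable (𝓕 u)) {lam : ℝ}
    (hlam : lam ≠ 0) (x : ℝ) :
    ∫ c : ℝ, 𝓕 u c * ee (lam * (c - x) ^ 2 / 2) =
      1 / (-(I * lam)) ^ (1 / 2 : ℂ) *
        ∫ t : ℝ, u t * (ee (-(t ^ 2 / (2 * lam))) * cexp (-2 * Real.pi * I * t * x)) := by
  set b : ℕ → ℂ := fun n => ((1 / ((n : ℝ) + 1) : ℝ) : ℂ) - I * lam with hb
  have hbre : ∀ n, (b n).re = 1 / ((n : ℝ) + 1) := by
    intro n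
    simp only [hb, Complex.sub_re, Complex.ofReal_re, Complex.mul_re, I_re, I_im,
      Complex.ofReal_im]
    ring
  have hbpos : ∀ n, 0 < (b n).re := fun n => by rw [hbre]; positivity
  have hbt : Tendsto b atTop (𝓝 (-(I * lam))) := by
    have h1 : Tendsto (fun n : ℕ => ((1 / ((n : ℝ) + 1) : ℝ) : ℂ)) atTop (𝓝 ((0 : ℝ) : ℂ)) :=
      (Complex.continuous_ofReal.tendsto 0).comp tendsto_one_div_add_atTop_nhds_zero_nat
    have h2 := h1.sub_const (I * (lam : ℂ))
    simpa [hb] using h2
  have h0 : -(I * (lam : ℂ)) ≠ 0 := by simp [hlam]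
  have key := fun n => gauss_identity hu (hbpos n) x
  have L1 : Tendsto (fun n => ∫ c : ℝ, 𝓕 u c * cexp (-Real.pi * b n * (c - x) ^ 2)) atTop
      (𝓝 (∫ c : ℝ, 𝓕 u c * ee (lam * (c - x) ^ 2 / 2))) := by
    refine tendsto_integral_of_dominated_convergence (fun c => ‖𝓕 u c‖) (fun n => ?_) hFu.norm
      (fun n => Eventually.of_forall fun c => ?_) (Eventually.of_forall fun c => ?_)
    · refine hFu.aestronglyMeasurable.mul (Continuous.aestronglyMeasurable ?_)
      fun_prop
    · rw [norm_mul]
      refine mul_le_of_le_one_right (norm_nonneg _) ?_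
      rw [Complex.norm_exp]
      have e : (-(Real.pi : ℂ) * b n * ((c : ℂ) - x) ^ 2).re =
          -(Real.pi * (b n).re * (c - x) ^ 2) := by
        have : (-(Real.pi : ℂ) * b n * ((c : ℂ) - x) ^ 2) =
          ((-(Real.pi * (c - x) ^ 2) : ℝ) : ℂ) * b n := by push_cast; ring
        rw [this, Complex.re_ofReal_mul]; ring
      rw [e]
      refine Real.exp_le_one_iff.2 ?_
      have := hbpos n
      have := Real.pi_pos
      nlinarith [mul_nonneg (mul_nonneg this.le (hbpos n).le) (sq_nonneg (c - x))]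
    · refine Tendsto.const_mul _ ?_
      have e : ee (lam * (c - x) ^ 2 / 2) = cexp (-Real.pi * (-(I * lam)) * (c - x) ^ 2) := by
        rw [ee_eq]; congr 1; push_cast; ring
      rw [e]
      refine (Complex.continuous_exp.tendsto _).comp ?_
      exact (hbt.const_mul _).mul_const _
  have L2 : Tendsto (fun n => 1 / b n ^ (1 / 2 : ℂ) *
        ∫ t : ℝ, u t * (cexp (-Real.pi / b n * t ^ 2) * cexp (-2 * Real.pi * I * t * x))) atTop
      (𝓝 (1 / (-(I * lam)) ^ (1 / 2 : ℂ) *
        ∫ t : ℝ, u t * (ee (-(t ^ 2 / (2 * lam))) * cexp (-2 * Real.pi * I * t * x)))) := by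
    refine Tendsto.mul ?_ ?_
    · refine Tendsto.div tendsto_const_nhds ?_ ?_
      · have hs : -(I * (lam : ℂ)) ∈ Complex.slitPlane := by
          right; simp [hlam]
        exact (continuousAt_cpow_const hs).tendsto.comp hbt
      · rw [Complex.cpow_def_of_ne_zero h0]; exact Complex.exp_ne_zero _
    · refine tendsto_integral_of_dominated_convergence (fun t => ‖u t‖) (fun n => ?_) hu.norm
        (fun n => Eventually.of_forall fun t => ?_) (Eventually.of_forall fun t => ?_)
      · refine hu.aestronglyMeasurable.mul (Continuous.aestronglyMeasurable ?_)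
        fun_prop
      · rw [norm_mul, norm_mul]
        refine mul_le_of_le_one_right (norm_nonneg _) ?_
        have e1 : ‖cexp (-2 * Real.pi * I * t * x)‖ = 1 := by
          have : (-2 * Real.pi * I * t * x : ℂ) = ((-2 * Real.pi * t * x : ℝ) : ℂ) * I := by
            push_cast; ring
          rw [this, Complex.norm_exp_ofReal_mul_I]
        rw [e1, mul_one, Complex.norm_exp]
        have e : (-(Real.pi : ℂ) / b n * (t : ℂ) ^ 2).re =
            -(Real.pi * t ^ 2 * ((b n)⁻¹).re) := by
          have : (-(Real.pi : ℂ) / b n * (t : ℂ) ^ 2) =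
            ((-(Real.pi * t ^ 2) : ℝ) : ℂ) * (b n)⁻¹ := by push_cast; ring
          rw [this, Complex.re_ofReal_mul]; ring
        rw [e]
        refine Real.exp_le_one_iff.2 ?_
        have h3 : 0 ≤ ((b n)⁻¹).re := by
          rw [Complex.inv_re]
          exact div_nonneg (hbpos n).le (Complex.normSq_nonneg _)
        have := Real.pi_pos
        have h4 : 0 ≤ Real.pi * t ^ 2 * ((b n)⁻¹).re := by positivity
        linarith
      · refine Tendsto.const_mul _ (Tendsto.mul_const _ ?_)
        have e : ee (-(t ^ 2 / (2 * lam))) = cexp (-Real.pi / (-(I * lam)) * t ^ 2) := by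
          rw [ee_eq]; congr 1; push_cast
          have hl : (lam : ℂ) ≠ 0 := by exact_mod_cast hlam
          field_simp
          ring_nf
          rw [I_sq]; ring
        rw [e]
        refine (Complex.continuous_exp.tendsto _).comp ?_
        exact (tendsto_const_nhds.div hbt h0).mul_const _
  have e3 : (fun n => ∫ c : ℝ, 𝓕 u c * cexp (-Real.pi * b n * (c - x) ^ 2)) =
      fun n => 1 / b n ^ (1 / 2 : ℂ) *
        ∫ t : ℝ, u t * (cexp (-Real.pi / b n * t ^ 2) * cexp (-2 * Real.pi * I * t * x)) := by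
    funext n; exact key n
  rw [e3] at L1
  exact tendsto_nhds_unique L1 L2

/-- `T lam` on Fourier transforms of Schwartz functions -/
theorem T_fourier {u : ℝ → ℂ} (hu : Integrable u) (hFu : Integrable (𝓕 u)) {lam : ℝ}
    (hlam : lam ≠ 0) (x : ℝ) :
    T lam (𝓕 u) x - kap lam * 𝓕 u x =
      kap lam * 𝓕 (fun t => u t * (ee (-(t ^ 2 / (2 * lam))) - 1)) x := by
  have h1 : T lam (𝓕 u) x = kap lam * 𝓕 (fun t => u t * ee (-(t ^ 2 / (2 * lam)))) x := by
    unfold T kap
    rw [fresnel_identity hu hFu hlam, ← mul_assoc]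
    congr 1
    rw [Real.fourier_real_eq_integral_exp_smul]
    refine integral_congr_ae (Eventually.of_forall fun t => ?_)
    simp only [smul_eq_mul]
    have : (((-2 * Real.pi * t * x : ℝ) : ℂ) * I) = -2 * Real.pi * I * t * x := by
      push_cast; ring
    rw [this]; ring
  rw [h1, ← mul_sub]
  congr 1
  have hp : Continuous fun t : ℝ => -(t ^ 2 / (2 * lam)) := by fun_prop
  have i1 := integrable_chirp hu hp
  rw [Real.fourier_real_eq_integral_exp_smul, Real.fourier_real_eq_integral_exp_smul,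
    Real.fourier_real_eq_integral_exp_smul, ← integral_sub]
  · refine integral_congr_ae (Eventually.of_forall fun t => ?_)
    simp only [smul_eq_mul]
    ring
  · have : Integrable fun v : ℝ => (u v * ee (-(v ^ 2 / (2 * lam)))) * ee (-(v * x)) :=
      integrable_chirp i1 (by fun_prop)
    refine this.congr (Eventually.of_forall fun v => ?_)
    simp only [smul_eq_mul]
    rw [mul_comm]
    congr 1
    rw [ee_eq]; congr 2; push_cast; ring
  · have : Integrable fun v : ℝ => u v * ee (-(v * x)) := integrable_chirp hu (by fun_prop)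
    refine this.congr (Eventually.of_forall fun v => ?_)
    simp only [smul_eq_mul]
    rw [mul_comm]
    congr 1
    rw [ee_eq]; congr 2; push_cast; ring

end Crest.Agent.R081.Fr
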