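import Crest.Agent.R081.Fresnel2

/-!
# Row 81, node FRESNEL, part 3 (helper326): limit theorems
-/

set_option autoImplicit false

open MeasureTheory Filter Topology Complex
open scoped ENNReal FourierTransform SchwartzMap ContDiff

noncomputable section

namespace Crest.Agent.R081.Fr

open Crest.Agent.R075 (ee norm_ee ee_add ee_eq)

theorem norm_ee_sub_one_le (x : ℝ) : ‖ee x - 1‖ ≤ 2 * Real.pi * |x| := by
  have h := Real.norm_exp_I_mul_ofReal_sub_one_le (x := 2 * Real.pi * x)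
  have e : ee x = cexp (I * ((2 * Real.pi * x : ℝ) : ℂ)) := by rw [ee_eq, mul_comm]
  rw [e]
  refine h.trans (le_of_eq ?_)
  rw [Real.norm_eq_abs, abs_mul, abs_of_pos (by positivity : (0 : ℝ) < 2 * Real.pi)]

theorem schwartz_dense {f : ℝ → ℂ} (h2 : MemLp f 2) {ε : ℝ} (hε : 0 < ε) :
    ∃ g : 𝓢(ℝ, ℂ), eLpNorm (fun x => f x - g x) 2 volume ≤ ENNReal.ofReal ε := by
  obtain ⟨g, hg⟩ := (SchwartzMap.denseRange_toLpCLM (E := ℝ) (F := ℂ) (p := 2)
    (μ := (volume : Measure ℝ)) ENNReal.ofNat_ne_top).exists_dist_lt (h2.toLp f) hε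
  refine ⟨g, ?_⟩
  have h3 : (SchwartzMap.toLpCLM ℝ (E := ℝ) ℂ 2 (volume : Measure ℝ)) g =
      g.toLp 2 (volume : Measure ℝ) := rfl
  rw [h3, dist_eq_norm] at hg
  have h4 : eLpNorm (fun x => f x - g x) 2 volume =
      ‖h2.toLp f - g.toLp 2 (volume : Measure ℝ)‖ₑ := by
    rw [Lp.enorm_def]
    refine eLpNorm_congr_ae ?_
    filter_upwards [h2.coeFn_toLp, g.coeFn_toLp 2 (volume : Measure ℝ),
      Lp.coeFn_sub (h2.toLp f) (g.toLp 2 (volume : Measure ℝ))] with x hx hy hz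
    rw [hz, Pi.sub_apply, hx, hy]
  rw [h4, ← ofReal_norm]
  exact ENNReal.ofReal_le_ofReal hg.le

theorem memLp_sq_mul (u : 𝓢(ℝ, ℂ)) : MemLp (fun t : ℝ => ((t : ℂ) ^ 2) * u t) 2 := by
  have hg : (fun t : ℝ => (t : ℂ) ^ 2).HasTemperateGrowth := by fun_prop
  have h := (SchwartzMap.smulLeftCLM ℂ (fun t : ℝ => (t : ℂ) ^ 2) u).memLp 2 (volume : Measure ℝ)
  refine h.ae_eq (Eventually.of_forall fun t => ?_)
  simp [SchwartzMap.smulLeftCLM_apply_apply hg]

theorem T_schwartz (g : 𝓢(ℝ, ℂ)) : ∃ M : ℝ, 0 ≤ M ∧ ∀ lam : ℝ, lam ≠ 0 →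
    eLpNorm (fun x => T lam g x - kap lam * g x) 2 volume ≤ ENNReal.ofReal (M / |lam|) := by
  set u : 𝓢(ℝ, ℂ) := 𝓕⁻ g with hu
  have hFu : 𝓕 (u : ℝ → ℂ) = g := by
    rw [← SchwartzMap.fourier_coe, hu, FourierTransform.fourier_fourierInv_eq]
  have hFi : Integrable (𝓕 (u : ℝ → ℂ)) := by rw [hFu]; exact g.integrable
  have hsq := memLp_sq_mul u
  set M := Real.pi * (eLpNorm (fun t : ℝ => ((t : ℂ) ^ 2) * u t) 2 volume).toReal with hM
  refine ⟨M, by positivity, fun lam hlam => ?_⟩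
  have hl : 0 < |lam| := abs_pos.2 hlam
  have hp : Continuous fun t : ℝ => -(t ^ 2 / (2 * lam)) := by fun_prop
  have hbd : ∀ t : ℝ, ‖u t * (ee (-(t ^ 2 / (2 * lam))) - 1)‖ ≤
      Real.pi / |lam| * ‖((t : ℂ) ^ 2) * u t‖ := by
    intro t
    rw [norm_mul, norm_mul]
    have h1 := norm_ee_sub_one_le (-(t ^ 2 / (2 * lam)))
    have h2 : 2 * Real.pi * |(-(t ^ 2 / (2 * lam)))| = Real.pi / |lam| * ‖((t : ℂ) ^ 2)‖ := by
      rw [abs_neg, abs_div, abs_mul, norm_pow, Complex.norm_real, Real.norm_eq_abs, sq_abs,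
        abs_of_nonneg (sq_nonneg t), abs_of_pos (by norm_num : (0 : ℝ) < 2)]
      field_simp
    rw [h2] at h1
    calc ‖u t‖ * ‖ee (-(t ^ 2 / (2 * lam))) - 1‖ ≤ ‖u t‖ * (Real.pi / |lam| * ‖((t : ℂ) ^ 2)‖) :=
          mul_le_mul_of_nonneg_left h1 (norm_nonneg _)
      _ = _ := by ring
  have hmeas : AEStronglyMeasurable (fun t : ℝ => u t * (ee (-(t ^ 2 / (2 * lam))) - 1)) volume :=
    (u.continuous.mul ((continuous_ee.comp hp).sub continuous_const)).aestronglyMeasurable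
  have i1 : Integrable (fun t : ℝ => u t * (ee (-(t ^ 2 / (2 * lam))) - 1)) := by
    refine (u.integrable.norm.const_mul 2).mono' hmeas (Eventually.of_forall fun t => ?_)
    rw [norm_mul, mul_comm]
    refine mul_le_mul_of_nonneg_right ?_ (norm_nonneg _)
    refine (norm_sub_le _ _).trans ?_
    rw [norm_ee, norm_one]; norm_num
  have m2 : MemLp (fun t : ℝ => u t * (ee (-(t ^ 2 / (2 * lam))) - 1)) 2 :=
    hsq.of_le_mul (c := Real.pi / |lam|) hmeas (Eventually.of_forall hbd)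
  have e1 : eLpNorm (fun x => T lam g x - kap lam * g x) 2 volume =
      eLpNorm (𝓕 (fun t : ℝ => u t * (ee (-(t ^ 2 / (2 * lam))) - 1))) 2 volume := by
    refine eLpNorm_congr_norm_ae (Eventually.of_forall fun x => ?_)
    have := T_fourier u.integrable hFi hlam x
    rw [hFu] at this
    rw [this, norm_mul, norm_kap hlam, one_mul]
  rw [e1, eLpNorm_fourier i1 m2]
  refine (eLpNorm_le_mul_eLpNorm_of_ae_le_mul (c := Real.pi / |lam|)
    (Eventually.of_forall hbd) 2).trans ?_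
  rw [hM]
  have hfin : eLpNorm (fun t : ℝ => ((t : ℂ) ^ 2) * u t) 2 volume ≠ ⊤ := hsq.2.ne
  conv_lhs => rw [← ENNReal.ofReal_toReal hfin]
  rw [← ENNReal.ofReal_mul (by positivity)]
  refine ENNReal.ofReal_le_ofReal (le_of_eq ?_)
  ring

/-- (F2') `T lam f - kap lam • f → 0` in `L²` as `|lam| → ∞`, for every `f ∈ L¹ ∩ L²` -/
theorem T_tendsto {f : ℝ → ℂ} (h1 : Integrable f) (h2 : MemLp f 2) {ε : ℝ} (hε : 0 < ε) :
    ∃ Lam : ℝ, 0 < Lam ∧ ∀ lam : ℝ, Lam ≤ |lam| →
      eLpNorm (fun x => T lam f x - kap lam * f x) 2 volume ≤ ENNReal.ofReal ε := by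
  obtain ⟨g, hg⟩ := schwartz_dense h2 (by positivity : 0 < ε / 3)
  obtain ⟨M, hM, hT⟩ := T_schwartz g
  refine ⟨3 * (M + 1) / ε, by positivity, fun lam hlam => ?_⟩
  have hl : 0 < |lam| := lt_of_lt_of_le (by positivity) hlam
  have hl0 : lam ≠ 0 := abs_pos.1 hl
  have hfg1 : Integrable (fun x => f x - g x) := h1.sub g.integrable
  have hfg2 : MemLp (fun x => f x - g x) 2 := h2.sub (g.memLp 2 volume)
  have e : (fun x => T lam f x - kap lam * f x) =
      (fun x => T lam (fun c => f c - g c) x) + ((fun x => T lam g x - kap lam * g x) -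
        (kap lam) • fun x => f x - g x) := by
    funext x
    simp only [Pi.add_apply, Pi.sub_apply, Pi.smul_apply, smul_eq_mul]
    rw [T_sub h1 g.integrable]
    ring
  have mT : AEStronglyMeasurable (T lam (fun c => f c - g c)) volume :=
    (continuous_T hfg1).aestronglyMeasurable
  have mg : AEStronglyMeasurable (fun x => T lam g x - kap lam * g x) volume :=
    ((continuous_T g.integrable).sub (continuous_const.mul g.continuous)).aestronglyMeasurable
  have mk : AEStronglyMeasurable ((kap lam) • fun x => f x - g x) volume :=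
    hfg2.aestronglyMeasurable.const_smul _
  have hsmall : M / |lam| ≤ ε / 3 := by
    rw [div_le_iff₀ hl]
    have := (div_le_iff₀ hε).1 hlam
    nlinarith
  have k1 : ‖kap lam‖ₑ = 1 := by
    rw [← ofReal_norm, norm_kap hl0, ENNReal.ofReal_one]
  calc eLpNorm (fun x => T lam f x - kap lam * f x) 2 volume
      ≤ eLpNorm (fun x => T lam (fun c => f c - g c) x) 2 volume +
          (eLpNorm (fun x => T lam g x - kap lam * g x) 2 volume +
            eLpNorm ((kap lam) • fun x => f x - g x) 2 volume) := by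
        rw [e]
        refine (eLpNorm_add_le mT (mg.sub mk) (by norm_num)).trans ?_
        gcongr
        exact eLpNorm_sub_le mg mk (by norm_num)
    _ ≤ ENNReal.ofReal (ε / 3) + (ENNReal.ofReal (ε / 3) + ENNReal.ofReal (ε / 3)) := by
        gcongr
        · rw [eLpNorm_T hl0 hfg1 hfg2]; exact hg
        · exact (hT lam hl0).trans (ENNReal.ofReal_le_ofReal hsmall)
        · rw [eLpNorm_const_smul, k1, one_mul]; exact hg
    _ = ENNReal.ofReal ε := by
        rw [← ENNReal.ofReal_add (by positivity) (by positivity),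
          ← ENNReal.ofReal_add (by positivity) (by positivity)]
        congr 1; ring

end Crest.Agent.R081.Fr
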