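import Crest.Agent.R081.Fresnel3

/-!
# Row 81, node FRESNEL, part 4 (helper326): the coefficient integral `phi`, interface (N4)
-/

set_option autoImplicit false

open MeasureTheory Filter Topology Complex
open scoped ENNReal FourierTransform ContDiff

noncomputable section

namespace Crest.Agent.R081.Fr

open Crest.Agent.R075 (ee norm_ee ee_add ee_eq)

/-- the coefficient integral -/
def phi (lam d : ℝ) (f : ℝ → ℂ) (tau : ℝ) : ℂ := ∫ c, f c * ee (lam * (c - d) ^ 2 / 2 - tau * c)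

/-- the unimodular phase of the stationary point `d + tau / lam` -/
def ze (lam d tau : ℝ) : ℂ := ee (-(lam * ((d + tau / lam) ^ 2 - d ^ 2) / 2)) * kap lam

theorem norm_ze {lam : ℝ} (hlam : lam ≠ 0) (d tau : ℝ) : ‖ze lam d tau‖ = 1 := by
  unfold ze; rw [norm_mul, norm_ee, norm_kap hlam, one_mul]

/-- main term -/
def mainT (lam d : ℝ) (f : ℝ → ℂ) (tau : ℝ) : ℂ :=
  ((Real.sqrt |lam|)⁻¹ : ℝ) * ze lam d tau * f (d + tau / lam)

theorem norm_mainT_sq {lam : ℝ} (hlam : lam ≠ 0) (d : ℝ) (f : ℝ → ℂ) (tau : ℝ) :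
    ‖mainT lam d f tau‖ ^ 2 = |lam|⁻¹ * ‖f (d + tau / lam)‖ ^ 2 := by
  unfold mainT
  rw [norm_mul, norm_mul, norm_ze hlam, mul_one, mul_pow, Complex.norm_real, Real.norm_eq_abs,
    sq_abs, inv_pow, Real.sq_sqrt (abs_nonneg _)]

theorem phi_eq_T {lam : ℝ} (hlam : lam ≠ 0) (d : ℝ) (f : ℝ → ℂ) (tau : ℝ) :
    phi lam d f tau = ((Real.sqrt |lam|)⁻¹ : ℝ) *
      ee (-(lam * ((d + tau / lam) ^ 2 - d ^ 2) / 2)) * T lam f (d + tau / lam) := by
  have hl : 0 < |lam| := abs_pos.2 hlam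
  have hs : Real.sqrt |lam| ≠ 0 := (Real.sqrt_pos.2 hl).ne'
  unfold phi T
  have hs' : (((Real.sqrt |lam|)⁻¹ : ℝ) : ℂ) * ((Real.sqrt |lam| : ℝ) : ℂ) = 1 := by
    rw [← Complex.ofReal_mul, inv_mul_cancel₀ hs, Complex.ofReal_one]
  have e1 : ∀ X Y : ℂ, (((Real.sqrt |lam|)⁻¹ : ℝ) : ℂ) * X * (((Real.sqrt |lam| : ℝ) : ℂ) * Y) =
      X * Y := by
    intro X Y
    calc _ = ((((Real.sqrt |lam|)⁻¹ : ℝ) : ℂ) * ((Real.sqrt |lam| : ℝ) : ℂ)) * (X * Y) := by ring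
      _ = _ := by rw [hs', one_mul]
  rw [e1, ← integral_const_mul]
  refine integral_congr_ae (Eventually.of_forall fun c => ?_)
  simp only
  have e2 : lam * (c - d) ^ 2 / 2 - tau * c =
      -(lam * ((d + tau / lam) ^ 2 - d ^ 2) / 2) + lam * (c - (d + tau / lam)) ^ 2 / 2 := by
    field_simp
    ring
  rw [e2, ee_add]
  ring

theorem phi_sub_mainT {lam : ℝ} (hlam : lam ≠ 0) (d : ℝ) (f : ℝ → ℂ) (tau : ℝ) :
    phi lam d f tau - mainT lam d f tau = ((Real.sqrt |lam|)⁻¹ : ℝ) *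
      ee (-(lam * ((d + tau / lam) ^ 2 - d ^ 2) / 2)) *
        (T lam f (d + tau / lam) - kap lam * f (d + tau / lam)) := by
  rw [phi_eq_T hlam]
  unfold mainT ze
  ring

theorem continuous_phi {lam : ℝ} (hlam : lam ≠ 0) (d : ℝ) {f : ℝ → ℂ} (h1 : Integrable f) :
    Continuous (phi lam d f) := by
  have h : phi lam d f = fun tau => ((Real.sqrt |lam|)⁻¹ : ℝ) *
      ee (-(lam * ((d + tau / lam) ^ 2 - d ^ 2) / 2)) * T lam f (d + tau / lam) := by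
    funext tau; exact phi_eq_T hlam d f tau
  rw [h]
  have hT := continuous_T (lam := lam) h1
  have hee := continuous_ee
  fun_prop

/-- change of variables `x = d + tau / lam` -/
theorem eLpNorm_comp_affine {lam : ℝ} (hlam : lam ≠ 0) (d : ℝ) {G : ℝ → ℂ}
    (hG : AEStronglyMeasurable G volume) :
    eLpNorm (fun tau => ((Real.sqrt |lam|)⁻¹ : ℝ) * G (d + tau / lam)) 2 volume =
      eLpNorm G 2 volume := by
  have hl : 0 < |lam| := abs_pos.2 hlam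
  have h0 : (fun tau : ℝ => (((Real.sqrt |lam|)⁻¹ : ℝ) : ℂ) * G (d + tau / lam)) =
      ((((Real.sqrt |lam|)⁻¹ : ℝ) : ℂ) • fun tau : ℝ => G (d + lam⁻¹ * tau)) := by
    funext tau
    simp only [Pi.smul_apply, smul_eq_mul]
    rw [div_eq_inv_mul]
  rw [h0, eLpNorm_const_smul]
  have h1 := eLpNorm_comp_mul (H := fun x => G (d + x)) (inv_ne_zero hlam)
  rw [h1]
  have h2 : eLpNorm (fun x => G (d + x)) 2 volume = eLpNorm G 2 volume :=
    eLpNorm_comp_measurePreserving hG (measurePreserving_add_left volume d)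
  rw [h2, ← mul_assoc]
  have h3 : ‖(((Real.sqrt |lam|)⁻¹ : ℝ) : ℂ)‖ₑ * ENNReal.ofReal |lam⁻¹|⁻¹ ^ (1 / 2 : ℝ) = 1 := by
    rw [← ofReal_norm, Complex.norm_real, Real.norm_eq_abs,
      abs_of_nonneg (inv_nonneg.2 (Real.sqrt_nonneg _)), abs_inv, inv_inv,
      ENNReal.ofReal_rpow_of_pos hl, ← Real.sqrt_eq_rpow, ← ENNReal.ofReal_mul (by positivity),
      inv_mul_cancel₀ (Real.sqrt_pos.2 hl).ne', ENNReal.ofReal_one]
  rw [h3, one_mul]

theorem eLpNorm_phi {lam : ℝ} (hlam : lam ≠ 0) (d : ℝ) {f : ℝ → ℂ} (h1 : Integrable f)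
    (h2 : MemLp f 2) : eLpNorm (phi lam d f) 2 volume = eLpNorm f 2 volume := by
  rw [← eLpNorm_T hlam h1 h2,
    ← eLpNorm_comp_affine hlam d (continuous_T (lam := lam) h1).aestronglyMeasurable]
  refine eLpNorm_congr_norm_ae (Eventually.of_forall fun tau => ?_)
  rw [phi_eq_T hlam, norm_mul, norm_mul, norm_mul, norm_ee, mul_one]

theorem memLp_phi {lam : ℝ} (hlam : lam ≠ 0) (d : ℝ) {f : ℝ → ℂ} (h1 : Integrable f)
    (h2 : MemLp f 2) : MemLp (phi lam d f) 2 :=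
  ⟨(continuous_phi hlam d h1).aestronglyMeasurable, by
    rw [eLpNorm_phi hlam d h1 h2]; exact h2.2⟩

theorem continuous_ze {lam : ℝ} (d : ℝ) : Continuous (ze lam d) := by
  unfold ze
  have hee := continuous_ee
  fun_prop

theorem aesm_comp_affine {lam : ℝ} (hlam : lam ≠ 0) (d : ℝ) {f : ℝ → ℂ}
    (hf : AEStronglyMeasurable f volume) :
    AEStronglyMeasurable (fun tau : ℝ => f (d + tau / lam)) volume := by
  have q1 : Measure.QuasiMeasurePreserving (fun x : ℝ => lam⁻¹ * x) volume volume := by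
    refine ⟨by fun_prop, ?_⟩
    rw [Real.map_volume_mul_left (inv_ne_zero hlam)]
    exact Measure.smul_absolutelyContinuous
  have q2 : Measure.QuasiMeasurePreserving (fun x : ℝ => d + x) volume volume :=
    (measurePreserving_add_left volume d).quasiMeasurePreserving
  have := hf.comp_quasiMeasurePreserving (q2.comp q1)
  refine this.congr (Eventually.of_forall fun tau => ?_)
  simp only [Function.comp]
  rw [div_eq_inv_mul]

theorem aesm_mainT {lam : ℝ} (hlam : lam ≠ 0) (d : ℝ) {f : ℝ → ℂ}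
    (hf : AEStronglyMeasurable f volume) :
    AEStronglyMeasurable (mainT lam d f) volume := by
  unfold mainT
  exact ((continuous_const.mul (continuous_ze d)).aestronglyMeasurable).mul
    (aesm_comp_affine hlam d hf)

theorem eLpNorm_mainT {lam : ℝ} (hlam : lam ≠ 0) (d : ℝ) {f : ℝ → ℂ}
    (hf : AEStronglyMeasurable f volume) :
    eLpNorm (mainT lam d f) 2 volume = eLpNorm f 2 volume := by
  rw [← eLpNorm_comp_affine hlam d hf]
  refine eLpNorm_congr_norm_ae (Eventually.of_forall fun tau => ?_)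
  unfold mainT
  rw [norm_mul, norm_mul, norm_mul, norm_ze hlam, mul_one]

/-- **(N4)** the `L²(dτ)` asymptotics, uniform in `d` -/
theorem phi_L2 {f : ℝ → ℂ} (h1 : Integrable f) (h2 : MemLp f 2) {ε : ℝ} (hε : 0 < ε) :
    ∃ Lam : ℝ, 0 < Lam ∧ ∀ lam : ℝ, Lam ≤ |lam| → ∀ d : ℝ,
      eLpNorm (fun tau => phi lam d f tau - mainT lam d f tau) 2 volume ≤ ENNReal.ofReal ε := by
  obtain ⟨Lam, hL, H⟩ := T_tendsto h1 h2 hε
  refine ⟨Lam, hL, fun lam hlam d => ?_⟩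
  have hl0 : lam ≠ 0 := abs_pos.1 (lt_of_lt_of_le hL hlam)
  refine le_trans (le_of_eq ?_) (H lam hlam)
  have mG : AEStronglyMeasurable (fun x => T lam f x - kap lam * f x) volume :=
    (continuous_T h1).aestronglyMeasurable.sub (aestronglyMeasurable_const.mul h1.1)
  rw [← eLpNorm_comp_affine hl0 d mG]
  refine eLpNorm_congr_norm_ae (Eventually.of_forall fun tau => ?_)
  rw [phi_sub_mainT hl0, norm_mul, norm_mul, norm_mul, norm_ee, mul_one]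

/-! ## real-valued integral forms -/

theorem integral_sq_of_eLpNorm {E : Type*} [NormedAddCommGroup E] {α : Type*} [MeasurableSpace α]
    {μ : Measure α} {g : α → E} (hg : MemLp g 2 μ) :
    ∫ x, ‖g x‖ ^ 2 ∂μ = (eLpNorm g 2 μ).toReal ^ 2 := by
  rw [hg.eLpNorm_eq_integral_rpow_norm (by norm_num) (by norm_num)]
  rw [ENNReal.toReal_ofReal (by positivity)]
  have h0 : 0 ≤ ∫ x, ‖g x‖ ^ (2 : ENNReal).toReal ∂μ := integral_nonneg fun x => by positivity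
  rw [← Real.rpow_natCast, ← Real.rpow_mul h0]
  norm_num

theorem integral_sq_le_of_eLpNorm {E : Type*} [NormedAddCommGroup E] {α : Type*}
    [MeasurableSpace α] {μ : Measure α} {g : α → E} (hg : MemLp g 2 μ) {ε : ℝ} (hε : 0 ≤ ε)
    (h : eLpNorm g 2 μ ≤ ENNReal.ofReal ε) : ∫ x, ‖g x‖ ^ 2 ∂μ ≤ ε ^ 2 := by
  rw [integral_sq_of_eLpNorm hg]
  refine pow_le_pow_left₀ ENNReal.toReal_nonneg ?_ 2
  exact ENNReal.toReal_le_of_le_ofReal hε h

theorem memLp_mainT {lam : ℝ} (hlam : lam ≠ 0) (d : ℝ) {f : ℝ → ℂ} (h2 : MemLp f 2) :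
    MemLp (mainT lam d f) 2 :=
  ⟨aesm_mainT hlam d h2.1, by rw [eLpNorm_mainT hlam d h2.1]; exact h2.2⟩

theorem memLp_phi_sub {lam : ℝ} (hlam : lam ≠ 0) (d : ℝ) {f : ℝ → ℂ} (h1 : Integrable f)
    (h2 : MemLp f 2) : MemLp (fun tau => phi lam d f tau - mainT lam d f tau) 2 :=
  (memLp_phi hlam d h1 h2).sub (memLp_mainT hlam d h2)

/-- (F1) exact mass identity -/
theorem integral_phi_sq {lam : ℝ} (hlam : lam ≠ 0) (d : ℝ) {f : ℝ → ℂ} (h1 : Integrable f)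
    (h2 : MemLp f 2) : ∫ tau, ‖phi lam d f tau‖ ^ 2 = ∫ c, ‖f c‖ ^ 2 := by
  rw [integral_sq_of_eLpNorm (memLp_phi hlam d h1 h2), integral_sq_of_eLpNorm h2,
    eLpNorm_phi hlam d h1 h2]

/-- (N4), integral form -/
theorem phi_L2_int {f : ℝ → ℂ} (h1 : Integrable f) (h2 : MemLp f 2) {ε : ℝ} (hε : 0 < ε) :
    ∃ Lam : ℝ, 0 < Lam ∧ ∀ lam : ℝ, Lam ≤ |lam| → ∀ d : ℝ,
      ∫ tau, ‖phi lam d f tau - mainT lam d f tau‖ ^ 2 ≤ ε := by
  obtain ⟨Lam, hL, H⟩ := phi_L2 h1 h2 (Real.sqrt_pos.2 hε)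
  refine ⟨Lam, hL, fun lam hlam d => ?_⟩
  have hl0 : lam ≠ 0 := abs_pos.1 (lt_of_lt_of_le hL hlam)
  have := integral_sq_le_of_eLpNorm (memLp_phi_sub hl0 d h1 h2) (Real.sqrt_nonneg _) (H lam hlam d)
  rwa [Real.sq_sqrt hε.le] at this

/-- a general `L²` to `L¹` transfer: `∫ |‖a‖² - ‖b‖²| ≤ ‖a-b‖₂ (‖a‖₂ + ‖b‖₂)` -/
theorem integral_abs_sq_sub_sq_le {α : Type*} [MeasurableSpace α] {μ : Measure α} {a b : α → ℂ}
    (ha : MemLp a 2 μ) (hb : MemLp b 2 μ) :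
    ∫ x, |‖a x‖ ^ 2 - ‖b x‖ ^ 2| ∂μ ≤
      Real.sqrt (∫ x, ‖a x - b x‖ ^ 2 ∂μ) *
        (Real.sqrt (∫ x, ‖a x‖ ^ 2 ∂μ) + Real.sqrt (∫ x, ‖b x‖ ^ 2 ∂μ)) := by
  have hab : MemLp (fun x => a x - b x) 2 μ := ha.sub hb
  have k1 : ∫ x, ‖a x - b x‖ * ‖a x‖ ∂μ ≤ Real.sqrt (∫ x, ‖a x - b x‖ ^ 2 ∂μ) *
      Real.sqrt (∫ x, ‖a x‖ ^ 2 ∂μ) := by
    have := integral_mul_norm_le_Lp_mul_Lq (μ := μ) (f := fun x => a x - b x) (g := a)
      (p := 2) (q := 2) (Real.HolderConjugate.two_two) (by simpa using hab) (by simpa using ha)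
    simpa [Real.sqrt_eq_rpow] using this
  have k2 : ∫ x, ‖a x - b x‖ * ‖b x‖ ∂μ ≤ Real.sqrt (∫ x, ‖a x - b x‖ ^ 2 ∂μ) *
      Real.sqrt (∫ x, ‖b x‖ ^ 2 ∂μ) := by
    have := integral_mul_norm_le_Lp_mul_Lq (μ := μ) (f := fun x => a x - b x) (g := b)
      (p := 2) (q := 2) (Real.HolderConjugate.two_two) (by simpa using hab) (by simpa using hb)
    simpa [Real.sqrt_eq_rpow] using this
  have i1 : Integrable (fun x => ‖a x - b x‖ * ‖a x‖) μ := by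
    exact hab.norm.integrable_mul ha.norm
  have i2 : Integrable (fun x => ‖a x - b x‖ * ‖b x‖) μ := by
    exact hab.norm.integrable_mul hb.norm
  calc ∫ x, |‖a x‖ ^ 2 - ‖b x‖ ^ 2| ∂μ
      ≤ ∫ x, (‖a x - b x‖ * ‖a x‖ + ‖a x - b x‖ * ‖b x‖) ∂μ := by
        refine integral_mono_of_nonneg (Eventually.of_forall fun x => abs_nonneg _) (i1.add i2)
          (Eventually.of_forall fun x => ?_)
        have e : ‖a x‖ ^ 2 - ‖b x‖ ^ 2 = (‖a x‖ - ‖b x‖) * (‖a x‖ + ‖b x‖) := by ring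
        simp only
        rw [e, abs_mul, abs_of_nonneg (by positivity : 0 ≤ ‖a x‖ + ‖b x‖), mul_add]
        have := abs_norm_sub_norm_le (a x) (b x)
        gcongr
    _ = ∫ x, ‖a x - b x‖ * ‖a x‖ ∂μ + ∫ x, ‖a x - b x‖ * ‖b x‖ ∂μ := integral_add i1 i2
    _ ≤ _ := by rw [mul_add]; exact add_le_add k1 k2

/-- (F2) the `L¹` form of the mass transport -/
theorem phi_L1 {f : ℝ → ℂ} (h1 : Integrable f) (h2 : MemLp f 2) {ε : ℝ} (hε : 0 < ε) :
    ∃ Lam : ℝ, 0 < Lam ∧ ∀ lam : ℝ, Lam ≤ |lam| → ∀ d : ℝ,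
      ∫ tau, |‖phi lam d f tau‖ ^ 2 - |lam|⁻¹ * ‖f (d + tau / lam)‖ ^ 2| ≤ ε := by
  set N := Real.sqrt (∫ c, ‖f c‖ ^ 2) with hN
  have hN0 : 0 ≤ N := Real.sqrt_nonneg _
  obtain ⟨Lam, hL, H⟩ := phi_L2_int h1 h2 (by positivity : 0 < (ε / (2 * N + 1)) ^ 2)
  refine ⟨Lam, hL, fun lam hlam d => ?_⟩
  have hl0 : lam ≠ 0 := abs_pos.1 (lt_of_lt_of_le hL hlam)
  have hb := memLp_mainT hl0 d h2
  have ha := memLp_phi hl0 d h1 h2
  have key := integral_abs_sq_sub_sq_le ha hb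
  have e1 : ∫ tau, ‖mainT lam d f tau‖ ^ 2 = ∫ c, ‖f c‖ ^ 2 := by
    rw [integral_sq_of_eLpNorm hb, integral_sq_of_eLpNorm h2, eLpNorm_mainT hl0 d h2.1]
  rw [integral_phi_sq hl0 d h1 h2, e1, ← hN] at key
  have e2 : ∫ tau, |‖phi lam d f tau‖ ^ 2 - |lam|⁻¹ * ‖f (d + tau / lam)‖ ^ 2| =
      ∫ tau, |‖phi lam d f tau‖ ^ 2 - ‖mainT lam d f tau‖ ^ 2| := by
    refine integral_congr_ae (Eventually.of_forall fun tau => ?_)
    simp only
    rw [norm_mainT_sq hl0]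
  rw [e2]
  refine key.trans ?_
  have h3 : Real.sqrt (∫ tau, ‖phi lam d f tau - mainT lam d f tau‖ ^ 2) ≤ ε / (2 * N + 1) := by
    rw [← Real.sqrt_sq (by positivity : 0 ≤ ε / (2 * N + 1))]
    exact Real.sqrt_le_sqrt (H lam hlam d)
  calc _ ≤ ε / (2 * N + 1) * (N + N) := by gcongr
    _ ≤ ε / (2 * N + 1) * (2 * N + 1) :=
        mul_le_mul_of_nonneg_left (by linarith) (by positivity)
    _ = ε := by field_simp

end Crest.Agent.R081.Fr
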