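import Crest.Agent.R081.StSkel
import Crest.Agent.R081.FmSum
import Crest.Agent.R081.Cv2

/-! # Row 81, route B, node STEP: `GPStmt` (helper7)

The array `a` is completed on the rest of the mode set, and the real function is reconstructed. -/

set_option autoImplicit false

namespace Crest.Agent.R081.St

open MeasureTheory Crest.AnalysisR.Torus3 Crest.Agent.R075 Crest.Agent.R081.Fm
  Crest.Agent.R081.Sm Crest.Agent.R081.Tw
open scoped ENNReal

namespace Gp7

theorem cov {t : TwD} (M : Modes t) : Cv.Cov (Cv.nuT t.P t.q t.psi) M.S := by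
  have e : ∀ z : X, Cv.nuT t.P t.q t.psi z = t.nu z := by
    intro z; unfold Cv.nuT TwD.nu; ring
  filter_upwards [M.full] with x hx
  obtain ⟨y, hy, n, hn⟩ := hx
  refine ⟨y, ⟨hy, n, ?_⟩, ?_⟩
  · rw [e]; linarith
  · rintro z ⟨hz, m, hm⟩
    rw [e] at hm
    exact M.inj z hz y hy ⟨m - n, by push_cast; linarith⟩

theorem aff {t : TwD} (M : Modes t) : Cv.Aff t.al t.del t.psi M.S where
  al_pos := t.al_pos
  k2 := M.ne0
  psi_eq := fun p hp => t.lin _ (M.sub p hp)
  meas := fun _ => M.meas.preimage measurable_prodMk_left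

/-- the weight of a mode set -/
noncomputable def wt {t : TwD} (M : Modes t) (x : X) : ℝ :=
  M.S.indicator (fun x => |(x.1.2 : ℝ)| * t.al) x

theorem wt_nonneg {t : TwD} (M : Modes t) (x : X) : 0 ≤ wt M x := by
  unfold wt
  refine Set.indicator_nonneg (fun x _ => ?_) x
  have := t.al_pos
  positivity

theorem measurable_wt {t : TwD} (M : Modes t) : Measurable (wt M) := by
  unfold wt
  refine Measurable.indicator ?_ M.meas
  have h1 : Measurable (fun x : X => |(x.1.2 : ℝ)|) := by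
    have : Measurable (fun z : ℤ × ℤ => |(z.2 : ℝ)|) := measurable_of_countable _
    exact this.comp measurable_fst
  exact h1.mul_const _

/-- total mass one -/
theorem lintegral_wt {t : TwD} (M : Modes t) : ∫⁻ x, ENNReal.ofReal (wt M x) ∂muX = 1 := by
  rw [lintegral_muX, ← Cv.cv4_total (cov M) (aff M)]
  congr 1
  funext k
  have hs : Cv.slice M.S k ⊆ Set.Ioc 0 1 := by
    intro c hc
    have h := M.sub (k, c) hc
    have h1 := t.del_pos
    exact ⟨lt_of_lt_of_le h1 h.1, by linarith [h.2]⟩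
  have hm : MeasurableSet (Cv.slice M.S k) := (aff M).meas k
  have e : ∀ c : ℝ, ENNReal.ofReal (wt M (k, c))
      = (Cv.slice M.S k).indicator (fun _ => ENNReal.ofReal (|(k.2 : ℝ)| * t.al)) c := by
    intro c
    unfold wt
    by_cases h : (k, c) ∈ M.S
    · rw [Set.indicator_of_mem h, Set.indicator_of_mem (show c ∈ Cv.slice M.S k from h)]
    · rw [Set.indicator_of_notMem h, Set.indicator_of_notMem (show c ∉ Cv.slice M.S k from h),
        ENNReal.ofReal_zero]
  simp only [e]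
  rw [lintegral_indicator hm, setLIntegral_const]
  congr 1
  unfold I01
  rw [Measure.restrict_apply hm, Set.inter_eq_left.2 hs]

theorem integrable_wt {t : TwD} (M : Modes t) : Integrable (wt M) muX := by
  refine ⟨(measurable_wt M).aestronglyMeasurable, ?_⟩
  unfold HasFiniteIntegral
  have : ∀ x, ‖wt M x‖ₑ = ENNReal.ofReal (wt M x) := fun x => Real.enorm_of_nonneg (wt_nonneg M x)
  simp only [this]
  rw [lintegral_wt]
  exact ENNReal.one_lt_top

theorem integral_wt {t : TwD} (M : Modes t) : ∫ x, wt M x ∂muX = 1 := by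
  rw [integral_eq_lintegral_of_nonneg_ae (Filter.Eventually.of_forall (wt_nonneg M))
    (measurable_wt M).aestronglyMeasurable, lintegral_wt]
  rfl

/-- a measurable array with `‖a‖² = wt` is in `L²` -/
theorem memLp_of_sq {a : X → ℂ} (ha : Measurable a) {w : X → ℝ} (hw : Integrable w muX)
    (h : ∀ᵐ x ∂muX, ‖a x‖ ^ 2 = w x) : MemLp a 2 muX := by
  refine (memLp_two_iff_integrable_sq_norm ha.aestronglyMeasurable).2 ?_
  exact hw.congr (h.mono fun x hx => hx.symm)

theorem ineq (η : ℝ) (hη : 0 < η) (z w : ℂ) :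
    ‖z‖ ^ 2 ≤ (1 + η) * ‖w‖ ^ 2 + (1 + 1 / η) * ‖z - w‖ ^ 2 := by
  have h1 : ‖z‖ ≤ ‖w‖ + ‖z - w‖ := by
    calc ‖z‖ = ‖w + (z - w)‖ := by ring_nf
      _ ≤ _ := norm_add_le _ _
  have h0 : 0 ≤ ‖z‖ := norm_nonneg _
  have h2 : ‖z‖ ^ 2 ≤ (‖w‖ + ‖z - w‖) ^ 2 := pow_le_pow_left₀ h0 h1 2
  have h3 : 0 ≤ (η * ‖w‖ - ‖z - w‖) ^ 2 / η := by positivity
  have h4 : (η * ‖w‖ - ‖z - w‖) ^ 2 / η
      = η * ‖w‖ ^ 2 - 2 * (‖w‖ * ‖z - w‖) + 1 / η * ‖z - w‖ ^ 2 := by
    field_simp
    ring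
  nlinarith

theorem ineq2 (z w v : ℂ) : ‖z - v‖ ^ 2 ≤ 2 * ‖z - w‖ ^ 2 + 2 * ‖w - v‖ ^ 2 := by
  have h1 : ‖z - v‖ ≤ ‖z - w‖ + ‖w - v‖ := by
    calc ‖z - v‖ = ‖(z - w) + (w - v)‖ := by ring_nf
      _ ≤ _ := norm_add_le _ _
  have h0 : 0 ≤ ‖z - v‖ := norm_nonneg _
  have h2 : ‖z - v‖ ^ 2 ≤ (‖z - w‖ + ‖w - v‖) ^ 2 := pow_le_pow_left₀ h0 h1 2
  nlinarith [sq_nonneg (‖z - w‖ - ‖w - v‖)]

end Gp7

open Gp7

theorem gp_stmt : GPStmt := by
  classical
  intro s e he
  set η : ℝ := min 1 (e ^ 2 / 8) with hηdef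
  have hη : 0 < η := lt_min one_pos (by positivity)
  have hη1 : η ≤ 1 := min_le_left _ _
  have hη2 : 8 * η ≤ e ^ 2 := by
    have : η ≤ e ^ 2 / 8 := min_le_right _ _
    linarith
  refine ⟨η, hη, ?_⟩
  intro K eps d h hh P' hP G hG M' hsub _ a ha hasq hasymm hclose
  -- the old function
  set u : T3 → ℂ := fun y => (s.g (G.perm y) : ℂ) with hu
  have hg0 : MemLp (fun y => (s.g y : ℂ)) 2 volume := s.g_lp.ofReal
  have hgG : MemLp (fun y => s.g (G.perm y)) 2 volume := s.g_lp.comp_measurePreserving hG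
  have huL : MemLp u 2 volume := hgG.ofReal
  have hC : MemLp (fcX u) 2 muX := memLp_fcX huL
  -- its mass
  have hmass : ∫ x, ‖fcX u x‖ ^ 2 ∂muX = 1 := by
    rw [parseval_norm huL]
    have h1 : ∫ y, ‖u y‖ ^ 2 = ∫ y, ‖(s.g y : ℂ)‖ ^ 2 := by
      have h2 : AEStronglyMeasurable (fun y => ‖(s.g y : ℂ)‖ ^ 2)
          (Measure.map G.perm (volume : Measure T3)) := by
        rw [hG.map_eq]
        exact hg0.aestronglyMeasurable.norm.pow 2
      have h3 := integral_map hG.measurable.aemeasurable h2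
      rw [hG.map_eq] at h3
      exact h3.symm
    rw [h1, ← parseval_norm hg0, integral_congr_ae s.flat]
    exact integral_wt s.M
  -- the array `a`
  set al' : ℝ := d.v / (1 - 2 * d.del) / h with hal'
  have hal'e : (d.tw h hh P' hP).al = al' := rfl
  have hal'0 : 0 < al' := (d.tw h hh P' hP).al_pos
  have hwM : ∀ x ∈ M'.S, 0 < |(x.1.2 : ℝ)| * al' := by
    intro x hx
    have : (x.1.2 : ℝ) ≠ 0 := by exact_mod_cast M'.ne0 x hx
    positivity
  set Z : Set X := {x | x ∈ M'.S ∧ a x = 0} with hZ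
  have hZm : MeasurableSet Z := M'.meas.inter (ha (measurableSet_singleton 0))
  have hwm : Measurable (fun x : X => (Real.sqrt (|(x.1.2 : ℝ)| * al') : ℂ)) := by
    have h1 : Measurable (fun z : ℤ × ℤ => (Real.sqrt (|(z.2 : ℝ)| * al') : ℂ)) :=
      measurable_of_countable _
    exact h1.comp measurable_fst
  set b : X → ℂ := fun x => if x ∈ Z then (Real.sqrt (|(x.1.2 : ℝ)| * al') : ℂ) else a x with hb
  have hbm : Measurable b := Measurable.ite hZm hwm ha
  have hbsq : ∀ᵐ x ∂muX, ‖b x‖ ^ 2 = wt M' x := by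
    filter_upwards [hasq] with x hx
    by_cases hxS : x ∈ M'.S
    · have hw : wt M' x = |(x.1.2 : ℝ)| * al' := by
        unfold wt; rw [Set.indicator_of_mem hxS, hal'e]
      by_cases ha0 : a x = 0
      · have : x ∈ Z := ⟨hxS, ha0⟩
        simp only [hb, this, if_true]
        rw [hw, Complex.norm_real, Real.norm_eq_abs, sq_abs, Real.sq_sqrt (hwM x hxS).le]
      · have : x ∉ Z := fun h => ha0 h.2
        simp only [hb, this, if_false]
        rw [hx]
        by_cases hxs : x ∈ stepS s.M d h P'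
        · rw [Set.indicator_of_mem hxs, hw]
        · rw [Set.indicator_of_notMem hxs] at hx
          exact absurd (norm_eq_zero.1 (pow_eq_zero_iff (two_ne_zero)|>.1 hx)) ha0
    · have : x ∉ Z := fun h => hxS h.1
      have hxs : x ∉ stepS s.M d h P' := fun h => hxS (hsub h)
      simp only [hb, this, if_false]
      rw [hx, Set.indicator_of_notMem hxs]
      unfold wt
      rw [Set.indicator_of_notMem hxS]
  have hbL : MemLp b 2 muX := memLp_of_sq hbm (integrable_wt M') hbsq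
  -- symmetry
  have hbsymm : ∀ᵐ x ∂muX, b (-x.1, x.2) = (starRingEnd ℂ) (b x) := by
    filter_upwards [hasymm] with x hx
    have hS : ((-x.1, x.2) : X) ∈ M'.S ↔ x ∈ M'.S := by
      constructor
      · intro h
        have := M'.symm _ h
        simpa using this
      · exact M'.symm x
    have h0 : a (-x.1, x.2) = 0 ↔ a x = 0 := by
      rw [hx]; exact map_eq_zero _
    have hZx : ((-x.1, x.2) : X) ∈ Z ↔ x ∈ Z := and_congr hS h0
    by_cases hxZ : x ∈ Z
    · have h1 := hZx.2 hxZ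
      simp only [hb, h1, hxZ, if_true]
      rw [Complex.conj_ofReal]
      simp
    · have h1 : ((-x.1, x.2) : X) ∉ Z := fun h => hxZ (hZx.1 h)
      simp only [hb, h1, hxZ, if_false]
      exact hx
  -- distances
  have haint : Integrable (fun x => ‖a x‖ ^ 2) muX := by
    refine Integrable.mono' (integrable_wt M') (ha.norm.pow_const 2).aestronglyMeasurable ?_
    filter_upwards [hasq] with x hx
    rw [Real.norm_of_nonneg (by positivity), hx]
    unfold wt
    by_cases hxs : x ∈ stepS s.M d h P'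
    · rw [Set.indicator_of_mem hxs, Set.indicator_of_mem (hsub hxs), hal'e]
    · rw [Set.indicator_of_notMem hxs]
      exact wt_nonneg M' x
  have haL : MemLp a 2 muX := (memLp_two_iff_integrable_sq_norm ha.aestronglyMeasurable).2 haint
  have hCint : Integrable (fun x => ‖fcX u x‖ ^ 2) muX :=
    (memLp_two_iff_integrable_sq_norm hC.aestronglyMeasurable).1 hC
  have hdint : Integrable (fun x => ‖fcX u x - a x‖ ^ 2) muX :=
    (memLp_two_iff_integrable_sq_norm (hC.sub haL).aestronglyMeasurable).1 (hC.sub haL)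
  have hbaint : Integrable (fun x => ‖b x - a x‖ ^ 2) muX :=
    (memLp_two_iff_integrable_sq_norm (hbL.sub haL).aestronglyMeasurable).1 (hbL.sub haL)
  have hm1 : (1 : ℝ) ≤ (1 + η) * ∫ x, ‖a x‖ ^ 2 ∂muX + (1 + 1 / η) * η ^ 2 := by
    calc (1 : ℝ) = ∫ x, ‖fcX u x‖ ^ 2 ∂muX := hmass.symm
      _ ≤ ∫ x, ((1 + η) * ‖a x‖ ^ 2 + (1 + 1 / η) * ‖fcX u x - a x‖ ^ 2) ∂muX :=
          integral_mono hCint ((haint.const_mul _).add (hdint.const_mul _))
            (fun x => ineq η hη _ _)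
      _ = (1 + η) * ∫ x, ‖a x‖ ^ 2 ∂muX + (1 + 1 / η) * ∫ x, ‖fcX u x - a x‖ ^ 2 ∂muX := by
          rw [integral_add (haint.const_mul _) (hdint.const_mul _), integral_const_mul,
            integral_const_mul]
      _ ≤ _ := by gcongr
  have hba : ∀ᵐ x ∂muX, ‖b x - a x‖ ^ 2 = wt M' x - ‖a x‖ ^ 2 := by
    filter_upwards [hbsq] with x hx
    by_cases hxZ : x ∈ Z
    · rw [hxZ.2, sub_zero, norm_zero, hx]; ring
    · have : b x = a x := by simp only [hb, hxZ, if_false]
      rw [← hx, this]; simp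
  have hm2 : ∫ x, ‖b x - a x‖ ^ 2 ∂muX = 1 - ∫ x, ‖a x‖ ^ 2 ∂muX := by
    rw [integral_congr_ae hba, integral_sub (integrable_wt M') haint, integral_wt]
  have hm3 : ∫ x, ‖a x‖ ^ 2 ∂muX ≤ 1 := by
    have : 0 ≤ ∫ x, ‖b x - a x‖ ^ 2 ∂muX := integral_nonneg fun x => by positivity
    linarith
  have hm4 : ∫ x, ‖b x - a x‖ ^ 2 ∂muX ≤ 3 * η := by
    rw [hm2]
    have e1 : (1 + 1 / η) * η ^ 2 = η ^ 2 + η := by field_simp
    rw [e1] at hm1
    nlinarith
  have hbC : ∫ x, ‖b x - fcX u x‖ ^ 2 ∂muX ≤ e ^ 2 := by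
    have hdint' : Integrable (fun x => ‖a x - fcX u x‖ ^ 2) muX := by
      refine hdint.congr (Filter.Eventually.of_forall fun x => ?_)
      show ‖fcX u x - a x‖ ^ 2 = ‖a x - fcX u x‖ ^ 2
      rw [norm_sub_rev]
    have hsw : ∫ x, ‖a x - fcX u x‖ ^ 2 ∂muX ≤ η ^ 2 := by
      have : ∀ x, ‖a x - fcX u x‖ ^ 2 = ‖fcX u x - a x‖ ^ 2 := fun x => by rw [norm_sub_rev]
      simp only [this]
      exact hclose
    calc ∫ x, ‖b x - fcX u x‖ ^ 2 ∂muX
        ≤ ∫ x, (2 * ‖b x - a x‖ ^ 2 + 2 * ‖a x - fcX u x‖ ^ 2) ∂muX := by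
          refine integral_mono
            ((memLp_two_iff_integrable_sq_norm (hbL.sub hC).aestronglyMeasurable).1 (hbL.sub hC))
            ((hbaint.const_mul _).add (hdint'.const_mul _)) (fun x => ineq2 _ _ _)
      _ = 2 * ∫ x, ‖b x - a x‖ ^ 2 ∂muX + 2 * ∫ x, ‖a x - fcX u x‖ ^ 2 ∂muX := by
          rw [integral_add (hbaint.const_mul _) (hdint'.const_mul _), integral_const_mul,
            integral_const_mul]
      _ ≤ 2 * (3 * η) + 2 * η ^ 2 := by gcongr
      _ ≤ e ^ 2 := by nlinarith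
  -- reconstruction
  obtain ⟨g', hg'L, hg'⟩ := exists_real_of_coeff hbL hbsymm
  refine ⟨g', hg'L, ?_, ?_⟩
  · filter_upwards [hg', hbsq] with x h1 h2
    rw [h1, h2]; rfl
  · have hg'C : MemLp (fun y => (g' y : ℂ)) 2 volume := hg'L.ofReal
    have h1 : ∫ y, (g' y - s.g (G.perm y)) ^ 2 = ∫ y, ‖(g' y : ℂ) - u y‖ ^ 2 := by
      congr 1
      funext y
      simp only [hu]
      rw [← Complex.ofReal_sub, Complex.norm_real, Real.norm_eq_abs, sq_abs]
    have hpn := parseval_norm (hg'C.sub huL)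
    simp only [Pi.sub_apply] at hpn
    rw [h1, ← hpn]
    have h2 : fcX (fun x => (g' x : ℂ) - u x) =ᵐ[muX] fun x => b x - fcX u x := by
      have := fcX_sub (hg'C.integrable (by norm_num)) (huL.integrable (by norm_num))
      filter_upwards [this, hg'] with x h3 h4
      rw [h3, h4]
    calc ∫ x, ‖fcX ((fun y => (g' y : ℂ)) - u) x‖ ^ 2 ∂muX
        = ∫ x, ‖b x - fcX u x‖ ^ 2 ∂muX := by
          refine integral_congr_ae ?_
          filter_upwards [h2] with x hx
          rw [show ((fun y => (g' y : ℂ)) - u) = fun x => (g' x : ℂ) - u x from rfl, hx]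
      _ ≤ e ^ 2 := hbC

end Crest.Agent.R081.St
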