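import Crest.Agent.R081.FmIso
import Crest.Agent.R081.TwLD
import Crest.Agent.R081.Close

/-! Row 81, route B, node G2: CHANGE OF COORDINATES.  Composition with a volume preserving lifted
diffeomorphism as an isometry of complex `L²(T³)`, its functoriality, conjugation formula, and the
relation with the Koopman operator on real `L²`. -/

set_option autoImplicit false

namespace Crest.Agent.R081.Gt

open scoped ContDiff Topology ENNReal
open Crest.AnalysisR.Torus3 Filter MeasureTheory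
open Crest.Agent.R081.Sm Crest.Agent.R081.Tw Crest.Agent.R081.Fm Crest.Agent.R081.Glue

/-- the inverse of a volume preserving lifted diffeomorphism preserves volume -/
theorem mp_symm {A : LD} (hA : MP A) :
    MeasurePreserving A.perm.symm (volume : Measure T3) volume := Close.mp_symm hA

/-- `f ↦ f ∘ A` on complex `L²(T³)` -/
noncomputable def cc (A : LD) (hA : MP A) : HT ≃ₗᵢ[ℂ] HT where
  toLinearEquiv := LinearEquiv.ofLinearMap (Lp.compMeasurePreservingₗ ℂ A.perm hA)
    (Lp.compMeasurePreservingₗ ℂ A.perm.symm (mp_symm hA))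
    (by
      ext1 f
      change Lp.compMeasurePreserving A.perm hA (Lp.compMeasurePreserving A.perm.symm (mp_symm hA) f) = f
      rw [← Lp.compMeasurePreserving_comp_apply f (mp_symm hA) hA]
      have h : (⇑A.perm.symm ∘ ⇑A.perm) = id := by funext x; simp
      simp only [h]
      exact Lp.compMeasurePreserving_id_apply f)
    (by
      ext1 f
      change Lp.compMeasurePreserving A.perm.symm (mp_symm hA) (Lp.compMeasurePreserving A.perm hA f) = f
      rw [← Lp.compMeasurePreserving_comp_apply f hA (mp_symm hA)]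
      have h : (⇑A.perm ∘ ⇑A.perm.symm) = id := by funext x; simp
      simp only [h]
      exact Lp.compMeasurePreserving_id_apply f)
  norm_map' f := Lp.norm_compMeasurePreserving f hA

theorem cc_apply (A : LD) (hA : MP A) (f : HT) : cc A hA f = Lp.compMeasurePreserving A.perm hA f := rfl

theorem coeFn_cc (A : LD) (hA : MP A) (f : HT) : (cc A hA f : T3 → ℂ) =ᵐ[volume] f ∘ A.perm :=
  Lp.coeFn_compMeasurePreserving f hA

theorem coeFn_cc_symm (A : LD) (hA : MP A) (f : HT) :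
    ((cc A hA).symm f : T3 → ℂ) =ᵐ[volume] f ∘ A.perm.symm :=
  Lp.coeFn_compMeasurePreserving f (mp_symm hA)

theorem comp_ae {A : LD} (hA : MP A) {E : Type*} {f g : T3 → E} (h : f =ᵐ[volume] g) :
    f ∘ A.perm =ᵐ[volume] g ∘ A.perm :=
  (MeasurePreserving.quasiMeasurePreserving hA).ae_eq_comp h

theorem cc_toLp (A : LD) (hA : MP A) {f : T3 → ℂ} (hf : MemLp f 2 volume) :
    cc A hA (hf.toLp f) = (hf.comp_measurePreserving hA).toLp (f ∘ A.perm) := by
  refine Lp.ext ?_
  refine (coeFn_cc A hA _).trans ?_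
  exact (comp_ae hA hf.coeFn_toLp).trans (MemLp.coeFn_toLp _).symm

theorem cc_congr {A B : LD} (hA : MP A) (hB : MP B) (h : A.perm = B.perm) (f : HT) :
    cc A hA f = cc B hB f := by
  refine Lp.ext ?_
  refine (coeFn_cc A hA f).trans ?_
  rw [h]
  exact (coeFn_cc B hB f).symm

theorem cc_comp {A B : LD} (hA : MP A) (hB : MP B) (hAB : MP (A.comp B)) (f : HT) :
    cc (A.comp B) hAB f = cc B hB (cc A hA f) := by
  refine Lp.ext ?_
  refine (coeFn_cc _ hAB f).trans ?_
  rw [LD.perm_comp]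
  refine EventuallyEq.trans ?_ (coeFn_cc B hB _).symm
  exact (comp_ae hB (coeFn_cc A hA f)).symm

theorem cc_one (h : MP LD.one) (f : HT) : cc LD.one h f = f := by
  refine Lp.ext ?_
  refine (coeFn_cc _ h f).trans ?_
  rw [LD.perm_one]
  rfl

theorem cc_inv {A : LD} (hA : MP A) (hA' : MP A.inv) (f : HT) :
    cc A.inv hA' f = (cc A hA).symm f := by
  refine Lp.ext ?_
  refine (coeFn_cc _ hA' f).trans ?_
  rw [LD.perm_inv]
  exact (coeFn_cc_symm A hA f).symm

theorem norm_cc (A : LD) (hA : MP A) (f : HT) : ‖cc A hA f‖ = ‖f‖ := (cc A hA).norm_map f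

/-- powers -/
theorem coeFn_cc_pow (A : LD) (hA : MP A) (n : ℕ) (f : HT) :
    (((cc A hA) ^ n) f : T3 → ℂ) =ᵐ[volume] f ∘ ⇑(A.perm ^ n) := by
  induction n with
  | zero => simp
  | succ n ih =>
    have h1 : ((cc A hA) ^ (n + 1)) f = cc A hA (((cc A hA) ^ n) f) := by rw [pow_succ']; rfl
    have h2 : ⇑(A.perm ^ (n + 1)) = ⇑(A.perm ^ n) ∘ ⇑A.perm := by rw [pow_succ]; rfl
    rw [h1, h2]
    exact (coeFn_cc A hA _).trans (comp_ae hA ih)

theorem coeFn_cc_inv_pow (A : LD) (hA : MP A) (n : ℕ) (f : HT) :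
    (((cc A hA)⁻¹ ^ n) f : T3 → ℂ) =ᵐ[volume] f ∘ ⇑(A.perm⁻¹ ^ n) := by
  induction n with
  | zero => simp
  | succ n ih =>
    have h1 : ((cc A hA)⁻¹ ^ (n + 1)) f = (cc A hA).symm (((cc A hA)⁻¹ ^ n) f) := by
      rw [pow_succ']; rfl
    have h2 : ⇑(A.perm⁻¹ ^ (n + 1)) = ⇑(A.perm⁻¹ ^ n) ∘ ⇑A.perm.symm := by rw [pow_succ]; rfl
    rw [h1, h2]
    exact (coeFn_cc_symm A hA _).trans ((mp_symm hA).quasiMeasurePreserving.ae_eq_comp ih)

theorem coeFn_cc_zpow (A : LD) (hA : MP A) (n : ℤ) (f : HT) :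
    (((cc A hA) ^ n) f : T3 → ℂ) =ᵐ[volume] f ∘ ⇑(A.perm ^ n) := by
  cases n with
  | ofNat n => simpa using coeFn_cc_pow A hA n f
  | negSucc n =>
    have h := coeFn_cc_inv_pow A hA (n + 1) f
    rw [zpow_negSucc, zpow_negSucc, ← inv_pow, ← inv_pow]
    exact h

/-- **conjugation**: if `T H = H R` on the torus then `(U_Tⁿ f) ∘ H = U_Rⁿ (f ∘ H)`. -/
theorem cc_conj {T H R : LD} (hT : MP T) (hH : MP H) (hR : MP R)
    (h : T.perm * H.perm = H.perm * R.perm) (f : HT) :
    cc H hH (cc T hT f) = cc R hR (cc H hH f) := by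
  refine Lp.ext ?_
  have e1 : (cc H hH (cc T hT f) : T3 → ℂ) =ᵐ[volume] f ∘ ⇑(T.perm * H.perm) :=
    (coeFn_cc H hH _).trans (comp_ae hH (coeFn_cc T hT f))
  have e2 : (cc R hR (cc H hH f) : T3 → ℂ) =ᵐ[volume] f ∘ ⇑(H.perm * R.perm) :=
    (coeFn_cc R hR _).trans (comp_ae hR (coeFn_cc H hH f))
  rw [h] at e1
  exact e1.trans e2.symm

theorem conj_zpow_aux {E : Type*} [Group E] {t h r : E} (e : t * h = h * r) (n : ℤ) :
    t ^ n * h = h * r ^ n := by
  have h1 : t = h * r * h⁻¹ := by rw [← e]; group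
  rw [h1, conj_zpow]; group

theorem cc_conj_zpow {T H R : LD} (hT : MP T) (hH : MP H) (hR : MP R)
    (h : T.perm * H.perm = H.perm * R.perm) (n : ℤ) (f : HT) :
    cc H hH (((cc T hT) ^ n) f) = ((cc R hR) ^ n) (cc H hH f) := by
  have h0 : cc H hH * cc T hT = cc R hR * cc H hH := by
    ext1 f
    exact cc_conj hT hH hR h f
  have h1 := conj_zpow_aux h0.symm n
  have h2 := DFunLike.congr_fun h1 f
  exact h2.symm

/-- conjugation for the real Koopman operator -/
theorem koop_conj_zpow {T H R : LD} (hT : MP T) (hH : MP H) (hR : MP R)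
    (h : T.perm * H.perm = H.perm * R.perm) (n : ℤ) (f : Lp ℝ 2 (volume : Measure T3)) :
    koop H.perm hH (mp_symm hH) (((koop T.perm hT (mp_symm hT)) ^ n) f) =
      ((koop R.perm hR (mp_symm hR)) ^ n) (koop H.perm hH (mp_symm hH) f) := by
  refine Lp.ext ?_
  have e1 : (koop H.perm hH (mp_symm hH) (((koop T.perm hT (mp_symm hT)) ^ n) f) : T3 → ℝ)
      =ᵐ[volume] f ∘ ⇑(T.perm ^ n * H.perm) :=
    (coeFn_koop _ _ _ _).trans (comp_ae hH (coeFn_koop_zpow T.perm hT (mp_symm hT) n f))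
  have e2 : (((koop R.perm hR (mp_symm hR)) ^ n) (koop H.perm hH (mp_symm hH) f) : T3 → ℝ)
      =ᵐ[volume] f ∘ ⇑(H.perm * R.perm ^ n) :=
    (coeFn_koop_zpow _ _ _ n _).trans
      ((mp_zpow hR (mp_symm hR) n).quasiMeasurePreserving.ae_eq_comp
        (coeFn_koop H.perm hH (mp_symm hH) f))
  rw [conj_zpow_aux h n] at e1
  exact e1.trans e2.symm

theorem memLp_ofReal' {f : T3 → ℝ} (hf : MemLp f 2 (volume : Measure T3)) :
    MemLp (fun x => ((f x : ℝ) : ℂ)) 2 (volume : Measure T3) := hf.ofReal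

/-- a real function as a complex function -/
noncomputable def toC (f : Lp ℝ 2 (volume : Measure T3)) : HT :=
  (memLp_ofReal' (Lp.memLp f)).toLp (fun x => ((f x : ℝ) : ℂ))

theorem coeFn_toC (f : Lp ℝ 2 (volume : Measure T3)) :
    (toC f : T3 → ℂ) =ᵐ[volume] fun x => ((f x : ℝ) : ℂ) := MemLp.coeFn_toLp _

/-- real functions as complex functions -/
noncomputable def ofR : Lp ℝ 2 (volume : Measure T3) →ₗᵢ[ℝ] HT where
  toFun f := toC f
  map_add' f g := by
    refine Lp.ext ?_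
    filter_upwards [coeFn_toC (f + g), coeFn_toC f, coeFn_toC g, Lp.coeFn_add f g,
      Lp.coeFn_add (toC f) (toC g)] with x h1 h2 h3 h4 h5
    rw [h1, h5, Pi.add_apply, h2, h3, h4]
    simp
  map_smul' a f := by
    refine Lp.ext ?_
    filter_upwards [coeFn_toC (a • f), coeFn_toC f, Lp.coeFn_smul a f, Lp.coeFn_smul a (toC f)]
      with x h1 h2 h4 h5
    rw [h1, RingHom.id_apply, h5, Pi.smul_apply, h2, h4]
    simp
  norm_map' f := by
    change ‖toC f‖ = ‖f‖
    rw [toC, Lp.norm_toLp, Lp.norm_def]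
    congr 1
    refine eLpNorm_congr_norm_ae (Eventually.of_forall fun x => ?_)
    simp

theorem coeFn_ofR (f : Lp ℝ 2 (volume : Measure T3)) :
    (ofR f : T3 → ℂ) =ᵐ[volume] fun x => ((f x : ℝ) : ℂ) := coeFn_toC f

theorem ofR_koop (A : LD) (hA : MP A) (hA' : MeasurePreserving A.perm.symm (volume : Measure T3) volume)
    (f : Lp ℝ 2 (volume : Measure T3)) : ofR (koop A.perm hA hA' f) = cc A hA (ofR f) := by
  refine Lp.ext ?_
  filter_upwards [coeFn_ofR (koop A.perm hA hA' f), coeFn_cc A hA (ofR f),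
    coeFn_koop A.perm hA hA' f, comp_ae hA (coeFn_ofR f)] with x h1 h2 h3 h4
  rw [h1, h2, h3]
  exact h4.symm

theorem ofR_koop_zpow (A : LD) (hA : MP A)
    (hA' : MeasurePreserving A.perm.symm (volume : Measure T3) volume) (n : ℤ)
    (f : Lp ℝ 2 (volume : Measure T3)) :
    ofR (((koop A.perm hA hA') ^ n) f) = ((cc A hA) ^ n) (ofR f) := by
  refine Lp.ext ?_
  filter_upwards [coeFn_ofR (((koop A.perm hA hA') ^ n) f), coeFn_cc_zpow A hA n (ofR f),
    coeFn_koop_zpow A.perm hA hA' n f,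
    (mp_zpow hA hA' n).quasiMeasurePreserving.ae_eq_comp (coeFn_ofR f)] with x h1 h2 h3 h4
  rw [h1, h2, h3]
  exact h4.symm

/-- an `L²` function which is real almost everywhere comes from real `L²` -/
theorem exists_ofR (f : HT) (h : ∀ᵐ x ∂(volume : Measure T3), (f x).im = 0) :
    ∃ u : Lp ℝ 2 (volume : Measure T3), ofR u = f := by
  refine ⟨(Lp.memLp f).re.toLp _, Lp.ext ?_⟩
  filter_upwards [coeFn_ofR ((Lp.memLp f).re.toLp _), (Lp.memLp f).re.coeFn_toLp, h] with x h1 h2 h3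
  rw [h1, h2]
  apply Complex.ext
  · simp
  · simp [h3]

theorem inner_ofR (f g : Lp ℝ 2 (volume : Measure T3)) :
    inner ℂ (ofR f) (ofR g) = ((inner ℝ f g : ℝ) : ℂ) := by
  rw [L2.inner_def, L2.inner_def, ← integral_complex_ofReal]
  refine integral_congr_ae ?_
  filter_upwards [coeFn_ofR f, coeFn_ofR g] with x h1 h2
  rw [h1, h2]
  simp [RCLike.inner_apply]

theorem integral_cc (A : LD) (hA : MP A) (f : HT) : ∫ x, cc A hA f x = ∫ x, f x := by
  rw [integral_congr_ae (coeFn_cc A hA f)]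
  have hs : MeasurableEmbedding A.perm := by
    let e : T3 ≃ᵐ T3 := ⟨A.perm, A.measurable_perm, A.measurable_perm_symm⟩
    exact e.measurableEmbedding
  exact MeasurePreserving.integral_comp hA hs f

theorem integral_ofR (f : Lp ℝ 2 (volume : Measure T3)) :
    ∫ x, ofR f x = ((∫ x, f x : ℝ) : ℂ) := by
  rw [integral_congr_ae (coeFn_ofR f), integral_complex_ofReal]

end Crest.Agent.R081.Gt
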