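import Crest.Agent.R081.Ind

/-!
# Row 81: induction and limit, part 2.
-/

set_option autoImplicit false

namespace Crest.Agent.R081.Ind

open MeasureTheory Filter Topology Crest.AnalysisR.Torus3 Crest.Agent.R081.Sm Crest.Agent.R081.Glue
open scoped RealInnerProductSpace ContDiff ENNReal

/-- derivatives of a smooth lift are bounded -/
theorem exists_bd_iter {F : E3 → E3} (hF : ContDiff ℝ ∞ F) (hP : Per F) (i : ℕ) (hi : 1 ≤ i) :
    ∃ K : ℝ, ∀ x, ‖iteratedFDeriv ℝ i F x‖ ≤ K := by
  have hcont : Continuous fun x => ‖iteratedFDeriv ℝ i F x‖ :=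
    (hF.continuous_iteratedFDeriv (by exact_mod_cast le_top)).norm
  have hcomp : IsCompact (Set.Icc (0 : E3) 1) := isCompact_Icc
  obtain ⟨K, hK⟩ := hcomp.exists_bound_of_continuousOn hcont.continuousOn
  refine ⟨K, fun x => ?_⟩
  -- translate x into the unit cube
  let k : Fin 3 → ℤ := fun j => ⌊x j⌋
  have hx : x - zv k ∈ Set.Icc (0 : E3) 1 := by
    constructor
    · intro j
      simp only [Pi.zero_apply, Pi.sub_apply, zv_apply]
      have := Int.floor_le (x j)
      simp only [k]; linarith
    · intro j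
      simp only [Pi.one_apply, Pi.sub_apply, zv_apply]
      have := Int.lt_floor_add_one (x j)
      simp only [k]; linarith
  have h1 := hK _ hx
  rw [norm_norm] at h1
  obtain ⟨m, hm⟩ := hP k
  have h2 : iteratedFDeriv ℝ i F (x - zv k + zv k) = iteratedFDeriv ℝ i F (x - zv k) := by
    have e1 : iteratedFDeriv ℝ i (fun z => F (z + zv k)) (x - zv k) =
        iteratedFDeriv ℝ i F (x - zv k + zv k) := iteratedFDeriv_comp_add_right i (zv k) _
    rw [← e1]
    have e2 : (fun z => F (z + zv k)) = fun z => F z + zv m := funext hm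
    rw [e2]
    have e3 : (fun z => F z + zv m) = F + fun _ => zv m := rfl
    rw [e3, iteratedFDeriv_add_apply (hF.of_le (by exact_mod_cast le_top)).contDiffAt
      contDiff_const.contDiffAt]
    have e4 : iteratedFDeriv ℝ i (fun _ : E3 => (zv m : E3)) (x - zv k) = 0 := by
      have := iteratedFDeriv_const_of_ne (𝕜 := ℝ) (E := E3) (n := i) (by omega) (zv m : E3)
      rw [this]; rfl
    rw [e4, add_zero]
  rw [sub_add_cancel] at h2
  rw [h2]
  exact h1

/-- the difference of two lifts at bounded distance is bounded in every `C^r` -/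
theorem exists_bd_sub {F G : E3 → E3} (hF : ContDiff ℝ ∞ F) (hP : Per F) (hG : ContDiff ℝ ∞ G)
    (hQ : Per G) {C : ℝ} (h0 : Bd 0 C (fun x => F x - G x)) (r : ℕ) :
    ∃ K : ℝ, Bd r K (fun x => F x - G x) := by
  have hex : ∀ i : ℕ, ∃ K : ℝ, ∀ x, ‖iteratedFDeriv ℝ i (fun x => F x - G x) x‖ ≤ K := by
    intro i
    rcases Nat.eq_zero_or_pos i with rfl | hi
    · exact ⟨C, fun x => h0 0 le_rfl x⟩
    · obtain ⟨K1, h1⟩ := exists_bd_iter hF hP i hi
      obtain ⟨K2, h2⟩ := exists_bd_iter hG hQ i hi
      refine ⟨K1 + K2, fun x => ?_⟩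
      have e3 : (fun x => F x - G x) = F - G := rfl
      rw [e3, iteratedFDeriv_sub_apply (hF.of_le (by exact_mod_cast le_top)).contDiffAt
        (hG.of_le (by exact_mod_cast le_top)).contDiffAt]
      exact (norm_sub_le _ _).trans (add_le_add (h1 x) (h2 x))
  choose K hK using hex
  refine ⟨∑ i ∈ Finset.range (r + 1), |K i|, fun i hi x => ?_⟩
  refine (hK i x).trans ((le_abs_self _).trans ?_)
  exact Finset.single_le_sum (f := fun i => |K i|) (fun _ _ => abs_nonneg _)
    (Finset.mem_range.2 (by omega))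

/-- limit of a sequence of lifted diffeomorphisms with `Close n 2^{-n}` steps -/
theorem exists_lim (L : ℕ → LD) (h : ∀ n, Close n ((1 / 2 : ℝ) ^ n) (L n) (L (n + 1))) :
    ∃ A : LD, Conv L A := by
  have hF : ∀ r n, ∃ K : ℝ, Bd r K (fun x => (L (n + 1)).F x - (L n).F x) := fun r n =>
    exists_bd_sub (L (n + 1)).hF (L (n + 1)).pF (L n).hF (L n).pF ((h n).1.mono (Nat.zero_le _) le_rfl) r
  have hH : ∀ r n, ∃ K : ℝ, Bd r K (fun x => (L (n + 1)).H x - (L n).H x) := fun r n =>
    exists_bd_sub (L (n + 1)).hH (L (n + 1)).pH (L n).hH (L n).pH ((h n).2.mono (Nat.zero_le _) le_rfl) r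
  choose KF hKF using hF
  choose KH hKH using hH
  let v : ℕ → ℕ → ℝ := fun r n => if n < r then |KF r n| + |KH r n| else (1 / 2 : ℝ) ^ n
  refine exists_limit L v ?_ ?_ ?_
  · intro r
    have hs : Summable fun n : ℕ => (1 / 2 : ℝ) ^ n := summable_geometric_two
    refine (summable_nat_add_iff r).1 ?_
    refine ((summable_nat_add_iff r).2 hs).congr fun n => ?_
    simp only [v]
    rw [if_neg (by omega)]
  · intro r n
    simp only [v]
    split_ifs with hn
    · exact (hKF r n).mono le_rfl ((le_abs_self _).trans (le_add_of_nonneg_right (abs_nonneg _)))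
    · exact (h n).1.mono (by omega) le_rfl
  · intro r n
    simp only [v]
    split_ifs with hn
    · exact (hKH r n).mono le_rfl ((le_abs_self _).trans (le_add_of_nonneg_left (abs_nonneg _)))
    · exact (h n).2.mono (by omega) le_rfl

end Crest.Agent.R081.Ind
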