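import Crest.Agent.R081.ShearMP

/-!
# Commutator formula for kick and chirp (lifts to `ℝ³`)

`K E R E⁻¹ K⁻¹` for two shears `K, E` and a translation `R`, when at every point either the
increment of `E` vanishes along the direction of `K`, or the amplitude of `K` vanishes.
-/

set_option autoImplicit false

namespace Crest.Agent.R081.Shear

open scoped ContDiff

namespace ShearData

variable (D : ShearData)

/-- The real direction vector. -/
def wv : Fin 3 → ℝ := fun i => D.w i

theorem lift_eq (x : Fin 3 → ℝ) : D.lift x = x + D.b x • D.wv := by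
  funext i
  simp [lift, wv]

theorem symm_lift_eq (x : Fin 3 → ℝ) : D.symm.lift x = x - D.b x • D.wv := by
  funext i
  simp only [lift, wv, symm, Pi.sub_apply, Pi.smul_apply, smul_eq_mul]
  ring

theorem inv' (x : Fin 3 → ℝ) (s : ℝ) : D.b (x + s • D.wv) = D.b x := by
  have h := D.inv x s
  have e : (fun i => x i + s * (D.w i : ℝ)) = x + s • D.wv := by
    funext i; simp [wv]
  rwa [e] at h

theorem inv_sub (x : Fin 3 → ℝ) (s : ℝ) : D.b (x - s • D.wv) = D.b x := by
  have := D.inv' x (-s)
  rwa [neg_smul, ← sub_eq_add_neg] at this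

end ShearData

/-- Increment of the amplitude of `E` under the translation by `a`. -/
def incr (b : (Fin 3 → ℝ) → ℝ) (a : Fin 3 → ℝ) (x : Fin 3 → ℝ) : ℝ := b (x + a) - b x

/-- `E R E⁻¹`. -/
theorem chirp_conj (E : ShearData) (a x : Fin 3 → ℝ) :
    E.lift (E.symm.lift x + a) = x + a + incr E.b a x • E.wv := by
  have h : E.b (x - E.b x • E.wv + a) = E.b (x + a) := by
    have : x - E.b x • E.wv + a = (x + a) - E.b x • E.wv := by abel
    rw [this, E.inv_sub]
  rw [E.symm_lift_eq, E.lift_eq, h, incr, sub_smul]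
  abel

/-- **Commutator formula.** If at `x` either the increment of `E` vanishes along the whole line
in the direction of `K`, or `K` does nothing at `x` and at `x + a + s • wE` for all `s`, then
`K E R E⁻¹ K⁻¹ x = x + a + φ(x) wE + (bK(x+a) - bK(x)) wK`. -/
theorem kick_chirp_conj (K E : ShearData) (a x : Fin 3 → ℝ)
    (h : (∀ s : ℝ, incr E.b a (x + s • K.wv) = 0) ∨
      (K.b x = 0 ∧ ∀ s : ℝ, K.b (x + a + s • E.wv) = 0)) :
    K.lift (E.lift (E.symm.lift (K.symm.lift x) + a)) =
      x + a + incr E.b a x • E.wv + incr K.b a x • K.wv := by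
  rw [chirp_conj]
  rcases h with h | ⟨h0, h1⟩
  · have h2 : incr E.b a (K.symm.lift x) = 0 := by
      rw [K.symm_lift_eq, sub_eq_add_neg, ← neg_smul]
      exact h _
    have h3 : incr E.b a x = 0 := by simpa using h 0
    rw [h2, h3, zero_smul, add_zero, add_zero, K.lift_eq, K.symm_lift_eq]
    have h4 : K.b (x - K.b x • K.wv + a) = K.b (x + a) := by
      have : x - K.b x • K.wv + a = (x + a) - K.b x • K.wv := by abel
      rw [this, K.inv_sub]
    rw [h4, incr, sub_smul]
    abel
  · have h2 : K.symm.lift x = x := by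
      rw [K.symm_lift_eq, h0, zero_smul, sub_zero]
    have h3 : K.b (x + a) = 0 := by simpa using h1 0
    rw [h2, K.lift_eq, h1, zero_smul, add_zero]
    simp [incr, h0, h3]

/-- Conjugation of a map `x ↦ x + a + φ(x) w + ρ(x) v` by a chirp `E` with direction `w`:
`φ` is invariant along `w`; on the support of `ρ` the amplitude of `E` does not see `v`. -/
theorem chirp_conj_general (E : ShearData) (a v : Fin 3 → ℝ) (φ ρ : (Fin 3 → ℝ) → ℝ)
    (x : Fin 3 → ℝ) (hφ : ∀ s : ℝ, φ (x + s • E.wv) = φ x)
    (hv : E.b (x + a + ρ (E.symm.lift x) • v) = E.b (x + a)) :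
    E.lift (E.symm.lift x + a + φ (E.symm.lift x) • E.wv + ρ (E.symm.lift x) • v) =
      x + a + (φ x + incr E.b a x) • E.wv + ρ (E.symm.lift x) • v := by
  set r := ρ (E.symm.lift x) with hr
  have h1 : φ (E.symm.lift x) = φ x := by
    rw [E.symm_lift_eq, sub_eq_add_neg, ← neg_smul]
    exact hφ _
  rw [h1, E.lift_eq]
  have h2 : E.b (E.symm.lift x + a + φ x • E.wv + r • v) = E.b (x + a) := by
    rw [← hv]
    have : E.symm.lift x + a + φ x • E.wv + r • v =
        (x + a + r • v) + (φ x - E.b x) • E.wv := by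
      rw [E.symm_lift_eq, sub_smul]; abel
    rw [this, E.inv']
  rw [h2, E.symm_lift_eq, incr]
  have h3 : (φ x + (E.b (x + a) - E.b x)) • E.wv =
      φ x • E.wv + E.b (x + a) • E.wv - E.b x • E.wv := by
    rw [add_smul, sub_smul]; abel
  rw [h3]
  abel

end Crest.Agent.R081.Shear
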