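import Mathlib

/-!
# Row 81, limit criterion (item (5) of note 13705)

Abstract real Hilbert space.  `U n → Ui` strongly, `x n` a Cauchy sequence, the part of `x (n+1)`
that is new lives in the spectral gap of stage `n`.  Then the limit vector is a simple Lebesgue
generator for `Ui`.
-/

set_option autoImplicit false

namespace Crest.Agent.R081.Lc

open Filter Topology MeasureTheory
open scoped RealInnerProductSpace

variable {H : Type*} [NormedAddCommGroup H] [InnerProductSpace ℝ H]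

/-- `op V p x = ∑ p_k V^k x`. -/
noncomputable def op (V : H ≃ₗᵢ[ℝ] H) (p : ℤ →₀ ℝ) (x : H) : H :=
  p.sum fun k a => a • ((V ^ k) x)

/-- `ℓ¹` norm of the coefficients. -/
noncomputable def l1 (p : ℤ →₀ ℝ) : ℝ := p.sum fun _ a => |a|

/-- all frequencies are at most `N`. -/
def Deg (p : ℤ →₀ ℝ) (N : ℝ) : Prop := ∀ k ∈ p.support, |(k : ℝ)| ≤ N

theorem l1_nonneg (p : ℤ →₀ ℝ) : 0 ≤ l1 p := Finset.sum_nonneg fun _ _ => abs_nonneg _

theorem norm_zpow_apply (V : H ≃ₗᵢ[ℝ] H) (k : ℤ) (x : H) : ‖(V ^ k) x‖ = ‖x‖ :=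
  (V ^ k).norm_map x

theorem op_sub (V : H ≃ₗᵢ[ℝ] H) (p : ℤ →₀ ℝ) (x y : H) :
    op V p (x - y) = op V p x - op V p y := by
  simp only [op, Finsupp.sum, map_sub, smul_sub, Finset.sum_sub_distrib]

theorem op_add (V : H ≃ₗᵢ[ℝ] H) (p : ℤ →₀ ℝ) (x y : H) :
    op V p (x + y) = op V p x + op V p y := by
  simp only [op, Finsupp.sum, map_add, smul_add, Finset.sum_add_distrib]

theorem norm_op_le (V : H ≃ₗᵢ[ℝ] H) (p : ℤ →₀ ℝ) (x : H) : ‖op V p x‖ ≤ l1 p * ‖x‖ := by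
  rw [op, Finsupp.sum, l1, Finsupp.sum, Finset.sum_mul]
  refine (norm_sum_le _ _).trans (Finset.sum_le_sum fun k _ => ?_)
  rw [norm_smul, norm_zpow_apply, Real.norm_eq_abs]

theorem op_mem_span (V : H ≃ₗᵢ[ℝ] H) (p : ℤ →₀ ℝ) (x : H) :
    op V p x ∈ Submodule.span ℝ (Set.range fun k : ℤ => (V ^ k) x) := by
  rw [op, Finsupp.sum]
  exact Submodule.sum_mem _ fun k _ =>
    Submodule.smul_mem _ _ (Submodule.subset_span ⟨k, rfl⟩)

/-- strong convergence passes to varying vectors -/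
theorem tendsto_zpow_apply {U : ℕ → H ≃ₗᵢ[ℝ] H} {Ui : H ≃ₗᵢ[ℝ] H} {x : ℕ → H} {g : H}
    (c3 : ∀ (k : ℤ) (v : H), Tendsto (fun n => (U n ^ k) v) atTop (𝓝 ((Ui ^ k) v)))
    (hx : Tendsto x atTop (𝓝 g)) (k : ℤ) :
    Tendsto (fun n => (U n ^ k) (x n)) atTop (𝓝 ((Ui ^ k) g)) := by
  have h1 : Tendsto (fun n => (U n ^ k) (x n) - (U n ^ k) g) atTop (𝓝 0) := by
    rw [tendsto_zero_iff_norm_tendsto_zero]
    have h2 : (fun n => ‖(U n ^ k) (x n) - (U n ^ k) g‖) = fun n => ‖x n - g‖ := by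
      funext n
      rw [← map_sub, norm_zpow_apply]
    rw [h2]
    have h3 : Tendsto (fun n => x n - g) atTop (𝓝 (g - g)) := hx.sub_const g
    rw [sub_self] at h3
    simpa using h3.norm
  have h2 := h1.add (c3 k g)
  simpa using h2

theorem tendsto_op {U : ℕ → H ≃ₗᵢ[ℝ] H} {Ui : H ≃ₗᵢ[ℝ] H} {x : ℕ → H} {g : H}
    (c3 : ∀ (k : ℤ) (v : H), Tendsto (fun n => (U n ^ k) v) atTop (𝓝 ((Ui ^ k) v)))
    (hx : Tendsto x atTop (𝓝 g)) (p : ℤ →₀ ℝ) :
    Tendsto (fun n => op (U n) p (x n)) atTop (𝓝 (op Ui p g)) := by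
  simp only [op, Finsupp.sum]
  exact tendsto_finsetSum _ fun k _ => (tendsto_zpow_apply c3 hx k).const_smul _

/-- **Limit criterion.** -/
theorem limit_criterion [CompleteSpace H] (U : ℕ → H ≃ₗᵢ[ℝ] H) (Ui : H ≃ₗᵢ[ℝ] H) (x : ℕ → H)
    (d : ℕ → ℝ) (hd : Summable d) (c1 : ∀ n, ‖x (n + 1) - x n‖ ≤ d n)
    (c2 : ∀ i : ℤ, Tendsto (fun n => ⟪(U n ^ i) (x n), x n⟫) atTop (𝓝 (if i = 0 then 1 else 0)))
    (c3 : ∀ (k : ℤ) (v : H), Tendsto (fun n => (U n ^ k) v) atTop (𝓝 ((Ui ^ k) v)))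
    (Gam : ℕ → ℝ) (hG : Monotone Gam) (om : ℕ → (ℤ →₀ ℝ) → ℝ)
    (c4 : ∀ n p, l1 p ≤ Gam n → Deg p (Gam n) →
      ‖op (U (n + 1)) p (x (n + 1)) - op (U n) p (x n)‖ ≤ om n p + (1 / 2 : ℝ) ^ n)
    (c5 : ∀ n p, l1 p ≤ Gam n → Deg p (Gam n) → om (n + 1) p ≤ (1 / 2 : ℝ) ^ (n + 1))
    (D : Set H)
    (c6 : ∀ f ∈ D, ∀ δ > 0, ∀ m : ℕ, ∃ n ≥ m, ∃ p, l1 p ≤ Gam n ∧ Deg p (Gam n) ∧
      ‖op (U n) p (x n) - f‖ ≤ δ ∧ om n p ≤ δ) :
    ∃ g : H, Tendsto x atTop (𝓝 g) ∧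
      (∀ m n : ℤ, ⟪(Ui ^ m) g, (Ui ^ n) g⟫ = if m = n then (1 : ℝ) else 0) ∧
      (∀ f ∈ D, f ∈ closure
        ((Submodule.span ℝ (Set.range fun k : ℤ => (Ui ^ k) g) : Submodule ℝ H) : Set H)) := by
  -- the limit
  have hcau : CauchySeq x := cauchySeq_of_dist_le_of_summable d (fun n => by
    rw [dist_comm, dist_eq_norm]; exact c1 n) hd
  obtain ⟨g, hg⟩ := cauchySeq_tendsto_of_complete hcau
  refine ⟨g, hg, ?_, ?_⟩
  · intro m n
    have h1 : ⟪(Ui ^ m) g, (Ui ^ n) g⟫ = ⟪(Ui ^ (m - n)) g, g⟫ := by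
      have h2 : (Ui ^ m) g = (Ui ^ n) ((Ui ^ (m - n)) g) := by
        have h3 : Ui ^ m = Ui ^ n * Ui ^ (m - n) := by
          rw [← zpow_add]; congr 1; ring
        rw [h3]; rfl
      rw [h2]
      exact (Ui ^ n).inner_map_map _ _
    rw [h1]
    have h2 : Tendsto (fun k => ⟪(U k ^ (m - n)) (x k), x k⟫) atTop
        (𝓝 ⟪(Ui ^ (m - n)) g, g⟫) := (tendsto_zpow_apply c3 hg (m - n)).inner hg
    have h3 := tendsto_nhds_unique h2 (c2 (m - n))
    rw [h3]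
    by_cases h : m = n
    · simp [h]
    · have : m - n ≠ 0 := sub_ne_zero.mpr h
      simp [h, this]
  · intro f hf
    rw [Metric.mem_closure_iff]
    intro ε hε
    -- choose m large
    obtain ⟨m, hm⟩ : ∃ m : ℕ, 4 * (1 / 2 : ℝ) ^ m ≤ ε / 4 := by
      obtain ⟨m, hm⟩ := exists_pow_lt_of_lt_one (show (0 : ℝ) < ε / 16 by positivity)
        (show (1 / 2 : ℝ) < 1 by norm_num)
      exact ⟨m, by linarith⟩
    obtain ⟨n, hnm, p, hp1, hp2, hp3, hp4⟩ := c6 f hf (ε / 8) (by positivity) m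
    -- telescoping
    have hstep : ∀ j : ℕ, ‖op (U (n + 1 + j)) p (x (n + 1 + j)) - op (U n) p (x n)‖ ≤
        om n p + 4 * (1 / 2 : ℝ) ^ n - 2 * (1 / 2 : ℝ) ^ (n + j) := by
      intro j
      induction j with
      | zero =>
        have := c4 n p hp1 hp2
        have h0 : (0 : ℝ) ≤ (1 / 2 : ℝ) ^ n := by positivity
        simp only [add_zero]
        linarith
      | succ j ih =>
        have hmono : Gam n ≤ Gam (n + j) := hG (Nat.le_add_right _ _)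
        have hmono' : Gam n ≤ Gam (n + j + 1) := hG (by omega)
        have e1 := c4 (n + j + 1) p (hp1.trans hmono')
          (fun k hk => (hp2 k hk).trans hmono')
        have e2 := c5 (n + j) p (hp1.trans hmono) (fun k hk => (hp2 k hk).trans hmono)
        have h0 : n + 1 + j = n + j + 1 := by omega
        have h1 : n + 1 + (j + 1) = n + j + 1 + 1 := by omega
        rw [h0] at ih
        rw [h1]
        have h2 : ‖op (U (n + j + 1 + 1)) p (x (n + j + 1 + 1)) - op (U n) p (x n)‖ ≤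
            ‖op (U (n + j + 1 + 1)) p (x (n + j + 1 + 1)) -
              op (U (n + j + 1)) p (x (n + j + 1))‖ +
            ‖op (U (n + j + 1)) p (x (n + j + 1)) - op (U n) p (x n)‖ := by
          have := norm_add_le (op (U (n + j + 1 + 1)) p (x (n + j + 1 + 1)) -
              op (U (n + j + 1)) p (x (n + j + 1)))
              (op (U (n + j + 1)) p (x (n + j + 1)) - op (U n) p (x n))
          rwa [sub_add_sub_cancel] at this
        have h3 : (1 / 2 : ℝ) ^ (n + j + 1) = (1 / 2) * (1 / 2 : ℝ) ^ (n + j) := by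
          rw [pow_succ]; ring
        have h4 : n + (j + 1) = n + j + 1 := by omega
        rw [h4, h3]
        rw [h3] at e1 e2
        have h5 : (0 : ℝ) ≤ (1 / 2 : ℝ) ^ (n + j) := by positivity
        linarith
    have hlim : ‖op Ui p g - op (U n) p (x n)‖ ≤ om n p + 4 * (1 / 2 : ℝ) ^ n := by
      have h1 : Tendsto (fun j => ‖op (U (n + 1 + j)) p (x (n + 1 + j)) - op (U n) p (x n)‖)
          atTop (𝓝 ‖op Ui p g - op (U n) p (x n)‖) := by
        have h2 := ((tendsto_op c3 hg p).sub_const (op (U n) p (x n))).norm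
        have h3 : Tendsto (fun j : ℕ => n + 1 + j) atTop atTop := by
          exact tendsto_atTop_mono (fun j => Nat.le_add_left j (n + 1)) tendsto_id
        exact h2.comp h3
      refine le_of_tendsto h1 (Eventually.of_forall fun j => ?_)
      have := hstep j
      have h5 : (0 : ℝ) ≤ (1 / 2 : ℝ) ^ (n + j) := by positivity
      linarith
    refine ⟨op Ui p g, op_mem_span Ui p g, ?_⟩
    rw [dist_comm, dist_eq_norm]
    have h6 : ‖op Ui p g - f‖ ≤ ‖op Ui p g - op (U n) p (x n)‖ + ‖op (U n) p (x n) - f‖ := by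
      have := norm_add_le (op Ui p g - op (U n) p (x n)) (op (U n) p (x n) - f)
      rwa [sub_add_sub_cancel] at this
    have h7 : (1 / 2 : ℝ) ^ n ≤ (1 / 2 : ℝ) ^ m :=
      pow_le_pow_of_le_one (by norm_num) (by norm_num) hnm
    linarith


/-- the difference of two operators on a fixed vector -/
theorem norm_op_sub_op_le (V W : H ≃ₗᵢ[ℝ] H) (p : ℤ →₀ ℝ) (x : H) (η : ℝ)
    (h : ∀ k ∈ p.support, ‖(V ^ k) x - (W ^ k) x‖ ≤ η) :
    ‖op V p x - op W p x‖ ≤ l1 p * η := by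
  have h1 : op V p x - op W p x = ∑ k ∈ p.support, p k • ((V ^ k) x - (W ^ k) x) := by
    simp only [op, Finsupp.sum, smul_sub, Finset.sum_sub_distrib]
  rw [h1, l1, Finsupp.sum, Finset.sum_mul]
  refine (norm_sum_le _ _).trans (Finset.sum_le_sum fun k hk => ?_)
  rw [norm_smul, Real.norm_eq_abs]
  exact mul_le_mul_of_nonneg_left (h k hk) (abs_nonneg _)

/-- **Limit criterion with full cover at every stage** (`⟪U_n^i x_n, x_n⟫ = [i = 0]` exactly):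
only `ℓ¹` norms of the Laurent polynomials of the stages `≤ n` enter the closeness of stage
`n + 1`. -/
theorem limit_FC [CompleteSpace H] (U : ℕ → H ≃ₗᵢ[ℝ] H) (Ui : H ≃ₗᵢ[ℝ] H) (x : ℕ → H)
    (hon : ∀ (n : ℕ) (i : ℤ), ⟪(U n ^ i) (x n), x n⟫ = if i = 0 then (1 : ℝ) else 0)
    (c3 : ∀ (k : ℤ) (v : H), Tendsto (fun n => (U n ^ k) v) atTop (𝓝 ((Ui ^ k) v)))
    (Gam : ℕ → ℝ) (hG1 : ∀ n, 1 ≤ Gam n) (hG : Monotone Gam)
    (c1 : ∀ n, Gam n * ‖x (n + 1) - x n‖ ≤ (1 / 2 : ℝ) ^ (n + 1))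
    (c4 : ∀ (n : ℕ) (k : ℤ), |(k : ℝ)| ≤ Gam n →
      Gam n * ‖(U (n + 1) ^ k) (x n) - (U n ^ k) (x n)‖ ≤ (1 / 2 : ℝ) ^ (n + 1))
    (D : Set H)
    (c6 : ∀ f ∈ D, ∀ δ > 0, ∀ m : ℕ, ∃ n ≥ m, ∃ p, l1 p ≤ Gam n ∧ Deg p (Gam n) ∧
      ‖op (U n) p (x n) - f‖ ≤ δ) :
    ∃ g : H, Tendsto x atTop (𝓝 g) ∧
      (∀ m n : ℤ, ⟪(Ui ^ m) g, (Ui ^ n) g⟫ = if m = n then (1 : ℝ) else 0) ∧
      (∀ f ∈ D, f ∈ closure
        ((Submodule.span ℝ (Set.range fun k : ℤ => (Ui ^ k) g) : Submodule ℝ H) : Set H)) := by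
  have hx : ∀ n, ‖x (n + 1) - x n‖ ≤ (1 / 2 : ℝ) ^ (n + 1) := fun n => by
    have h1 := c1 n
    have h2 : ‖x (n + 1) - x n‖ ≤ Gam n * ‖x (n + 1) - x n‖ :=
      le_mul_of_one_le_left (norm_nonneg _) (hG1 n)
    linarith
  have hsum : Summable fun n : ℕ => (1 / 2 : ℝ) ^ (n + 1) := by
    have := (summable_geometric_of_lt_one (show (0 : ℝ) ≤ 1 / 2 by norm_num) (by norm_num))
    exact (summable_nat_add_iff 1).2 this
  refine limit_criterion U Ui x _ hsum hx ?_ c3 Gam hG (fun _ _ => 0) ?_ ?_ D ?_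
  · intro i
    have : (fun n => ⟪(U n ^ i) (x n), x n⟫) = fun _ => (if i = 0 then (1 : ℝ) else 0) := by
      funext n; exact hon n i
    rw [this]
    exact tendsto_const_nhds
  · intro n p hp1 hp2
    have hG0 : 0 < Gam n := lt_of_lt_of_le one_pos (hG1 n)
    have e1 : op (U (n + 1)) p (x (n + 1)) - op (U n) p (x n) =
        op (U (n + 1)) p (x (n + 1) - x n) +
          (op (U (n + 1)) p (x n) - op (U n) p (x n)) := by
      rw [op_sub]; abel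
    have e2 : ‖op (U (n + 1)) p (x (n + 1) - x n)‖ ≤ (1 / 2 : ℝ) ^ (n + 1) :=
      (norm_op_le _ _ _).trans
        ((mul_le_mul_of_nonneg_right hp1 (norm_nonneg _)).trans (c1 n))
    have e3 : ‖op (U (n + 1)) p (x n) - op (U n) p (x n)‖ ≤ (1 / 2 : ℝ) ^ (n + 1) := by
      have h1 := norm_op_sub_op_le (U (n + 1)) (U n) p (x n) ((1 / 2 : ℝ) ^ (n + 1) / Gam n)
        (fun k hk => by
          rw [le_div_iff₀ hG0, mul_comm]
          exact c4 n k (hp2 k hk))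
      refine h1.trans ?_
      calc l1 p * ((1 / 2 : ℝ) ^ (n + 1) / Gam n) ≤ Gam n * ((1 / 2 : ℝ) ^ (n + 1) / Gam n) :=
            mul_le_mul_of_nonneg_right hp1 (by positivity)
        _ = (1 / 2 : ℝ) ^ (n + 1) := by field_simp
    rw [e1]
    refine (norm_add_le _ _).trans ?_
    have h3 : (1 / 2 : ℝ) ^ (n + 1) = (1 / 2) * (1 / 2 : ℝ) ^ n := by rw [pow_succ]; ring
    rw [h3] at e2 e3
    linarith
  · intro n p _ _
    positivity
  · intro f hf δ hδ m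
    obtain ⟨n, hn, p, h1, h2, h3⟩ := c6 f hf δ hδ m
    exact ⟨n, hn, p, h1, h2, h3, hδ.le⟩

end Crest.Agent.R081.Lc
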