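import Crest.Agent.R081.LdRound

/-!
# Row 81, design lemma, step 6: the arcs

`Lines` = abstract finite family of lines (piece, frequency `b`, start `X` of the arc in units
`1/N`, residue `a` mod `qq`), with disjoint arcs and mirror arcs.  `SG a b` = set of the parameters
`s ∈ (0,1)` where the line `(a,b)` is present.
-/

set_option autoImplicit false

namespace Crest.Agent.R081.LdA

open MeasureTheory Set Finset Crest.Agent.R081.D

/-- A finite family of lines with disjoint (mirror) arcs, in real form: the line `l` sweeps the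
points `a l / qq + b l * v * s`, `s = (pc l + u) / P`, `u ∈ [zeta, 1 - zeta]`. -/
structure Lines where
  ι : Type
  fin : Fintype ι
  dec : DecidableEq ι
  P : ℕ
  P_pos : 0 < P
  v : ℝ
  v_pos : 0 < v
  qq : ℕ
  qq_pos : 0 < qq
  pc : ι → Fin P
  b : ι → ℤ
  a : ι → ℤ
  zeta : ℝ
  zeta_pos : 0 < zeta
  zeta_lt : zeta < 1 / 2
  b_pos : ∀ l, 1 ≤ b l
  inj_pos : ∀ (l l' : ι) (u u' : ℝ), zeta ≤ u → u ≤ 1 - zeta → zeta ≤ u' → u' ≤ 1 - zeta → ∀ k : ℤ,
    (a l : ℝ) / qq + b l * v * (((pc l : ℕ) + u) / P)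
      = (a l' : ℝ) / qq + b l' * v * (((pc l' : ℕ) + u') / P) + k → l = l' ∧ u = u'
  inj_neg : ∀ (l l' : ι) (u u' : ℝ), zeta ≤ u → u ≤ 1 - zeta → zeta ≤ u' → u' ≤ 1 - zeta → ∀ k : ℤ,
    (a l : ℝ) / qq + b l * v * (((pc l : ℕ) + u) / P)
      = -((a l' : ℝ) / qq + b l' * v * (((pc l' : ℕ) + u') / P)) + k → False

namespace Lines

variable (S : Lines)

instance : Fintype S.ι := S.fin
instance : DecidableEq S.ι := S.dec

/-- trimmed piece of the line. -/
def I (l : S.ι) : Set ℝ :=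
  Ioo ((((S.pc l : ℕ) : ℝ) + S.zeta) / S.P) ((((S.pc l : ℕ) : ℝ) + 1 - S.zeta) / S.P)

/-- signed lines. -/
def sa (m : S.ι × Bool) : ℤ := if m.2 then S.a m.1 else -S.a m.1
def sb (m : S.ι × Bool) : ℤ := if m.2 then S.b m.1 else -S.b m.1

/-- the set of parameters where the line `(a,b)` is present. -/
def SG (a b : ℤ) : Set ℝ := {s | ∃ m : S.ι × Bool, s ∈ S.I m.1 ∧ b = S.sb m ∧ (S.qq : ℤ) ∣ a - S.sa m}

/-- the point of the circle swept by the line. -/
noncomputable def x (l : S.ι) (s : ℝ) : ℝ := (S.a l : ℝ) / S.qq + S.b l * S.v * s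

lemma Pr_pos : (0 : ℝ) < S.P := by exact_mod_cast S.P_pos
lemma qr_pos : (0 : ℝ) < S.qq := by exact_mod_cast S.qq_pos
lemma br_pos (l : S.ι) : (0 : ℝ) < S.b l := by exact_mod_cast lt_of_lt_of_le one_pos (S.b_pos l)

lemma I_bounds {l : S.ι} {s : ℝ} (hs : s ∈ S.I l) :
    ((S.pc l : ℕ) : ℝ) + S.zeta < S.P * s ∧ S.P * s < ((S.pc l : ℕ) : ℝ) + 1 - S.zeta := by
  obtain ⟨h1, h2⟩ := hs
  have hP := S.Pr_pos
  rw [div_lt_iff₀ hP] at h1
  rw [lt_div_iff₀ hP] at h2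
  constructor <;> linarith

lemma x_eq (l : S.ι) (s : ℝ) : S.x l s
    = (S.a l : ℝ) / S.qq + S.b l * S.v * (((S.pc l : ℕ) + (S.P * s - (S.pc l : ℕ))) / S.P) := by
  have hP := S.Pr_pos
  unfold x
  congr 2
  field_simp
  ring

/-- same sign. -/
lemma inj_pos' {l l' : S.ι} {s s' : ℝ} (hs : s ∈ S.I l) (hs' : s' ∈ S.I l') {k : ℤ}
    (h : S.x l s - S.x l' s' = k) : l = l' ∧ s = s' := by
  obtain ⟨h1, h2⟩ := S.I_bounds hs
  obtain ⟨h3, h4⟩ := S.I_bounds hs'
  have hP := S.Pr_pos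
  rw [S.x_eq l, S.x_eq l'] at h
  obtain ⟨e1, e2⟩ := S.inj_pos l l' (S.P * s - (S.pc l : ℕ)) (S.P * s' - (S.pc l' : ℕ))
    (by linarith) (by linarith) (by linarith) (by linarith) k (by linarith)
  refine ⟨e1, ?_⟩
  subst e1
  have : S.P * s = S.P * s' := by linarith
  exact mul_left_cancel₀ hP.ne' this

/-- opposite signs never meet. -/
lemma inj_neg' {l l' : S.ι} {s s' : ℝ} (hs : s ∈ S.I l) (hs' : s' ∈ S.I l') {k : ℤ}
    (h : S.x l s + S.x l' s' = k) : False := by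
  obtain ⟨h1, h2⟩ := S.I_bounds hs
  obtain ⟨h3, h4⟩ := S.I_bounds hs'
  rw [S.x_eq l, S.x_eq l'] at h
  exact S.inj_neg l l' (S.P * s - (S.pc l : ℕ)) (S.P * s' - (S.pc l' : ℕ))
    (by linarith) (by linarith) (by linarith) (by linarith) k (by linarith)

lemma sb_ne_zero (m : S.ι × Bool) : S.sb m ≠ 0 := by
  have := S.b_pos m.1
  unfold sb; split_ifs <;> omega

lemma sb_abs (m : S.ι × Bool) : |S.sb m| = S.b m.1 := by
  have := S.b_pos m.1
  unfold sb
  split_ifs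
  · exact abs_of_pos (by omega)
  · rw [abs_neg]; exact abs_of_pos (by omega)

/-- signed point. -/
lemma signed_x (m : S.ι × Bool) (s : ℝ) :
    (S.sa m : ℝ) / S.qq + S.sb m * S.v * s = (if m.2 then 1 else -1) * S.x m.1 s := by
  unfold sa sb x
  split_ifs <;> push_cast <;> ring

lemma point_eq {a b : ℤ} {m : S.ι × Bool} (hb : b = S.sb m) (ha : (S.qq : ℤ) ∣ a - S.sa m)
    (s : ℝ) : ∃ k : ℤ, (a : ℝ) / S.qq + b * S.v * s = (if m.2 then 1 else -1) * S.x m.1 s + k := by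
  obtain ⟨k, hk⟩ := ha
  refine ⟨k, ?_⟩
  rw [← signed_x, hb]
  have hq := S.qr_pos
  have : (a : ℝ) = S.sa m + S.qq * k := by
    have : a = S.sa m + S.qq * k := by linarith
    rw [this]; push_cast; ring
  rw [this]; field_simp; ring

/-- main injectivity for signed lines. -/
lemma inj_signed {m m' : S.ι × Bool} {s s' : ℝ} (hs : s ∈ S.I m.1) (hs' : s' ∈ S.I m'.1) {k : ℤ}
    (h : (if m.2 then (1:ℝ) else -1) * S.x m.1 s - (if m'.2 then (1:ℝ) else -1) * S.x m'.1 s' = k) :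
    m = m' ∧ s = s' := by
  obtain ⟨l, e⟩ := m
  obtain ⟨l', e'⟩ := m'
  cases e <;> cases e' <;> simp only [if_true, if_false, Bool.false_eq_true, one_mul] at h hs hs'
  · obtain ⟨h1, h2⟩ := S.inj_pos' hs hs' (k := -k) (by push_cast; linarith)
    exact ⟨by rw [h1], h2⟩
  · exact absurd (S.inj_neg' hs hs' (k := -k) (by push_cast; linarith)) id
  · exact absurd (S.inj_neg' hs hs' (k := k) (by linarith)) id
  · obtain ⟨h1, h2⟩ := S.inj_pos' hs hs' (k := k) (by linarith)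
    exact ⟨by rw [h1], h2⟩

/-- (A3) the signed line through `(a,b,s)` is unique. -/
theorem line_unique {a b : ℤ} {s : ℝ} {m m' : S.ι × Bool} (hs : s ∈ S.I m.1) (hb : b = S.sb m)
    (ha : (S.qq : ℤ) ∣ a - S.sa m) (hs' : s ∈ S.I m'.1) (hb' : b = S.sb m')
    (ha' : (S.qq : ℤ) ∣ a - S.sa m') : m = m' := by
  obtain ⟨k, hk⟩ := S.point_eq hb ha s
  obtain ⟨k', hk'⟩ := S.point_eq hb' ha' s
  exact (S.inj_signed hs hs' (k := k' - k) (by push_cast; linarith)).1

/-- (A2) single cover. -/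
theorem inj {a a' b b' : ℤ} {s s' : ℝ} (hs : s ∈ S.SG a b) (hs' : s' ∈ S.SG a' b') {k : ℤ}
    (h : (a : ℝ) / S.qq + b * S.v * s - (a' / S.qq + b' * S.v * s') = k) :
    (S.qq : ℤ) ∣ a - a' ∧ b = b' ∧ s = s' := by
  obtain ⟨m, hm, hb, ha⟩ := hs
  obtain ⟨m', hm', hb', ha'⟩ := hs'
  obtain ⟨j, hj⟩ := S.point_eq hb ha s
  obtain ⟨j', hj'⟩ := S.point_eq hb' ha' s'
  obtain ⟨h1, h2⟩ := S.inj_signed hm hm' (k := k - j + j') (by push_cast; linarith)
  subst h1
  refine ⟨?_, by rw [hb, hb'], h2⟩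
  have := dvd_sub ha ha'
  simpa using this

/-- (A1) -/
theorem SG_add (a b : ℤ) : S.SG (a + S.qq) b = S.SG a b := by
  ext s
  refine exists_congr fun m => and_congr Iff.rfl (and_congr Iff.rfl ?_)
  rw [show a + (S.qq : ℤ) - S.sa m = (a - S.sa m) + S.qq by ring]
  exact dvd_add_self_right

theorem SG_neg (a b : ℤ) : S.SG (-a) (-b) = S.SG a b := by
  ext s
  constructor
  · rintro ⟨⟨l, e⟩, hs, hb, ha⟩
    refine ⟨(l, !e), hs, ?_, ?_⟩
    · unfold sb at hb ⊢; cases e <;> simp at hb ⊢ <;> omega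
    · have : a - S.sa (l, !e) = -(-a - S.sa (l, e)) := by
        unfold sa; cases e <;> simp <;> ring
      rw [this]; exact (dvd_neg).2 ha
  · rintro ⟨⟨l, e⟩, hs, hb, ha⟩
    refine ⟨(l, !e), hs, ?_, ?_⟩
    · unfold sb at hb ⊢; cases e <;> simp at hb ⊢ <;> omega
    · have : -a - S.sa (l, !e) = -(a - S.sa (l, e)) := by
        unfold sa; cases e <;> simp <;> ring
      rw [this]; exact (dvd_neg).2 ha

theorem SG_zero (a : ℤ) : S.SG a 0 = ∅ := by
  ext s
  simp only [SG, mem_empty_iff_false, iff_false]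
  rintro ⟨m, -, hb, -⟩
  exact S.sb_ne_zero m hb.symm

/-- the finite set of frequencies. -/
def B : Finset ℤ := Finset.univ.image S.sb

theorem SG_empty {a b : ℤ} (hb : b ∉ S.B) : S.SG a b = ∅ := by
  ext s
  simp only [SG, mem_empty_iff_false, iff_false]
  rintro ⟨m, -, h, -⟩
  exact hb (Finset.mem_image.2 ⟨m, Finset.mem_univ _, h.symm⟩)

lemma I_subset (l : S.ι) : S.I l ⊆ Ioo 0 1 := by
  intro s hs
  obtain ⟨h1, h2⟩ := S.I_bounds hs
  have hP := S.Pr_pos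
  have hz := S.zeta_pos
  have h3 : ((S.pc l : ℕ) : ℝ) + 1 ≤ S.P := by exact_mod_cast (S.pc l).2
  have h4 : (0:ℝ) ≤ ((S.pc l : ℕ) : ℝ) := Nat.cast_nonneg _
  constructor
  · by_contra hcon
    have : S.P * s ≤ 0 := mul_nonpos_of_nonneg_of_nonpos hP.le (not_lt.1 hcon)
    linarith
  · by_contra hcon
    have : (S.P:ℝ) * 1 ≤ S.P * s := mul_le_mul_of_nonneg_left (not_lt.1 hcon) hP.le
    linarith

theorem SG_subset (a b : ℤ) : S.SG a b ⊆ Ioo 0 1 := by
  rintro s ⟨m, hs, -, -⟩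
  exact S.I_subset m.1 hs

theorem SG_eq_iUnion (a b : ℤ) : S.SG a b
    = ⋃ m : S.ι × Bool, {s | s ∈ S.I m.1 ∧ b = S.sb m ∧ (S.qq : ℤ) ∣ a - S.sa m} := by
  ext s; simp only [SG, Set.mem_iUnion]; rfl

theorem isOpen_SG (a b : ℤ) : IsOpen (S.SG a b) := by
  rw [SG_eq_iUnion]
  refine isOpen_iUnion fun m => ?_
  by_cases h : b = S.sb m ∧ (S.qq : ℤ) ∣ a - S.sa m
  · have : {s | s ∈ S.I m.1 ∧ b = S.sb m ∧ (S.qq : ℤ) ∣ a - S.sa m} = S.I m.1 := by
      ext s; exact ⟨fun hs => hs.1, fun hs => ⟨hs, h⟩⟩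
    rw [this]; exact isOpen_Ioo
  · have : {s | s ∈ S.I m.1 ∧ b = S.sb m ∧ (S.qq : ℤ) ∣ a - S.sa m} = ∅ := by
      ext s; exact ⟨fun hs => absurd hs.2 h, fun hs => absurd hs (Set.notMem_empty _)⟩
    rw [this]; exact isOpen_empty

theorem measurableSet_SG (a b : ℤ) : MeasurableSet (S.SG a b) := (S.isOpen_SG a b).measurableSet

open Classical in
/-- sum over one period of residues. -/
lemma sum_range_dvd {M : Type*} [AddCommMonoid M] {q : ℕ} (hq : 0 < q) (z : ℤ) (f : ℤ → M)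
    (hf : ∀ a, f (a + q) = f a) :
    ∑ a ∈ Finset.range q, (if (q : ℤ) ∣ (a : ℤ) - z then f a else 0) = f z := by
  have hq' : (0:ℤ) < q := by exact_mod_cast hq
  have h1 := Int.emod_nonneg z hq'.ne'
  have h2 := Int.emod_lt_of_pos z hq'
  have h3 := Int.emod_add_mul_ediv z q
  have hr : ((z % q).toNat : ℤ) = z % q := Int.toNat_of_nonneg h1
  have hrm : (z % q).toNat ∈ Finset.range q := by
    rw [Finset.mem_range]; omega
  rw [Finset.sum_eq_single_of_mem _ hrm]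
  · rw [if_pos]
    · rw [hr]
      have hper : Function.Periodic f (q:ℤ) := hf
      have := hper.int_mul (z / q) (z % q)
      rw [← this]
      congr 1
      rw [Int.cast_id]
      linarith
    · rw [hr]; exact ⟨-(z / q), by linarith⟩
  · intro a ha hne
    rw [if_neg]
    rintro ⟨k, hk⟩
    rw [Finset.mem_range] at ha
    apply hne
    have h4 : (a : ℤ) = z % q + q * (z / q + k) := by linarith
    have h5 : z / q + k = 0 := by
      by_contra hne0
      rcases lt_or_gt_of_ne hne0 with h | h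
      · have : (q:ℤ) * (z / q + k) ≤ q * (-1) := mul_le_mul_of_nonneg_left (by omega) hq'.le
        have h0 : (0:ℤ) ≤ a := Int.natCast_nonneg a
        linarith
      · have : (q:ℤ) * 1 ≤ q * (z / q + k) := mul_le_mul_of_nonneg_left (by omega) hq'.le
        have h0 : (a:ℤ) < q := by exact_mod_cast ha
        linarith
    rw [h5, mul_zero, add_zero] at h4
    omega

open Classical in
/-- **(A4)** for every parameter `s`, summing over the `(a,b)` present at `s` is summing over the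
signed lines of the piece of `s`. -/
theorem sum_ind {M : Type*} [AddCommMonoid M] (w : ℤ → ℤ → M)
    (hw : ∀ a b, w (a + S.qq) b = w a b) (B' : Finset ℤ) (hB : S.B ⊆ B') (s : ℝ) :
    ∑ a ∈ Finset.range S.qq, ∑ b ∈ B', (if s ∈ S.SG a b then w a b else 0)
      = ∑ m : S.ι × Bool, (if s ∈ S.I m.1 then w (S.sa m) (S.sb m) else 0) := by
  have h1 : ∀ a b : ℤ, (if s ∈ S.SG a b then w a b else 0)
      = ∑ m : S.ι × Bool, (if s ∈ S.I m.1 ∧ b = S.sb m ∧ (S.qq : ℤ) ∣ a - S.sa m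
          then w a b else 0) := by
    intro a b
    by_cases hs : s ∈ S.SG a b
    · obtain ⟨m, hm, hb, ha⟩ := hs
      rw [if_pos ⟨m, hm, hb, ha⟩, Finset.sum_eq_single_of_mem m (Finset.mem_univ m)]
      · rw [if_pos ⟨hm, hb, ha⟩]
      · intro m' _ hne
        rw [if_neg]
        rintro ⟨hm', hb', ha'⟩
        exact hne (S.line_unique hm' hb' ha' hm hb ha)
    · rw [if_neg hs, Finset.sum_eq_zero]
      intro m _
      rw [if_neg]
      intro h
      exact hs ⟨m, h⟩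
  simp only [h1]
  have h2 : ∀ a : ℕ, ∑ b ∈ B', ∑ m : S.ι × Bool,
      (if s ∈ S.I m.1 ∧ b = S.sb m ∧ (S.qq : ℤ) ∣ (a:ℤ) - S.sa m then w a b else 0)
      = ∑ m : S.ι × Bool, (if s ∈ S.I m.1 then
          (if (S.qq : ℤ) ∣ (a:ℤ) - S.sa m then w a (S.sb m) else 0) else 0) := by
    intro a
    rw [Finset.sum_comm]
    refine Finset.sum_congr rfl fun m _ => ?_
    by_cases hs : s ∈ S.I m.1
    · rw [if_pos hs]
      rw [Finset.sum_eq_single_of_mem (S.sb m)
        (hB (Finset.mem_image.2 ⟨m, Finset.mem_univ _, rfl⟩))]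
      · by_cases hd : (S.qq : ℤ) ∣ (a:ℤ) - S.sa m
        · rw [if_pos ⟨hs, rfl, hd⟩, if_pos hd]
        · rw [if_neg (fun h => hd h.2.2), if_neg hd]
      · intro b _ hb
        rw [if_neg (fun h => hb h.2.1)]
    · rw [if_neg hs, Finset.sum_eq_zero]
      intro b _
      rw [if_neg (fun h => hs h.1)]
  simp only [h2]
  rw [Finset.sum_comm]
  refine Finset.sum_congr rfl fun m _ => ?_
  by_cases hs : s ∈ S.I m.1
  · simp only [if_pos hs]
    exact sum_range_dvd S.qq_pos (S.sa m) (fun a => w a (S.sb m)) (fun a => hw a _)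
  · simp only [if_neg hs, Finset.sum_const_zero]

/-- the signed line `(a, b)` is present in the piece `p`. -/
def line (p : ℕ) (a b : ℤ) : Prop :=
  ∃ m : S.ι × Bool, ((S.pc m.1 : ℕ) = p) ∧ b = S.sb m ∧ (S.qq : ℤ) ∣ a - S.sa m

lemma line_lt {p : ℕ} {a b : ℤ} (h : S.line p a b) : p < S.P := by
  obtain ⟨m, rfl, -, -⟩ := h; exact (S.pc m.1).2

lemma line_ne_zero {p : ℕ} {a b : ℤ} (h : S.line p a b) : b ≠ 0 := by
  obtain ⟨m, -, rfl, -⟩ := h; exact S.sb_ne_zero m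

lemma line_mem_B {p : ℕ} {a b : ℤ} (h : S.line p a b) : b ∈ S.B := by
  obtain ⟨m, -, rfl, -⟩ := h; exact Finset.mem_image.2 ⟨m, Finset.mem_univ _, rfl⟩

theorem line_add (p : ℕ) (a b : ℤ) : S.line p (a + S.qq) b ↔ S.line p a b := by
  refine exists_congr fun m => and_congr Iff.rfl (and_congr Iff.rfl ?_)
  rw [show a + (S.qq : ℤ) - S.sa m = (a - S.sa m) + S.qq by ring]
  exact dvd_add_self_right

lemma line_neg' {p : ℕ} {a b : ℤ} (h : S.line p a b) : S.line p (-a) (-b) := by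
  obtain ⟨⟨l, e⟩, hp, hb, ha⟩ := h
  refine ⟨(l, !e), hp, ?_, ?_⟩
  · unfold sb at hb ⊢; cases e <;> simp at hb ⊢ <;> omega
  · have : -a - S.sa (l, !e) = -(a - S.sa (l, e)) := by
      unfold sa; cases e <;> simp <;> ring
    rw [this]; exact (dvd_neg).2 ha

theorem line_neg (p : ℕ) (a b : ℤ) : S.line p (-a) (-b) ↔ S.line p a b :=
  ⟨fun h => by simpa using S.line_neg' h, fun h => S.line_neg' h⟩

/-- signed injectivity on the closed pieces. -/
lemma inj_closed {m m' : S.ι × Bool} {u u' : ℝ} (hu1 : S.zeta ≤ u) (hu2 : u ≤ 1 - S.zeta)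
    (hu1' : S.zeta ≤ u') (hu2' : u' ≤ 1 - S.zeta) {k : ℤ}
    (h : (S.sa m : ℝ) / S.qq + S.sb m * S.v * (((S.pc m.1 : ℕ) + u) / S.P)
      = (S.sa m' : ℝ) / S.qq + S.sb m' * S.v * (((S.pc m'.1 : ℕ) + u') / S.P) + k) :
    m = m' ∧ u = u' := by
  rw [signed_x, signed_x] at h
  obtain ⟨l, e⟩ := m
  obtain ⟨l', e'⟩ := m'
  unfold x at h
  cases e <;> cases e' <;> simp only [if_true, if_false, Bool.false_eq_true, one_mul] at h
  · obtain ⟨h1, h2⟩ := S.inj_pos l l' u u' hu1 hu2 hu1' hu2' (-k) (by push_cast; linarith)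
    exact ⟨by rw [h1], h2⟩
  · exact absurd (S.inj_neg l l' u u' hu1 hu2 hu1' hu2' (-k) (by push_cast; linarith)) id
  · exact absurd (S.inj_neg l l' u u' hu1 hu2 hu1' hu2' k (by linarith)) id
  · obtain ⟨h1, h2⟩ := S.inj_pos l l' u u' hu1 hu2 hu1' hu2' k (by linarith)
    exact ⟨by rw [h1], h2⟩

/-- injectivity in terms of `line` (closed pieces). -/
theorem inj_line {p p' : ℕ} {a b a' b' : ℤ} (hl : S.line p a b) (hl' : S.line p' a' b') {u u' : ℝ}
    (hu1 : S.zeta ≤ u) (hu2 : u ≤ 1 - S.zeta) (hu1' : S.zeta ≤ u') (hu2' : u' ≤ 1 - S.zeta) {k : ℤ}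
    (h : (a : ℝ) / S.qq + b * S.v * (((p : ℝ) + u) / S.P)
      = (a' : ℝ) / S.qq + b' * S.v * (((p' : ℝ) + u') / S.P) + k) :
    p = p' ∧ (S.qq : ℤ) ∣ a - a' ∧ b = b' ∧ u = u' := by
  obtain ⟨m, rfl, rfl, j, hj⟩ := hl
  obtain ⟨m', rfl, rfl, j', hj'⟩ := hl'
  have hq := S.qr_pos
  have ea : (a : ℝ) / S.qq = (S.sa m : ℝ) / S.qq + j := by
    have : (a : ℝ) = S.sa m + S.qq * j := by
      have : a = S.sa m + S.qq * j := by linarith
      rw [this]; push_cast; ring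
    rw [this]; field_simp
  have ea' : (a' : ℝ) / S.qq = (S.sa m' : ℝ) / S.qq + j' := by
    have : (a' : ℝ) = S.sa m' + S.qq * j' := by
      have : a' = S.sa m' + S.qq * j' := by linarith
      rw [this]; push_cast; ring
    rw [this]; field_simp
  rw [ea, ea'] at h
  obtain ⟨h1, h2⟩ := S.inj_closed (m := m) (m' := m') hu1 hu2 hu1' hu2' (k := k - j + j')
    (by push_cast; linarith)
  subst h1
  exact ⟨rfl, ⟨j - j', by linarith⟩, rfl, h2⟩

/-- uniqueness of the signed line through `(p, a, b)`. -/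
theorem line_unique' {p : ℕ} {a b : ℤ} {m m' : S.ι × Bool} (hp : (S.pc m.1 : ℕ) = p)
    (hb : b = S.sb m) (ha : (S.qq : ℤ) ∣ a - S.sa m) (hp' : (S.pc m'.1 : ℕ) = p)
    (hb' : b = S.sb m') (ha' : (S.qq : ℤ) ∣ a - S.sa m') : m = m' := by
  obtain ⟨j, hj⟩ := dvd_sub ha' ha
  have hq := S.qr_pos
  have h1 : (S.sa m : ℝ) / S.qq = (S.sa m' : ℝ) / S.qq + j := by
    have : (S.sa m : ℝ) = S.sa m' + S.qq * j := by
      have : S.sa m = S.sa m' + S.qq * j := by linarith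
      rw [this]; push_cast; ring
    rw [this]; field_simp
  have hz := S.zeta_lt
  refine (S.inj_closed (m := m) (m' := m') (u := 1/2) (u' := 1/2) (by linarith) (by linarith)
    (by linarith) (by linarith) (k := j) ?_).1
  rw [h1, ← hb, ← hb', hp, hp']; ring

open Classical in
/-- for every piece: summing over the lines `(a,b)` present in the piece is summing over the
signed lines of the piece. -/
theorem sum_line {M : Type*} [AddCommMonoid M] (w : ℤ → ℤ → M)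
    (hw : ∀ a b, w (a + S.qq) b = w a b) (B' : Finset ℤ) (hB : S.B ⊆ B') (p : ℕ) :
    ∑ a ∈ Finset.range S.qq, ∑ b ∈ B', (if S.line p a b then w a b else 0)
      = ∑ m : S.ι × Bool, (if (S.pc m.1 : ℕ) = p then w (S.sa m) (S.sb m) else 0) := by
  have h1 : ∀ a b : ℤ, (if S.line p a b then w a b else 0)
      = ∑ m : S.ι × Bool, (if (S.pc m.1 : ℕ) = p ∧ b = S.sb m ∧ (S.qq : ℤ) ∣ a - S.sa m
          then w a b else 0) := by
    intro a b
    by_cases hs : S.line p a b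
    · obtain ⟨m, hm, hb, ha⟩ := hs
      rw [if_pos ⟨m, hm, hb, ha⟩, Finset.sum_eq_single_of_mem m (Finset.mem_univ m)]
      · rw [if_pos ⟨hm, hb, ha⟩]
      · intro m' _ hne
        rw [if_neg]
        rintro ⟨hm', hb', ha'⟩
        exact hne (S.line_unique' hm' hb' ha' hm hb ha)
    · rw [if_neg hs, Finset.sum_eq_zero]
      intro m _
      rw [if_neg]
      intro h
      exact hs ⟨m, h⟩
  simp only [h1]
  have h2 : ∀ a : ℕ, ∑ b ∈ B', ∑ m : S.ι × Bool,
      (if (S.pc m.1 : ℕ) = p ∧ b = S.sb m ∧ (S.qq : ℤ) ∣ (a:ℤ) - S.sa m then w a b else 0)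
      = ∑ m : S.ι × Bool, (if (S.pc m.1 : ℕ) = p then
          (if (S.qq : ℤ) ∣ (a:ℤ) - S.sa m then w a (S.sb m) else 0) else 0) := by
    intro a
    rw [Finset.sum_comm]
    refine Finset.sum_congr rfl fun m _ => ?_
    by_cases hs : (S.pc m.1 : ℕ) = p
    · rw [if_pos hs]
      rw [Finset.sum_eq_single_of_mem (S.sb m)
        (hB (Finset.mem_image.2 ⟨m, Finset.mem_univ _, rfl⟩))]
      · by_cases hd : (S.qq : ℤ) ∣ (a:ℤ) - S.sa m
        · rw [if_pos ⟨hs, rfl, hd⟩, if_pos hd]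
        · rw [if_neg (fun h => hd h.2.2), if_neg hd]
      · intro b _ hb
        rw [if_neg (fun h => hb h.2.1)]
    · rw [if_neg hs, Finset.sum_eq_zero]
      intro b _
      rw [if_neg (fun h => hs h.1)]
  simp only [h2]
  rw [Finset.sum_comm]
  refine Finset.sum_congr rfl fun m _ => ?_
  by_cases hs : (S.pc m.1 : ℕ) = p
  · simp only [if_pos hs]
    exact sum_range_dvd S.qq_pos (S.sa m) (fun a => w a (S.sb m)) (fun a => hw a _)
  · simp only [if_neg hs, Finset.sum_const_zero]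

/-- `SG` in terms of `line`. -/
theorem mem_SG {a b : ℤ} {s : ℝ} : s ∈ S.SG a b ↔ ∃ p : ℕ, S.line p a b ∧
    s ∈ Ioo (((p : ℝ) + S.zeta) / S.P) (((p : ℝ) + 1 - S.zeta) / S.P) := by
  constructor
  · rintro ⟨m, hs, hb, ha⟩
    exact ⟨(S.pc m.1 : ℕ), ⟨m, rfl, hb, ha⟩, hs⟩
  · rintro ⟨p, ⟨m, rfl, hb, ha⟩, hs⟩
    exact ⟨m, hs, hb, ha⟩

end Lines

/-- the lines of a rounded design. -/
noncomputable def Lines.ofRounded {R : ℕ} {T : Finset (Fin (R+1) → ℤ)} {L : Fin (R+1) → ℤ}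
    {p : (Fin (R+1) → ℤ) → ℝ} {eps : ℝ} {B0 : ℕ} (D : DesignL T L p eps B0) {q : ℕ} {eta : ℝ}
    (Rd : Rounded D q eta) (hpos : ∀ t ∈ T, 1 ≤ dot t L) (h0 : 0 < eta) (h1 : eta < 1 / 2) :
    Lines where
  ι := Fin D.P × (Σ t : {t // t ∈ T}, Fin (D.Dt t))
  fin := inferInstance
  dec := Classical.decEq _
  P := D.P
  P_pos := D.P_pos
  v := (D.P : ℝ) / (D.h * D.Q)
  v_pos := by
    have := D.P_pos; have := D.h_pos; have := D.Q_pos
    positivity
  qq := D.Q * Rd.m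
  qq_pos := Nat.mul_pos D.Q_pos Rd.m_prime.pos
  pc := fun l => l.1
  b := fun l => dot l.2.1.1 L
  a := fun l => dot l.2.1.1 (Rd.w l.1) + (l.2.2 : ℕ) * (D.q l.2.1.1 * Rd.m)
  zeta := eta
  zeta_pos := h0
  zeta_lt := h1
  b_pos := fun l => hpos _ l.2.1.2
  inj_pos := by
    rintro ⟨i, ⟨t, ht⟩, j⟩ ⟨i', ⟨t', ht'⟩, j'⟩ u u' hu1 hu2 hu1' hu2' k h
    have hP : (0:ℝ) < D.P := by exact_mod_cast D.P_pos
    have hh : (0:ℝ) < D.h := by exact_mod_cast D.h_pos
    have hQ : (0:ℝ) < D.Q := by exact_mod_cast D.Q_pos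
    obtain ⟨e1, e2, e3, e4⟩ := Rd.inj i i' t ht t' ht' j j.2 j' j'.2 u u' hu1 hu2 hu1' hu2' k (by
      have e : ∀ (z y : ℝ), z * (D.P / (D.h * D.Q)) * (y / D.P) = z * y / (D.h * D.Q) := by
        intro z y; field_simp
      simp only [e] at h
      push_cast at h ⊢
      exact h)
    subst e1 e2
    refine ⟨?_, e4⟩
    have : j = j' := Fin.ext e3
    subst this
    rfl
  inj_neg := by
    rintro ⟨i, ⟨t, ht⟩, j⟩ ⟨i', ⟨t', ht'⟩, j'⟩ u u' hu1 hu2 hu1' hu2' k h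
    have hP : (0:ℝ) < D.P := by exact_mod_cast D.P_pos
    have hh : (0:ℝ) < D.h := by exact_mod_cast D.h_pos
    have hQ : (0:ℝ) < D.Q := by exact_mod_cast D.Q_pos
    refine Rd.inj_mirror i i' t ht t' ht' j j.2 j' j'.2 u u' hu1 hu2 hu1' hu2' k ?_
    have e : ∀ (z y : ℝ), z * (D.P / (D.h * D.Q)) * (y / D.P) = z * y / (D.h * D.Q) := by
      intro z y; field_simp
    simp only [e] at h
    push_cast at h ⊢
    exact h

end Crest.Agent.R081.LdA
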