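import Crest.Agent.R081.SpreadN

/-!
# Row 81: random phases (helper472)
-/

set_option autoImplicit false

namespace Crest.Agent.R081.Spread

open MeasureTheory Finset Crest.Agent.R075

/-- periodicity -/
def Per {n : ℕ} {α : Type*} (f : (Fin n → ℝ) → α) : Prop :=
  ∀ (z : Fin n → ℤ) (x : Fin n → ℝ), f (fun i => x i + z i) = f x

lemma cube_ae (n : ℕ) : (cube n : Set (Fin n → ℝ)) =ᵐ[volume] {x : Fin n → ℝ | ∀ i, x i ∈ Set.Ioc (0:ℝ) (0 + 1)} := by
  have h1 : cube n =ᵐ[volume] Set.Icc (fun _ : Fin n => (0:ℝ)) (fun _ => 1) := by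
    unfold cube
    rw [volume_pi]
    exact Measure.univ_pi_Ico_ae_eq_Icc (f := fun _ => (0:ℝ)) (g := fun _ => (1:ℝ))
  have h2 : {x : Fin n → ℝ | ∀ i, x i ∈ Set.Ioc (0:ℝ) (0 + 1)} =ᵐ[volume] Set.Icc (fun _ : Fin n => (0:ℝ)) (fun _ => 1) := by
    have e : {x : Fin n → ℝ | ∀ i, x i ∈ Set.Ioc (0:ℝ) (0 + 1)} = Set.univ.pi (fun _ : Fin n => Set.Ioc (0:ℝ) 1) := by
      ext x; simp
    rw [e, volume_pi]
    exact Measure.univ_pi_Ioc_ae_eq_Icc (f := fun _ => (0:ℝ)) (g := fun _ => (1:ℝ))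
  exact h1.trans h2.symm

lemma integral_torus {n : ℕ} {f : (Fin n → ℝ) → ℝ} (hper : Per f) :
    ∃ I : ℝ, ∀ a : Fin n → ℝ, ∫ x in {x : Fin n → ℝ | ∀ i, x i ∈ Set.Ioc (a i) (a i + 1)}, f x = I := by
  refine ⟨_, fun a => Eq.trans ?_ (UnitAddTorus.integral_preimage (fun y : UnitAddTorus (Fin n) =>
    f (fun i => ((AddCircle.equivIco (1:ℝ) 0 (y i)) : ℝ))) a).symm⟩
  congr 1
  funext x
  have h := hper (fun i => ⌊x i⌋) (fun i => Int.fract (x i))
  have e : (fun i => Int.fract (x i) + ((⌊x i⌋ : ℤ) : ℝ)) = x := by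
    funext i; rw [Int.fract_add_floor]
  rw [e] at h
  rw [h]
  congr 1
  funext i
  rw [AddCircle.coe_equivIco_mk_apply, div_one, mul_one]

/-- translation invariance of the integral over the cube -/
theorem integral_cube_add {n : ℕ} {f : (Fin n → ℝ) → ℝ} (hper : Per f) (a : Fin n → ℝ) :
    ∫ x in cube n, f (x + a) = ∫ x in cube n, f x := by
  have h0 : ∫ x in cube n, f x = ∫ x in {x : Fin n → ℝ | ∀ i, x i ∈ Set.Ioc (0:ℝ) (0 + 1)}, f x :=
    setIntegral_congr_set (cube_ae n)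
  have h1 : ∫ x in cube n, f (x + a)
      = ∫ x in {x : Fin n → ℝ | ∀ i, x i ∈ Set.Ioc (0:ℝ) (0 + 1)}, f (x + a) :=
    setIntegral_congr_set (cube_ae n)
  rw [h0, h1]
  have h2 := (measurePreserving_add_right (volume : Measure (Fin n → ℝ)) a).setIntegral_preimage_emb
    (MeasurableEquiv.addRight a).measurableEmbedding f {x : Fin n → ℝ | ∀ i, x i ∈ Set.Ioc (a i) (a i + 1)}
  have e : (fun x : Fin n → ℝ => x + a) ⁻¹' {x : Fin n → ℝ | ∀ i, x i ∈ Set.Ioc (a i) (a i + 1)}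
      = {x : Fin n → ℝ | ∀ i, x i ∈ Set.Ioc (0:ℝ) (0 + 1)} := by
    ext x
    simp only [Set.mem_preimage, Set.mem_ofPred_eq, Pi.add_apply, Set.mem_Ioc]
    refine forall_congr' fun i => ?_
    constructor
    · rintro ⟨h, h'⟩; exact ⟨by linarith, by linarith⟩
    · rintro ⟨h, h'⟩; exact ⟨by linarith, by linarith⟩
  rw [e] at h2
  obtain ⟨I, hI⟩ := integral_torus hper
  rw [h2, hI a, hI (fun _ => (0:ℝ))]

/-- **random phases** -/
theorem exists_phase {n : ℕ} {f : (Fin n → ℝ) → ℝ} (hper : Per f) (hm : Measurable f) (C : ℝ)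
    (hC : ∀ x, |f x| ≤ C) {N : ℕ} (hN : 0 < N) (v : ℕ → Fin n → ℝ) (e : Fin n → ℝ) :
    ∃ x : Fin n → ℝ, (1 / (N : ℝ)) * ∑ l ∈ range N, ∫ θ in (0:ℝ)..1, f (x + (v l + θ • e))
      ≤ ∫ φ in cube n, f φ := by
  set μ : Measure (Fin n → ℝ) := (volume : Measure (Fin n → ℝ)).restrict (cube n) with hμ
  have hN0 : (0:ℝ) < N := by exact_mod_cast hN
  -- for each `l`
  have hint : ∀ l : ℕ, Integrable (Function.uncurry fun (x : Fin n → ℝ) (θ : ℝ) => f (x + (v l + θ • e)))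
      (μ.prod ((volume : Measure ℝ).restrict (Set.Ioc 0 1))) := by
    intro l
    refine Integrable.mono' (integrable_const C) ?_ (ae_of_all _ fun x => ?_)
    · refine (hm.comp ?_).aestronglyMeasurable
      fun_prop
    · rw [Real.norm_eq_abs]; exact hC _
  have hF : ∀ l : ℕ, Integrable (fun x : Fin n → ℝ => ∫ θ in (0:ℝ)..1, f (x + (v l + θ • e))) μ := by
    intro l
    have := (hint l).integral_prod_left
    simpa only [intervalIntegral.integral_of_le zero_le_one, Function.uncurry] using this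
  have hval : ∀ l : ℕ, ∫ x, (∫ θ in (0:ℝ)..1, f (x + (v l + θ • e))) ∂μ = ∫ φ in cube n, f φ := by
    intro l
    have h1 := integral_integral_swap (hint l)
    simp only [intervalIntegral.integral_of_le zero_le_one]
    rw [h1]
    have h2 : ∀ θ : ℝ, ∫ x, f (x + (v l + θ • e)) ∂μ = ∫ φ in cube n, f φ := fun θ =>
      integral_cube_add hper _
    simp only [h2]
    rw [integral_const]
    simp
  have hG : Integrable (fun x : Fin n → ℝ => (1 / (N : ℝ)) * ∑ l ∈ range N, ∫ θ in (0:ℝ)..1, f (x + (v l + θ • e))) μ :=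
    (integrable_finsetSum _ fun l _ => hF l).const_mul _
  obtain ⟨x, hx⟩ := exists_le_integral hG
  refine ⟨x, hx.trans (le_of_eq ?_)⟩
  rw [integral_const_mul, integral_finsetSum _ (fun l _ => hF l)]
  simp only [hval]
  rw [sum_const, card_range, nsmul_eq_mul, ← mul_assoc, one_div_mul_cancel hN0.ne', one_mul]

end Crest.Agent.R081.Spread
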