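import Crest.Agent.R081.SpreadD

/-!
# Row 81: sample closeness (SC) of the labels to the trigonometric main part (helper472)
-/

set_option autoImplicit false

namespace Crest.Agent.R081.Spread

open MeasureTheory Finset Crest.Agent.R075

lemma per_trig {n : ℕ} (S : Finset (Fin n → ℤ)) (c : (Fin n → ℤ) → ℂ) : Per (trig S c) := by
  intro z x
  unfold trig
  refine sum_congr rfl fun t _ => ?_
  congr 1
  have : dt t (fun i => x i + (z i : ℝ)) = dt t x + ((∑ i, t i * z i : ℤ) : ℝ) := by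
    unfold dt
    push_cast
    rw [← sum_add_distrib]
    exact sum_congr rfl fun i _ => by ring
  rw [this, ee_add_int]

namespace SData

variable {ε : ℝ} {Q0 : ℕ} (S : SData ε Q0)

/-- the remainder -/
noncomputable def rem (E : ℕ → ℂ) (φ : Fin (S.n + 1) → ℝ) : ℝ := ‖lf S.g0 E φ - trig S.TT (S.mc E) φ‖ ^ 2

lemma per_rem (E : ℕ → ℂ) : Per (S.rem E) := by
  intro z x
  unfold rem
  rw [per_lf S.g0 E z x, per_trig S.TT (S.mc E) z x]

lemma measurable_rem (E : ℕ → ℂ) : Measurable (S.rem E) := by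
  have hpf : Fact S.p.Prime := ⟨S.hp⟩
  unfold rem
  exact ((measurable_lf S.g0 E).sub (continuous_trig _ _).measurable).norm.pow_const 2

lemma rem_nonneg (E : ℕ → ℂ) (φ : Fin (S.n + 1) → ℝ) : 0 ≤ S.rem E φ := by unfold rem; positivity

lemma rem_le (E : ℕ → ℂ) (hE : ∀ k ≤ S.Q, ‖E k‖ = 1) (φ : Fin (S.n + 1) → ℝ) :
    S.rem E φ ≤ (1 + ∑ t ∈ S.TT, ‖S.mc E t‖) ^ 2 := by
  unfold rem
  refine pow_le_pow_left₀ (norm_nonneg _) ?_ 2
  refine (norm_sub_le _ _).trans (add_le_add ?_ (norm_trig_le _ _ _))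
  exact (hE _ (S.hg0 _)).le

/-- **sample closeness** with averaged phases, simultaneously for a finite family -/
theorem exists_phase_family {κ : Type*} (K : Finset κ) (E : κ → ℕ → ℂ) (hE : ∀ k ∈ K, ∀ m ≤ S.Q, ‖E k m‖ = 1)
    {N : ℕ} (hN : 0 < N) (v : ℕ → Fin (S.n + 1) → ℝ) (e : Fin (S.n + 1) → ℝ) :
    ∃ x : Fin (S.n + 1) → ℝ, ∀ k ∈ K,
      (1 / (N : ℝ)) * ∑ l ∈ range N, ∫ θ in (0:ℝ)..1,
        ‖lf S.g0 (E k) (x + (v l + θ • e)) - trig S.TT (S.mc (E k)) (x + (v l + θ • e))‖ ^ 2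
      ≤ ∑ k ∈ K, (ε + 2 * (1 + ‖∑ m ∈ range (S.Q + 1), E k m‖) / S.Q) := by
  classical
  have hN0 : (0:ℝ) < N := by exact_mod_cast hN
  set f : (Fin (S.n + 1) → ℝ) → ℝ := fun φ => ∑ k ∈ K, S.rem (E k) φ with hf
  set C : ℝ := ∑ k ∈ K, (1 + ∑ t ∈ S.TT, ‖S.mc (E k) t‖) ^ 2 with hC
  have hf0 : ∀ φ, 0 ≤ f φ := fun φ => sum_nonneg fun k _ => S.rem_nonneg _ _
  have hfC : ∀ φ, |f φ| ≤ C := by
    intro φ
    rw [abs_of_nonneg (hf0 φ)]
    exact sum_le_sum fun k hk => S.rem_le (E k) (hE k hk) φ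
  have hper : Per f := by
    intro z x
    simp only [hf]
    exact sum_congr rfl fun k _ => S.per_rem (E k) z x
  have hm : Measurable f := by
    rw [hf]
    exact Finset.measurable_fun_sum _ fun k _ => S.measurable_rem (E k)
  obtain ⟨x, hx⟩ := exists_phase hper hm C hfC hN v e
  refine ⟨x, fun k hk => ?_⟩
  have hint : ∀ k, k ∈ K → Integrable (S.rem (E k)) ((volume : Measure (Fin (S.n+1) → ℝ)).restrict (cube (S.n + 1))) := by
    intro k hk
    refine Integrable.mono' (integrable_const ((1 + ∑ t ∈ S.TT, ‖S.mc (E k) t‖) ^ 2))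
      (S.measurable_rem (E k)).aestronglyMeasurable (ae_of_all _ fun φ => ?_)
    rw [Real.norm_of_nonneg (S.rem_nonneg _ _)]
    exact S.rem_le (E k) (hE k hk) φ
  have h2 : ∫ φ in cube (S.n + 1), f φ ≤ ∑ k ∈ K, (ε + 2 * (1 + ‖∑ m ∈ range (S.Q + 1), E k m‖) / S.Q) := by
    simp only [hf]
    rw [integral_finsetSum K hint]
    refine sum_le_sum fun k hk => ?_
    exact S.integral_label_sub_main (E k) (hE k hk)
  refine le_trans ?_ (hx.trans h2)
  refine mul_le_mul_of_nonneg_left (sum_le_sum fun l _ => ?_) (by positivity)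
  have hmeas : ∀ g : (Fin (S.n + 1) → ℝ) → ℝ, Measurable g → Measurable (fun θ : ℝ => g (x + (v l + θ • e))) := by
    intro g hg
    refine hg.comp ?_
    fun_prop
  refine intervalIntegral.integral_mono_on zero_le_one ?_ ?_ fun θ _ => ?_
  · refine IntervalIntegrable.mono_fun' (g := fun _ => (1 + ∑ t ∈ S.TT, ‖S.mc (E k) t‖) ^ 2)
      intervalIntegrable_const (hmeas _ (S.measurable_rem (E k))).aestronglyMeasurable (ae_of_all _ fun θ => ?_)
    beta_reduce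
    rw [Real.norm_of_nonneg (by positivity)]
    exact S.rem_le (E k) (hE k hk) _
  · refine IntervalIntegrable.mono_fun' (g := fun _ => C)
      intervalIntegrable_const (hmeas f hm).aestronglyMeasurable (ae_of_all _ fun θ => ?_)
    beta_reduce
    rw [Real.norm_eq_abs]
    exact hfC _
  · exact single_le_sum (f := fun k => S.rem (E k) (x + (v l + θ • e))) (fun k _ => S.rem_nonneg _ _) hk

end SData

/-! ### labels in a finite set -/

/-- the label map `ℕ → Λ` -/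
noncomputable def Gl (Λ : Type*) [Fintype Λ] [Nonempty Λ] (k : ℕ) : Λ :=
  (Fintype.equivFin Λ).symm ⟨k % Fintype.card Λ, Nat.mod_lt _ Fintype.card_pos⟩

lemma Gl_add (Λ : Type*) [Fintype Λ] [Nonempty Λ] (k : ℕ) : Gl Λ (k + Fintype.card Λ) = Gl Λ k := by
  unfold Gl
  congr 2
  exact Nat.add_mod_right _ _

lemma sum_Gl (Λ : Type*) [Fintype Λ] [Nonempty Λ] (E : Λ → ℂ) :
    ∑ k ∈ range (Fintype.card Λ), E (Gl Λ k) = ∑ s, E s := by
  rw [← Fin.sum_univ_eq_sum_range (fun k => E (Gl Λ k)), ← Equiv.sum_comp (Fintype.equivFin Λ).symm]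
  refine sum_congr rfl fun k _ => ?_
  unfold Gl
  congr 2
  exact Fin.ext (Nat.mod_eq_of_lt k.2)

lemma norm_sum_Gl_le (Λ : Type*) [Fintype Λ] [Nonempty Λ] (E : Λ → ℂ) (hE : ∀ s, ‖E s‖ = 1) (h0 : ∑ s, E s = 0)
    (N : ℕ) : ‖∑ k ∈ range N, E (Gl Λ k)‖ ≤ Fintype.card Λ := by
  set M := Fintype.card Λ with hM
  have hM0 : 0 < M := Fintype.card_pos
  induction N using Nat.strong_induction_on with
  | _ N ih =>
    by_cases hN : N < M
    · refine (norm_sum_le _ _).trans ?_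
      simp only [hE]
      rw [sum_const, card_range, nsmul_eq_mul, mul_one]
      exact_mod_cast hN.le
    · obtain ⟨m, rfl⟩ : ∃ m, N = m + M := ⟨N - M, by omega⟩
      have h1 : ∑ k ∈ range (m + M), E (Gl Λ k) = ∑ k ∈ range m, E (Gl Λ k) := by
        rw [add_comm, sum_range_add, sum_Gl, h0, zero_add]
        refine sum_congr rfl fun k _ => ?_
        rw [add_comm, Gl_add]
      rw [h1]
      exact ih m (by omega)

/-- **(SC)** for a finite family of unimodular mean-zero functions on a finite label set -/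
theorem exists_SC (Λ : Type*) [Fintype Λ] [Nonempty Λ] {κ : Type*} (K : Finset κ) (E : κ → Λ → ℂ)
    (hE : ∀ k ∈ K, ∀ s, ‖E k s‖ = 1) (h0 : ∀ k ∈ K, ∑ s, E k s = 0) (ε : ℝ) (hε : 0 < ε) (δ : ℝ) (hδ : 0 < δ) :
    ∃ (ε' : ℝ) (_ : 0 < ε') (_ : ε' ≤ ε) (Q0 : ℕ) (S : SData ε' Q0), ∀ (N : ℕ), 0 < N →
      ∀ (v : ℕ → Fin (S.n + 1) → ℝ) (e : Fin (S.n + 1) → ℝ),
      ∃ x : Fin (S.n + 1) → ℝ, ∀ k ∈ K,
      (1 / (N : ℝ)) * ∑ l ∈ range N, ∫ θ in (0:ℝ)..1,
        ‖lf S.g0 (fun m => E k (Gl Λ m)) (x + (v l + θ • e))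
          - trig S.TT (S.mc (fun m => E k (Gl Λ m))) (x + (v l + θ • e))‖ ^ 2 ≤ δ := by
  set c : ℝ := K.card + 1 with hc
  have hc0 : 0 < c := by positivity
  set ε' : ℝ := min ε (δ / (2 * c)) with hε'
  have he0 : 0 < ε' := lt_min hε (by positivity)
  set M := Fintype.card Λ with hM
  set Q0 : ℕ := ⌈2 * (1 + M) * (2 * c) / δ⌉₊ with hQ0
  obtain ⟨S⟩ := exists_sdata ε' he0 Q0
  refine ⟨ε', he0, min_le_left _ _, Q0, S, fun N hN v e => ?_⟩
  obtain ⟨x, hx⟩ := S.exists_phase_family K (fun k m => E k (Gl Λ m)) (fun k hk m _ => hE k hk _) hN v e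
  refine ⟨x, fun k hk => (hx k hk).trans ?_⟩
  have hQ : (0:ℝ) < S.Q := by exact_mod_cast S.hQ1
  have h1 : ∀ k ∈ K, ε' + 2 * (1 + ‖∑ m ∈ range (S.Q + 1), E k (Gl Λ m)‖) / S.Q ≤ δ / c := by
    intro k hk
    have e1 : ‖∑ m ∈ range (S.Q + 1), E k (Gl Λ m)‖ ≤ M := norm_sum_Gl_le Λ (E k) (hE k hk) (h0 k hk) _
    have e2 : 2 * (1 + ‖∑ m ∈ range (S.Q + 1), E k (Gl Λ m)‖) / S.Q ≤ δ / (2 * c) := by
      rw [div_le_div_iff₀ hQ (by positivity)]
      have e3 : 2 * (1 + (M:ℝ)) * (2 * c) / δ ≤ S.Q := by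
        refine (Nat.le_ceil _).trans ?_
        exact Nat.cast_le.2 S.hQ0
      rw [div_le_iff₀ hδ] at e3
      nlinarith
    have e4 : ε' ≤ δ / (2 * c) := min_le_right _ _
    have e5 : δ / c = δ / (2 * c) + δ / (2 * c) := by field_simp; norm_num
    rw [e5]
    exact add_le_add e4 e2
  refine (sum_le_sum h1).trans ?_
  rw [sum_const, nsmul_eq_mul, mul_div_assoc', div_le_iff₀ hc0]
  nlinarith

/-! ### a generic direction -/

/-- the direction `L i = (2 B + 2)^(n - i)` -/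
def dirL (n B : ℕ) (i : Fin (n + 1)) : ℤ := (2 * B + 2 : ℤ) ^ (n - (i : ℕ))

lemma dirL_last (n B : ℕ) : dirL n B (Fin.last n) = 1 := by
  unfold dirL; simp

lemma dirL_pos (n B : ℕ) (i : Fin (n + 1)) : 0 < dirL n B i := by
  unfold dirL; positivity

lemma dirL_succ (n B : ℕ) (i : Fin (n + 1)) : dirL (n + 1) B i.succ = dirL n B i := by
  unfold dirL
  congr 1
  simp

/-- `|t · L| < (2 B + 2)^(n+1) / 2` -/
lemma abs_dot_dirL_lt (n B : ℕ) (t : Fin (n + 1) → ℤ) (ht : ∀ i, |t i| ≤ B) :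
    2 * |∑ i, t i * dirL n B i| < (2 * B + 2 : ℤ) ^ (n + 1) := by
  induction n with
  | zero =>
    have : ∑ i, t i * dirL 0 B i = t 0 := by simp [dirL]
    rw [this]
    have := ht 0
    have e : (2 * B + 2 : ℤ) ^ (0 + 1) = 2 * B + 2 := by ring
    rw [e]
    omega
  | succ n ih =>
    rw [Fin.sum_univ_succ]
    simp only [dirL_succ]
    have h1 := ih (fun i => t i.succ) (fun i => ht i.succ)
    have h2 : |t 0 * dirL (n + 1) B 0| ≤ B * (2 * B + 2 : ℤ) ^ (n + 1) := by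
      rw [abs_mul, abs_of_pos (dirL_pos _ _ _)]
      have : dirL (n + 1) B 0 = (2 * B + 2 : ℤ) ^ (n + 1) := by unfold dirL; simp
      rw [this]
      exact mul_le_mul_of_nonneg_right (ht 0) (by positivity)
    have h3 := abs_add_le (t 0 * dirL (n + 1) B 0) (∑ i : Fin (n + 1), t i.succ * dirL n B i)
    have h4 : (2 * B + 2 : ℤ) ^ (n + 1 + 1) = (2 * B + 2) * (2 * B + 2 : ℤ) ^ (n + 1) := by ring
    have h5 : (0:ℤ) < (2 * B + 2 : ℤ) ^ (n + 1) := by positivity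
    rw [h4]
    nlinarith

lemma dot_dirL_inj (n B : ℕ) (t t' : Fin (n + 1) → ℤ) (ht : ∀ i, |t i| ≤ B) (ht' : ∀ i, |t' i| ≤ B)
    (h : ∑ i, t i * dirL n B i = ∑ i, t' i * dirL n B i) : t = t' := by
  induction n with
  | zero =>
    have e : ∀ s : Fin 1 → ℤ, ∑ i, s i * dirL 0 B i = s 0 := by intro s; simp [dirL]
    rw [e, e] at h
    funext i
    have hi : i = 0 := Fin.ext (by omega)
    rw [hi]; exact h
  | succ n ih =>
    rw [Fin.sum_univ_succ (f := fun i => t i * dirL (n + 1) B i),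
      Fin.sum_univ_succ (f := fun i => t' i * dirL (n + 1) B i)] at h
    simp only [dirL_succ] at h
    have h1 := abs_dot_dirL_lt n B (fun i => t i.succ) (fun i => ht i.succ)
    have h2 := abs_dot_dirL_lt n B (fun i => t' i.succ) (fun i => ht' i.succ)
    have h0 : dirL (n + 1) B 0 = (2 * B + 2 : ℤ) ^ (n + 1) := by unfold dirL; simp
    rw [h0] at h
    have h5 : (0:ℤ) < (2 * B + 2 : ℤ) ^ (n + 1) := by positivity
    have h6 : t 0 = t' 0 := by
      have h7 : (t 0 - t' 0) * (2 * B + 2 : ℤ) ^ (n + 1)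
          = ∑ i : Fin (n + 1), t' i.succ * dirL n B i - ∑ i : Fin (n + 1), t i.succ * dirL n B i := by linarith
      have h8 : |(t 0 - t' 0) * (2 * B + 2 : ℤ) ^ (n + 1)| < (2 * B + 2 : ℤ) ^ (n + 1) := by
        rw [h7]
        have := abs_sub (∑ i : Fin (n + 1), t' i.succ * dirL n B i) (∑ i : Fin (n + 1), t i.succ * dirL n B i)
        linarith
      rw [abs_mul, abs_of_pos h5] at h8
      have h9 : |t 0 - t' 0| < 1 := by
        by_contra hcon
        push Not at hcon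
        nlinarith
      have h10 := abs_lt.1 h9
      omega
    have h7 := ih (fun i => t i.succ) (fun i => t' i.succ) (fun i => ht i.succ) (fun i => ht' i.succ)
      (by rw [h6] at h; linarith)
    funext i
    refine Fin.cases h6 (fun j => congrFun h7 j) i

lemma dot_dirL_pos (n B : ℕ) (t : Fin (n + 1) → ℤ) (ht : ∀ i, |t i| ≤ B) (h1 : 1 ≤ t 0) :
    1 ≤ ∑ i, t i * dirL n B i := by
  cases n with
  | zero =>
    have : ∑ i, t i * dirL 0 B i = t 0 := by simp [dirL]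
    rw [this]; exact h1
  | succ n =>
    rw [Fin.sum_univ_succ]
    simp only [dirL_succ]
    have h2 := abs_dot_dirL_lt n B (fun i => t i.succ) (fun i => ht i.succ)
    have h0 : dirL (n + 1) B 0 = (2 * B + 2 : ℤ) ^ (n + 1) := by unfold dirL; simp
    rw [h0]
    have h5 : (0:ℤ) < (2 * B + 2 : ℤ) ^ (n + 1) := by positivity
    have h6 : (2 * B + 2 : ℤ) ^ (n + 1) ≤ t 0 * (2 * B + 2 : ℤ) ^ (n + 1) := by nlinarith
    have h7 := neg_abs_le (∑ i : Fin (n + 1), t i.succ * dirL n B i)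
    have h8 : (0:ℤ) ≤ |∑ i : Fin (n + 1), t i.succ * dirL n B i| := abs_nonneg _
    omega

/-- a direction which is positive on `T` and separates `T ∪ -T` -/
theorem SData.exists_dir {ε : ℝ} {Q0 : ℕ} (S : SData ε Q0) :
    ∃ L : Fin (S.n + 1) → ℤ, L (Fin.last S.n) = 1 ∧ (∀ t ∈ S.T, 1 ≤ ∑ i, t i * L i) ∧
      (∀ t ∈ S.TT, ∀ t' ∈ S.TT, ∑ i, t i * L i = ∑ i, t' i * L i → t = t') := by
  classical
  set B : ℕ := ∑ t ∈ S.T, ∑ i, (t i).natAbs with hB
  have hb : ∀ t ∈ S.T, ∀ i, |t i| ≤ B := by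
    intro t ht i
    rw [Int.abs_eq_natAbs]
    have h1 : (t i).natAbs ≤ ∑ i, (t i).natAbs := single_le_sum (f := fun i => (t i).natAbs) (fun _ _ => Nat.zero_le _) (mem_univ i)
    have h2 : ∑ i, (t i).natAbs ≤ B := single_le_sum (f := fun t : Fin (S.n + 1) → ℤ => ∑ i, (t i).natAbs) (fun _ _ => Nat.zero_le _) ht
    exact_mod_cast h1.trans h2
  have hbb : ∀ t ∈ S.TT, ∀ i, |t i| ≤ B := by
    intro t ht i
    rcases S.mem_TT.1 ht with h | h
    · exact hb t h i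
    · have := hb _ h i
      rwa [Pi.neg_apply, abs_neg] at this
  exact ⟨dirL S.n B, dirL_last _ _, fun t ht => dot_dirL_pos _ _ _ (hb t ht) (S.one_le t ht),
    fun t ht t' ht' h => dot_dirL_inj _ _ _ _ (hbb t ht) (hbb t' ht') h⟩

end Crest.Agent.R081.Spread
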