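import Crest.Agent.R081.ThmDL

/-!
# Row 81: the design of `ThmDL` on a torsion lattice coprime to a given number

`DesignL` packs arcs of the circle `ℤ/(hQ)`.  `h` is a multiple of all the lengths `t·L`, so `hQ`
is in general not coprime to the order `q` of the twist.  We use the packing only as a packing of
*real* arcs: the torsion lattice is `(1/(Q m)) ℤ` with `m` a large prime, the vectors
`(om_i - i L)/(hQ)` are rounded to the lattice and the arcs are shortened by `eta`.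
-/

set_option autoImplicit false

namespace Crest.Agent.R081.D

open Finset Crest.Agent.R075

/-- `D` on the lattice `(1/(Q m)) ℤ`, `Q m` coprime to `q`. -/
structure Rounded {R : ℕ} {T : Finset (Fin (R+1) → ℤ)} {L : Fin (R+1) → ℤ}
    {p : (Fin (R+1) → ℤ) → ℝ} {eps : ℝ} {B0 : ℕ} (D : DesignL T L p eps B0) (q : ℕ)
    (eta : ℝ) where
  m : ℕ
  m_prime : m.Prime
  /-- the numerators of the phase vectors: piece `i` uses the phases `w i / (Q m)` -/
  w : Fin D.P → Fin (R+1) → ℤ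
  cop : Nat.Coprime q (D.Q * m)
  /-- the lines of different pieces and types have disjoint shortened arcs;
  the line `j` of type `t` in piece `i` has torsion numerator `dot t (w i) + j (q_t m)`. -/
  inj : ∀ (i i' : Fin D.P), ∀ t ∈ T, ∀ t' ∈ T, ∀ j < D.Dt t, ∀ j' < D.Dt t', ∀ u u' : ℝ,
    eta ≤ u → u ≤ 1 - eta → eta ≤ u' → u' ≤ 1 - eta → ∀ k : ℤ,
    ((dot t (w i) + j * (D.q t * m) : ℤ) : ℝ) / (D.Q * m) + dot t L * ((i : ℕ) + u) / (D.h * D.Q)
      = ((dot t' (w i') + j' * (D.q t' * m) : ℤ) : ℝ) / (D.Q * m)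
        + dot t' L * ((i' : ℕ) + u') / (D.h * D.Q) + k →
    i = i' ∧ t = t' ∧ j = j' ∧ u = u'
  inj_mirror : ∀ (i i' : Fin D.P), ∀ t ∈ T, ∀ t' ∈ T, ∀ j < D.Dt t, ∀ j' < D.Dt t', ∀ u u' : ℝ,
    eta ≤ u → u ≤ 1 - eta → eta ≤ u' → u' ≤ 1 - eta → ∀ k : ℤ,
    ((dot t (w i) + j * (D.q t * m) : ℤ) : ℝ) / (D.Q * m) + dot t L * ((i : ℕ) + u) / (D.h * D.Q)
      = -(((dot t' (w i') + j' * (D.q t' * m) : ℤ) : ℝ) / (D.Q * m)
        + dot t' L * ((i' : ℕ) + u') / (D.h * D.Q)) + k →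
    False

namespace DesignL

variable {R : ℕ} {T : Finset (Fin (R+1) → ℤ)} {L : Fin (R+1) → ℤ} {p : (Fin (R+1) → ℤ) → ℝ}
  {eps : ℝ} {B0 : ℕ} (D : DesignL T L p eps B0)

lemma inZ_of_le {N : ℕ} (hN : 0 < N) {X len : ℤ} (h : (N : ℤ) ≤ len) (c : ℤ) :
    CD.InZ N X len c := by
  have hN' : (0:ℤ) < N := by exact_mod_cast hN
  have h1 := Int.emod_add_mul_ediv (c - X) N
  have h2 := Int.emod_lt_of_pos (c - X) hN'
  have h3 := Int.emod_nonneg (c - X) hN'.ne'
  refine ⟨-((c - X) / N), ?_, ?_⟩ <;> nlinarith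

/-- an arc is shorter than the circle. -/
lemma dot_lt {t : Fin (R+1) → ℤ} (ht : t ∈ T) : dot t L < D.h * D.Q := by
  by_contra hcon
  push Not at hcon
  have hN : 0 < D.h * D.Q := Nat.mul_pos D.h_pos D.Q_pos
  have h0 : (⟨0, D.P_pos⟩ : Fin D.P) = ⟨0, D.P_pos⟩ := rfl
  have hle : ((D.h * D.Q : ℕ) : ℤ) ≤ dot t L := by push_cast; exact hcon
  refine D.disj_mirror ⟨0, D.P_pos⟩ ⟨0, D.P_pos⟩ t ht t ht 0 (D.Dt_pos t) 0 (D.Dt_pos t) 0 ?_ ?_
  · exact inZ_of_le hN hle 0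
  · exact inZ_of_le hN hle _

/-- a real point strictly inside the arc lies in a cell of the arc. -/
lemma inZ_floor {N : ℕ} {X len : ℤ} {x : ℝ} {k c : ℤ} (h1 : (X:ℝ) < x) (h2 : x < X + len)
    (hc : c + k * N = ⌊x⌋) : CD.InZ N X len c := by
  refine ⟨k, ?_, ?_⟩
  · rw [hc]; exact Int.le_floor.2 h1.le
  · rw [hc]; exact Int.floor_lt.2 (by push_cast; exact h2)

lemma inZ_mirror {N : ℕ} {X len : ℤ} {x : ℝ} {k c : ℤ} (h1 : (X:ℝ) < x) (h2 : x < X + len)
    (hc : c + k * N = ⌊-x⌋) : CD.InZ N X len (-1 - c) := by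
  rw [Int.floor_neg] at hc
  have h3 : X < ⌈x⌉ := Int.lt_ceil.2 h1
  have h4 : ⌈x⌉ ≤ X + len := Int.ceil_le.2 (by push_cast; exact h2.le)
  refine ⟨-k, ?_, ?_⟩ <;> nlinarith

/-- the rounding theorem. -/
theorem exists_rounded (hpos : ∀ t ∈ T, 1 ≤ dot t L) (q : ℕ) (hq : 0 < q) (hqB : q ≤ B0)
    (eta : ℝ) (heta : 0 < eta) (m0 : ℕ) :
    ∃ Rd : Rounded D q eta, m0 ≤ Rd.m := by
  classical
  have hh0 : (0:ℝ) < D.h := by exact_mod_cast D.h_pos
  have hQ0 : (0:ℝ) < D.Q := by exact_mod_cast D.Q_pos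
  set S : ℝ := ∑ t ∈ T, ∑ r, |(t r : ℝ)| with hS
  have hS0 : 0 ≤ S := sum_nonneg fun t _ => sum_nonneg fun r _ => abs_nonneg _
  obtain ⟨M1, hM1⟩ := exists_nat_gt (D.h * S / (2 * eta))
  obtain ⟨m, hm, hmp⟩ := Nat.exists_infinite_primes (max (max m0 (q+1)) (M1 + 1))
  have hm0 : m0 ≤ m := le_trans (le_trans (le_max_left _ _) (le_max_left _ _)) hm
  have hmq : q < m := by
    have := le_trans (le_trans (le_max_right m0 (q+1)) (le_max_left _ (M1+1))) hm
    omega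
  have hmM : (M1 : ℝ) < m := by
    have := le_trans (le_max_right (max m0 (q+1)) (M1 + 1)) hm
    exact_mod_cast (by omega : M1 < m)
  have hmr : (0:ℝ) < m := by exact_mod_cast hmp.pos
  have herr : D.h * S / (2 * m) < eta := by
    have h1 : D.h * S / (2 * eta) < m := hM1.trans hmM
    rw [div_lt_iff₀ (by positivity)] at h1
    rw [div_lt_iff₀ (by positivity)]
    nlinarith
  set w : Fin D.P → Fin (R+1) → ℤ := fun i r =>
    round ((m:ℝ) * (D.om i r - ((i:ℕ):ℤ) * L r : ℤ) / D.h) with hw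
  -- rounding error
  have hround : ∀ i r, |(D.h : ℝ) * w i r / m - (D.om i r - ((i:ℕ):ℤ) * L r : ℤ)|
      ≤ D.h / (2 * m) := by
    intro i r
    have h1 := abs_sub_round ((m:ℝ) * (D.om i r - ((i:ℕ):ℤ) * L r : ℤ) / D.h)
    have h2 : (D.h : ℝ) * w i r / m - (D.om i r - ((i:ℕ):ℤ) * L r : ℤ)
        = - (D.h / m * ((m:ℝ) * (D.om i r - ((i:ℕ):ℤ) * L r : ℤ) / D.h
          - round ((m:ℝ) * (D.om i r - ((i:ℕ):ℤ) * L r : ℤ) / D.h))) := by
      simp only [hw]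
      field_simp
      ring
    rw [h2, abs_neg, abs_mul, abs_of_pos (by positivity)]
    calc (D.h : ℝ) / m * _ ≤ D.h / m * (1/2) := by gcongr
      _ = D.h / (2 * m) := by ring
  have hdot : ∀ i, ∀ t ∈ T, |(D.h : ℝ) * dot t (w i) / m
      - (dot t (D.om i) - ((i:ℕ):ℤ) * dot t L : ℤ)| < eta := by
    intro i t ht
    have h1 : (D.h : ℝ) * dot t (w i) / m - (dot t (D.om i) - ((i:ℕ):ℤ) * dot t L : ℤ)
        = ∑ r, (t r : ℝ) * ((D.h : ℝ) * w i r / m - (D.om i r - ((i:ℕ):ℤ) * L r : ℤ)) := by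
      unfold dot
      push_cast
      simp only [mul_sub, Finset.sum_sub_distrib, Finset.mul_sum, Finset.sum_div]
      congr 1
      · exact Finset.sum_congr rfl fun r _ => by ring
      · congr 1
        exact Finset.sum_congr rfl fun r _ => by ring
    rw [h1]
    calc |∑ r, (t r : ℝ) * ((D.h : ℝ) * w i r / m - (D.om i r - ((i:ℕ):ℤ) * L r : ℤ))|
        ≤ ∑ r, |(t r : ℝ)| * (D.h / (2 * m)) := by
          refine (Finset.abs_sum_le_sum_abs _ _).trans (Finset.sum_le_sum fun r _ => ?_)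
          rw [abs_mul]
          exact mul_le_mul_of_nonneg_left (hround i r) (abs_nonneg _)
      _ = (∑ r, |(t r : ℝ)|) * (D.h / (2 * m)) := by rw [Finset.sum_mul]
      _ ≤ S * (D.h / (2 * m)) := by
          refine mul_le_mul_of_nonneg_right ?_ (by positivity)
          exact Finset.single_le_sum (f := fun t : Fin (R+1) → ℤ => ∑ r, |(t r : ℝ)|)
            (fun t _ => sum_nonneg fun r _ => abs_nonneg _) ht
      _ = D.h * S / (2 * m) := by ring
      _ < eta := herr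
  -- position in units 1/(hQ)
  have hposn : ∀ (i : Fin D.P), ∀ t ∈ T, ∀ j : ℕ, ∀ u : ℝ, eta ≤ u → u ≤ 1 - eta →
      ∃ x : ℝ, (D.X i t j : ℝ) < x ∧ x < D.X i t j + dot t L ∧
        ((dot t (w i) + j * (D.q t * m) : ℤ) : ℝ) / (D.Q * m)
          + dot t L * ((i : ℕ) + u) / (D.h * D.Q) = x / (D.h * D.Q) := by
    intro i t ht j u hu hu'
    have hb : (1:ℝ) ≤ dot t L := by exact_mod_cast hpos t ht
    have hd := hdot i t ht
    rw [abs_lt] at hd
    set er := (D.h : ℝ) * dot t (w i) / m - (dot t (D.om i) - ((i:ℕ):ℤ) * dot t L : ℤ) with her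
    have hX : (D.X i t j : ℝ) = dot t (D.om i) + j * (D.h * D.q t) := by
      unfold X; push_cast; ring
    refine ⟨D.X i t j + dot t L * u + er, ?_, ?_, ?_⟩
    · nlinarith [hd.1]
    · nlinarith [hd.2]
    · rw [hX, her]
      push_cast
      field_simp
      ring
  have hcop : Nat.Coprime q (D.Q * m) := by
    apply Nat.Coprime.mul_right
    · unfold Q
      exact Nat.Coprime.prod_right fun t ht => (D.q_B0 t ht q hq hqB).symm
    · exact ((hmp.coprime_iff_not_dvd).2 (Nat.not_dvd_of_pos_of_lt hq hmq)).symm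
  refine ⟨⟨m, hmp, w, hcop, ?_, ?_⟩, hm0⟩
  · intro i i' t ht t' ht' j hj j' hj' u u' hu1 hu2 hu1' hu2' k heq
    have heq0 := heq
    obtain ⟨x, hx1, hx2, hx3⟩ := hposn i t ht j u hu1 hu2
    obtain ⟨x', hx1', hx2', hx3'⟩ := hposn i' t' ht' j' u' hu1' hu2'
    rw [hx3, hx3'] at heq
    have hxx : x = x' + (k * (D.h * D.Q : ℕ) : ℤ) := by
      push_cast
      field_simp at heq
      linarith
    have hfl : ⌊x⌋ = ⌊x'⌋ + k * (D.h * D.Q : ℕ) := by
      rw [hxx, Int.floor_add_intCast]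
    obtain ⟨e1, e2, e3⟩ := D.disj i i' t ht t' ht' j hj j' hj' ⌊x'⌋
      (inZ_floor (k := k) hx1 hx2 (by rw [hfl]; rfl))
      (inZ_floor (k := 0) hx1' hx2' (by simp))
    subst e1 e2 e3
    refine ⟨rfl, rfl, rfl, ?_⟩
    have hb : (1:ℝ) ≤ dot t L := by exact_mod_cast hpos t ht
    have hbN : (dot t L : ℝ) < D.h * D.Q := by exact_mod_cast D.dot_lt ht
    have h1 : (dot t L : ℝ) * (u - u') = k * (D.h * D.Q) := by
      have h2 : (dot t L : ℝ) * ((i:ℕ) + u) / (D.h * D.Q)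
          = dot t L * ((i:ℕ) + u') / (D.h * D.Q) + k := by linarith
      field_simp at h2
      linarith
    have hN0 : (0:ℝ) < D.h * D.Q := by positivity
    have hu : |u - u'| < 1 := by rw [abs_lt]; constructor <;> linarith
    have hk : k = 0 := by
      by_contra hk
      have h3 : (1:ℝ) ≤ |(k:ℝ)| := by
        rw [← Int.cast_abs]; exact_mod_cast Int.one_le_abs hk
      have h4 : |(dot t L : ℝ) * (u - u')| = |(k:ℝ)| * (D.h * D.Q) := by
        rw [h1, abs_mul, abs_of_pos hN0]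
      rw [abs_mul, abs_of_pos (by linarith : (0:ℝ) < dot t L)] at h4
      nlinarith [abs_nonneg (u - u')]
    rw [hk, Int.cast_zero, zero_mul] at h1
    rcases mul_eq_zero.1 h1 with h | h
    · linarith
    · linarith
  · intro i i' t ht t' ht' j hj j' hj' u u' hu1 hu2 hu1' hu2' k heq
    obtain ⟨x, hx1, hx2, hx3⟩ := hposn i t ht j u hu1 hu2
    obtain ⟨x', hx1', hx2', hx3'⟩ := hposn i' t' ht' j' u' hu1' hu2'
    rw [hx3, hx3'] at heq
    have hxx : x = -x' + (k * (D.h * D.Q : ℕ) : ℤ) := by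
      push_cast
      field_simp at heq
      linarith
    have hfl : ⌊x⌋ = ⌊-x'⌋ + k * (D.h * D.Q : ℕ) := by
      rw [hxx, Int.floor_add_intCast]
    exact D.disj_mirror i i' t ht t' ht' j hj j' hj' ⌊x⌋
      (inZ_floor (k := 0) hx1 hx2 (by simp))
      (inZ_mirror (k := -k) hx1' hx2' (by rw [hfl]; unfold Q; ring))

/-- **Gauss splitting** on the rounded lattice. -/
theorem gauss_rounded {q : ℕ} {eta : ℝ} (Rd : Rounded D q eta) {t : Fin (R+1) → ℤ} (ht : t ∈ T) :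
    ∃ g : ℕ → ℂ, (∀ j, ‖g j‖ = 1 / Real.sqrt (D.Dt t)) ∧ ∀ (i : Fin D.P) (l : ℤ),
      ee ((dot t D.A : ℝ) * (l : ℝ) ^ 2 / D.Q + (dot t (Rd.w i) : ℝ) * l / (D.Q * Rd.m))
        = ∑ j ∈ range (D.Dt t), g j *
          ee (((dot t (Rd.w i) + j * (D.q t * Rd.m) : ℤ) : ℝ) * l / (D.Q * Rd.m)) := by
  obtain ⟨g, hg, hg2⟩ := D.gauss_split ht
  refine ⟨g, hg, fun i l => ?_⟩
  have h3 : (0:ℝ) < D.h := by exact_mod_cast D.h_pos
  have h4 : (0:ℝ) < D.Q := by exact_mod_cast D.Q_pos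
  have h5 : (0:ℝ) < Rd.m := by exact_mod_cast Rd.m_prime.pos
  have e1 : (dot t D.A : ℝ) * (l : ℝ) ^ 2 / D.Q + (dot t (Rd.w i) : ℝ) * l / (D.Q * Rd.m)
      = ((dot t D.A : ℝ) * (l : ℝ) ^ 2 / D.Q + (dot t (D.om i) : ℝ) * l / (D.h * D.Q))
        + ((dot t (Rd.w i) : ℝ) * l / (D.Q * Rd.m) - (dot t (D.om i) : ℝ) * l / (D.h * D.Q)) := by
    ring
  rw [e1, ee_add, hg2 i l, Finset.sum_mul]
  refine Finset.sum_congr rfl fun j _ => ?_
  rw [mul_assoc, ← ee_add]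
  congr 2
  unfold X
  push_cast
  field_simp
  ring

/-- the shortened arcs (with mirrors) still cover almost everything: total length. -/
theorem cover_rounded (heps : 0 < eps) (eta : ℝ) (heta : eta ≤ 1 / 2) :
    (1 - 2 * eta) * (2 * ∑ t ∈ T, p t) / (1 + eps)
      ≤ 2 * ∑ t ∈ T, (D.P : ℝ) * D.Dt t * ((1 - 2 * eta) * dot t L / (D.h * D.Q)) := by
  have h1 := D.cover
  have h2 : (2 * ∑ t ∈ T, (D.P : ℝ) * D.Dt t * ((1 - 2 * eta) * dot t L / (D.h * D.Q)))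
      = (1 - 2 * eta) * (2 * ∑ t ∈ T, (D.P : ℝ) * D.Dt t * dot t L / (D.h * D.Q)) := by
    rw [Finset.mul_sum, Finset.mul_sum, Finset.mul_sum]
    exact Finset.sum_congr rfl fun t _ => by ring
  rw [h2, div_le_iff₀ (by linarith)]
  have h3 : 0 ≤ 1 - 2 * eta := by linarith
  nlinarith [mul_le_mul_of_nonneg_left h1 h3]

end DesignL

end Crest.Agent.R081.D
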