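import Mathlib
import Crest.Agent.R081.Glue

/-!
# One-vector abstract lemma

A real Hilbert space isometry `U`, one vector `f0` whose spectral measure has an a.e. positive density:
then there is `g` in the cyclic space of `f0` with orthonormal orbit, and `f0` lies in the closed span
of the orbit of `g`.
-/

set_option autoImplicit false

namespace Crest.Agent.R081.OneVec

open MeasureTheory Filter Topology AddCircle
open scoped ENNReal

/-- evaluation of a real Laurent polynomial on the circle -/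
noncomputable def evL : (ℤ →₀ ℝ) →ₗ[ℝ] C(UnitAddCircle, ℂ) :=
  Finsupp.linearCombination ℝ (fun k : ℤ => (fourier k : C(UnitAddCircle, ℂ)))

theorem evL_single (k : ℤ) (a : ℝ) (θ : UnitAddCircle) :
    evL (Finsupp.single k a) θ = (a : ℂ) * fourier k θ := by
  simp [evL]

theorem evL_apply (c : ℤ →₀ ℝ) (θ : UnitAddCircle) :
    evL c θ = c.sum fun k a => (a : ℂ) * fourier k θ := by
  simp [evL, Finsupp.linearCombination_apply, Finsupp.sum]

/-- Approximation by real Laurent polynomials. -/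
theorem approx (μ : Measure UnitAddCircle) [IsFiniteMeasure μ]
    (hsym : MeasurePreserving (fun θ : UnitAddCircle => -θ) μ μ)
    (F : UnitAddCircle → ℝ) (hF : MemLp F 2 μ) (hFs : ∀ᵐ θ ∂μ, F (-θ) = F θ)
    {ε : ℝ≥0∞} (hε : ε ≠ 0) :
    ∃ c : ℤ →₀ ℝ, eLpNorm (fun θ => evL c θ - (F θ : ℂ)) 2 μ ≤ ε := by
  have hFc : MemLp (fun θ => (F θ : ℂ)) 2 μ := hF.ofReal
  -- complex approximation
  obtain ⟨a, ha⟩ : ∃ a : ℤ →₀ ℂ,
      eLpNorm (fun θ => (a.sum fun k z => z * fourier k θ) - (F θ : ℂ)) 2 μ ≤ ε := by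
    have hdense := (ContinuousMap.toLp_denseRange (p := 2) ℂ μ ℂ
      (by norm_num)).topologicalClosure_map_submodule
      (span_fourier_closure_eq_top (T := (1 : ℝ)))
    have hmem : hFc.toLp _ ∈ (Submodule.map (ContinuousMap.toLp (E := ℂ) 2 μ ℂ).toLinearMap
        (Submodule.span ℂ (Set.range (@fourier (1 : ℝ))))).topologicalClosure := by
      rw [hdense]; trivial
    rw [← SetLike.mem_coe, Submodule.topologicalClosure_coe] at hmem
    rw [EMetric.mem_closure_iff] at hmem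
    obtain ⟨u, hu, hue⟩ := hmem ε (pos_iff_ne_zero.2 hε)
    obtain ⟨P, hP, rfl⟩ := hu
    have hP' := (Finsupp.mem_span_range_iff_exists_finsupp).1 hP
    obtain ⟨a, rfl⟩ := hP'
    refine ⟨a, ?_⟩
    rw [edist_comm, Lp.edist_def] at hue
    refine le_trans (le_of_eq ?_) hue.le
    apply eLpNorm_congr_ae
    filter_upwards [ContinuousMap.coeFn_toLp (E := ℂ) (p := 2) (𝕜 := ℂ) μ
      (a.sum fun k z => z • (fourier k : C(UnitAddCircle, ℂ))), hFc.coeFn_toLp] with θ h1 h2
    simp only [Pi.sub_apply]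
    rw [h2]
    congr 1
    refine Eq.trans ?_ h1.symm
    simp [Finsupp.sum]
  -- symmetrise
  set P : UnitAddCircle → ℂ := fun θ => a.sum fun k z => z * fourier k θ with hPdef
  set Q : UnitAddCircle → ℂ := fun θ => (starRingEnd ℂ) (P (-θ)) with hQdef
  have hPc : Continuous P := by
    simp only [hPdef, Finsupp.sum]
    fun_prop
  have hQc : Continuous Q := by
    simp only [hQdef]
    fun_prop
  set c : ℤ →₀ ℝ := a.mapRange Complex.re (by simp) with hc
  have hcv : ∀ θ, evL c θ = (1 / 2 : ℂ) * (P θ + Q θ) := by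
    intro θ
    rw [evL_apply, hc, Finsupp.sum_mapRange_index (by simp)]
    simp only [hPdef, hQdef, Finsupp.sum, map_sum, map_mul]
    rw [← Finset.sum_add_distrib, Finset.mul_sum]
    refine Finset.sum_congr rfl fun k _ => ?_
    have h1 : (starRingEnd ℂ) (fourier k (-θ)) = (fourier k θ : ℂ) := by
      rw [← fourier_neg, fourier_apply, fourier_apply]
      congr 2
      simp
    rw [h1, ← add_mul]
    have h2 : (a k) + (starRingEnd ℂ) (a k) = 2 * ((a k).re : ℂ) := by
      rw [Complex.add_conj]; push_cast; ring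
    rw [h2]; ring
  refine ⟨c, ?_⟩
  have hFm : AEStronglyMeasurable (fun θ => (F θ : ℂ)) μ := hFc.1
  have hQF : eLpNorm (fun θ => Q θ - (F θ : ℂ)) 2 μ = eLpNorm (fun θ => P θ - (F θ : ℂ)) 2 μ := by
    have h1 : eLpNorm ((fun θ => P θ - (F θ : ℂ)) ∘ fun θ : UnitAddCircle => -θ) 2 μ =
        eLpNorm (fun θ => P θ - (F θ : ℂ)) 2 μ :=
      eLpNorm_comp_measurePreserving (hPc.aestronglyMeasurable.sub hFm) hsym
    rw [← h1]
    apply eLpNorm_congr_norm_ae
    filter_upwards [hFs] with θ h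
    simp only [Function.comp_apply, h, hQdef]
    have : (starRingEnd ℂ) (P (-θ)) - (F θ : ℂ) = (starRingEnd ℂ) (P (-θ) - (F θ : ℂ)) := by
      simp
    rw [this, RCLike.norm_conj]
  calc eLpNorm (fun θ => evL c θ - (F θ : ℂ)) 2 μ
      = eLpNorm ((1 / 2 : ℂ) • ((fun θ => P θ - (F θ : ℂ)) + fun θ => Q θ - (F θ : ℂ))) 2 μ := by
        congr 1
        funext θ
        simp only [Pi.smul_apply, Pi.add_apply, smul_eq_mul, hcv]
        ring
    _ = ‖(1 / 2 : ℂ)‖ₑ * eLpNorm ((fun θ => P θ - (F θ : ℂ)) + fun θ => Q θ - (F θ : ℂ)) 2 μ :=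
        eLpNorm_const_smul _ _ _ _
    _ ≤ ‖(1 / 2 : ℂ)‖ₑ * (eLpNorm (fun θ => P θ - (F θ : ℂ)) 2 μ +
          eLpNorm (fun θ => Q θ - (F θ : ℂ)) 2 μ) := by
        gcongr
        exact eLpNorm_add_le (hPc.aestronglyMeasurable.sub hFm)
          (hQc.aestronglyMeasurable.sub hFm) (by norm_num)
    _ ≤ ‖(1 / 2 : ℂ)‖ₑ * (ε + ε) := by
        rw [hQF]
        gcongr
    _ = ε := by
        have : ‖(1 / 2 : ℂ)‖ₑ = (2 : ℝ≥0∞)⁻¹ := by
          rw [← ofReal_norm]
          norm_num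
          rw [one_div, ENNReal.ofReal_inv_of_pos (by norm_num)]
          norm_num
        rw [this, ← two_mul, ← mul_assoc, ENNReal.inv_mul_cancel (by norm_num) (by norm_num),
          one_mul]

/-! ### The graph argument -/

section Abs

variable {H : Type*} [NormedAddCommGroup H] [InnerProductSpace ℝ H]

/-- action of real Laurent polynomials -/
noncomputable def act (U : H ≃ₗᵢ[ℝ] H) (f : H) : (ℤ →₀ ℝ) →ₗ[ℝ] H :=
  Finsupp.linearCombination ℝ (fun k : ℤ => (U ^ k) f)

theorem act_single (U : H ≃ₗᵢ[ℝ] H) (f : H) (k : ℤ) (a : ℝ) :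
    act U f (Finsupp.single k a) = a • (U ^ k) f := by
  simp [act]

/-- shift -/
noncomputable def sh (k : ℤ) : (ℤ →₀ ℝ) →ₗ[ℝ] (ℤ →₀ ℝ) :=
  Finsupp.lmapDomain ℝ ℝ (fun j : ℤ => k + j)

theorem sh_single (k j : ℤ) (a : ℝ) : sh k (Finsupp.single j a) = Finsupp.single (k + j) a := by
  simp [sh]

theorem zpow_add_apply (U : H ≃ₗᵢ[ℝ] H) (k j : ℤ) (f : H) :
    (U ^ (k + j)) f = (U ^ k) ((U ^ j) f) := by
  rw [zpow_add]; rfl

theorem act_sh (U : H ≃ₗᵢ[ℝ] H) (f : H) (k : ℤ) (c : ℤ →₀ ℝ) :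
    act U f (sh k c) = (U ^ k) (act U f c) := by
  induction c using Finsupp.induction_linear with
  | zero => simp
  | add x y hx hy => simp [map_add, hx, hy]
  | single j a => simp [sh_single, act_single, zpow_add_apply]

theorem evL_sh (k : ℤ) (c : ℤ →₀ ℝ) (θ : UnitAddCircle) :
    evL (sh k c) θ = fourier k θ * evL c θ := by
  induction c using Finsupp.induction_linear with
  | zero => simp
  | add x y hx hy => simp [map_add, hx, hy, mul_add]
  | single j a =>
    rw [sh_single, evL_single, evL_single, fourier_add]; ring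

/-- `L²(dθ)` -/
noncomputable abbrev L2c := Lp ℂ 2 (volume : Measure UnitAddCircle)

theorem memLp_mul {s : UnitAddCircle → ℝ} (hs : MemLp s 2 volume) (φ : C(UnitAddCircle, ℂ)) :
    MemLp (fun θ => φ θ * (s θ : ℂ)) 2 (volume : Measure UnitAddCircle) := by
  have h1 : MemLp (fun θ => ((s θ : ℝ) : ℂ)) 2 (volume : Measure UnitAddCircle) := hs.ofReal
  have h2 : MemLp (fun θ => φ θ) ∞ (volume : Measure UnitAddCircle) :=
    memLp_top_of_bound φ.continuous.aestronglyMeasurable ‖φ‖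
      (Eventually.of_forall fun θ => φ.norm_coe_le_norm θ)
  exact h1.mul h2

/-- the weighted evaluation `c ↦ ev c · s` in `L²(dθ)` -/
noncomputable def Bm (s : UnitAddCircle → ℝ) (hs : MemLp s 2 volume) : (ℤ →₀ ℝ) →ₗ[ℝ] L2c :=
  Finsupp.linearCombination ℝ (fun k : ℤ => (memLp_mul hs (fourier k)).toLp _)

theorem Bm_single (s : UnitAddCircle → ℝ) (hs : MemLp s 2 volume) (k : ℤ) (a : ℝ) :
    Bm s hs (Finsupp.single k a) = a • (memLp_mul hs (fourier k)).toLp _ := by
  simp [Bm]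

theorem Bm_coe (s : UnitAddCircle → ℝ) (hs : MemLp s 2 volume) (c : ℤ →₀ ℝ) :
    Bm s hs c =ᵐ[volume] fun θ => evL c θ * (s θ : ℂ) := by
  induction c using Finsupp.induction_linear with
  | zero =>
    simp only [map_zero]
    filter_upwards [Lp.coeFn_zero ℂ 2 (volume : Measure UnitAddCircle)] with θ h
    rw [h]; simp
  | add x y hx hy =>
    simp only [map_add]
    filter_upwards [Lp.coeFn_add (Bm s hs x) (Bm s hs y), hx, hy] with θ h h1 h2
    rw [h, Pi.add_apply, h1, h2]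
    simp [add_mul]
  | single j a =>
    rw [Bm_single]
    filter_upwards [Lp.coeFn_smul a ((memLp_mul hs (fourier j)).toLp _),
      (memLp_mul hs (fourier j)).coeFn_toLp] with θ h h1
    rw [h, Pi.smul_apply, h1, evL_single]
    simp [mul_assoc]

/-- Inner products of `Bm`. -/
theorem inner_Bm (s : UnitAddCircle → ℝ) (hs : MemLp s 2 volume) (k l : ℤ) :
    inner ℝ (Bm s hs (Finsupp.single k 1)) (Bm s hs (Finsupp.single l 1)) =
      ∫ θ, (fourier (k - l) θ : ℂ).re * (s θ) ^ 2 := by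
  rw [L2.inner_def]
  refine integral_congr_ae ?_
  filter_upwards [Bm_coe s hs (Finsupp.single k 1), Bm_coe s hs (Finsupp.single l 1)]
    with θ h1 h2
  rw [h1, h2, evL_single, evL_single]
  rw [Complex.inner]
  have e1 : (((1 : ℝ) : ℂ) * fourier l θ * (s θ : ℂ)) *
      (starRingEnd ℂ) (((1 : ℝ) : ℂ) * fourier k θ * (s θ : ℂ)) =
        fourier (l - k) θ * ((s θ ^ 2 : ℝ) : ℂ) := by
    rw [sub_eq_add_neg, fourier_add, fourier_neg]
    simp only [map_mul, Complex.conj_ofReal]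
    push_cast
    ring
  rw [e1, Complex.re_mul_ofReal]
  have e2 : (l - k : ℤ) = -(k - l) := by ring
  rw [e2, fourier_neg, Complex.conj_re]

/-- The data: a vector whose correlations are `∫ Re e_k s²`. -/
theorem inner_act_single (U : H ≃ₗᵢ[ℝ] H) (f0 : H) (k l : ℤ) :
    inner ℝ (act U f0 (Finsupp.single k 1)) (act U f0 (Finsupp.single l 1)) =
      inner ℝ ((U ^ (k - l)) f0) f0 := by
  rw [act_single, act_single, one_smul, one_smul]
  have h : (U ^ k) f0 = (U ^ l) ((U ^ (k - l)) f0) := by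
    rw [← zpow_add_apply]; congr 2; ring
  rw [h]
  exact (U ^ l).inner_map_map _ _

theorem inner_act_eq (U : H ≃ₗᵢ[ℝ] H) (f0 : H) (s : UnitAddCircle → ℝ) (hs : MemLp s 2 volume)
    (h1 : ∀ k : ℤ, inner ℝ ((U ^ k) f0) f0 = ∫ θ, (fourier k θ : ℂ).re * (s θ) ^ 2)
    (c d : ℤ →₀ ℝ) :
    inner ℝ (act U f0 c) (act U f0 d) = inner ℝ (Bm s hs c) (Bm s hs d) := by
  induction c using Finsupp.induction_linear with
  | zero => simp
  | add x y hx hy => simp only [map_add, inner_add_left, hx, hy]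
  | single j a =>
    induction d using Finsupp.induction_linear with
    | zero => simp
    | add x y hx hy => simp only [map_add, inner_add_right, hx, hy]
    | single l b =>
      have e1 : Finsupp.single j a = a • Finsupp.single j (1 : ℝ) := by simp
      have e2 : Finsupp.single l b = b • Finsupp.single l (1 : ℝ) := by simp
      rw [e1, e2, map_smul, map_smul, map_smul, map_smul, inner_smul_left, inner_smul_left,
        inner_smul_right, inner_smul_right, inner_act_single, inner_Bm, h1]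

/-- The closure of the graph. -/
noncomputable def Gam (U : H ≃ₗᵢ[ℝ] H) (f0 : H) (s : UnitAddCircle → ℝ)
    (hs : MemLp s 2 volume) : Submodule ℝ (H × L2c) :=
  (LinearMap.range ((act U f0).prod (Bm s hs))).topologicalClosure

variable {U : H ≃ₗᵢ[ℝ] H} {f0 : H} {s : UnitAddCircle → ℝ} {hs : MemLp s 2 volume}

theorem mem_Gam (c : ℤ →₀ ℝ) : (act U f0 c, Bm s hs c) ∈ Gam U f0 s hs :=
  Submodule.le_topologicalClosure _ ⟨c, rfl⟩

theorem Gam_seq {p : H × L2c} (hp : p ∈ Gam U f0 s hs) :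
    ∃ c : ℕ → (ℤ →₀ ℝ), Tendsto (fun m => act U f0 (c m)) atTop (𝓝 p.1) ∧
      Tendsto (fun m => Bm s hs (c m)) atTop (𝓝 p.2) := by
  have h : p ∈ closure (LinearMap.range ((act U f0).prod (Bm s hs)) : Set (H × L2c)) := hp
  obtain ⟨x, hx, hlim⟩ := mem_closure_iff_seq_limit.1 h
  choose c hc using hx
  refine ⟨c, ?_, ?_⟩
  · have := (continuous_fst.tendsto p).comp hlim
    refine this.congr fun m => ?_
    simp only [Function.comp_apply, ← hc m]
    rfl
  · have := (continuous_snd.tendsto p).comp hlim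
    refine this.congr fun m => ?_
    simp only [Function.comp_apply, ← hc m]
    rfl

theorem Gam_of_seq {p : H × L2c} (c : ℕ → (ℤ →₀ ℝ))
    (h1 : Tendsto (fun m => act U f0 (c m)) atTop (𝓝 p.1))
    (h2 : Tendsto (fun m => Bm s hs (c m)) atTop (𝓝 p.2)) : p ∈ Gam U f0 s hs := by
  have : Tendsto (fun m => (act U f0 (c m), Bm s hs (c m))) atTop (𝓝 p) := by
    rw [show p = (p.1, p.2) from rfl]
    exact h1.prodMk_nhds h2
  exact mem_closure_of_tendsto this (Eventually.of_forall fun m => ⟨c m, rfl⟩)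

theorem Gam_inner
    (h1 : ∀ k : ℤ, inner ℝ ((U ^ k) f0) f0 = ∫ θ, (fourier k θ : ℂ).re * (s θ) ^ 2)
    {p q : H × L2c} (hp : p ∈ Gam U f0 s hs) (hq : q ∈ Gam U f0 s hs) :
    inner ℝ p.1 q.1 = inner ℝ p.2 q.2 := by
  obtain ⟨c, hc1, hc2⟩ := Gam_seq hp
  obtain ⟨d, hd1, hd2⟩ := Gam_seq hq
  have e1 := hc1.inner (𝕜 := ℝ) hd1
  have e2 := hc2.inner (𝕜 := ℝ) hd2
  refine tendsto_nhds_unique e1 (e2.congr fun m => ?_)
  exact (inner_act_eq U f0 s hs h1 _ _).symm

theorem Gam_norm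
    (h1 : ∀ k : ℤ, inner ℝ ((U ^ k) f0) f0 = ∫ θ, (fourier k θ : ℂ).re * (s θ) ^ 2)
    {p : H × L2c} (hp : p ∈ Gam U f0 s hs) : ‖p.1‖ = ‖p.2‖ := by
  have h := Gam_inner h1 hp hp
  rw [real_inner_self_eq_norm_sq, real_inner_self_eq_norm_sq] at h
  exact (sq_eq_sq₀ (norm_nonneg _) (norm_nonneg _)).1 h

theorem Gam_exists [CompleteSpace H]
    (h1 : ∀ k : ℤ, inner ℝ ((U ^ k) f0) f0 = ∫ θ, (fourier k θ : ℂ).re * (s θ) ^ 2)
    {u : L2c} (hu : u ∈ closure (Set.range (Bm s hs))) : ∃ h : H, (h, u) ∈ Gam U f0 s hs := by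
  obtain ⟨x, hx, hlim⟩ := mem_closure_iff_seq_limit.1 hu
  choose c hc using hx
  have hlim' : Tendsto (fun m => Bm s hs (c m)) atTop (𝓝 u) :=
    hlim.congr fun m => (hc m).symm
  have hcau : CauchySeq (fun m => act U f0 (c m)) := by
    have h2 := hlim'.cauchySeq
    rw [Metric.cauchySeq_iff] at h2 ⊢
    intro ε hε
    obtain ⟨N, hN⟩ := h2 ε hε
    refine ⟨N, fun m hm n hn => ?_⟩
    have h3 := hN m hm n hn
    rw [dist_eq_norm, ← map_sub] at h3 ⊢
    have h4 := Gam_norm h1 (mem_Gam (U := U) (f0 := f0) (s := s) (hs := hs) (c m - c n))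
    simp only at h4
    rwa [h4]
  obtain ⟨h, hh⟩ := cauchySeq_tendsto_of_complete hcau
  exact ⟨h, Gam_of_seq c hh hlim'⟩

/-- shift on the graph -/
theorem Gam_shift {h : H} {u u' : L2c} (hp : (h, u) ∈ Gam U f0 s hs) (k : ℤ)
    (hu' : u' =ᵐ[volume] fun θ => fourier k θ * u θ) : ((U ^ k) h, u') ∈ Gam U f0 s hs := by
  obtain ⟨c, hc1, hc2⟩ := Gam_seq hp
  refine Gam_of_seq (fun m => sh k (c m)) ?_ ?_
  · simp only [act_sh]
    exact ((U ^ k).continuous.tendsto _).comp hc1
  · rw [tendsto_iff_norm_sub_tendsto_zero] at hc2 ⊢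
    refine hc2.congr fun m => ?_
    rw [Lp.norm_def, Lp.norm_def]
    congr 1
    apply eLpNorm_congr_norm_ae
    filter_upwards [Lp.coeFn_sub (Bm s hs (c m)) u, Lp.coeFn_sub (Bm s hs (sh k (c m))) u',
      hu', Bm_coe s hs (c m), Bm_coe s hs (sh k (c m))] with θ e1 e2 e3 e4 e5
    rw [e1, e2, Pi.sub_apply, Pi.sub_apply, e3, e4, e5, evL_sh, mul_assoc, ← mul_sub, norm_mul]
    have : ‖(fourier k θ : ℂ)‖ = 1 := by
      rw [fourier_apply]; exact Circle.norm_coe _
    rw [this, one_mul]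

/-! ### Density of Laurent polynomials in weighted spaces -/

theorem mp_neg : MeasurePreserving (fun θ : UnitAddCircle => -θ) volume volume :=
  Measure.measurePreserving_neg _

theorem eLpNorm_wd {s : UnitAddCircle → ℝ} (hs : AEStronglyMeasurable s volume)
    {f : UnitAddCircle → ℂ} (hf : AEStronglyMeasurable f volume) :
    eLpNorm f 2 ((volume : Measure UnitAddCircle).withDensity fun θ => ‖s θ‖ₑ ^ 2) =
      eLpNorm (fun θ => f θ * (s θ : ℂ)) 2 volume := by
  rw [eLpNorm_eq_lintegral_rpow_enorm_toReal (by norm_num) (by norm_num),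
    eLpNorm_eq_lintegral_rpow_enorm_toReal (by norm_num) (by norm_num)]
  congr 1
  rw [lintegral_withDensity_eq_lintegral_mul₀ (by fun_prop) (by fun_prop)]
  refine lintegral_congr fun θ => ?_
  simp only [Pi.mul_apply, ENNReal.toReal_ofNat, ENNReal.rpow_ofNat, enorm_mul]
  rw [mul_pow, mul_comm]
  congr 2
  rw [← ofReal_norm, ← ofReal_norm, Complex.norm_real]

theorem wd_finite {s : UnitAddCircle → ℝ} (hs : MemLp s 2 volume) :
    IsFiniteMeasure ((volume : Measure UnitAddCircle).withDensity fun θ => ‖s θ‖ₑ ^ 2) := by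
  refine ⟨?_⟩
  rw [withDensity_apply _ MeasurableSet.univ, Measure.restrict_univ]
  have h := hs.2
  rw [eLpNorm_eq_lintegral_rpow_enorm_toReal (by norm_num) (by norm_num)] at h
  simp only [ENNReal.toReal_ofNat, ENNReal.rpow_ofNat] at h
  exact ((ENNReal.rpow_lt_top_iff_of_pos (by norm_num)).1 h)

theorem wd_symm {s : UnitAddCircle → ℝ} (heven : ∀ θ, s (-θ) = s θ) :
    MeasurePreserving (fun θ : UnitAddCircle => -θ)
      ((volume : Measure UnitAddCircle).withDensity fun θ => ‖s θ‖ₑ ^ 2)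
      ((volume : Measure UnitAddCircle).withDensity fun θ => ‖s θ‖ₑ ^ 2) := by
  refine ⟨measurable_neg, ?_⟩
  ext A hA
  rw [Measure.map_apply measurable_neg hA, withDensity_apply _ hA,
    withDensity_apply _ (measurable_neg hA)]
  have h := mp_neg.setLIntegral_comp_preimage_emb (MeasurableEquiv.neg UnitAddCircle).measurableEmbedding
    (fun θ => ‖s θ‖ₑ ^ 2) A
  rw [← h]
  refine lintegral_congr fun θ => ?_
  rw [heven]

/-- The unit function. -/
theorem memLp_one : MemLp (fun _ : UnitAddCircle => (1 : ℝ)) 2 volume := memLp_const _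

theorem one_mem_closure (s : UnitAddCircle → ℝ) (hs : MemLp s 2 volume)
    (heven : ∀ θ, s (-θ) = s θ) (hpos : ∀ᵐ θ, s θ ≠ 0) :
    Bm (fun _ => 1) memLp_one (Finsupp.single 0 1) ∈ closure (Set.range (Bm s hs)) := by
  have := wd_finite hs
  rw [EMetric.mem_closure_iff]
  intro ε hε
  obtain ⟨δ, hδ0, hδε⟩ := exists_between hε
  have hm : AEStronglyMeasurable (fun θ => (s θ)⁻¹) (volume : Measure UnitAddCircle) :=
    (hs.1.aemeasurable.inv).aestronglyMeasurable
  have hmc : AEStronglyMeasurable (fun θ => (((s θ)⁻¹ : ℝ) : ℂ)) (volume : Measure UnitAddCircle) :=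
    Complex.continuous_ofReal.comp_aestronglyMeasurable hm
  have hac : ((volume : Measure UnitAddCircle).withDensity fun θ => ‖s θ‖ₑ ^ 2) ≪ volume :=
    withDensity_absolutelyContinuous _ _
  have hF : MemLp (fun θ => (s θ)⁻¹) 2
      ((volume : Measure UnitAddCircle).withDensity fun θ => ‖s θ‖ₑ ^ 2) := by
    refine ⟨hm.mono_ac hac, ?_⟩
    have e1 : eLpNorm (fun θ => (s θ)⁻¹) 2
        ((volume : Measure UnitAddCircle).withDensity fun θ => ‖s θ‖ₑ ^ 2) =
        eLpNorm (fun θ => (((s θ)⁻¹ : ℝ) : ℂ)) 2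
          ((volume : Measure UnitAddCircle).withDensity fun θ => ‖s θ‖ₑ ^ 2) := by
      apply eLpNorm_congr_norm_ae
      exact Eventually.of_forall fun θ => by simp
    rw [e1, eLpNorm_wd hs.1 hmc]
    have e2 : eLpNorm (fun θ => (((s θ)⁻¹ : ℝ) : ℂ) * (s θ : ℂ)) 2 (volume : Measure UnitAddCircle)
        = eLpNorm (fun _ : UnitAddCircle => (1 : ℂ)) 2 volume := by
      apply eLpNorm_congr_ae
      filter_upwards [hpos] with θ h
      push_cast
      rw [inv_mul_cancel₀]
      exact_mod_cast h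
    rw [e2]
    exact (memLp_const (1 : ℂ)).2
  obtain ⟨c, hc⟩ := approx _ (wd_symm heven) (fun θ => (s θ)⁻¹) hF
    (Eventually.of_forall fun θ => by rw [heven]) hδ0.ne'
  refine ⟨Bm s hs c, ⟨c, rfl⟩, ?_⟩
  rw [edist_comm, Lp.edist_def]
  refine lt_of_le_of_lt ?_ hδε
  refine le_trans (le_of_eq ?_) hc
  rw [eLpNorm_wd hs.1 (f := fun θ => evL c θ - (((s θ)⁻¹ : ℝ) : ℂ))
    ((evL c).continuous.aestronglyMeasurable.sub hmc)]
  apply eLpNorm_congr_ae
  filter_upwards [Bm_coe s hs c, Bm_coe (fun _ => 1) memLp_one (Finsupp.single 0 1), hpos]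
    with θ h1 h2 h3
  rw [Pi.sub_apply, h1, h2, evL_single, sub_mul]
  have : (((s θ)⁻¹ : ℝ) : ℂ) * (s θ : ℂ) = 1 := by
    push_cast
    rw [inv_mul_cancel₀]
    exact_mod_cast h3
  rw [this]
  simp

theorem integral_fourier (k : ℤ) :
    ∫ θ : UnitAddCircle, (fourier k θ : ℂ).re = if k = 0 then 1 else 0 := by
  have h1 : ∫ θ : UnitAddCircle, (fourier k θ : ℂ) = if k = 0 then 1 else 0 := by
    have h2 : (volume : Measure UnitAddCircle) = haarAddCircle := by
      rw [volume_eq_smul_haarAddCircle]; simp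
    have h3 := congrFun (fourierCoeff_fourier (T := (1 : ℝ)) k) 0
    rw [fourierCoeff] at h3
    simp only [neg_zero, fourier_zero, one_smul] at h3
    rw [h2, h3]
    simp [Pi.single_apply, eq_comm]
  have h4 : (∫ θ : UnitAddCircle, (fourier k θ : ℂ)).re =
      ∫ θ : UnitAddCircle, (fourier k θ : ℂ).re := by
    refine (integral_re (𝕜 := ℂ) ?_).symm
    exact (fourier k).continuous.integrable_of_hasCompactSupport (HasCompactSupport.of_compactSpace _)
  rw [← h4, h1]
  split_ifs <;> simp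

theorem exists_gen_even [CompleteSpace H] (U : H ≃ₗᵢ[ℝ] H) (f0 : H)
    (s : UnitAddCircle → ℝ) (hs : MemLp s 2 volume)
    (heven : ∀ θ, s (-θ) = s θ) (hpos : ∀ᵐ θ, s θ ≠ 0)
    (h1 : ∀ k : ℤ, inner ℝ ((U ^ k) f0) f0 = ∫ θ, (fourier k θ : ℂ).re * (s θ) ^ 2) :
    ∃ g : H, (∃ c : ℕ → (ℤ →₀ ℝ), Tendsto (fun m => act U f0 (c m)) atTop (𝓝 g)) ∧
      (∀ m n : ℤ, inner ℝ ((U ^ m) g) ((U ^ n) g) = if m = n then (1 : ℝ) else 0) ∧
      f0 ∈ closure (Set.range (act U g)) := by
  obtain ⟨g, hg⟩ := Gam_exists (U := U) (f0 := f0) h1 (one_mem_closure s hs heven hpos)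
  have hgk : ∀ k : ℤ, ((U ^ k) g, Bm (fun _ => 1) memLp_one (Finsupp.single k 1)) ∈
      Gam U f0 s hs := by
    intro k
    refine Gam_shift hg k ?_
    filter_upwards [Bm_coe (fun _ => 1) memLp_one (Finsupp.single k 1),
      Bm_coe (fun _ => 1) memLp_one (Finsupp.single 0 1)] with θ e1 e2
    rw [e1, e2, evL_single, evL_single]
    simp
  have hgc : ∀ c : ℤ →₀ ℝ, (act U g c, Bm (fun _ => 1) memLp_one c) ∈ Gam U f0 s hs := by
    intro c
    induction c using Finsupp.induction_linear with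
    | zero =>
      simp only [map_zero]
      exact (Gam U f0 s hs).zero_mem
    | add x y hx hy =>
      simp only [map_add]
      exact (Gam U f0 s hs).add_mem hx hy
    | single j a =>
      have e1 : Finsupp.single j a = a • Finsupp.single j (1 : ℝ) := by simp
      rw [e1, map_smul, map_smul, act_single, one_smul]
      exact (Gam U f0 s hs).smul_mem a (hgk j)
  refine ⟨g, ?_, ?_, ?_⟩
  · obtain ⟨c, hc, -⟩ := Gam_seq hg
    exact ⟨c, hc⟩
  · intro m n
    rw [Gam_inner h1 (hgk m) (hgk n)]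
    simp only
    rw [inner_Bm]
    simp only [one_pow, mul_one]
    rw [integral_fourier]
    simp [sub_eq_zero]
  · rw [EMetric.mem_closure_iff]
    intro ε hε
    obtain ⟨δ, hδ0, hδε⟩ := exists_between hε
    obtain ⟨c, hc⟩ := approx volume mp_neg s hs (Eventually.of_forall heven) hδ0.ne'
    refine ⟨act U g c, ⟨c, rfl⟩, lt_of_le_of_lt ?_ hδε⟩
    have h2 : (act U g c - act U f0 (Finsupp.single 0 1),
        Bm (fun _ => 1) memLp_one c - Bm s hs (Finsupp.single 0 1)) ∈ Gam U f0 s hs :=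
      (Gam U f0 s hs).sub_mem (hgc c) (mem_Gam _)
    have h3 := Gam_norm h1 h2
    simp only [act_single, one_smul, zpow_zero] at h3
    have h4 : edist f0 (act U g c) = edist (Bm (fun _ => 1) memLp_one c)
        (Bm s hs (Finsupp.single 0 1)) := by
      rw [edist_comm, edist_dist, edist_dist, dist_eq_norm, dist_eq_norm]
      rw [← h3]; rfl
    rw [h4, Lp.edist_def]
    refine le_trans (le_of_eq ?_) hc
    apply eLpNorm_congr_ae
    filter_upwards [Bm_coe s hs (Finsupp.single 0 1), Bm_coe (fun _ => 1) memLp_one c]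
      with θ e1 e2
    rw [Pi.sub_apply, e1, e2, evL_single]
    simp

theorem fourier_neg_arg (k : ℤ) (θ : UnitAddCircle) :
    (fourier k (-θ) : ℂ) = (starRingEnd ℂ) (fourier k θ : ℂ) := by
  rw [← fourier_neg, fourier_apply, fourier_apply]
  congr 2
  simp

theorem integrable_four (k : ℤ) {f : UnitAddCircle → ℝ} (hf : Integrable f volume) :
    Integrable (fun θ => (fourier k θ : ℂ).re * f θ) volume := by
  refine hf.bdd_mul (c := 1) ?_ ?_
  · exact (Complex.continuous_re.comp (fourier k).continuous).aestronglyMeasurable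
  · refine Eventually.of_forall fun θ => ?_
    refine (Complex.abs_re_le_norm _).trans ?_
    rw [fourier_apply]
    exact (Circle.norm_coe _).le

theorem integral_four_neg (k : ℤ) (ρ : UnitAddCircle → ℝ) :
    ∫ θ, (fourier k θ : ℂ).re * ρ (-θ) = ∫ θ, (fourier k θ : ℂ).re * ρ θ := by
  have e2 := mp_neg.integral_comp (MeasurableEquiv.neg UnitAddCircle).measurableEmbedding
    (fun θ => (fourier k θ : ℂ).re * ρ θ)
  rw [← e2]
  refine integral_congr_ae (Eventually.of_forall fun θ => ?_)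
  simp only
  rw [fourier_neg_arg, Complex.conj_re]

/-- **One-vector lemma.** `ρ` need not be even: it is symmetrised. -/
theorem exists_gen [CompleteSpace H] (U : H ≃ₗᵢ[ℝ] H) (f0 : H)
    (ρ : UnitAddCircle → ℝ) (hρ : Integrable ρ volume)
    (hpos : ∀ᵐ θ : UnitAddCircle ∂volume, 0 < ρ θ)
    (h1 : ∀ k : ℤ, inner ℝ ((U ^ k) f0) f0 = ∫ θ, (fourier k θ : ℂ).re * ρ θ) :
    ∃ g : H, (∃ c : ℕ → (ℤ →₀ ℝ), Tendsto (fun m => act U f0 (c m)) atTop (𝓝 g)) ∧
      (∀ m n : ℤ, inner ℝ ((U ^ m) g) ((U ^ n) g) = if m = n then (1 : ℝ) else 0) ∧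
      f0 ∈ closure (Set.range (act U g)) := by
  have hρn : Integrable (fun θ => ρ (-θ)) volume := mp_neg.integrable_comp_of_integrable hρ
  have hposn : ∀ᵐ θ : UnitAddCircle ∂volume, 0 < ρ (-θ) :=
    mp_neg.quasiMeasurePreserving.ae (p := fun θ => 0 < ρ θ) hpos
  obtain ⟨r, hr⟩ : ∃ r : UnitAddCircle → ℝ, ∀ θ, r θ = (ρ θ + ρ (-θ)) / 2 :=
    ⟨_, fun _ => rfl⟩
  have hri : Integrable r volume := by
    refine ((hρ.add hρn).div_const 2).congr (Eventually.of_forall fun θ => ?_)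
    rw [hr]; rfl
  have hrpos : ∀ᵐ θ, 0 < r θ := by
    filter_upwards [hpos, hposn] with θ a b
    rw [hr]; linarith
  obtain ⟨s, hsdef⟩ : ∃ s : UnitAddCircle → ℝ, ∀ θ, s θ = Real.sqrt (r θ) :=
    ⟨_, fun _ => rfl⟩
  have hsm : AEStronglyMeasurable s (volume : Measure UnitAddCircle) := by
    refine (Real.continuous_sqrt.comp_aestronglyMeasurable hri.1).congr
      (Eventually.of_forall fun θ => ?_)
    rw [hsdef]
  have hs2 : ∀ᵐ θ, (s θ) ^ 2 = r θ := by
    filter_upwards [hrpos] with θ h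
    rw [hsdef]
    exact Real.sq_sqrt h.le
  have hs : MemLp s 2 volume := by
    rw [memLp_two_iff_integrable_sq hsm]
    exact hri.congr (hs2.mono fun θ h => h.symm)
  have heven : ∀ θ, s (-θ) = s θ := by
    intro θ
    rw [hsdef, hsdef, hr, hr, neg_neg, add_comm]
  have hsne : ∀ᵐ θ, s θ ≠ 0 := by
    filter_upwards [hrpos] with θ h
    rw [hsdef]
    exact (Real.sqrt_pos.2 h).ne'
  refine exists_gen_even U f0 s hs heven hsne ?_
  intro k
  have e0 : ∫ θ, (fourier k θ : ℂ).re * (s θ) ^ 2 = ∫ θ, (fourier k θ : ℂ).re * r θ := by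
    refine integral_congr_ae ?_
    filter_upwards [hs2] with θ h
    rw [h]
  have e3 : ∫ θ, (fourier k θ : ℂ).re * r θ =
      ∫ θ, (1 / 2) * ((fourier k θ : ℂ).re * ρ θ + (fourier k θ : ℂ).re * ρ (-θ)) := by
    refine integral_congr_ae (Eventually.of_forall fun θ => ?_)
    simp only [hr]; ring
  rw [e0, h1 k, e3, integral_const_mul,
    integral_add (integrable_four k hρ) (integrable_four k hρn), integral_four_neg]
  ring

end Abs

end Crest.Agent.R081.OneVec
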