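import Mathlib

/-! Row 81 (helper478's mechanism), node SHEAR APPROXIMATION, part 1: the combinatorial half.

A group of permutations of a finite free `ℤ/q`-set which contains all equivariant three-cycles
realises every prescribed equivariant injection off two orbits; and the group generated by the
single-row rotations and the single-column rotations of a grid contains all equivariant
three-cycles. -/

set_option autoImplicit false

namespace Crest.Agent.R081.Sa

open Equiv

section abstract_part

variable {X O : Type*}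

/-- `τ ∈ 𝓗` is an equivariant three-cycle `x → y → z → x`. -/
def Cyc (H : Subgroup (Perm X)) (p : X → O) (x y z : X) : Prop :=
  ∃ τ ∈ H, τ x = y ∧ τ y = z ∧ τ z = x ∧
    ∀ w, p w ≠ p x → p w ≠ p y → p w ≠ p z → τ w = w

theorem Cyc.rot {H : Subgroup (Perm X)} {p : X → O} {x y z : X} (h : Cyc H p x y z) :
    Cyc H p y z x := by
  obtain ⟨τ, hτ, h1, h2, h3, h4⟩ := h
  exact ⟨τ, hτ, h2, h3, h1, fun w a b c => h4 w c a b⟩

/-- orbit structure: `p` is the quotient map by the cyclic group generated by `s`. -/
structure Orb (s : Perm X) (p : X → O) : Prop where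
  inv : ∀ x, p (s x) = p x
  tr : ∀ x y, p x = p y → ∃ n : ℕ, y = (s ^ n) x
  surj : Function.Surjective p

variable {s : Perm X} {p : X → O} {H : Subgroup (Perm X)}

theorem comm_pow {τ : Perm X} (h : τ * s = s * τ) (n : ℕ) (x : X) :
    τ ((s ^ n) x) = (s ^ n) (τ x) := by
  have h' : τ * s ^ n = s ^ n * τ := (Commute.pow_right (show Commute τ s from h) n).eq
  have := congrArg (fun f : Perm X => f x) h'
  simpa using this

theorem Orb.pow_inv (ho : Orb s p) (n : ℕ) (x : X) : p ((s ^ n) x) = p x := by
  induction n with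
  | zero => simp
  | succ n ih => rw [pow_succ']; simp [ho.inv, ih]

theorem Orb.map_eq (ho : Orb s p) {τ : Perm X} (h : τ * s = s * τ) {x y : X}
    (hxy : p x = p y) : p (τ x) = p (τ y) := by
  obtain ⟨n, rfl⟩ := ho.tr x y hxy
  rw [comm_pow h, ho.pow_inv]

theorem Orb.map_ne (ho : Orb s p) {τ : Perm X} (h : τ * s = s * τ) {x y : X}
    (hxy : p x ≠ p y) : p (τ x) ≠ p (τ y) := by
  intro h1
  apply hxy
  have h2 : τ⁻¹ * s = s * τ⁻¹ := (show Commute τ s from h).inv_left.eq
  have := ho.map_eq h2 h1
  simpa using this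

theorem Cyc.conj (ho : Orb s p) (hc : ∀ τ ∈ H, τ * s = s * τ) {x y z : X}
    (h : Cyc H p x y z) {g : Perm X} (hg : g ∈ H) : Cyc H p (g x) (g y) (g z) := by
  obtain ⟨τ, hτ, h1, h2, h3, h4⟩ := h
  refine ⟨g * τ * g⁻¹, H.mul_mem (H.mul_mem hg hτ) (H.inv_mem hg), ?_, ?_, ?_, ?_⟩
  · simp [h1]
  · simp [h2]
  · simp [h3]
  · intro w hx hy hz
    have hg' := hc _ (H.inv_mem hg)
    have e : ∀ u : X, p w ≠ p (g u) → p (g⁻¹ w) ≠ p u := by
      intro u hu
      have := ho.map_ne hg' hu
      simpa using this
    have : τ (g⁻¹ w) = g⁻¹ w := h4 _ (e x hx) (e y hy) (e z hz)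
    show g (τ (g⁻¹ w)) = w
    rw [this]
    simp

/-- Greedy realisation: every injective assignment on all but two orbits is realised in `H`. -/
theorem greedy [Fintype O] [DecidableEq O] (ho : Orb s p) (hc : ∀ τ ∈ H, τ * s = s * τ)
    (h3 : ∀ x y z : X, p x ≠ p y → p y ≠ p z → p x ≠ p z → Cyc H p x y z)
    (r f : O → X) (hr : ∀ o, p (r o) = o) (hf : Function.Injective fun o => p (f o))
    (S : Finset O) (hS : S.card + 2 ≤ Fintype.card O) :
    ∃ τ ∈ H, ∀ o ∈ S, τ (r o) = f o := by
  induction S using Finset.induction_on with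
  | empty => exact ⟨1, H.one_mem, by simp⟩
  | insert c S hcS ih =>
    rw [Finset.card_insert_of_notMem hcS] at hS
    obtain ⟨τ, hτ, hτS⟩ := ih (by omega)
    -- the occupied orbits
    set B : Finset O := S.image fun o => p (f o) with hB
    have hBc : B.card = S.card := Finset.card_image_of_injective _ hf
    have huB : p (τ (r c)) ∉ B := by
      intro h
      obtain ⟨o, ho', he⟩ := Finset.mem_image.1 h
      have : p (τ (r o)) = p (τ (r c)) := by rw [hτS o ho']; exact he
      have h' : o ≠ c := fun h => hcS (h ▸ ho')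
      have hne : p (r o) ≠ p (r c) := by rw [hr, hr]; exact h'
      exact ho.map_ne (hc τ hτ) hne this
    have htB : p (f c) ∉ B := by
      intro h
      obtain ⟨o, ho', he⟩ := Finset.mem_image.1 h
      have : o = c := hf he
      exact hcS (this ▸ ho')
    have pick : ∀ A : Finset O, A.card < Fintype.card O → ∃ x : X, p x ∉ A := by
      intro A hA
      obtain ⟨o, ho'⟩ : ∃ o, o ∉ A := by
        by_contra hcon
        push Not at hcon
        have : A = Finset.univ := Finset.eq_univ_iff_forall.2 hcon
        rw [this, Finset.card_univ] at hA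
        exact lt_irrefl _ hA
      obtain ⟨x, hx⟩ := ho.surj o
      exact ⟨x, by rwa [hx]⟩
    -- fixed points on the occupied part
    have key : ∀ x y z : X, p x ∉ B → p y ∉ B → p z ∉ B → ∀ g : Perm X,
        (∀ w, p w ≠ p x → p w ≠ p y → p w ≠ p z → g w = w) → ∀ o ∈ S, g (f o) = f o := by
      intro x y z hx hy hz g hg o hoS
      have hm : p (f o) ∈ B := Finset.mem_image_of_mem _ hoS
      exact hg _ (fun h => hx (h ▸ hm)) (fun h => hy (h ▸ hm)) (fun h => hz (h ▸ hm))
    by_cases hut : p (τ (r c)) = p (f c)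
    · -- same orbit: go through a third orbit
      obtain ⟨v, hv⟩ := pick (insert (p (f c)) B) (by
        have := Finset.card_insert_le (p (f c)) B
        omega)
      obtain ⟨w, hw⟩ := pick (insert (p v) (insert (p (f c)) B)) (by
        have h1 := Finset.card_insert_le (p v) (insert (p (f c)) B)
        have h2 := Finset.card_insert_le (p (f c)) B
        omega)
      simp only [Finset.mem_insert, not_or] at hv hw
      obtain ⟨g1, hg1, a1, -, -, b1⟩ := h3 (τ (r c)) v w (by rw [hut]; exact fun h => hv.1 h.symm)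
        (fun h => hw.1 h.symm) (by rw [hut]; exact fun h => hw.2.1 h.symm)
      obtain ⟨g2, hg2, a2, -, -, b2⟩ := h3 v (f c) w hv.1 (fun h => hw.2.1 h.symm)
        (fun h => hw.1 h.symm)
      refine ⟨g2 * g1 * τ, H.mul_mem (H.mul_mem hg2 hg1) hτ, ?_⟩
      intro o hoS
      rcases Finset.mem_insert.1 hoS with rfl | hoS
      · simp [a1, a2]
      · have e1 := key _ _ _ huB hv.2 hw.2.2 g1 b1 o hoS
        have e2 := key _ _ _ hv.2 htB hw.2.2 g2 b2 o hoS
        simp [hτS o hoS, e1, e2]
    · obtain ⟨w, hw⟩ := pick (insert (p (τ (r c))) (insert (p (f c)) B)) (by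
        have h1 := Finset.card_insert_le (p (τ (r c))) (insert (p (f c)) B)
        have h2 := Finset.card_insert_le (p (f c)) B
        omega)
      simp only [Finset.mem_insert, not_or] at hw
      obtain ⟨g1, hg1, a1, -, -, b1⟩ := h3 (τ (r c)) (f c) w hut (fun h => hw.2.1 h.symm)
        (fun h => hw.1 h.symm)
      refine ⟨g1 * τ, H.mul_mem hg1 hτ, ?_⟩
      intro o hoS
      rcases Finset.mem_insert.1 hoS with rfl | hoS
      · simp [a1]
      · have e1 := key _ _ _ huB htB hw.2.2 g1 b1 o hoS
        simp [hτS o hoS, e1]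

end abstract_part

end Crest.Agent.R081.Sa
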