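import Crest.Agent.R081.Sa1

/-! Row 81, node SHEAR APPROXIMATION, part 2: single-row rotations and single-column rotations of
the grid `ZMod (q*a) × ZMod b` generate all equivariant three-cycles. -/

set_option autoImplicit false

namespace Crest.Agent.R081.Sa

open Equiv

variable (q a b : ℕ)

/-- cells of the grid -/
abbrev Cell (q a b : ℕ) : Type := ZMod (q * a) × ZMod b
/-- orbits of cells -/
abbrev OCell (a b : ℕ) : Type := ZMod a × ZMod b

/-- column class -/
def cl (q a : ℕ) : ZMod (q * a) →+* ZMod a := ZMod.castHom (Dvd.intro_left q rfl) (ZMod a)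

/-- quotient map -/
def pr (q a b : ℕ) (x : Cell q a b) : OCell a b := (cl q a x.1, x.2)

/-- the shift -/
def sh (q a b : ℕ) : Perm (Cell q a b) :=
  (Equiv.addRight ((a : ℕ) : ZMod (q * a))).prodCongr (Equiv.refl _)

@[simp] theorem sh_apply (x : Cell q a b) : sh q a b x = (x.1 + (a : ZMod (q * a)), x.2) := rfl

theorem cl_a : cl q a ((a : ℕ) : ZMod (q * a)) = 0 := by
  simp [cl]

theorem sh_pow (n : ℕ) (x : Cell q a b) :
    (sh q a b ^ n) x = (x.1 + n * (a : ZMod (q * a)), x.2) := by
  induction n with
  | zero => simp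
  | succ n ih =>
    rw [pow_succ', Perm.mul_apply, ih]
    simp only [sh_apply, Nat.cast_succ]
    ext
    · ring
    · rfl

theorem orb [NeZero q] [NeZero a] : Orb (sh q a b) (pr q a b) where
  inv x := by
    simp only [pr, sh_apply, map_add, cl_a, add_zero]
  tr x y h := by
    have : NeZero (q * a) := ⟨Nat.mul_ne_zero (NeZero.ne q) (NeZero.ne a)⟩
    simp only [pr, Prod.mk.injEq] at h
    have h1 : cl q a (y.1 - x.1) = 0 := by rw [map_sub, h.1, sub_self]
    have h2 : a ∣ (y.1 - x.1).val := by
      rw [← ZMod.natCast_eq_zero_iff]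
      have h3 : ((((y.1 - x.1).val : ℕ) : ZMod (q * a))) = y.1 - x.1 := ZMod.natCast_zmod_val _
      rw [← h3, map_natCast] at h1
      exact h1
    obtain ⟨n, hn⟩ := h2
    refine ⟨n, ?_⟩
    rw [sh_pow]
    have h3 : ((((y.1 - x.1).val : ℕ) : ZMod (q * a))) = y.1 - x.1 := ZMod.natCast_zmod_val _
    rw [hn] at h3
    push_cast at h3
    ext
    · show y.1 = x.1 + n * (a : ZMod (q * a))
      rw [mul_comm (n : ZMod (q * a)), h3]
      ring
    · exact h.2.symm
  surj := by
    intro o
    obtain ⟨i, hi⟩ : ∃ i, cl q a i = o.1 := ZMod.castHom_surjective _ o.1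
    exact ⟨(i, o.2), by simp [pr, hi]⟩

/-- rotation of one row -/
def rowR (j : ZMod b) (d : ZMod (q * a)) : Perm (Cell q a b) where
  toFun x := if x.2 = j then (x.1 + d, x.2) else x
  invFun x := if x.2 = j then (x.1 - d, x.2) else x
  left_inv := by rintro ⟨x1, x2⟩; by_cases h : x2 = j <;> simp [h]
  right_inv := by rintro ⟨x1, x2⟩; by_cases h : x2 = j <;> simp [h]

/-- rotation of one column class -/
def colR (c : ZMod a) (e : ZMod b) : Perm (Cell q a b) where
  toFun x := if cl q a x.1 = c then (x.1, x.2 + e) else x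
  invFun x := if cl q a x.1 = c then (x.1, x.2 - e) else x
  left_inv x := by by_cases h : cl q a x.1 = c <;> simp [h]
  right_inv x := by by_cases h : cl q a x.1 = c <;> simp [h]

variable {q a b}

theorem rowR_apply (j : ZMod b) (d : ZMod (q * a)) (x : Cell q a b) :
    rowR q a b j d x = if x.2 = j then (x.1 + d, x.2) else x := rfl
theorem rowR_inv_apply (j : ZMod b) (d : ZMod (q * a)) (x : Cell q a b) :
    (rowR q a b j d)⁻¹ x = if x.2 = j then (x.1 - d, x.2) else x := rfl
theorem colR_apply (c : ZMod a) (e : ZMod b) (x : Cell q a b) :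
    colR q a b c e x = if cl q a x.1 = c then (x.1, x.2 + e) else x := rfl
theorem colR_inv_apply (c : ZMod a) (e : ZMod b) (x : Cell q a b) :
    (colR q a b c e)⁻¹ x = if cl q a x.1 = c then (x.1, x.2 - e) else x := rfl

theorem rowR_comm (j : ZMod b) (d : ZMod (q * a)) :
    rowR q a b j d * sh q a b = sh q a b * rowR q a b j d := by
  ext x : 1
  simp only [Perm.mul_apply, rowR_apply, sh_apply]
  by_cases h : x.2 = j
  · simp only [h, if_true]; ext
    · simp; ring
    · rfl
  · simp [h]

theorem colR_comm (c : ZMod a) (e : ZMod b) :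
    colR q a b c e * sh q a b = sh q a b * colR q a b c e := by
  ext x : 1
  simp only [Perm.mul_apply, colR_apply, sh_apply, map_add, cl_a, add_zero]
  by_cases h : cl q a x.1 = c
  · simp [h]
  · simp [h]

variable {H : Subgroup (Perm (Cell q a b))}

/-- L-shaped three-cycles -/
theorem cycL (hrow : ∀ j d, rowR q a b j d ∈ H) (hcol : ∀ c e, colR q a b c e ∈ H)
    {i i' : ZMod (q * a)} {j j' : ZMod b} (hi : cl q a i ≠ cl q a i') (hj : j ≠ j') :
    Cyc H (pr q a b) (i, j) (i', j) (i, j') := by
  refine ⟨rowR q a b j (i' - i) * colR q a b (cl q a i) (j' - j) *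
    (rowR q a b j (i' - i))⁻¹ * (colR q a b (cl q a i) (j' - j))⁻¹,
    H.mul_mem (H.mul_mem (H.mul_mem (hrow _ _) (hcol _ _)) (H.inv_mem (hrow _ _)))
      (H.inv_mem (hcol _ _)), ?_, ?_, ?_, ?_⟩
  · have h1 : j - (j' - j) ≠ j := by
      intro h
      apply hj
      have := sub_eq_self.1 h
      exact (sub_eq_zero.1 this).symm
    simp only [Perm.mul_apply, rowR_apply, rowR_inv_apply, colR_apply, colR_inv_apply]
    simp [h1]
  · have h2 : cl q a (i' - (i' - i)) = cl q a i := by congr 1; ring
    simp only [Perm.mul_apply, rowR_apply, rowR_inv_apply, colR_apply, colR_inv_apply]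
    simp [hi.symm, hj.symm]
  · have h1 : j' - (j' - j) = j := by ring
    have h2 : cl q a (i - (i' - i)) ≠ cl q a i := by
      intro h
      rw [map_sub] at h
      have := sub_eq_self.1 h
      rw [map_sub] at this
      exact hi (sub_eq_zero.1 this).symm
    simp only [Perm.mul_apply, rowR_apply, rowR_inv_apply, colR_apply, colR_inv_apply]
    simp only [if_true, h1, h2, if_false]
    ext <;> simp
  · rintro ⟨w1, w2⟩ hx hy hz
    simp only [pr, ne_eq, Prod.mk.injEq, not_and] at hx hy hz
    simp only [Perm.mul_apply, rowR_apply, rowR_inv_apply, colR_apply, colR_inv_apply]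
    by_cases hc : cl q a w1 = cl q a i
    · have h2 : w2 ≠ j := hx hc
      have h3 : w2 ≠ j' := hz hc
      have h4 : w2 - (j' - j) ≠ j := by
        intro h
        apply h3
        linear_combination h
      simp [hc, h4, h2]
    · by_cases h2 : w2 = j
      · subst h2
        have h3 : cl q a w1 ≠ cl q a i' := fun h => hy h rfl
        have h4 : cl q a (w1 - (i' - i)) ≠ cl q a i := by
          intro h
          apply h3
          rw [map_sub, map_sub] at h
          linear_combination h
        simp only [hc, if_false, if_true, h4]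
        ext <;> simp
      · simp [hc, h2]

section gen

variable [NeZero q] [NeZero a]

/-- two in one row, the third anywhere in another row -/
theorem cycB (hrow : ∀ j d, rowR q a b j d ∈ H) (hcol : ∀ c e, colR q a b c e ∈ H)
    (hc : ∀ τ ∈ H, τ * sh q a b = sh q a b * τ)
    {i i' k : ZMod (q * a)} {j j' : ZMod b} (hi : cl q a i ≠ cl q a i') (hj : j ≠ j') :
    Cyc H (pr q a b) (i, j) (i', j) (k, j') := by
  have h := (cycL hrow hcol hi hj).conj (orb q a b) hc (hrow j' (k - i))
  have e1 : rowR q a b j' (k - i) (i, j) = (i, j) := by simp [rowR_apply, hj]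
  have e2 : rowR q a b j' (k - i) (i', j) = (i', j) := by simp [rowR_apply, hj]
  have e3 : rowR q a b j' (k - i) (i, j') = (k, j') := by simp [rowR_apply]
  rwa [e1, e2, e3] at h

omit [NeZero q] in
theorem exists_class (ha : 3 ≤ a) (c c' : ZMod a) : ∃ i : ZMod (q * a), cl q a i ≠ c ∧ cl q a i ≠ c' := by
  classical
  obtain ⟨d, hd⟩ : ∃ d : ZMod a, d ∉ ({c, c'} : Finset (ZMod a)) := by
    by_contra hcon
    push Not at hcon
    have h1 : ({c, c'} : Finset (ZMod a)) = Finset.univ := Finset.eq_univ_iff_forall.2 hcon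
    have h2 := Finset.card_le_two (a := c) (b := c')
    rw [h1, Finset.card_univ, ZMod.card] at h2
    omega
  obtain ⟨i, hi⟩ : ∃ i, cl q a i = d := ZMod.castHom_surjective _ d
  simp only [Finset.mem_insert, Finset.mem_singleton, not_or] at hd
  exact ⟨i, by rw [hi]; exact hd.1, by rw [hi]; exact hd.2⟩

/-- all equivariant three-cycles -/
theorem cyc_all (ha : 3 ≤ a) (hb : 2 ≤ b)
    (hrow : ∀ j d, rowR q a b j d ∈ H) (hcol : ∀ c e, colR q a b c e ∈ H)
    (hc : ∀ τ ∈ H, τ * sh q a b = sh q a b * τ)
    (x y z : Cell q a b) (hxy : pr q a b x ≠ pr q a b y) (hyz : pr q a b y ≠ pr q a b z)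
    (hxz : pr q a b x ≠ pr q a b z) : Cyc H (pr q a b) x y z := by
  obtain ⟨i, j⟩ := x
  obtain ⟨l, j''⟩ := y
  obtain ⟨k, j'⟩ := z
  have ne_of : ∀ {i1 i2 : ZMod (q * a)} {j1 : ZMod b},
      pr q a b (i1, j1) ≠ pr q a b (i2, j1) → cl q a i1 ≠ cl q a i2 := by
    intro i1 i2 j1 h h'
    exact h (by simp [pr, h'])
  by_cases h1 : j = j''
  · subst h1
    by_cases h2 : j = j'
    · subst h2
      -- all three in one row
      obtain ⟨j', hj'⟩ : ∃ j' : ZMod b, j' ≠ j := by
        have : Fact (1 < b) := ⟨by omega⟩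
        exact ⟨j + 1, by simp⟩
      have h := (cycB hrow hcol hc (k := k) (ne_of hxy) hj'.symm).conj (orb q a b) hc
        (hcol (cl q a k) (j - j'))
      have e1 : colR q a b (cl q a k) (j - j') (i, j) = (i, j) := by
        simp [colR_apply, ne_of hxz]
      have e2 : colR q a b (cl q a k) (j - j') (l, j) = (l, j) := by
        simp [colR_apply, ne_of hyz]
      have e3 : colR q a b (cl q a k) (j - j') (k, j') = (k, j) := by simp [colR_apply]
      rwa [e1, e2, e3] at h
    · exact cycB hrow hcol hc (ne_of hxy) h2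
  · by_cases h2 : j = j'
    · subst h2
      -- x, z in one row
      exact (cycB hrow hcol hc (k := l) (ne_of (Ne.symm hxz)) h1).rot
    · by_cases h3 : j'' = j'
      · subst h3
        exact ((cycB hrow hcol hc (k := i) (ne_of hyz) (fun h => h1 h.symm)).rot).rot
      · -- three different rows
        obtain ⟨i', hi1, hi2⟩ := exists_class (q := q) ha (cl q a i) (cl q a k)
        have h := (cycB hrow hcol hc (i := i) (i' := i') (k := k) (j := j) (j' := j')
          (Ne.symm hi1) h2).conj (orb q a b) hc (hcol (cl q a i') (j'' - j))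
        have e1 : colR q a b (cl q a i') (j'' - j) (i, j) = (i, j) := by
          simp [colR_apply, Ne.symm hi1]
        have e2 : colR q a b (cl q a i') (j'' - j) (i', j) = (i', j'') := by
          simp [colR_apply]
        have e3 : colR q a b (cl q a i') (j'' - j) (k, j') = (k, j') := by
          simp [colR_apply, Ne.symm hi2]
        rw [e1, e2, e3] at h
        have h' := h.conj (orb q a b) hc (hrow j'' (l - i'))
        have f1 : rowR q a b j'' (l - i') (i, j) = (i, j) := by simp [rowR_apply, h1]
        have f2 : rowR q a b j'' (l - i') (i', j'') = (l, j'') := by simp [rowR_apply]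
        have f3 : rowR q a b j'' (l - i') (k, j') = (k, j') := by
          simp [rowR_apply, Ne.symm h3]
        rwa [f1, f2, f3] at h'

end gen

end Crest.Agent.R081.Sa
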