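import Crest.Agent.R081.Sa2
import Crest.Agent.R081.TwDefs

/-! Row 81, node SHEAR APPROXIMATION, part 3: smooth periodic functions with prescribed values on
the good part of the cells; shear words realising the row and column rotations exactly on the good
set; the grid form of the shear approximation lemma. -/

set_option autoImplicit false

namespace Crest.Agent.R081.Sa

open scoped ContDiff
open Equiv Crest.Agent.R081.Tw

/-! ### smooth bumps on the circle -/

theorem cos_le_of_mid {r u : ℝ} (h0 : 0 ≤ r) (h1 : r ≤ |u|) (h2 : |u| ≤ 1 - r) :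
    Real.cos (2 * Real.pi * u) ≤ Real.cos (2 * Real.pi * r) := by
  have hpi := Real.pi_pos
  have e : Real.cos (2 * Real.pi * u) = Real.cos (2 * Real.pi * |u|) := by
    rcases abs_choice u with h | h
    · rw [h]
    · rw [h, mul_neg, Real.cos_neg]
  rw [e]
  by_cases h : |u| ≤ 1 / 2
  · apply Real.cos_le_cos_of_nonneg_of_le_pi
    · positivity
    · nlinarith
    · nlinarith
  · push Not at h
    have e2 : Real.cos (2 * Real.pi * |u|) = Real.cos (2 * Real.pi * (1 - |u|)) := by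
      rw [← Real.cos_neg (2 * Real.pi * (1 - |u|)), ← Real.cos_add_two_pi (-(2 * Real.pi * (1 - |u|)))]
      congr 1; ring
    rw [e2]
    apply Real.cos_le_cos_of_nonneg_of_le_pi
    · positivity
    · nlinarith
    · nlinarith

theorem cos_ge_of_small {r u : ℝ} (h0 : r ≤ 1 / 2) (h1 : |u| ≤ r) :
    Real.cos (2 * Real.pi * r) ≤ Real.cos (2 * Real.pi * u) := by
  have hpi := Real.pi_pos
  have e : Real.cos (2 * Real.pi * u) = Real.cos (2 * Real.pi * |u|) := by
    rcases abs_choice u with h | h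
    · rw [h]
    · rw [h, mul_neg, Real.cos_neg]
  rw [e]
  apply Real.cos_le_cos_of_nonneg_of_le_pi
  · positivity
  · nlinarith
  · nlinarith

/-- a smooth 1-periodic function, `1` within `r1` of `c + ℤ` and `0` at distance at least `r0`. -/
theorem exists_bump (c r0 r1 : ℝ) (h1 : 0 ≤ r1) (h2 : r1 < r0) (h3 : r0 ≤ 1 / 2) :
    ∃ f : ℝ → ℝ, ContDiff ℝ ∞ f ∧ (∀ t, f (t + 1) = f t) ∧
      (∀ (n : ℤ) (u : ℝ), |u| ≤ r1 → f (c + n + u) = 1) ∧
      (∀ (n : ℤ) (u : ℝ), r0 ≤ |u| → |u| ≤ 1 - r0 → f (c + n + u) = 0) := by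
  have hpi := Real.pi_pos
  have hgap : 0 < Real.cos (2 * Real.pi * r1) - Real.cos (2 * Real.pi * r0) := by
    have := Real.cos_lt_cos_of_nonneg_of_le_pi (x := 2 * Real.pi * r1) (y := 2 * Real.pi * r0)
      (by positivity) (by nlinarith) (by nlinarith)
    linarith
  refine ⟨fun t => Real.smoothTransition ((Real.cos (2 * Real.pi * (t - c)) -
    Real.cos (2 * Real.pi * r0)) / (Real.cos (2 * Real.pi * r1) - Real.cos (2 * Real.pi * r0))),
    ?_, ?_, ?_, ?_⟩
  · apply Real.smoothTransition.contDiff.comp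
    fun_prop
  · intro t
    have : Real.cos (2 * Real.pi * (t + 1 - c)) = Real.cos (2 * Real.pi * (t - c)) := by
      rw [← Real.cos_add_two_pi (2 * Real.pi * (t - c))]; congr 1; ring
    simp only [this]
  · intro n u hu
    have e : Real.cos (2 * Real.pi * (c + n + u - c)) = Real.cos (2 * Real.pi * u) := by
      rw [← Real.cos_add_int_mul_two_pi (2 * Real.pi * u) n]; congr 1; ring
    simp only [e]
    apply Real.smoothTransition.one_of_one_le
    rw [le_div_iff₀ hgap, one_mul]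
    have := cos_ge_of_small (r := r1) (u := u) (by linarith) hu
    linarith
  · intro n u hu hu'
    have e : Real.cos (2 * Real.pi * (c + n + u - c)) = Real.cos (2 * Real.pi * u) := by
      rw [← Real.cos_add_int_mul_two_pi (2 * Real.pi * u) n]; congr 1; ring
    simp only [e]
    apply Real.smoothTransition.zero_of_nonpos
    apply div_nonpos_of_nonpos_of_nonneg _ hgap.le
    have := cos_le_of_mid (r := r0) (u := u) (by linarith) hu hu'
    linarith

theorem zmod_int_eq_iff {b : ℕ} (m n : ℤ) : ((m : ZMod b) = (n : ZMod b)) ↔ ∃ k : ℤ, n = m + b * k := by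
  rw [ZMod.intCast_eq_intCast_iff_dvd_sub]
  constructor
  · rintro ⟨k, hk⟩; exact ⟨k, by linarith⟩
  · rintro ⟨k, hk⟩; exact ⟨k, by linarith⟩

/-- indicator of one row, smooth -/
theorem exists_row_bump {b : ℕ} [NeZero b] {d : ℝ} (hd : 0 < d) (hd2 : d ≤ 1 / 2) (j : ZMod b) :
    ∃ f : ℝ → ℝ, ContDiff ℝ ∞ f ∧ (∀ t, f (t + 1) = f t) ∧
      ∀ t : ℝ, d ≤ Int.fract (b * t) → Int.fract (b * t) ≤ 1 - d →
        f t = if ((⌊(b : ℝ) * t⌋ : ℤ) : ZMod b) = j then 1 else 0 := by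
  have hb : 0 < (b : ℝ) := by exact_mod_cast Nat.pos_of_ne_zero (NeZero.ne b)
  have hb1 : (1 : ℝ) ≤ b := by exact_mod_cast Nat.pos_of_ne_zero (NeZero.ne b)
  obtain ⟨f, hf1, hf2, hf3, hf4⟩ := exists_bump (((j.val : ℝ) + 1 / 2) / b) (1 / (2 * b))
    ((1 / 2 - d) / b) (by apply div_nonneg <;> linarith)
    (by rw [div_lt_div_iff₀ hb (by positivity)]; nlinarith)
    (by rw [div_le_div_iff₀ (by positivity) (by norm_num)]; linarith)
  refine ⟨f, hf1, hf2, ?_⟩
  intro t ht1 ht2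
  have hj : ((j.val : ℤ) : ZMod b) = j := by
    rw [Int.cast_natCast, ZMod.natCast_zmod_val]
  set m : ℤ := ⌊(b : ℝ) * t⌋ with hm
  have ht : t = ((m : ℝ) + Int.fract (b * t)) / b := by
    rw [eq_div_iff hb.ne', Int.floor_add_fract]; ring
  split_ifs with h
  · rw [← hj] at h
    obtain ⟨k, hk⟩ := (zmod_int_eq_iff _ _).1 h.symm
    have e : t = ((j.val : ℝ) + 1 / 2) / b + k + (Int.fract (b * t) - 1 / 2) / b := by
      conv_lhs => rw [ht]
      have : (m : ℝ) = j.val + b * k := by rw [hk]; push_cast; ring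
      rw [this]
      field_simp
      ring
    rw [e]
    have hu : |(Int.fract (b * t) - 1 / 2) / b| ≤ (1 / 2 - d) / b := by
      rw [abs_div, abs_of_pos hb]
      apply div_le_div_of_nonneg_right _ hb.le
      rw [abs_le]; constructor <;> linarith
    exact hf3 k _ hu
  · -- different row
    obtain ⟨k, l, hk, hl0, hlb⟩ : ∃ k l : ℤ, m = l + b * k ∧ 0 ≤ l ∧ l < b :=
      ⟨m / b, m % b, (Int.emod_add_mul_ediv m b).symm, Int.emod_nonneg _ (by exact_mod_cast NeZero.ne b),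
        Int.emod_lt_of_pos _ (by exact_mod_cast Nat.pos_of_ne_zero (NeZero.ne b))⟩
    have hlj : l ≠ j.val := by
      intro h'
      apply h
      rw [hk, h']
      push_cast
      rw [ZMod.natCast_self, zero_mul, add_zero]
      simp
    have hjb : (j.val : ℤ) < b := by exact_mod_cast ZMod.val_lt j
    have e : t = ((j.val : ℝ) + 1 / 2) / b + k + ((l : ℝ) - j.val + (Int.fract (b * t) - 1 / 2)) / b := by
      conv_lhs => rw [ht]
      have : (m : ℝ) = l + b * k := by rw [hk]; push_cast; ring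
      rw [this]
      field_simp
      ring
    rw [e]
    have h1 : (1 : ℝ) / 2 ≤ |(l : ℝ) - j.val + (Int.fract (b * t) - 1 / 2)| ∧
        |(l : ℝ) - j.val + (Int.fract (b * t) - 1 / 2)| ≤ b - 1 / 2 := by
      have hj0 : (0 : ℤ) ≤ (j.val : ℤ) := by positivity
      rcases lt_or_gt_of_ne hlj with hlt | hgt
      · have a1 : (l : ℝ) - j.val ≤ -1 := by
          have : l - (j.val : ℤ) ≤ -1 := by omega
          exact_mod_cast this
        have a2 : -((b : ℝ) - 1) ≤ (l : ℝ) - j.val := by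
          have : -((b : ℤ) - 1) ≤ l - (j.val : ℤ) := by omega
          exact_mod_cast this
        rw [abs_of_neg (by linarith)]
        constructor <;> linarith
      · have a1 : (1 : ℝ) ≤ (l : ℝ) - j.val := by
          have : 1 ≤ l - (j.val : ℤ) := by omega
          exact_mod_cast this
        have a2 : (l : ℝ) - j.val ≤ (b : ℝ) - 1 := by
          have : l - (j.val : ℤ) ≤ (b : ℤ) - 1 := by omega
          exact_mod_cast this
        rw [abs_of_pos (by linarith)]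
        constructor <;> linarith
    apply hf4 k
    · rw [abs_div, abs_of_pos hb, div_le_div_iff₀ (by positivity) hb]
      nlinarith [h1.1]
    · rw [abs_div, abs_of_pos hb, div_le_iff₀ hb]
      have : (1 - 1 / (2 * (b : ℝ))) * b = b - 1 / 2 := by field_simp
      rw [this]
      exact h1.2

/-- prescribed values on the good part of the rows -/
theorem exists_row_fun {b : ℕ} [NeZero b] {d : ℝ} (hd : 0 < d) (hd2 : d ≤ 1 / 2) (v : ZMod b → ℝ) :
    ∃ f : ℝ → ℝ, ContDiff ℝ ∞ f ∧ (∀ t, f (t + 1) = f t) ∧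
      ∀ t : ℝ, d ≤ Int.fract (b * t) → Int.fract (b * t) ≤ 1 - d →
        f t = v ((⌊(b : ℝ) * t⌋ : ℤ) : ZMod b) := by
  choose F h1 h2 h3 using fun j : ZMod b => exists_row_bump hd hd2 j
  refine ⟨fun t => ∑ j, v j * F j t, ?_, ?_, ?_⟩
  · exact ContDiff.sum fun j _ => contDiff_const.mul (h1 j)
  · intro t; simp [h2]
  · intro t ht1 ht2
    simp only [h3 _ t ht1 ht2]
    simp

/-! ### cells and good points -/

/-- the cell of a point -/
noncomputable def cell (q a b : ℕ) (y : ℝ × ℝ) : Cell q a b :=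
  (((⌊((q * a : ℕ) : ℝ) * y.1⌋ : ℤ) : ZMod (q * a)), ((⌊(b : ℝ) * y.2⌋ : ℤ) : ZMod b))

/-- the good points: not too close to the boundaries of the cells -/
structure Good (q a b : ℕ) (d : ℝ) (y : ℝ × ℝ) : Prop where
  l1 : d ≤ Int.fract (((q * a : ℕ) : ℝ) * y.1)
  u1 : Int.fract (((q * a : ℕ) : ℝ) * y.1) ≤ 1 - d
  l2 : d ≤ Int.fract ((b : ℝ) * y.2)
  u2 : Int.fract ((b : ℝ) * y.2) ≤ 1 - d

/-- `w` realises `σ` exactly on the good points -/
def Rz (q a b : ℕ) (d : ℝ) (w : Word) (σ : Cell q a b → Cell q a b) : Prop :=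
  ∀ y, Good q a b d y → cell q a b (Word.act q w y) = σ (cell q a b y) ∧
    Int.fract (((q * a : ℕ) : ℝ) * (Word.act q w y).1) = Int.fract (((q * a : ℕ) : ℝ) * y.1) ∧
    Int.fract ((b : ℝ) * (Word.act q w y).2) = Int.fract ((b : ℝ) * y.2)

variable {q a b : ℕ} {d : ℝ}

theorem Rz.good {w : Word} {σ : Cell q a b → Cell q a b} (h : Rz q a b d w σ) {y : ℝ × ℝ}
    (hy : Good q a b d y) : Good q a b d (Word.act q w y) := by
  obtain ⟨-, h1, h2⟩ := h y hy
  exact ⟨h1 ▸ hy.l1, h1 ▸ hy.u1, h2 ▸ hy.l2, h2 ▸ hy.u2⟩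

theorem Rz.comp {w w' : Word} {σ σ' : Cell q a b → Cell q a b} (h : Rz q a b d w σ)
    (h' : Rz q a b d w' σ') : Rz q a b d (w ++ w') (fun x => σ (σ' x)) := by
  intro y hy
  obtain ⟨a1, a2, a3⟩ := h' y hy
  obtain ⟨b1, b2, b3⟩ := h _ (h'.good hy)
  rw [Word.act_append]
  exact ⟨by rw [b1, a1], by rw [b2, a2], by rw [b3, a3]⟩

theorem Rz.nil : Rz q a b d [] (fun x => x) := fun y _ => ⟨rfl, rfl, rfl⟩

theorem rz_row [NeZero q] [NeZero a] [NeZero b] (hd : 0 < d) (hd2 : d ≤ 1 / 2) (j : ZMod b)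
    (e : ZMod (q * a)) : ∃ w, Rz q a b d w (rowR q a b j e) := by
  have : NeZero (q * a) := ⟨Nat.mul_ne_zero (NeZero.ne q) (NeZero.ne a)⟩
  have hN : (((q * a : ℕ) : ℝ)) ≠ 0 := by exact_mod_cast NeZero.ne (q * a)
  obtain ⟨f, h1, h2, h3⟩ := exists_row_fun hd hd2
    (fun j' : ZMod b => if j' = j then (e.val : ℝ) / ((q * a : ℕ) : ℝ) else 0)
  refine ⟨[⟨false, f, h1, h2⟩], ?_⟩
  intro y hy
  have e1 := h3 y.2 hy.l2 hy.u2
  have ea : Word.act q [⟨false, f, h1, h2⟩] y = (y.1 + f y.2, y.2) := by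
    simp [Sh1.act]
  rw [ea]
  by_cases h : ((⌊(b : ℝ) * y.2⌋ : ℤ) : ZMod b) = j
  · rw [e1, if_pos h]
    have e2 : ((q * a : ℕ) : ℝ) * (y.1 + (e.val : ℝ) / ((q * a : ℕ) : ℝ)) =
        ((q * a : ℕ) : ℝ) * y.1 + (e.val : ℕ) := by
      rw [mul_add, mul_div_cancel₀ _ hN]
    refine ⟨?_, ?_, rfl⟩
    · simp only [cell, rowR_apply, h, if_true]
      rw [e2, Int.floor_add_natCast]
      ext
      · push_cast
        rw [ZMod.natCast_zmod_val]
      · rfl
    · simp only
      rw [e2, Int.fract_add_natCast]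
  · rw [e1, if_neg h, add_zero]
    refine ⟨?_, rfl, rfl⟩
    simp only [rowR_apply]
    rw [if_neg]
    exact h

theorem rz_col [NeZero q] [NeZero a] [NeZero b] (hd : 0 < d) (hd2 : d ≤ 1 / 2) (c : ZMod a)
    (e : ZMod b) : ∃ w, Rz q a b d w (colR q a b c e) := by
  have hN : ((b : ℝ)) ≠ 0 := by exact_mod_cast NeZero.ne b
  obtain ⟨f, h1, h2, h3⟩ := exists_row_fun hd hd2
    (fun c' : ZMod a => if c' = c then (e.val : ℝ) / (b : ℝ) else 0)
  refine ⟨[⟨true, f, h1, h2⟩], ?_⟩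
  intro y hy
  have hq : (a : ℝ) * ((q : ℝ) * y.1) = ((q * a : ℕ) : ℝ) * y.1 := by push_cast; ring
  have e1 := h3 (q * y.1) (by rw [hq]; exact hy.l1) (by rw [hq]; exact hy.u1)
  rw [hq] at e1
  have ecl : ((⌊((q * a : ℕ) : ℝ) * y.1⌋ : ℤ) : ZMod a) =
      cl q a ((⌊((q * a : ℕ) : ℝ) * y.1⌋ : ℤ) : ZMod (q * a)) := by simp
  have ea : Word.act q [⟨true, f, h1, h2⟩] y = (y.1, y.2 + f (q * y.1)) := by
    simp [Sh1.act]
  rw [ea]
  by_cases h : ((⌊((q * a : ℕ) : ℝ) * y.1⌋ : ℤ) : ZMod a) = c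
  · rw [e1, if_pos h]
    have e2 : (b : ℝ) * (y.2 + (e.val : ℝ) / (b : ℝ)) = (b : ℝ) * y.2 + (e.val : ℕ) := by
      rw [mul_add, mul_div_cancel₀ _ hN]
    refine ⟨?_, rfl, ?_⟩
    · simp only [cell, colR_apply]
      rw [if_pos (ecl ▸ h), e2, Int.floor_add_natCast]
      ext
      · rfl
      · push_cast
        rw [ZMod.natCast_zmod_val]
    · simp only
      rw [e2, Int.fract_add_natCast]
  · rw [e1, if_neg h, add_zero]
    refine ⟨?_, rfl, rfl⟩
    simp only [colR_apply]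
    rw [if_neg]
    exact ecl ▸ h

/-- the group of exactly realisable equivariant permutations of the cells -/
def Hd (q a b : ℕ) (d : ℝ) : Subgroup (Perm (Cell q a b)) where
  carrier := {σ | (∃ w, Rz q a b d w σ) ∧ (∃ w, Rz q a b d w (σ⁻¹ : Perm _)) ∧
    σ * sh q a b = sh q a b * σ}
  mul_mem' := by
    rintro σ τ ⟨⟨w, hw⟩, ⟨w', hw'⟩, hc⟩ ⟨⟨v, hv⟩, ⟨v', hv'⟩, hc'⟩
    refine ⟨⟨w ++ v, hw.comp hv⟩, ⟨v' ++ w', ?_⟩, ?_⟩
    · rw [mul_inv_rev]; exact hv'.comp hw'
    · rw [mul_assoc, hc', ← mul_assoc, hc, mul_assoc]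
  one_mem' := ⟨⟨[], Rz.nil⟩, ⟨[], by rw [inv_one]; exact Rz.nil⟩, by simp⟩
  inv_mem' := by
    rintro σ ⟨hw, hw', hc⟩
    refine ⟨hw', by rwa [inv_inv], ?_⟩
    exact (show Commute σ (sh q a b) from hc).inv_left.eq

theorem rowR_inv (j : ZMod b) (e : ZMod (q * a)) : (rowR q a b j e)⁻¹ = rowR q a b j (-e) := by
  ext x : 1
  rw [rowR_inv_apply, rowR_apply]
  simp only [sub_eq_add_neg]

theorem colR_inv (c : ZMod a) (e : ZMod b) : (colR q a b c e)⁻¹ = colR q a b c (-e) := by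
  ext x : 1
  rw [colR_inv_apply, colR_apply]
  simp only [sub_eq_add_neg]

/-- **Grid form.** Every equivariant map of the cells, injective on orbits, is realised by a shear
word exactly on the good points of all cells outside two orbits. -/
theorem grid (hq : 0 < q) (ha : 3 ≤ a) (hb : 2 ≤ b) (hd : 0 < d) (hd2 : d ≤ 1 / 2)
    (σ : Cell q a b → Cell q a b) (hs : ∀ x, σ (sh q a b x) = sh q a b (σ x))
    (hi : ∀ x y, pr q a b (σ x) = pr q a b (σ y) → pr q a b x = pr q a b y)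
    (S : Finset (OCell a b)) (hS : S.card + 2 ≤ a * b) :
    ∃ w : Word, ∀ y, Good q a b d y → pr q a b (cell q a b y) ∈ S →
      cell q a b (Word.act q w y) = σ (cell q a b y) ∧
      Int.fract (((q * a : ℕ) : ℝ) * (Word.act q w y).1) = Int.fract (((q * a : ℕ) : ℝ) * y.1) ∧
      Int.fract ((b : ℝ) * (Word.act q w y).2) = Int.fract ((b : ℝ) * y.2) := by
  classical
  have : NeZero q := ⟨hq.ne'⟩
  have : NeZero a := ⟨by omega⟩
  have : NeZero b := ⟨by omega⟩
  have ho := orb q a b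
  have hH : ∀ τ ∈ Hd q a b d, τ * sh q a b = sh q a b * τ := fun τ hτ => hτ.2.2
  have hrow : ∀ j e, rowR q a b j e ∈ Hd q a b d := fun j e =>
    ⟨rz_row hd hd2 j e, by rw [rowR_inv]; exact rz_row hd hd2 j (-e), rowR_comm j e⟩
  have hcol : ∀ c e, colR q a b c e ∈ Hd q a b d := fun c e =>
    ⟨rz_col hd hd2 c e, by rw [colR_inv]; exact rz_col hd hd2 c (-e), colR_comm c e⟩
  choose r hr using fun o => ho.surj o
  have hσn : ∀ (n : ℕ) x, σ ((sh q a b ^ n) x) = (sh q a b ^ n) (σ x) := by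
    intro n
    induction n with
    | zero => intro x; simp
    | succ n ih => intro x; rw [pow_succ', Perm.mul_apply, Perm.mul_apply, hs, ih]
  obtain ⟨τ, hτ, hτS⟩ := greedy ho hH (fun x y z h1 h2 h3 => cyc_all ha hb hrow hcol hH x y z h1 h2 h3)
    r (fun o => σ (r o)) hr (by
      intro o o' h
      have := hi _ _ h
      rwa [hr, hr] at this) S (by simpa [ZMod.card] using hS)
  obtain ⟨w, hw⟩ := hτ.1
  refine ⟨w, ?_⟩
  intro y hy hyS
  obtain ⟨h1, h2, h3⟩ := hw y hy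
  refine ⟨?_, h2, h3⟩
  rw [h1]
  obtain ⟨n, hn⟩ := ho.tr (r (pr q a b (cell q a b y))) (cell q a b y) (by rw [hr])
  rw [hn, comm_pow (hH τ hτ), hσn, hτS _ hyS]

end Crest.Agent.R081.Sa
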