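import Mathlib

/-!
Row 81, node SHEAR APPROXIMATION, label half (helper245): L2 = optimal equivariant matching of
two equivariant labelings of the grid `ZMod (q*m) × ZMod n`.
-/

set_option autoImplicit false
open Equiv

namespace Crest.Agent.R081.SaL

section matching

/-- optimal matching without group action -/
theorem matching {Y L : Type*} [Fintype Y] [DecidableEq Y] [Fintype L] [DecidableEq L]
    (u v : Y → L) : ∃ σ : Perm Y,
      (Finset.univ.filter (fun y => v (σ y) ≠ u y)).card
        ≤ ∑ l, ((Finset.univ.filter (fun y => u y = l)).card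
            - (Finset.univ.filter (fun y => v y = l)).card) := by
  classical
  obtain ⟨σ, -, hσ⟩ := Finset.exists_min_image (Finset.univ : Finset (Perm Y))
    (fun σ => (Finset.univ.filter (fun y => v (σ y) ≠ u y)).card) ⟨1, Finset.mem_univ _⟩
  refine ⟨σ, ?_⟩
  by_contra hcon
  push Not at hcon
  have h1 : (Finset.univ.filter (fun y => v (σ y) ≠ u y)).card
      = ∑ l, (Finset.univ.filter (fun y => u y = l ∧ v (σ y) ≠ l)).card := by
    rw [Finset.card_eq_sum_card_fiberwise (f := u) (t := Finset.univ) (fun _ _ => Finset.mem_univ _)]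
    apply Finset.sum_congr rfl
    intro l _
    congr 1
    ext y
    simp only [Finset.mem_filter, Finset.mem_univ, true_and]
    constructor
    · rintro ⟨h1, h2⟩; exact ⟨h2, h2 ▸ h1⟩
    · rintro ⟨h1, h2⟩; exact ⟨by rw [h1]; exact h2, h1⟩
  rw [h1] at hcon
  obtain ⟨l, -, hl⟩ := Finset.exists_lt_of_sum_lt hcon
  have h2 : (Finset.univ.filter (fun y => u y = l)).card
      = (Finset.univ.filter (fun y => u y = l ∧ v (σ y) = l)).card
        + (Finset.univ.filter (fun y => u y = l ∧ v (σ y) ≠ l)).card := by
    rw [← Finset.filter_filter, ← Finset.filter_filter]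
    exact (Finset.card_filter_add_card_filter_not _).symm
  have h3 : (Finset.univ.filter (fun y => v y = l)).card
      = (Finset.univ.filter (fun y => v (σ y) = l)).card := by
    symm
    apply Finset.card_bij (fun y _ => σ y)
    · intro y hy; simpa using hy
    · intro a _ b _ h; exact σ.injective h
    · intro y hy
      exact ⟨σ.symm y, by simpa using hy, by simp⟩
  have h4 : (Finset.univ.filter (fun y => v (σ y) = l)).card
      = (Finset.univ.filter (fun y => v (σ y) = l ∧ u y = l)).card
        + (Finset.univ.filter (fun y => v (σ y) = l ∧ u y ≠ l)).card := by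
    rw [← Finset.filter_filter, ← Finset.filter_filter]
    exact (Finset.card_filter_add_card_filter_not _).symm
  have h5 : (Finset.univ.filter (fun y => v (σ y) = l ∧ u y = l)).card
      = (Finset.univ.filter (fun y => u y = l ∧ v (σ y) = l)).card := by
    congr 1; ext y; simp [and_comm]
  have h6 : 0 < (Finset.univ.filter (fun y => v (σ y) = l ∧ u y ≠ l)).card := by omega
  have h7 : 0 < (Finset.univ.filter (fun y => u y = l ∧ v (σ y) ≠ l)).card := by omega
  obtain ⟨y2, hy2⟩ := Finset.card_pos.1 h6
  obtain ⟨y1, hy1⟩ := Finset.card_pos.1 h7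
  simp only [Finset.mem_filter, Finset.mem_univ, true_and] at hy1 hy2
  have hne : y1 ≠ y2 := by
    rintro rfl; exact hy1.2 hy2.1
  have h8 := hσ (σ * swap y1 y2) (Finset.mem_univ _)
  have h9 : (Finset.univ.filter (fun y => v ((σ * swap y1 y2) y) ≠ u y)).card
      < (Finset.univ.filter (fun y => v (σ y) ≠ u y)).card := by
    apply Finset.card_lt_card
    rw [Finset.ssubset_iff_of_subset]
    · refine ⟨y1, ?_, ?_⟩
      · simp only [Finset.mem_filter, Finset.mem_univ, true_and]
        rw [hy1.1]; exact hy1.2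
      · intro h
        rw [Finset.mem_filter] at h
        apply h.2
        rw [Perm.mul_apply, swap_apply_left, hy2.1, hy1.1]
    · intro y hy
      simp only [Finset.mem_filter, Finset.mem_univ, true_and] at hy ⊢
      by_cases e1 : y = y1
      · subst e1; rw [hy1.1]; exact hy1.2
      by_cases e2 : y = y2
      · subst e2; rw [hy2.1]; exact fun h => hy2.2 h.symm
      · rw [Perm.mul_apply, swap_apply_of_ne_of_ne e1 e2] at hy
        exact hy
  omega

end matching

section sheets

variable (q m : ℕ) [NeZero q] [NeZero m]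

/-- value of the sheet coordinates -/
def shv (x : ZMod q × Fin m) : ZMod (q * m) := ((m * x.1.val + x.2.val : ℕ) : ZMod (q * m))

variable {q m}

omit [NeZero m] in
theorem shv_lt (x : ZMod q × Fin m) : m * x.1.val + x.2.val < q * m := by
  have h1 : x.1.val < q := ZMod.val_lt x.1
  have h2 : x.2.val < m := x.2.isLt
  calc m * x.1.val + x.2.val < m * x.1.val + m := by omega
    _ = m * (x.1.val + 1) := by ring
    _ ≤ m * q := Nat.mul_le_mul_left m h1
    _ = q * m := by ring

theorem shv_val (x : ZMod q × Fin m) : (shv q m x).val = m * x.1.val + x.2.val := by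
  rw [shv, ZMod.val_natCast, Nat.mod_eq_of_lt (shv_lt x)]

theorem shv_inj : Function.Injective (shv q m) := by
  intro x y h
  have h1 := congrArg ZMod.val h
  rw [shv_val, shv_val] at h1
  have hm : 0 < m := Nat.pos_of_ne_zero (NeZero.ne m)
  have h2 : x.2.val = y.2.val := by
    have := congrArg (· % m) h1
    simpa [Nat.mod_eq_of_lt x.2.isLt, Nat.mod_eq_of_lt y.2.isLt] using this
  have h3 : x.1.val = y.1.val := by
    rw [h2] at h1
    exact Nat.eq_of_mul_eq_mul_left hm (by omega)
  exact Prod.ext (ZMod.val_injective q h3) (Fin.ext h2)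

theorem shv_add (f : ZMod q) (i : Fin m) : shv q m (f + 1, i) = shv q m (f, i) + (m : ZMod (q * m)) := by
  have h1 : (((f + 1).val : ℕ) : ZMod q) = ((f.val + 1 : ℕ) : ZMod q) := by
    simp
  have h2 : (f + 1).val ≡ f.val + 1 [MOD q] := (ZMod.natCast_eq_natCast_iff _ _ q).1 h1
  have h3 : m * (f + 1).val + i.val ≡ m * f.val + i.val + m [MOD q * m] := by
    have h4 := (h2.mul_left' m).add_right i.val
    rw [mul_comm m q] at h4
    have h5 : m * (f.val + 1) + i.val = m * f.val + i.val + m := by ring
    rw [h5] at h4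
    exact h4
  have h6 := (ZMod.natCast_eq_natCast_iff _ _ (q * m)).2 h3
  rw [shv, shv, h6]
  push_cast
  ring

instance : NeZero (q * m) := ⟨Nat.mul_ne_zero (NeZero.ne q) (NeZero.ne m)⟩

theorem shv_bij : Function.Bijective (shv q m) := by
  rw [Fintype.bijective_iff_injective_and_card]
  exact ⟨shv_inj, by simp [ZMod.card]⟩

variable (q m)

/-- the grid as `q` sheets -/
noncomputable def sh (n : ℕ) : ZMod q × (Fin m × ZMod n) ≃ ZMod (q * m) × ZMod n :=
  (Equiv.prodAssoc _ _ _).symm.trans (Equiv.prodCongr (Equiv.ofBijective (shv q m) shv_bij) (Equiv.refl _))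

variable {q m}

theorem sh_apply {n : ℕ} (f : ZMod q) (y : Fin m × ZMod n) :
    sh q m n (f, y) = (shv q m (f, y.1), y.2) := rfl

theorem sh_add {n : ℕ} (f : ZMod q) (y : Fin m × ZMod n) :
    sh q m n (f + 1, y) = sh q m n (f, y) + ((m : ZMod (q * m)), 0) := by
  rw [sh_apply, sh_apply, shv_add]
  ext <;> simp

end sheets

section equimatch

variable {q : ℕ} [NeZero q] {Y L : Type*} [Fintype Y] [DecidableEq Y] [Fintype L] [DecidableEq L]

theorem equi_zero {A : Type*} (u : ZMod q × Y → ZMod q × A)
    (hu : ∀ f y, u (f + 1, y) = ((u (f, y)).1 + 1, (u (f, y)).2)) (f : ZMod q) (y : Y) :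
    u (f, y) = ((u (0, y)).1 + f, (u (0, y)).2) := by
  have h : ∀ k : ℕ, u ((k : ZMod q), y) = ((u (0, y)).1 + k, (u (0, y)).2) := by
    intro k
    induction k with
    | zero => simp
    | succ k ih =>
      rw [Nat.cast_succ, hu, ih]
      simp [add_assoc]
  have := h f.val
  simpa using this

/-- fibre form of the permutation -/
def fibPerm (σ : Perm Y) (φ : Y → ZMod q) : Perm (ZMod q × Y) where
  toFun x := (x.1 + φ x.2, σ x.2)
  invFun x := (x.1 - φ (σ.symm x.2), σ.symm x.2)
  left_inv x := by ext <;> simp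
  right_inv x := by ext <;> simp

theorem card_fib (P : Y → Prop) [DecidablePred P] :
    (Finset.univ.filter (fun x : ZMod q × Y => P x.2)).card
      = q * (Finset.univ.filter (fun y : Y => P y)).card := by
  have : (Finset.univ.filter (fun x : ZMod q × Y => P x.2))
      = (Finset.univ : Finset (ZMod q)) ×ˢ (Finset.univ.filter (fun y : Y => P y)) := by
    ext x; simp
  rw [this, Finset.card_product, Finset.card_univ, ZMod.card]

/-- equivariant optimal matching in product form -/
theorem equi_matching (u v : ZMod q × Y → ZMod q × L)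
    (hu : ∀ f y, u (f + 1, y) = ((u (f, y)).1 + 1, (u (f, y)).2))
    (hv : ∀ f y, v (f + 1, y) = ((v (f, y)).1 + 1, (v (f, y)).2)) :
    ∃ π : Perm (ZMod q × Y), (∀ f y, π (f + 1, y) = ((π (f, y)).1 + 1, (π (f, y)).2)) ∧
      (Finset.univ.filter (fun x => v (π x) ≠ u x)).card
        ≤ ∑ l, ((Finset.univ.filter (fun x => (u x).2 = l)).card
            - (Finset.univ.filter (fun x => (v x).2 = l)).card) := by
  classical
  obtain ⟨σ, hσ⟩ := matching (fun y => (u (0, y)).2) (fun y => (v (0, y)).2)
  refine ⟨fibPerm σ (fun y => (u (0, y)).1 - (v (0, σ y)).1), ?_, ?_⟩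
  · intro f y
    simp only [fibPerm, Equiv.coe_fn_mk]
    ext1
    · simp only; ring
    · rfl
  · have e1 : ∀ x : ZMod q × Y, v (fibPerm σ (fun y => (u (0, y)).1 - (v (0, σ y)).1) x) ≠ u x
        ↔ (v (0, σ x.2)).2 ≠ (u (0, x.2)).2 := by
      rintro ⟨f, y⟩
      simp only [fibPerm, Equiv.coe_fn_mk]
      rw [equi_zero v hv, equi_zero u hu f y, not_iff_not, Prod.ext_iff]
      simp only
      constructor
      · exact fun h => h.2
      · intro h
        refine ⟨by ring, h⟩
    simp_rw [e1]
    rw [card_fib (fun y => (v (0, σ y)).2 ≠ (u (0, y)).2)]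
    have e2 : ∀ (w : ZMod q × Y → ZMod q × L)
        (_ : ∀ f y, w (f + 1, y) = ((w (f, y)).1 + 1, (w (f, y)).2)) (l : L),
        (Finset.univ.filter (fun x => (w x).2 = l)).card
          = q * (Finset.univ.filter (fun y => (w (0, y)).2 = l)).card := by
      intro w hw l
      rw [← card_fib (fun y => (w (0, y)).2 = l)]
      congr 1
      ext ⟨f, y⟩
      simp only [Finset.mem_filter, Finset.mem_univ, true_and]
      rw [equi_zero w hw f y]
    calc q * (Finset.univ.filter (fun y => (v (0, σ y)).2 ≠ (u (0, y)).2)).card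
        ≤ q * ∑ l, ((Finset.univ.filter (fun y => (u (0, y)).2 = l)).card
            - (Finset.univ.filter (fun y => (v (0, y)).2 = l)).card) := Nat.mul_le_mul_left q hσ
      _ = _ := by
        rw [Finset.mul_sum]
        apply Finset.sum_congr rfl
        intro l _
        rw [e2 u hu l, e2 v hv l, Nat.mul_sub]

end equimatch

section grid

variable {q m n : ℕ} [NeZero q] [NeZero m] [NeZero n]

/-- (L2), product labels -/
theorem grid_matching {L : Type*} [Fintype L] [DecidableEq L]
    (u v : ZMod (q * m) × ZMod n → ZMod q × L)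
    (hu : ∀ c, u (c + ((m : ZMod (q * m)), 0)) = ((u c).1 + 1, (u c).2))
    (hv : ∀ c, v (c + ((m : ZMod (q * m)), 0)) = ((v c).1 + 1, (v c).2)) :
    ∃ π : Perm (ZMod (q * m) × ZMod n),
      (∀ c, π (c + ((m : ZMod (q * m)), 0)) = π c + ((m : ZMod (q * m)), 0)) ∧
      (Finset.univ.filter (fun x => v (π x) ≠ u x)).card
        ≤ ∑ l, ((Finset.univ.filter (fun x => (u x).2 = l)).card
            - (Finset.univ.filter (fun x => (v x).2 = l)).card) := by
  classical
  set e := sh q m n with he
  have hes : ∀ f y, e (f + 1, y) = e (f, y) + ((m : ZMod (q * m)), 0) := fun f y => sh_add f y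
  obtain ⟨π, h1, h2⟩ := equi_matching (fun x => u (e x)) (fun x => v (e x))
    (fun f y => by rw [hes, hu]) (fun f y => by rw [hes, hv])
  have hcard : ∀ (P : ZMod (q * m) × ZMod n → Prop) [DecidablePred P],
      (Finset.univ.filter (fun x => P (e x))).card = (Finset.univ.filter (fun c => P c)).card := by
    intro P _
    apply Finset.card_bij (fun x _ => e x)
    · intro x hx; simpa using hx
    · intro a _ b _ h; exact e.injective h
    · intro c hc
      exact ⟨e.symm c, by simpa using hc, by simp⟩
  refine ⟨e.symm.trans (π.trans e), ?_, ?_⟩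
  · intro c
    obtain ⟨⟨f, y⟩, rfl⟩ := e.surjective c
    rw [← hes]
    simp only [Equiv.trans_apply, Equiv.symm_apply_apply]
    rw [h1, hes]
  · rw [← hcard (fun c => v ((e.symm.trans (π.trans e)) c) ≠ u c)]
    simp only [Equiv.trans_apply, Equiv.symm_apply_apply]
    refine h2.trans (le_of_eq ?_)
    apply Finset.sum_congr rfl
    intro l _
    rw [hcard (fun c => (u c).2 = l), hcard (fun c => (v c).2 = l)]

/-- (L2) for labels in a grid `ZMod (q * m') × ZMod n'` -/
theorem grid_matching' {m' n' : ℕ} [NeZero m'] [NeZero n']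
    (u v : ZMod (q * m) × ZMod n → ZMod (q * m') × ZMod n')
    (hu : ∀ c, u (c + ((m : ZMod (q * m)), 0)) = u c + ((m' : ZMod (q * m')), 0))
    (hv : ∀ c, v (c + ((m : ZMod (q * m)), 0)) = v c + ((m' : ZMod (q * m')), 0)) :
    ∃ π : Perm (ZMod (q * m) × ZMod n),
      (∀ c, π (c + ((m : ZMod (q * m)), 0)) = π c + ((m : ZMod (q * m)), 0)) ∧
      (Finset.univ.filter (fun x => v (π x) ≠ u x)).card
        ≤ ∑ l, ((Finset.univ.filter (fun x => u x = l)).card
            - (Finset.univ.filter (fun x => v x = l)).card) := by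
  classical
  set e' := sh q m' n' with he'
  have hes : ∀ (l : ZMod (q * m') × ZMod n'),
      e'.symm (l + ((m' : ZMod (q * m')), 0)) = ((e'.symm l).1 + 1, (e'.symm l).2) := by
    intro l
    obtain ⟨⟨f, y⟩, rfl⟩ := e'.surjective l
    rw [Equiv.symm_apply_eq, Equiv.symm_apply_apply]
    exact (sh_add f y).symm
  obtain ⟨π, h1, h2⟩ := grid_matching (fun c => e'.symm (u c)) (fun c => e'.symm (v c))
    (fun c => by rw [hu, hes]) (fun c => by rw [hv, hes])
  refine ⟨π, h1, ?_⟩
  have e1 : ∀ c, (e'.symm (v (π c)) ≠ e'.symm (u c)) ↔ (v (π c) ≠ u c) := by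
    intro c; rw [not_iff_not]; exact e'.symm.injective.eq_iff
  simp_rw [e1] at h2
  refine h2.trans ?_
  have e2 : ∀ (w : ZMod (q * m) × ZMod n → ZMod (q * m') × ZMod n') (y : Fin m' × ZMod n'),
      (Finset.univ.filter (fun x => (e'.symm (w x)).2 = y)).card
        = ∑ f : ZMod q, (Finset.univ.filter (fun x => w x = e' (f, y))).card := by
    intro w y
    rw [Finset.card_eq_sum_card_fiberwise (f := fun x => (e'.symm (w x)).1) (t := Finset.univ)
      (fun _ _ => Finset.mem_univ _)]
    apply Finset.sum_congr rfl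
    intro f _
    congr 1
    ext x
    simp only [Finset.mem_filter, Finset.mem_univ, true_and]
    rw [← Equiv.symm_apply_eq]
    constructor
    · rintro ⟨h1, h2⟩; exact Prod.ext h2 h1
    · intro h; rw [h]; exact ⟨rfl, rfl⟩
  simp_rw [e2]
  have e3 : ∑ l, ((Finset.univ.filter (fun x => u x = l)).card
            - (Finset.univ.filter (fun x => v x = l)).card)
      = ∑ y : Fin m' × ZMod n', ∑ f : ZMod q, ((Finset.univ.filter (fun x => u x = e' (f, y))).card
            - (Finset.univ.filter (fun x => v x = e' (f, y))).card) := by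
    rw [← Finset.sum_product' (Finset.univ : Finset (Fin m' × ZMod n')) (Finset.univ : Finset (ZMod q))
      (fun y f => ((Finset.univ.filter (fun x => u x = e' (f, y))).card
            - (Finset.univ.filter (fun x => v x = e' (f, y))).card))]
    symm
    apply Fintype.sum_equiv ((Equiv.prodComm _ _).trans e')
    rintro ⟨y, f⟩
    rfl
  rw [e3]
  apply Finset.sum_le_sum
  intro y _
  rw [tsub_le_iff_right, ← Finset.sum_add_distrib]
  apply Finset.sum_le_sum
  intro f _
  omega

end grid

end Crest.Agent.R081.SaL
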