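import Mathlib

/-!
Row 81, node SHEAR APPROXIMATION, algebraic half (helper245).
Every permutation of the cells of the grid `ZMod (q*M) × ZMod N₂` (`N₂` even) which commutes with
the shift by `M` in the first coordinate is a product of one-row rotations and of one-column
rotations.
-/

set_option autoImplicit false
open Equiv Equiv.Perm MulAction

namespace Crest.Agent.R081.SaP

section abstractPart

variable {q : ℕ} {Y : Type*} [DecidableEq Y]

/-- local permutation: same sheet -/
def L (q : ℕ) (Y : Type*) : Perm Y →* Perm (ZMod q × Y) where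
  toFun σ := Equiv.prodCongr (Equiv.refl _) σ
  map_one' := by ext x <;> rfl
  map_mul' σ τ := by ext x <;> rfl

@[simp] theorem L_apply (σ : Perm Y) (x : ZMod q × Y) : L q Y σ x = (x.1, σ x.2) := rfl

/-- sheet rotation -/
def F (φ : Y → ZMod q) : Perm (ZMod q × Y) where
  toFun x := (x.1 + φ x.2, x.2)
  invFun x := (x.1 - φ x.2, x.2)
  left_inv x := by ext <;> simp
  right_inv x := by ext <;> simp

omit [DecidableEq Y] in
@[simp] theorem F_apply (φ : Y → ZMod q) (x : ZMod q × Y) : F φ x = (x.1 + φ x.2, x.2) := rfl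

omit [DecidableEq Y] in
theorem F_add (φ ψ : Y → ZMod q) : F (φ + ψ) = F φ * F ψ := by
  ext x
  · simp only [F_apply, Perm.mul_apply, Pi.add_apply]; ring
  · simp

omit [DecidableEq Y] in
theorem F_zero : F (0 : Y → ZMod q) = 1 := by
  ext x <;> simp

/-- all fibre rotations from the one-cell rotations -/
theorem F_mem [Fintype Y] [NeZero q] (S : Subgroup (Perm (ZMod q × Y)))
    (h : ∀ y : Y, F (Pi.single y (1 : ZMod q)) ∈ S) (φ : Y → ZMod q) : F φ ∈ S := by
  classical
  let A : AddSubmonoid (Y → ZMod q) :=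
    { carrier := {φ | F φ ∈ S}
      zero_mem' := by
        show F (0 : Y → ZMod q) ∈ S
        rw [F_zero]; exact S.one_mem
      add_mem' := by
        intro a b ha hb
        show F (a + b) ∈ S
        rw [F_add]; exact S.mul_mem ha hb }
  have h1 : ∀ y : Y, Pi.single y (1 : ZMod q) ∈ A := h
  have h2 : φ ∈ A := by
    have e : φ = ∑ y, (φ y).val • (Pi.single y (1 : ZMod q) : Y → ZMod q) := by
      ext y
      rw [Finset.sum_apply, Finset.sum_eq_single y]
      · simp
      · intro b _ hb
        simp [Pi.single_apply, hb.symm]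
      · simp
    rw [e]
    exact A.sum_mem (fun y _ => A.nsmul_mem (h1 y) _)
  exact h2

/-- a permutation commuting with the sheet shift is a local permutation times a fibre rotation -/
theorem decomp [NeZero q] (π : Perm (ZMod q × Y)) (h : ∀ x, π (x.1 + 1, x.2) = ((π x).1 + 1, (π x).2)) :
    ∃ (σ : Perm Y) (φ : Y → ZMod q), π = L q Y σ * F φ := by
  have hn : ∀ (n : ℕ) x, π (x.1 + n, x.2) = ((π x).1 + n, (π x).2) := by
    intro n
    induction n with
    | zero => intro x; simp
    | succ k ih =>
      intro x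
      have := h (x.1 + k, x.2)
      simp only at this
      rw [Nat.cast_add, Nat.cast_one, ← add_assoc, this, ih]
      simp [add_assoc]
  have hz : ∀ (f : ZMod q) x, π (x.1 + f, x.2) = ((π x).1 + f, (π x).2) := by
    intro f x
    have := hn f.val x
    simpa using this
  have h0 : ∀ x : ZMod q × Y, π x = ((π (0, x.2)).1 + x.1, (π (0, x.2)).2) := by
    intro x
    have := hz x.1 (0, x.2)
    simpa using this
  -- the inverse also commutes
  have h' : ∀ (f : ZMod q) x, π.symm (x.1 + f, x.2) = ((π.symm x).1 + f, (π.symm x).2) := by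
    intro f x
    apply π.injective
    rw [Equiv.apply_symm_apply, hz f (π.symm x)]
    simp
  have h0' : ∀ x : ZMod q × Y, π.symm x = ((π.symm (0, x.2)).1 + x.1, (π.symm (0, x.2)).2) := by
    intro x
    have := h' x.1 (0, x.2)
    simpa using this
  refine ⟨⟨fun y => (π (0, y)).2, fun y => (π.symm (0, y)).2, ?_, ?_⟩, fun y => (π (0, y)).1, ?_⟩
  · intro y
    show (π.symm (0, (π (0, y)).2)).2 = y
    have e := h0' (π (0, y))
    rw [Equiv.symm_apply_apply] at e
    exact (congrArg Prod.snd e).symm
  · intro y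
    show (π (0, (π.symm (0, y)).2)).2 = y
    have e := h0 (π.symm (0, y))
    rw [Equiv.apply_symm_apply] at e
    exact (congrArg Prod.snd e).symm
  · ext x
    · rw [h0 x]; simp [add_comm]
    · rw [h0 x]; simp

theorem mem_of_comm [Fintype Y] [NeZero q] (S : Subgroup (Perm (ZMod q × Y)))
    (hL : ∀ σ : Perm Y, L q Y σ ∈ S) (y0 : Y) (hF : F (Pi.single y0 (1 : ZMod q)) ∈ S)
    (π : Perm (ZMod q × Y)) (h : ∀ x, π (x.1 + 1, x.2) = ((π x).1 + 1, (π x).2)) : π ∈ S := by
  have h1 : ∀ y : Y, F (Pi.single y (1 : ZMod q)) ∈ S := by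
    intro y
    have e : F (Pi.single y (1 : ZMod q))
        = L q Y (swap y0 y) * F (Pi.single y0 (1 : ZMod q)) * (L q Y (swap y0 y))⁻¹ := by
      rw [← map_inv, swap_inv]
      ext x
      · simp only [F_apply, Perm.mul_apply, L_apply]
        congr 1
        by_cases hx : x.2 = y
        · subst hx; simp
        · rw [Pi.single_eq_of_ne hx, Pi.single_eq_of_ne]
          intro h2
          apply hx
          have := congrArg (swap y0 y) h2
          simpa using this
      · simp
    rw [e]
    exact S.mul_mem (S.mul_mem (hL _) hF) (S.inv_mem (hL _))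
  obtain ⟨σ, φ, rfl⟩ := decomp π h
  exact S.mul_mem (hL σ) (F_mem S h1 φ)

end abstractPart

section cells

variable (m n : ℕ) (q : ℕ)

/-- cells of one sheet -/
abbrev Y := Fin (m + 2) × ZMod (n + 1)

/-- rotation of column `i` -/
def colRot (i : Fin (m + 2)) : Perm (Y m n) where
  toFun x := if x.1 = i then (x.1, x.2 + 1) else x
  invFun x := if x.1 = i then (x.1, x.2 - 1) else x
  left_inv x := by
    by_cases h : x.1 = i
    · simp [h]; ext <;> simp [h]
    · simp [h]
  right_inv x := by
    by_cases h : x.1 = i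
    · simp [h]; ext <;> simp [h]
    · simp [h]

/-- rotation of row `j` within one sheet -/
def rowRot (j : ZMod (n + 1)) : Perm (Y m n) where
  toFun x := if x.2 = j then (x.1 + 1, x.2) else x
  invFun x := if x.2 = j then (x.1 - 1, x.2) else x
  left_inv x := by
    by_cases h : x.2 = j
    · simp [h]; ext <;> simp [h]
    · simp [h]
  right_inv x := by
    by_cases h : x.2 = j
    · simp [h]; ext <;> simp [h]
    · simp [h]

/-- rotation of the full row `j` (all sheets) -/
def R (j : ZMod (n + 1)) : Perm (ZMod q × Y m n) :=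
  F (Pi.single (0, j) (1 : ZMod q)) * L q (Y m n) (rowRot m n j)

variable {m n q}

theorem colRot_of_eq {i : Fin (m + 2)} {x : Y m n} (h : x.1 = i) :
    colRot m n i x = (x.1, x.2 + 1) := if_pos h

theorem colRot_of_ne {i : Fin (m + 2)} {x : Y m n} (h : x.1 ≠ i) :
    colRot m n i x = x := if_neg h

theorem rowRot_of_eq {j : ZMod (n + 1)} {x : Y m n} (h : x.2 = j) :
    rowRot m n j x = (x.1 + 1, x.2) := if_pos h

theorem rowRot_of_ne {j : ZMod (n + 1)} {x : Y m n} (h : x.2 ≠ j) :
    rowRot m n j x = x := if_neg h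

theorem R_of_ne {j : ZMod (n + 1)} {x : ZMod q × Y m n} (h : x.2.2 ≠ j) :
    R m n q j x = x := by
  simp only [R, Perm.mul_apply, L_apply, F_apply]
  rw [rowRot_of_ne h, Pi.single_eq_of_ne]
  · simp
  · intro h2; exact h (congrArg Prod.snd h2)

theorem R_of_ne0 {j : ZMod (n + 1)} {x : ZMod q × Y m n} (h : x.2.2 = j) (h2 : x.2.1 + 1 ≠ 0) :
    R m n q j x = (x.1, (x.2.1 + 1, x.2.2)) := by
  simp only [R, Perm.mul_apply, L_apply, F_apply]
  rw [rowRot_of_eq h, Pi.single_eq_of_ne]
  · simp
  · intro h3; exact h2 (congrArg Prod.fst h3)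

theorem R_of_0 {j : ZMod (n + 1)} {x : ZMod q × Y m n} (h : x.2.2 = j) (h2 : x.2.1 + 1 = 0) :
    R m n q j x = (x.1 + 1, (0, x.2.2)) := by
  simp only [R, Perm.mul_apply, L_apply, F_apply]
  rw [rowRot_of_eq h, h2, h]
  simp

/-- in all cases the new column is `x.2.1 + 1` -/
theorem R_snd {j : ZMod (n + 1)} {x : ZMod q × Y m n} (h : x.2.2 = j) :
    (R m n q j x).2 = (x.2.1 + 1, x.2.2) := by
  simp only [R, Perm.mul_apply, L_apply, F_apply]
  rw [rowRot_of_eq h]

theorem colRot_eq' (i : Fin (m + 2)) (j : ZMod (n + 1)) :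
    colRot m n i (i, j) = (i, j + 1) := if_pos rfl

theorem colRot_ne' {i i' : Fin (m + 2)} (h : i' ≠ i) (j : ZMod (n + 1)) :
    colRot m n i (i', j) = (i', j) := if_neg h

theorem R_ne0' {i : Fin (m + 2)} (h2 : i + 1 ≠ 0) (f : ZMod q) (j : ZMod (n + 1)) :
    R m n q j (f, (i, j)) = (f, (i + 1, j)) := R_of_ne0 rfl h2

theorem three {Z : Type*} [DecidableEq Z] {x a b : Z} (hxa : x ≠ a) (hxb : x ≠ b) (hab : a ≠ b) :
    (swap x b * swap x a) x = a ∧ (swap x b * swap x a) a = b ∧ (swap x b * swap x a) b = x ∧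
    ∀ y, y ≠ x → y ≠ a → y ≠ b → (swap x b * swap x a) y = y := by
  refine ⟨?_, ?_, ?_, ?_⟩
  · rw [Perm.mul_apply, swap_apply_left, swap_apply_of_ne_of_ne hxa.symm hab]
  · rw [Perm.mul_apply, swap_apply_right, swap_apply_left]
  · rw [Perm.mul_apply, swap_apply_of_ne_of_ne hxb.symm hab.symm, swap_apply_right]
  · intro y h1 h2 h3
    rw [Perm.mul_apply, swap_apply_of_ne_of_ne h1 h2, swap_apply_of_ne_of_ne h1 h3]

/-- the commutator relation -/
theorem comm_rel (hn : (1 : ZMod (n + 1)) ≠ 0) (i : Fin (m + 2)) (hi : i + 1 ≠ 0) (j : ZMod (n + 1)) :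
    R m n q j * L q (Y m n) (colRot m n i)
      = L q (Y m n) (swap (i, j) (i, j + 1) * swap (i, j) (i + 1, j))
        * L q (Y m n) (colRot m n i) * R m n q j := by
  have hii : i + 1 ≠ i := by simp
  have hjj : j + 1 ≠ j := by simpa using hn
  obtain ⟨k1, k2, k3, k4⟩ := three (x := ((i, j) : Y m n)) (a := (i + 1, j)) (b := (i, j + 1))
    (by simp) (by simpa using hn) (by simp)
  set K : Perm (Y m n) := swap (i, j) (i, j + 1) * swap (i, j) (i + 1, j) with hK
  clear_value K
  ext1 ⟨f, i', j'⟩
  rw [Perm.mul_apply, Perm.mul_apply, Perm.mul_apply, L_apply, L_apply, L_apply]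
  by_cases hj : j' = j
  · subst hj
    by_cases hi' : i' = i
    · subst hi'
      show R m n q j' (f, colRot m n i' (i', j')) = _
      rw [colRot_eq', R_of_ne (by simpa using hn), R_ne0' hi]
      show _ = (f, K (colRot m n i' (i' + 1, j')))
      rw [colRot_ne' hii, k2]
    · have e1 : (R m n q j' (f, (i', j'))).2 = (i' + 1, j') := R_snd rfl
      show R m n q j' (f, colRot m n i (i', j')) = _
      rw [colRot_ne' hi', e1]
      by_cases h1 : i' + 1 = i
      · rw [h1, colRot_eq', k3, ← h1, ← e1]
      · rw [colRot_ne' h1, k4, ← e1]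
        · simpa using h1
        · simpa using hi'
        · simp [h1]
  · by_cases hi' : i' = i
    · subst hi'
      show R m n q j (f, colRot m n i' (i', j')) = _
      rw [colRot_eq', R_of_ne (x := (f, (i', j'))) (by simpa using hj)]
      show _ = (f, K (colRot m n i' (i', j')))
      rw [colRot_eq']
      by_cases h1 : j' + 1 = j
      · rw [h1, R_ne0' hi, k1]
      · rw [R_of_ne (by simpa using h1), k4]
        · simpa using h1
        · simp
        · simpa using hj
    · show R m n q j (f, colRot m n i (i', j')) = _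
      rw [colRot_ne' hi', R_of_ne (by simpa using hj)]
      show _ = (f, K (colRot m n i (i', j')))
      rw [colRot_ne' hi', k4]
      · simp [hi']
      · simp [hj]
      · simp [hi']

end cells

section prim

variable {Z : Type*} [DecidableEq Z]

theorem block_T {G : Subgroup (Perm Z)} {B : Set Z} (hB : IsBlock G B) {x a b : Z}
    (hxa : x ≠ a) (hxb : x ≠ b) (hab : a ≠ b) (hg : swap x b * swap x a ∈ G)
    (hn : B.Nontrivial) (hm : x ∈ B ∨ a ∈ B ∨ b ∈ B) : x ∈ B ∧ a ∈ B ∧ b ∈ B := by
  obtain ⟨gx, ga, gb, gy⟩ := three hxa hxb hab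
  set g : Perm Z := swap x b * swap x a with hgdef
  have key : (∃ y ∈ B, g y ∈ B) → x ∈ B ∧ a ∈ B ∧ b ∈ B := by
    rintro ⟨y, hy, hgy⟩
    have h1 := (isBlock_iff_smul_eq_of_mem.1 hB) (g := ⟨g, hg⟩) hy hgy
    have h2 : ∀ z ∈ B, g z ∈ B := by
      intro z hz
      rw [← h1]
      exact Set.smul_mem_smul_set hz
    rcases hm with h | h | h
    · have := h2 _ h; rw [gx] at this
      have h3 := h2 _ this; rw [ga] at h3
      exact ⟨h, this, h3⟩
    · have := h2 _ h; rw [ga] at this
      have h3 := h2 _ this; rw [gb] at h3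
      exact ⟨h3, h, this⟩
    · have := h2 _ h; rw [gb] at this
      have h3 := h2 _ this; rw [gx] at h3
      exact ⟨this, h3, h⟩
  apply key
  rcases hm with h | h | h
  · obtain ⟨y, hy, hne⟩ := hn.exists_ne x
    by_cases h1 : y = a
    · exact ⟨x, h, by rw [gx, ← h1]; exact hy⟩
    by_cases h2 : y = b
    · exact ⟨y, hy, by rw [h2, gb]; exact h⟩
    · exact ⟨y, hy, by rw [gy y hne h1 h2]; exact hy⟩
  · obtain ⟨y, hy, hne⟩ := hn.exists_ne a
    by_cases h1 : y = b
    · exact ⟨a, h, by rw [ga, ← h1]; exact hy⟩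
    by_cases h2 : y = x
    · exact ⟨y, hy, by rw [h2, gx]; exact h⟩
    · exact ⟨y, hy, by rw [gy y h2 hne h1]; exact hy⟩
  · obtain ⟨y, hy, hne⟩ := hn.exists_ne b
    by_cases h1 : y = x
    · exact ⟨b, h, by rw [gb, ← h1]; exact hy⟩
    by_cases h2 : y = a
    · exact ⟨y, hy, by rw [h2, ga]; exact h⟩
    · exact ⟨y, hy, by rw [gy y h1 h2 hne]; exact hy⟩


variable {m n : ℕ}

/-- the local group contains all permutations of one sheet -/
theorem local_top (G : Subgroup (Perm (Y m n))) (hn : Odd n)
    (hc : ∀ i, colRot m n i ∈ G)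
    (h3 : ∀ (i : Fin (m + 2)) (j : ZMod (n + 1)), i + 1 ≠ 0 →
      swap ((i, j) : Y m n) (i, j + 1) * swap ((i, j) : Y m n) (i + 1, j) ∈ G)
    (σ : Perm (Y m n)) : σ ∈ G := by
  have hn0 : n ≠ 0 := by rintro rfl; exact absurd hn (by decide)
  have h1n : (1 : ZMod (n + 1)) ≠ 0 := by
    haveI : Fact (1 < n + 1) := ⟨by omega⟩
    exact one_ne_zero
  have h0 : (0 : Fin (m + 2)) + 1 ≠ 0 := by simp
  have hstep : ∀ (B : Set (Y m n)), IsBlock G B → B.Nontrivial → ∀ (i : Fin (m + 2))
      (j : ZMod (n + 1)), i + 1 ≠ 0 → (i, j) ∈ B → (i + 1, j) ∈ B ∧ (i, j + 1) ∈ B := by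
    intro B hB hBn i j hi hm
    have := block_T hB (x := ((i, j) : Y m n)) (a := (i + 1, j)) (b := (i, j + 1))
      (by simp) (by simpa using h1n) (by simp) (h3 i j hi) hBn (Or.inl hm)
    exact this.2
  have hprim : IsPreprimitive G (Y m n) := by
    apply IsPreprimitive.of_isTrivialBlock_of_notMem_fixedPoints (a := ((0, 0) : Y m n))
    · intro hfix
      have := hfix ⟨_, hc 0⟩
      have h2 : colRot m n 0 (0, 0) = (0, 0) := this
      rw [colRot_eq'] at h2
      apply h1n
      simpa using h2
    · intro B hmem hB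
      by_cases hBs : B.Subsingleton
      · exact Or.inl hBs
      right
      rw [Set.not_subsingleton_iff] at hBs
      have hA := hstep B hB hBs
      have hcol0 : ∀ k : ℕ, ((0 : Fin (m + 2)), (k : ZMod (n + 1))) ∈ B := by
        intro k
        induction k with
        | zero => simpa using hmem
        | succ k ih => simpa using (hA 0 k h0 ih).2
      have hcol : ∀ j : ZMod (n + 1), ((0 : Fin (m + 2)), j) ∈ B := by
        intro j
        have := hcol0 j.val
        simpa using this
      have hall : ∀ (k : ℕ) (hk : k < m + 2) (j : ZMod (n + 1)),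
          ((⟨k, hk⟩ : Fin (m + 2)), j) ∈ B := by
        intro k
        induction k with
        | zero => intro hk j; exact hcol j
        | succ k ih =>
          intro hk j
          have h1 := ih (by omega) j
          have e : (⟨k, by omega⟩ : Fin (m + 2)) + 1 = ⟨k + 1, hk⟩ := by
            apply Fin.ext
            rw [Fin.val_add]
            simp
            omega
          have h2 := (hA ⟨k, by omega⟩ j (by
            rw [e]; intro h; exact absurd (congrArg Fin.val h) (by simp)) h1).1
          rw [e] at h2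
          exact h2
      apply Set.eq_univ_of_forall
      rintro ⟨i, j⟩
      exact hall i.1 i.2 j
  have h3c : IsThreeCycle (swap ((0, 0) : Y m n) (0, 0 + 1) * swap ((0, 0) : Y m n) (0 + 1, 0)) := by
    apply isThreeCycle_swap_mul_swap_same
    · simpa using h1n.symm
    · simp
    · simp
  have halt := alternatingGroup_le_of_isPreprimitive_of_isThreeCycle_mem hprim h3c (h3 0 0 h0)
  have hsc : sign (colRot m n 0) = -1 := by
    have e : colRot m n 0
        = prodExtendRight (0 : Fin (m + 2)) (Equiv.addRight (1 : ZMod (n + 1))) := by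
      ext1 ⟨i, j⟩
      by_cases hi : i = 0
      · subst hi
        rw [colRot_eq', prodExtendRight_apply_eq]
        rfl
      · rw [colRot_ne' hi, prodExtendRight_apply_ne _ hi]
    have hs : sign (Equiv.addRight (1 : ZMod (n + 1))) = (-1) ^ n := by
      have h : sign (finRotate (n + 1)) = (-1) ^ n := by
        rw [sign_finRotate]; simp
      have e3 : (Equiv.addRight (1 : ZMod (n + 1)) : Perm (Fin (n + 1))) = finRotate (n + 1) := by
        ext1 j
        rw [finRotate_succ_apply]
        rfl
      rw [← h, ← e3]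
      congr 1
    rw [e, sign_prodExtendRight, hs, hn.neg_one_pow]
  rcases Int.units_eq_one_or (sign σ) with h | h
  · exact halt (mem_alternatingGroup.2 h)
  · have h2 : σ * (colRot m n 0)⁻¹ ∈ G := by
      apply halt
      rw [mem_alternatingGroup, Perm.sign_mul, Perm.sign_inv, h, hsc]
      decide
    have := G.mul_mem h2 (hc 0)
    simpa using this

end prim

section abstractMain

variable {m n q : ℕ}

/-- every permutation commuting with the sheet shift is generated by one-row rotations and
one-column rotations -/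
theorem main_abs [NeZero q] (hn : Odd n) (S : Subgroup (Perm (ZMod q × Y m n)))
    (hR : ∀ j, R m n q j ∈ S) (hC : ∀ i, L q (Y m n) (colRot m n i) ∈ S)
    (π : Perm (ZMod q × Y m n))
    (h : ∀ x, π (x.1 + 1, x.2) = ((π x).1 + 1, (π x).2)) : π ∈ S := by
  have hn0 : n ≠ 0 := by rintro rfl; exact absurd hn (by decide)
  have h1n : (1 : ZMod (n + 1)) ≠ 0 := by
    haveI : Fact (1 < n + 1) := ⟨by omega⟩
    exact one_ne_zero
  have hL : ∀ σ : Perm (Y m n), L q (Y m n) σ ∈ S := by
    intro σ
    have := local_top (S.comap (L q (Y m n))) hn (fun i => hC i) (fun i j hi => by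
      show L q (Y m n) _ ∈ S
      have e := comm_rel (q := q) h1n i hi j
      have e2 : L q (Y m n) (swap (i, j) (i, j + 1) * swap (i, j) (i + 1, j))
          = R m n q j * L q (Y m n) (colRot m n i) * (R m n q j)⁻¹ * (L q (Y m n) (colRot m n i))⁻¹ := by
        rw [e]; group
      rw [e2]
      exact S.mul_mem (S.mul_mem (S.mul_mem (hR j) (hC i)) (S.inv_mem (hR j))) (S.inv_mem (hC i))) σ
    exact this
  apply mem_of_comm S hL (0, 0) _ π h
  have e : F (Pi.single ((0, 0) : Y m n) (1 : ZMod q)) = R m n q 0 * (L q (Y m n) (rowRot m n 0))⁻¹ := by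
    rw [R]; group
  rw [e]
  exact S.mul_mem (hR 0) (S.inv_mem (hL _))

end abstractMain

end Crest.Agent.R081.SaP
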