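import Mathlib

/-!
Row 81, DGLUE sub-node G1 (helper245): the section change of variables
`∫_{[0,1)²} F = ∫_c (1/n) Σ_i ∫_t F (c/(q n) + N i/n, t)` for `F` invariant under `y₁ += 1/q`.
-/

set_option autoImplicit false
open MeasureTheory Set
open scoped ENNReal

namespace Crest.Agent.R081.SaS

/-- affine change of variables on an interval -/
theorem scale {g : ℝ → ℝ≥0∞} (hg : Measurable g) {a : ℝ} (ha : 0 < a) (b : ℝ) :
    ∫⁻ x in Ico b (b + a), g x = ENNReal.ofReal a * ∫⁻ c in Ico (0:ℝ) 1, g (a * c + b) := by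
  set h : ℝ → ℝ≥0∞ := (Ico b (b + a)).indicator g with hh
  have hm : Measurable h := hg.indicator measurableSet_Ico
  have e1 : ∫⁻ x in Ico b (b + a), g x = ∫⁻ x, h x := by
    rw [hh, lintegral_indicator measurableSet_Ico]
  have e2 : ∫⁻ c in Ico (0:ℝ) 1, g (a * c + b) = ∫⁻ c, h (a * c + b) := by
    rw [← lintegral_indicator measurableSet_Ico]
    apply lintegral_congr
    intro c
    by_cases hc : c ∈ Ico (0:ℝ) 1
    · have h2 : a * c + b ∈ Ico b (b + a) := by
        constructor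
        · nlinarith [hc.1]
        · nlinarith [hc.2]
      rw [indicator_of_mem hc, hh, indicator_of_mem h2]
    · have h2 : a * c + b ∉ Ico b (b + a) := by
        intro h3
        apply hc
        constructor
        · by_contra hneg
          push Not at hneg
          nlinarith [h3.1]
        · by_contra hneg
          push Not at hneg
          nlinarith [h3.2]
      rw [indicator_of_notMem hc, hh, indicator_of_notMem h2]
  have e3 : ∫⁻ c, h (a * c + b) = ENNReal.ofReal a⁻¹ * ∫⁻ x, h x := by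
    have h1 : ∫⁻ c, h (a * c + b) = ∫⁻ x, h (x + b) ∂(Measure.map (fun c => a * c) volume) := by
      have hm2 : Measurable (fun x => h (x + b)) := hm.comp (measurable_id.add_const b)
      rw [lintegral_map hm2 (measurable_const_mul a)]
    rw [h1, Real.map_volume_mul_left ha.ne', lintegral_smul_measure,
      lintegral_add_right_eq_self, abs_of_pos (inv_pos.2 ha)]
    rfl
  rw [e1, e2, e3, ← mul_assoc, ← ENNReal.ofReal_mul ha.le, mul_inv_cancel₀ ha.ne',
    ENNReal.ofReal_one, one_mul]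

/-- splitting `[0,1)` into `K` intervals -/
theorem split {g : ℝ → ℝ≥0∞} (K : ℕ) (hK : 0 < K) :
    ∫⁻ x in Ico (0:ℝ) 1, g x
      = ∑ k ∈ Finset.range K, ∫⁻ x in Ico ((k:ℝ) / K) ((k:ℝ) / K + 1 / K), g x := by
  have hK' : (0:ℝ) < K := Nat.cast_pos.2 hK
  have h : ∀ m : ℕ, ∫⁻ x in Ico (0:ℝ) ((m:ℝ) / K), g x
      = ∑ k ∈ Finset.range m, ∫⁻ x in Ico ((k:ℝ) / K) ((k:ℝ) / K + 1 / K), g x := by
    intro m
    induction m with
    | zero => simp
    | succ m ih =>
      rw [Finset.sum_range_succ, ← ih, ← lintegral_union measurableSet_Ico]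
      · have e : ((m + 1 : ℕ) : ℝ) / K = (m:ℝ) / K + 1 / K := by push_cast; ring
        rw [e, Ico_union_Ico_eq_Ico (by positivity) (by
          have : (0:ℝ) < 1 / K := by positivity
          linarith)]
      · rw [Set.disjoint_left]
        rintro x ⟨_, h1⟩ ⟨h2, _⟩
        exact absurd h2 (not_le.2 h1)
  have := h K
  rwa [div_self hK'.ne'] at this

theorem sum_range_periodic {M : Type*} [AddCommMonoid M] (u : ℕ → M) (n q : ℕ)
    (hu : ∀ k, u (k + n) = u k) :
    ∑ k ∈ Finset.range (q * n), u k = q • ∑ i ∈ Finset.range n, u i := by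
  have h2 : ∀ r k, u (r * n + k) = u k := by
    intro r
    induction r with
    | zero => intro k; simp
    | succ r ih =>
      intro k
      have : (r + 1) * n + k = (r * n + k) + n := by ring
      rw [this, hu, ih]
  induction q with
  | zero => simp
  | succ q ih =>
    rw [Nat.succ_mul, Finset.sum_range_add, ih, succ_nsmul]
    congr 1
    exact Finset.sum_congr rfl (fun k _ => h2 q k)

/-- one-dimensional section formula -/
theorem section1 {q n : ℕ} (hq : 0 < q) (hn : 0 < n) (N : ℤ) (hN : (n : ℤ) ∣ N * q - 1)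
    {g : ℝ → ℝ≥0∞} (hg : Measurable g) (hinv : ∀ x, g (x + 1 / (q:ℝ)) = g x) :
    ∫⁻ x in Ico (0:ℝ) 1, g x
      = ∫⁻ c in Ico (0:ℝ) 1, (n : ℝ≥0∞)⁻¹ * ∑ i ∈ Finset.range n,
          g (c / (q * n) + N * i / n) := by
  have hq' : (0:ℝ) < q := Nat.cast_pos.2 hq
  have hn' : (0:ℝ) < n := Nat.cast_pos.2 hn
  have hinvZ : ∀ (m : ℤ) (x : ℝ), g (x + m / (q:ℝ)) = g x := by
    have hnat : ∀ (m : ℕ) (x : ℝ), g (x + m / (q:ℝ)) = g x := by
      intro m
      induction m with
      | zero => intro x; simp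
      | succ m ih =>
        intro x
        have : x + ((m + 1 : ℕ) : ℝ) / q = (x + m / q) + 1 / q := by push_cast; ring
        rw [this, hinv, ih]
    intro m x
    obtain ⟨k, rfl | rfl⟩ := m.eq_nat_or_neg
    · simpa using hnat k x
    · have := hnat k (x + ((-(k:ℤ) : ℤ) : ℝ) / q)
      rw [← this]
      congr 1
      push_cast
      ring
  have hqn : 0 < q * n := Nat.mul_pos hq hn
  have hqn' : ((q * n : ℕ) : ℝ) = q * n := by push_cast; ring
  rw [split (q * n) hqn]
  have e1 : ∀ k : ℕ, ∫⁻ x in Ico ((k:ℝ) / (q * n : ℕ)) ((k:ℝ) / (q * n : ℕ) + 1 / (q * n : ℕ)), g x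
      = ENNReal.ofReal (1 / (q * n)) * ∫⁻ c in Ico (0:ℝ) 1, g (c / (q * n) + k / (q * n)) := by
    intro k
    rw [hqn', scale hg (by positivity)]
    congr 2
    ext c
    congr 1
    ring
  simp_rw [e1]
  rw [← Finset.mul_sum]
  have hu : ∀ k : ℕ, (fun k : ℕ => ∫⁻ c in Ico (0:ℝ) 1, g (c / (q * n) + k / (q * n))) (k + n)
      = (fun k : ℕ => ∫⁻ c in Ico (0:ℝ) 1, g (c / (q * n) + k / (q * n))) k := by
    intro k
    simp only
    apply lintegral_congr
    intro c
    rw [← hinv (c / (q * n) + k / (q * n))]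
    congr 1
    push_cast
    field_simp
    ring
  rw [sum_range_periodic (fun k : ℕ => ∫⁻ c in Ico (0:ℝ) 1, g (c / (q * n) + k / (q * n))) n q hu]
  have e2 : ∀ i : ℕ, ∫⁻ c in Ico (0:ℝ) 1, g (c / (q * n) + i / (q * n))
      = ∫⁻ c in Ico (0:ℝ) 1, g (c / (q * n) + N * i / n) := by
    intro i
    apply lintegral_congr
    intro c
    obtain ⟨m, hm⟩ := hN
    rw [← hinvZ (i * m) (c / (q * n) + i / (q * n))]
    congr 1
    have hm' : (N:ℝ) * q - 1 = n * m := by exact_mod_cast hm
    have hN' : (N:ℝ) = (n * m + 1) / q := by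
      field_simp; linarith
    rw [hN']
    push_cast
    field_simp
    ring
  simp_rw [e2]
  rw [lintegral_const_mul' _ _ (ENNReal.inv_ne_top.2 (by exact_mod_cast hn.ne')),
    lintegral_finsetSum']
  · rw [nsmul_eq_mul, ← mul_assoc]
    congr 1
    rw [← ENNReal.ofReal_natCast q, ← ENNReal.ofReal_mul (by positivity),
      ← ENNReal.ofReal_natCast n, ← ENNReal.ofReal_inv_of_pos hn']
    congr 1
    field_simp
  · intro i _
    exact (hg.comp ((measurable_id.div_const _).add_const _)).aemeasurable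

theorem restrict_sq : (volume : Measure (ℝ × ℝ)).restrict (Ico (0:ℝ) 1 ×ˢ Ico (0:ℝ) 1)
    = (volume.restrict (Ico (0:ℝ) 1)).prod (volume.restrict (Ico (0:ℝ) 1)) := by
  rw [Measure.volume_eq_prod, Measure.prod_restrict]

/-- **(G1)**, `lintegral` form -/
theorem section_lintegral {q n : ℕ} (hq : 0 < q) (hn : 0 < n) (N : ℤ) (hN : (n : ℤ) ∣ N * q - 1)
    {F : ℝ × ℝ → ℝ≥0∞} (hF : Measurable F) (hinv : ∀ y : ℝ × ℝ, F (y.1 + 1 / (q:ℝ), y.2) = F y) :
    ∫⁻ y in Ico (0:ℝ) 1 ×ˢ Ico (0:ℝ) 1, F y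
      = ∫⁻ c in Ico (0:ℝ) 1, (n : ℝ≥0∞)⁻¹ * ∑ i ∈ Finset.range n,
          ∫⁻ t in Ico (0:ℝ) 1, F (c / (q * n) + N * i / n, t) := by
  rw [restrict_sq, lintegral_prod _ hF.aemeasurable]
  exact section1 hq hn N hN (g := fun x => ∫⁻ t in Ico (0:ℝ) 1, F (x, t))
    hF.lintegral_prod_right' (fun x => by
      apply lintegral_congr
      intro t
      exact hinv (x, t))

/-- **(G1)**, set form -/
theorem section_volume {q n : ℕ} (hq : 0 < q) (hn : 0 < n) (N : ℤ) (hN : (n : ℤ) ∣ N * q - 1)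
    {W : Set (ℝ × ℝ)} (hW : MeasurableSet W)
    (hinv : ∀ y : ℝ × ℝ, (y.1 + 1 / (q:ℝ), y.2) ∈ W ↔ y ∈ W) :
    volume ((Ico (0:ℝ) 1 ×ˢ Ico (0:ℝ) 1) ∩ W)
      = ∫⁻ c in Ico (0:ℝ) 1, (n : ℝ≥0∞)⁻¹ * ∑ i ∈ Finset.range n,
          volume (Ico (0:ℝ) 1 ∩ {t | (c / (q * n) + N * i / n, t) ∈ W}) := by
  have h := section_lintegral hq hn N hN (F := W.indicator 1)
    (measurable_one.indicator hW) (fun y => by
      by_cases hy : y ∈ W
      · rw [indicator_of_mem hy, indicator_of_mem ((hinv y).2 hy)]; rfl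
      · rw [indicator_of_notMem hy, indicator_of_notMem (fun h => hy ((hinv y).1 h))])
  rw [lintegral_indicator_one hW, Measure.restrict_apply hW, inter_comm] at h
  rw [h]
  apply lintegral_congr
  intro c
  congr 1
  apply Finset.sum_congr rfl
  intro i _
  have hm : MeasurableSet {t : ℝ | (c / (q * n) + N * i / n, t) ∈ W} :=
    measurable_prodMk_left hW
  have e : ∀ t : ℝ, W.indicator (1 : ℝ × ℝ → ℝ≥0∞) (c / (q * n) + N * i / n, t)
      = {t : ℝ | (c / (q * n) + N * i / n, t) ∈ W}.indicator 1 t := by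
    intro t
    rfl
  simp_rw [e]
  rw [lintegral_indicator_one hm, Measure.restrict_apply hm, inter_comm]

/-- **(G1)**, real form (bounded measurable nonnegative `F`), interval integrals -/
theorem section_integral {q n : ℕ} (hq : 0 < q) (hn : 0 < n) (N : ℤ) (hN : (n : ℤ) ∣ N * q - 1)
    {F : ℝ × ℝ → ℝ} (hF : Measurable F) {B : ℝ} (h0 : ∀ y, 0 ≤ F y) (hB : ∀ y, F y ≤ B)
    (hinv : ∀ y : ℝ × ℝ, F (y.1 + 1 / (q:ℝ), y.2) = F y) :
    ∫ y in Ico (0:ℝ) 1 ×ˢ Ico (0:ℝ) 1, F y
      = ∫ c in (0:ℝ)..1, (1 / (n : ℝ)) * ∑ i ∈ Finset.range n,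
          ∫ t in (0:ℝ)..1, F (c / (q * n) + N * i / n, t) := by
  have hn' : (0:ℝ) < n := Nat.cast_pos.2 hn
  have hB0 : 0 ≤ B := (h0 0).trans (hB 0)
  -- inner integrals
  have hin : ∀ x : ℝ, ENNReal.ofReal (∫ t in (0:ℝ)..1, F (x, t))
      = ∫⁻ t in Ico (0:ℝ) 1, ENNReal.ofReal (F (x, t)) := by
    intro x
    rw [intervalIntegral.integral_of_le zero_le_one, ← integral_Ico_eq_integral_Ioc,
      ofReal_integral_eq_lintegral_ofReal]
    · apply Measure.integrableOn_of_bounded (M := B) (by simp)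
        (hF.comp measurable_prodMk_left).aestronglyMeasurable
      exact Filter.Eventually.of_forall (fun t => by
        rw [Real.norm_eq_abs]
        show |F (x, t)| ≤ B
        rw [abs_of_nonneg (h0 _)]; exact hB _)
    · exact Filter.Eventually.of_forall (fun t => h0 _)
  have hin0 : ∀ x : ℝ, 0 ≤ ∫ t in (0:ℝ)..1, F (x, t) := fun x =>
    intervalIntegral.integral_nonneg zero_le_one (fun t _ => h0 _)
  have hinB : ∀ x : ℝ, ∫ t in (0:ℝ)..1, F (x, t) ≤ B := by
    intro x
    have h1 : ∫ t in (0:ℝ)..1, F (x, t) ≤ ∫ t in (0:ℝ)..1, B := by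
      apply intervalIntegral.integral_mono_on zero_le_one _ (intervalIntegrable_const)
        (fun t _ => hB _)
      rw [intervalIntegrable_iff_integrableOn_Ioc_of_le zero_le_one]
      apply Measure.integrableOn_of_bounded (M := B) (by simp)
        (hF.comp measurable_prodMk_left).aestronglyMeasurable
      exact Filter.Eventually.of_forall (fun t => by
        rw [Real.norm_eq_abs]
        show |F (x, t)| ≤ B
        rw [abs_of_nonneg (h0 _)]; exact hB _)
    simpa using h1
  have hmi : Measurable (fun x : ℝ => ∫ t in (0:ℝ)..1, F (x, t)) := by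
    have : (fun x : ℝ => ∫ t in (0:ℝ)..1, F (x, t))
        = fun x => (∫⁻ t in Ico (0:ℝ) 1, ENNReal.ofReal (F (x, t))).toReal := by
      ext x
      rw [← hin, ENNReal.toReal_ofReal (hin0 x)]
    rw [this]
    exact (hF.ennreal_ofReal.lintegral_prod_right' (ν := volume.restrict (Ico (0:ℝ) 1))).ennreal_toReal
  have hout : ENNReal.ofReal (∫ c in (0:ℝ)..1, (1 / (n : ℝ)) * ∑ i ∈ Finset.range n,
          ∫ t in (0:ℝ)..1, F (c / (q * n) + N * i / n, t))
      = ∫⁻ c in Ico (0:ℝ) 1, (n : ℝ≥0∞)⁻¹ * ∑ i ∈ Finset.range n,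
          ∫⁻ t in Ico (0:ℝ) 1, ENNReal.ofReal (F (c / (q * n) + N * i / n, t)) := by
    have hpt : ∀ c : ℝ, ENNReal.ofReal ((1 / (n : ℝ)) * ∑ i ∈ Finset.range n,
          ∫ t in (0:ℝ)..1, F (c / (q * n) + N * i / n, t))
        = (n : ℝ≥0∞)⁻¹ * ∑ i ∈ Finset.range n,
          ∫⁻ t in Ico (0:ℝ) 1, ENNReal.ofReal (F (c / (q * n) + N * i / n, t)) := by
      intro c
      rw [ENNReal.ofReal_mul (by positivity), ENNReal.ofReal_sum_of_nonneg (fun i _ => hin0 _),
        one_div, ENNReal.ofReal_inv_of_pos hn', ENNReal.ofReal_natCast]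
      simp_rw [hin]
    rw [intervalIntegral.integral_of_le zero_le_one, ← integral_Ico_eq_integral_Ioc,
      ofReal_integral_eq_lintegral_ofReal]
    · exact lintegral_congr hpt
    · apply Measure.integrableOn_of_bounded (M := B) (by simp)
      · apply Measurable.aestronglyMeasurable
        apply Measurable.const_mul
        apply Finset.measurable_sum
        intro i _
        exact hmi.comp ((measurable_id.div_const _).add_const _)
      · refine Filter.Eventually.of_forall (fun c => ?_)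
        rw [Real.norm_eq_abs, abs_of_nonneg (mul_nonneg (by positivity)
          (Finset.sum_nonneg (fun i _ => hin0 _)))]
        calc 1 / (n:ℝ) * ∑ i ∈ Finset.range n, ∫ t in (0:ℝ)..1, F (c / (q * n) + N * i / n, t)
            ≤ 1 / (n:ℝ) * ∑ i ∈ Finset.range n, B := by
              gcongr with i _
              exact hinB _
          _ = B := by simp; field_simp
    · exact Filter.Eventually.of_forall (fun c => mul_nonneg (by positivity)
        (Finset.sum_nonneg (fun i _ => hin0 _)))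
  have hleft : ENNReal.ofReal (∫ y in Ico (0:ℝ) 1 ×ˢ Ico (0:ℝ) 1, F y)
      = ∫⁻ y in Ico (0:ℝ) 1 ×ˢ Ico (0:ℝ) 1, ENNReal.ofReal (F y) := by
    rw [ofReal_integral_eq_lintegral_ofReal]
    · apply Measure.integrableOn_of_bounded (M := B) _ hF.aestronglyMeasurable
      · exact Filter.Eventually.of_forall (fun t => by
          rw [Real.norm_eq_abs, abs_of_nonneg (h0 _)]; exact hB _)
      · rw [Measure.volume_eq_prod, Measure.prod_prod]; simp
    · exact Filter.Eventually.of_forall (fun t => h0 _)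
  have hmain := section_lintegral hq hn N hN (F := fun y => ENNReal.ofReal (F y))
    hF.ennreal_ofReal (fun y => by rw [hinv])
  rw [← hleft, ← hout] at hmain
  rwa [ENNReal.ofReal_eq_ofReal_iff] at hmain
  · exact integral_nonneg (fun y => h0 y)
  · apply intervalIntegral.integral_nonneg zero_le_one
    intro c _
    exact mul_nonneg (by positivity) (Finset.sum_nonneg (fun i _ => hin0 _))

end Crest.Agent.R081.SaS
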