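import Crest.Agent.R081.ShDefs
import Crest.Agent.R075.Basic

/-! Row 81, node SHEAR APPROXIMATION: characters of the torus on the grid of labels. -/

set_option autoImplicit false

namespace Crest.Agent.R081.ShB

open Crest.Agent.R075 Crest.Agent.R081.ShD

/-- one dimensional grid character -/
noncomputable def ch (M : ℕ) (k : ℤ) (s : ZMod M) : ℂ := ee ((k : ℝ) * (s.val : ℝ) / M)

/-- the value of `ee (k · y)` on the label `s` -/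
noncomputable def EK (M1 M2 : ℕ) (k : ℤ × ℤ) (s : ZMod M1 × ZMod M2) : ℂ :=
  ee ((k.1 : ℝ) * (s.1.val : ℝ) / M1 + (k.2 : ℝ) * (s.2.val : ℝ) / M2)

theorem EK_eq (M1 M2 : ℕ) (k : ℤ × ℤ) (s : ZMod M1 × ZMod M2) :
    EK M1 M2 k s = ch M1 k.1 s.1 * ch M2 k.2 s.2 := by
  rw [EK, ee_add]; rfl

@[simp] theorem norm_EK (M1 M2 : ℕ) (k : ℤ × ℤ) (s : ZMod M1 × ZMod M2) :
    ‖EK M1 M2 k s‖ = 1 := norm_ee _

@[simp] theorem norm_ch (M : ℕ) (k : ℤ) (s : ZMod M) : ‖ch M k s‖ = 1 := norm_ee _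

theorem ch_int {M : ℕ} (hM : 0 < M) (k n : ℤ) :
    ch M k (n : ZMod M) = ee ((k : ℝ) * (n : ℝ) / M) := by
  have hne : NeZero M := ⟨hM.ne'⟩
  have hM' : (M : ℝ) ≠ 0 := by exact_mod_cast hM.ne'
  have h1 : (((n : ZMod M).val : ℕ) : ℤ) = n % M := ZMod.val_intCast n
  have h2 : (((n : ZMod M).val : ℕ) : ℝ) = (n : ℝ) - (M : ℝ) * ((n / (M : ℤ) : ℤ) : ℝ) := by
    have h3 : (((n : ZMod M).val : ℕ) : ℤ) = n - M * (n / M) := by
      rw [h1, Int.emod_def]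
    have h4 := congrArg (fun z : ℤ => (z : ℝ)) h3
    push_cast at h4
    exact h4
  unfold ch
  rw [h2]
  have h5 : (k : ℝ) * ((n : ℝ) - (M : ℝ) * ((n / (M : ℤ) : ℤ) : ℝ)) / M
      = (k : ℝ) * (n : ℝ) / M + ((-(k * (n / (M : ℤ))) : ℤ) : ℝ) := by
    push_cast
    field_simp
    ring
  rw [h5, ee_add_int]

theorem ch_add_nat {M : ℕ} (hM : 0 < M) (k : ℤ) (s : ZMod M) (a : ℕ) :
    ch M k (s + (a : ZMod M)) = ee ((k : ℝ) * (a : ℝ) / M) * ch M k s := by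
  have hne : NeZero M := ⟨hM.ne'⟩
  have h1 : s + (a : ZMod M) = (((s.val : ℤ) + (a : ℤ) : ℤ) : ZMod M) := by
    push_cast
    rw [ZMod.natCast_zmod_val]
  rw [h1, ch_int hM]
  unfold ch
  rw [← ee_add]
  congr 1
  push_cast
  ring

theorem ch_zero {M : ℕ} (s : ZMod M) : ch M 0 s = 1 := by
  unfold ch; simp

theorem ee_eq_one_iff' {x : ℝ} : ee x = 1 ↔ ∃ n : ℤ, x = n := by
  constructor
  · intro h
    unfold ee at h
    obtain ⟨n, hn⟩ := Complex.exp_eq_one_iff.1 h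
    refine ⟨n, ?_⟩
    have h2 : (2 * (Real.pi : ℂ) * Complex.I) ≠ 0 := by
      simp [Real.pi_ne_zero, Complex.I_ne_zero]
    have h3 : (x : ℂ) = (n : ℂ) := by
      apply mul_left_cancel₀ h2
      rw [hn]; ring
    exact_mod_cast h3
  · rintro ⟨n, rfl⟩; exact ee_int n

theorem sum_ch {M : ℕ} [NeZero M] {k : ℤ} (hk : k ≠ 0) (hk' : |k| < M) :
    ∑ s : ZMod M, ch M k s = 0 := by
  have hM : 0 < M := Nat.pos_of_ne_zero (NeZero.ne M)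
  have hM' : (0 : ℝ) < M := by exact_mod_cast hM
  have h1 : ∑ s : ZMod M, ch M k (s + ((1 : ℕ) : ZMod M)) = ∑ s : ZMod M, ch M k s :=
    Fintype.sum_equiv (Equiv.addRight ((1 : ℕ) : ZMod M)) _ _ (fun s => rfl)
  have h2 : ∑ s : ZMod M, ch M k (s + ((1 : ℕ) : ZMod M))
      = ee ((k : ℝ) * ((1 : ℕ) : ℝ) / M) * ∑ s : ZMod M, ch M k s := by
    rw [Finset.mul_sum]
    exact Finset.sum_congr rfl fun s _ => ch_add_nat hM k s 1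
  rw [h2] at h1
  have h3 : ee ((k : ℝ) * ((1 : ℕ) : ℝ) / M) ≠ 1 := by
    intro h
    obtain ⟨n, hn⟩ := ee_eq_one_iff'.1 h
    have h4 : (k : ℝ) = n * M := by
      rw [div_eq_iff hM'.ne'] at hn
      simpa using hn
    have h5 : k = n * M := by exact_mod_cast h4
    have h6 : n ≠ 0 := by rintro rfl; simp at h5; exact hk h5
    have h7 : (M : ℤ) ≤ |k| := by
      rw [h5, abs_mul]
      have : (1 : ℤ) ≤ |n| := Int.one_le_abs h6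
      have h8 : |(M : ℤ)| = M := abs_of_nonneg (by positivity)
      rw [h8]
      nlinarith
    omega
  have h4 : (ee ((k : ℝ) * ((1 : ℕ) : ℝ) / M) - 1) * ∑ s : ZMod M, ch M k s = 0 := by
    rw [sub_mul, one_mul, h1, sub_self]
  rcases mul_eq_zero.1 h4 with h | h
  · exact absurd (sub_eq_zero.1 h) h3
  · exact h

/-- **(EK ii)** the labels are equidistributed for every nontrivial mode. -/
theorem sum_EK {M1 M2 : ℕ} [NeZero M1] [NeZero M2] {k : ℤ × ℤ} (hk : k ≠ 0)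
    (h1 : |k.1| < M1) (h2 : |k.2| < M2) : ∑ s : ZMod M1 × ZMod M2, EK M1 M2 k s = 0 := by
  have e : ∑ s : ZMod M1 × ZMod M2, EK M1 M2 k s
      = (∑ s : ZMod M1, ch M1 k.1 s) * ∑ s : ZMod M2, ch M2 k.2 s := by
    rw [Fintype.sum_prod_type, Finset.sum_mul_sum]
    exact Finset.sum_congr rfl fun a _ => Finset.sum_congr rfl fun b _ => EK_eq M1 M2 k (a, b)
  rw [e]
  by_cases hk1 : k.1 = 0
  · have hk2 : k.2 ≠ 0 := by
      intro h; exact hk (Prod.ext hk1 h)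
    rw [sum_ch hk2 h2, mul_zero]
  · rw [sum_ch hk1 h1, zero_mul]

/-- **(EK iii)** equivariance. -/
theorem EK_shift {M1 M2 : ℕ} (hM1 : 0 < M1) {q : ℕ} (hq : 0 < q) (hd : q ∣ M1) (k : ℤ × ℤ)
    (s : ZMod M1 × ZMod M2) :
    EK M1 M2 k (s + (((M1 / q : ℕ) : ZMod M1), 0)) = ee ((k.1 : ℝ) / q) * EK M1 M2 k s := by
  rw [EK_eq, EK_eq]
  have e1 : (s + (((M1 / q : ℕ) : ZMod M1), (0 : ZMod M2))).1 = s.1 + ((M1 / q : ℕ) : ZMod M1) := rfl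
  have e2 : (s + (((M1 / q : ℕ) : ZMod M1), (0 : ZMod M2))).2 = s.2 := by
    simp
  rw [e1, e2, ch_add_nat hM1]
  have h3 : (k.1 : ℝ) * ((M1 / q : ℕ) : ℝ) / M1 = (k.1 : ℝ) / q := by
    obtain ⟨t, rfl⟩ := hd
    rw [Nat.mul_div_cancel_left _ hq]
    have hq' : (q : ℝ) ≠ 0 := by exact_mod_cast hq.ne'
    have ht : (t : ℝ) ≠ 0 := by
      have : t ≠ 0 := by rintro rfl; simp at hM1
      exact_mod_cast this
    push_cast
    field_simp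
  rw [h3]
  ring

theorem EK_gl {M1 M2 : ℕ} (hM1 : 0 < M1) (hM2 : 0 < M2) (k : ℤ × ℤ) (y : ℝ × ℝ) :
    EK M1 M2 k (gl M1 M2 y)
      = ee ((k.1 : ℝ) * (⌊(M1 : ℝ) * y.1⌋ : ℤ) / M1 + (k.2 : ℝ) * (⌊(M2 : ℝ) * y.2⌋ : ℤ) / M2) := by
  rw [EK_eq, gl, ch_int hM1, ch_int hM2, ee_add]

theorem frac_bound {M : ℕ} (hM : 0 < M) (t : ℝ) :
    |t - (⌊(M : ℝ) * t⌋ : ℤ) / M| ≤ 1 / M := by
  have hM' : (0 : ℝ) < M := by exact_mod_cast hM
  have h1 := Int.floor_le ((M : ℝ) * t)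
  have h2 := Int.lt_floor_add_one ((M : ℝ) * t)
  have e : t - (⌊(M : ℝ) * t⌋ : ℤ) / M = ((M : ℝ) * t - (⌊(M : ℝ) * t⌋ : ℤ)) / M := by
    field_simp
  rw [e, abs_div, abs_of_pos hM']
  gcongr
  rw [abs_le]
  constructor <;> linarith

/-- **(EK i)** the mode `k` is close to its value on the label. -/
theorem norm_ee_sub_EK {M1 M2 : ℕ} (hM1 : 0 < M1) (hM2 : 0 < M2) (k : ℤ × ℤ) (y : ℝ × ℝ) :
    ‖ee ((k.1 : ℝ) * y.1 + (k.2 : ℝ) * y.2) - EK M1 M2 k (gl M1 M2 y)‖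
      ≤ 2 * Real.pi * (|(k.1 : ℝ)| / M1 + |(k.2 : ℝ)| / M2) := by
  rw [EK_gl hM1 hM2]
  refine (norm_ee_sub_le _ _).trans ?_
  refine mul_le_mul_of_nonneg_left ?_ (by positivity)
  have e : (k.1 : ℝ) * y.1 + (k.2 : ℝ) * y.2 - ((k.1 : ℝ) * (⌊(M1 : ℝ) * y.1⌋ : ℤ) / M1
      + (k.2 : ℝ) * (⌊(M2 : ℝ) * y.2⌋ : ℤ) / M2)
      = (k.1 : ℝ) * (y.1 - (⌊(M1 : ℝ) * y.1⌋ : ℤ) / M1)
        + (k.2 : ℝ) * (y.2 - (⌊(M2 : ℝ) * y.2⌋ : ℤ) / M2) := by ring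
  rw [e]
  refine (abs_add_le _ _).trans ?_
  rw [abs_mul, abs_mul]
  refine add_le_add ?_ ?_
  · calc |(k.1 : ℝ)| * |y.1 - (⌊(M1 : ℝ) * y.1⌋ : ℤ) / M1| ≤ |(k.1 : ℝ)| * (1 / M1) :=
        mul_le_mul_of_nonneg_left (frac_bound hM1 _) (abs_nonneg _)
      _ = |(k.1 : ℝ)| / M1 := by ring
  · calc |(k.2 : ℝ)| * |y.2 - (⌊(M2 : ℝ) * y.2⌋ : ℤ) / M2| ≤ |(k.2 : ℝ)| * (1 / M2) :=
        mul_le_mul_of_nonneg_left (frac_bound hM2 _) (abs_nonneg _)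
      _ = |(k.2 : ℝ)| / M2 := by ring

theorem EK_conj {M1 M2 : ℕ} (k : ℤ × ℤ) (s : ZMod M1 × ZMod M2) :
    (starRingEnd ℂ) (EK M1 M2 k s) = EK M1 M2 (-k) s := by
  rw [EK, EK, ee_conj]
  congr 1
  simp only [Prod.fst_neg, Prod.snd_neg]
  push_cast
  ring

theorem measurableSet_gl_preimage (M1 M2 : ℕ) (s : Set (ZMod M1 × ZMod M2)) :
    MeasurableSet (gl M1 M2 ⁻¹' s) := by
  have h : Measurable (fun y : ℝ × ℝ => ((⌊(M1 : ℝ) * y.1⌋ : ℤ), (⌊(M2 : ℝ) * y.2⌋ : ℤ))) :=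
    (Int.measurable_floor.comp (measurable_const.mul measurable_fst)).prodMk
      (Int.measurable_floor.comp (measurable_const.mul measurable_snd))
  have e : gl M1 M2 = (fun p : ℤ × ℤ => (((p.1 : ℤ) : ZMod M1), ((p.2 : ℤ) : ZMod M2))) ∘
      (fun y : ℝ × ℝ => ((⌊(M1 : ℝ) * y.1⌋ : ℤ), (⌊(M2 : ℝ) * y.2⌋ : ℤ))) := rfl
  rw [e, Set.preimage_comp]
  exact h (Set.to_countable _).measurableSet

theorem measurable_EK_gl (M1 M2 : ℕ) (k : ℤ × ℤ) :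
    Measurable (fun y : ℝ × ℝ => EK M1 M2 k (gl M1 M2 y)) := by
  intro s _
  exact measurableSet_gl_preimage M1 M2 ((EK M1 M2 k) ⁻¹' s)

end Crest.Agent.R081.ShB
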