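import Mathlib

/-! Row 81, node SMOOTH LIMIT: C^r calculus (Lipschitz dependence of conjugations). -/

set_option autoImplicit false

namespace Crest.Agent.R081.Sm

open scoped ContDiff
open Finset

/-- all derivatives of order `i` with `1 ≤ i ≤ r` are bounded by `K` -/
def Bd1 {D F : Type} [NormedAddCommGroup D] [NormedSpace ℝ D] [NormedAddCommGroup F]
    [NormedSpace ℝ F] (r : ℕ) (K : ℝ) (f : D → F) : Prop :=
  ∀ i, 1 ≤ i → i ≤ r → ∀ x, ‖iteratedFDeriv ℝ i f x‖ ≤ K

/-- all derivatives of order `i` with `0 ≤ i ≤ r` are bounded by `K` -/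
def Bd {D F : Type} [NormedAddCommGroup D] [NormedSpace ℝ D] [NormedAddCommGroup F]
    [NormedSpace ℝ F] (r : ℕ) (K : ℝ) (f : D → F) : Prop :=
  ∀ i, i ≤ r → ∀ x, ‖iteratedFDeriv ℝ i f x‖ ≤ K

section
variable {D F G : Type} [NormedAddCommGroup D] [NormedSpace ℝ D] [NormedAddCommGroup F]
    [NormedSpace ℝ F] [NormedAddCommGroup G] [NormedSpace ℝ G]

theorem Bd.bd1 {r : ℕ} {K : ℝ} {f : D → F} (h : Bd r K f) : Bd1 r K f :=
  fun i _ hi x => h i hi x

theorem Bd.mono {r r' : ℕ} {K K' : ℝ} {f : D → F} (h : Bd r K f) (hr : r' ≤ r) (hK : K ≤ K') :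
    Bd r' K' f := fun i hi x => (h i (hi.trans hr) x).trans hK

theorem Bd1.mono {r r' : ℕ} {K K' : ℝ} {f : D → F} (h : Bd1 r K f) (hr : r' ≤ r) (hK : K ≤ K') :
    Bd1 r' K' f := fun i h1 hi x => (h i h1 (hi.trans hr) x).trans hK

theorem Bd1.fderiv {r : ℕ} {K : ℝ} {f : D → F} (h : Bd1 (r + 1) K f) : Bd r K (fderiv ℝ f) := by
  intro i hi x
  rw [norm_iteratedFDeriv_fderiv]
  exact h (i + 1) (by omega) (by omega) x

theorem Bd.nonneg [Nonempty D] {r : ℕ} {K : ℝ} {f : D → F} (h : Bd r K f) : 0 ≤ K :=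
  (norm_nonneg _).trans (h 0 (Nat.zero_le _) (Classical.arbitrary D))

/-- explicit constant for compositions -/
noncomputable def cc (r : ℕ) (K : ℝ) : ℝ := (r.factorial : ℝ) * K * (max 1 K) ^ r

theorem cc_nonneg (r : ℕ) {K : ℝ} (hK : 0 ≤ K) : 0 ≤ cc r K := by
  unfold cc; positivity

theorem pow_aux {K : ℝ} {i : ℕ} (hi : 1 ≤ i) : K ≤ (max 1 K) ^ i := by
  have h1 : (1:ℝ) ≤ max 1 K := le_max_left _ _
  calc K ≤ max 1 K := le_max_right _ _
    _ = (max 1 K) ^ 1 := (pow_one _).symm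
    _ ≤ (max 1 K) ^ i := pow_le_pow_right₀ h1 hi

/-- composition bound, outer function with all derivatives (order 0 included) bounded by `C` -/
theorem bd_comp {r : ℕ} {C K : ℝ} (hC : 0 ≤ C) {g : F → G} {u : D → F} (hg : ContDiff ℝ ∞ g)
    (hu : ContDiff ℝ ∞ u) (hgb : Bd r C g) (hub : Bd1 r K u) :
    Bd r ((r.factorial : ℝ) * C * (max 1 K) ^ r) (fun x => g (u x)) := by
  intro i hi x
  have h := norm_iteratedFDeriv_comp_le (𝕜 := ℝ) hg hu (n := i) (by exact_mod_cast le_top) x
    (C := C) (D := max 1 K) (fun j hj => hgb j (hj.trans hi) _)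
    (fun j h1 hj => (hub j h1 (hj.trans hi) x).trans (pow_aux h1))
  refine h.trans ?_
  have h1 : (1:ℝ) ≤ max 1 K := le_max_left _ _
  have h2 : (i.factorial : ℝ) ≤ r.factorial := by exact_mod_cast Nat.factorial_le hi
  have h3 : (max 1 K) ^ i ≤ (max 1 K) ^ r := pow_le_pow_right₀ h1 hi
  gcongr

/-- composition bound for derivatives of order at least one -/
theorem bd1_comp {r : ℕ} {C K : ℝ} (hC : 0 ≤ C) {g : F → G} {u : D → F} (hg : ContDiff ℝ ∞ g)
    (hu : ContDiff ℝ ∞ u) (hgb : Bd1 r C g) (hub : Bd1 r K u) :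
    Bd1 r ((r.factorial : ℝ) * C * (max 1 K) ^ r) (fun x => g (u x)) := by
  intro i h1i hi x
  -- subtract a constant so that order zero is harmless
  have hg' : ContDiff ℝ ∞ (fun y => g y - g (u x)) := hg.sub contDiff_const
  have e : ∀ (j : ℕ), 1 ≤ j → ∀ y, iteratedFDeriv ℝ j (fun y => g y - g (u x)) y
      = iteratedFDeriv ℝ j g y := by
    intro j hj y
    have : (fun y => g y - g (u x)) = g + (fun _ => - g (u x)) := by
      ext y; simp [sub_eq_add_neg]
    rw [this, iteratedFDeriv_add_apply (hg.contDiffAt.of_le (by exact_mod_cast le_top))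
      (contDiffAt_const)]
    rw [iteratedFDeriv_const_of_ne (by omega)]
    simp
  have e2 : iteratedFDeriv ℝ i (fun y => g (u y)) x
      = iteratedFDeriv ℝ i ((fun y => g y - g (u x)) ∘ u) x := by
    have : ((fun y => g y - g (u x)) ∘ u) = (fun y => g (u y)) + (fun _ => - g (u x)) := by
      ext y; simp [sub_eq_add_neg]
    have hgu : ContDiff ℝ ∞ (fun y => g (u y)) := hg.comp hu
    rw [this, iteratedFDeriv_add_apply (hgu.contDiffAt.of_le (by exact_mod_cast le_top))
      (contDiffAt_const)]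
    rw [iteratedFDeriv_const_of_ne (by omega)]
    simp
  rw [e2]
  have h := norm_iteratedFDeriv_comp_le (𝕜 := ℝ) hg' hu (n := i) (by exact_mod_cast le_top) x
    (C := C) (D := max 1 K) (fun j hj => by
      rcases Nat.eq_zero_or_pos j with rfl | hj0
      · simp [hC]
      · rw [e j hj0]; exact hgb j hj0 (hj.trans hi) _)
    (fun j h1 hj => (hub j h1 (hj.trans hi) x).trans (pow_aux h1))
  refine h.trans ?_
  have h1 : (1:ℝ) ≤ max 1 K := le_max_left _ _
  have h2 : (i.factorial : ℝ) ≤ r.factorial := by exact_mod_cast Nat.factorial_le hi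
  have h3 : (max 1 K) ^ i ≤ (max 1 K) ^ r := pow_le_pow_right₀ h1 hi
  gcongr

/-- product (composition of linear maps) bound -/
theorem bd_clm_comp {H : Type} [NormedAddCommGroup H] [NormedSpace ℝ H] {r : ℕ} {a b : ℝ}
    (ha : 0 ≤ a) (hb : 0 ≤ b)
    {f : D → (F →L[ℝ] G)} {g : D → (H →L[ℝ] F)} (hf : ContDiff ℝ ∞ f) (hg : ContDiff ℝ ∞ g)
    (hfb : Bd r a f) (hgb : Bd r b g) :
    Bd r (2 ^ r * (a * b)) (fun x => (f x).comp (g x)) := by
  intro i hi x
  have h := (ContinuousLinearMap.compL ℝ H F G).norm_iteratedFDeriv_le_of_bilinear_of_le_one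
    hf hg x (n := i) (by exact_mod_cast le_top) (ContinuousLinearMap.norm_compL_le ℝ H F G)
  have h' : ‖iteratedFDeriv ℝ i (fun x => (f x).comp (g x)) x‖ ≤
      ∑ j ∈ range (i + 1), (i.choose j : ℝ) * ‖iteratedFDeriv ℝ j f x‖ *
        ‖iteratedFDeriv ℝ (i - j) g x‖ := h
  refine h'.trans ?_
  calc ∑ j ∈ range (i + 1), (i.choose j : ℝ) * ‖iteratedFDeriv ℝ j f x‖ *
        ‖iteratedFDeriv ℝ (i - j) g x‖
      ≤ ∑ j ∈ range (i + 1), (i.choose j : ℝ) * (a * b) := by
        refine sum_le_sum fun j hj => ?_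
        rw [mem_range] at hj
        have h1 := hfb j (by omega) x
        have h2 := hgb (i - j) (by omega) x
        rw [mul_assoc]
        gcongr
    _ = 2 ^ i * (a * b) := by
        rw [← sum_mul]
        congr 1
        exact_mod_cast Nat.sum_range_choose i
    _ ≤ 2 ^ r * (a * b) := by
        have : (2:ℝ) ^ i ≤ 2 ^ r := pow_le_pow_right₀ (by norm_num) hi
        gcongr

end

theorem bd_add {D F : Type} [NormedAddCommGroup D] [NormedSpace ℝ D] [NormedAddCommGroup F]
    [NormedSpace ℝ F] {r : ℕ} {a b : ℝ} {f g : D → F} (hf : ContDiff ℝ ∞ f)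
    (hg : ContDiff ℝ ∞ g) (hfb : Bd r a f) (hgb : Bd r b g) :
    Bd r (a + b) (fun x => f x + g x) := by
  intro i hi x
  have : (fun x => f x + g x) = f + g := rfl
  rw [this, iteratedFDeriv_add_apply (hf.contDiffAt.of_le (by exact_mod_cast le_top))
    (hg.contDiffAt.of_le (by exact_mod_cast le_top))]
  exact (norm_add_le _ _).trans (add_le_add (hfb i hi x) (hgb i hi x))

/-- Lipschitz dependence of `g ∘ u` on `u` in the `C^r` norm. -/
theorem comp_lip (r : ℕ) : ∀ K : ℝ, 0 ≤ K → ∃ C : ℝ, 0 ≤ C ∧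
    ∀ (D F G : Type) [NormedAddCommGroup D] [NormedSpace ℝ D] [NormedAddCommGroup F]
      [NormedSpace ℝ F] [NormedAddCommGroup G] [NormedSpace ℝ G]
      (g : F → G) (u v : D → F), ContDiff ℝ ∞ g → ContDiff ℝ ∞ u → ContDiff ℝ ∞ v →
      Bd1 (r + 1) K g → Bd1 r K u → Bd1 r K v → ∀ δ : ℝ, 0 ≤ δ → Bd r δ (fun x => u x - v x) →
      Bd r (C * δ) (fun x => g (u x) - g (v x)) := by
  induction r with
  | zero =>
    intro K hK
    refine ⟨K, hK, ?_⟩
    intro D F G _ _ _ _ _ _ g u v hg hu hv hgb _ _ δ hδ h i hi x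
    obtain rfl : i = 0 := by omega
    rw [norm_iteratedFDeriv_zero]
    have h0 := h 0 le_rfl x
    rw [norm_iteratedFDeriv_zero] at h0
    have hd : ∀ y, ‖fderiv ℝ g y‖ ≤ K := fun y => by
      have := hgb 1 le_rfl le_rfl y
      rwa [← norm_iteratedFDeriv_fderiv (n := 0), norm_iteratedFDeriv_zero] at this
    have := Convex.norm_image_sub_le_of_norm_fderiv_le (𝕜 := ℝ) (f := g) (s := Set.univ)
      (x := v x) (y := u x) (C := K)
      (fun y _ => (hg.differentiable (by simp)).differentiableAt) (fun y _ => hd y)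
      convex_univ (Set.mem_univ _) (Set.mem_univ _)
    exact this.trans (mul_le_mul_of_nonneg_left h0 hK)
  | succ r ih =>
    intro K hK
    obtain ⟨C, hC0, hC⟩ := ih K hK
    set B : ℝ := (r.factorial : ℝ) * K * (max 1 K) ^ r with hB
    have hB0 : 0 ≤ B := by positivity
    refine ⟨K + (2 ^ r * (C * K) + 2 ^ r * B), by positivity, ?_⟩
    intro D F G _ _ _ _ _ _ g u v hg hu hv hgb hub hvb δ hδ h i hi x
    rcases Nat.eq_zero_or_pos i with rfl | hi0
    · rw [norm_iteratedFDeriv_zero]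
      have h0 := h 0 (by omega) x
      rw [norm_iteratedFDeriv_zero] at h0
      have hd : ∀ y, ‖fderiv ℝ g y‖ ≤ K := fun y => by
        have := hgb 1 le_rfl (by omega) y
        rwa [← norm_iteratedFDeriv_fderiv (n := 0), norm_iteratedFDeriv_zero] at this
      have := Convex.norm_image_sub_le_of_norm_fderiv_le (𝕜 := ℝ) (f := g) (s := Set.univ)
        (x := v x) (y := u x) (C := K)
        (fun y _ => (hg.differentiable (by simp)).differentiableAt) (fun y _ => hd y)
        convex_univ (Set.mem_univ _) (Set.mem_univ _)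
      refine (this.trans (mul_le_mul_of_nonneg_left h0 hK)).trans ?_
      have : 0 ≤ (2 ^ r * (C * K) + 2 ^ r * B) := by positivity
      nlinarith
    · obtain ⟨j, rfl⟩ : ∃ j, i = j + 1 := ⟨i - 1, by omega⟩
      rw [← norm_iteratedFDeriv_fderiv]
      have hgd : Differentiable ℝ g := hg.differentiable (by simp)
      have hud : Differentiable ℝ u := hu.differentiable (by simp)
      have hvd : Differentiable ℝ v := hv.differentiable (by simp)
      have hg' : ContDiff ℝ ∞ (fderiv ℝ g) := hg.fderiv_right (by simp)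
      have hu' : ContDiff ℝ ∞ (fderiv ℝ u) := hu.fderiv_right (by simp)
      have hv' : ContDiff ℝ ∞ (fderiv ℝ v) := hv.fderiv_right (by simp)
      have hgu : ContDiff ℝ ∞ (fun x => fderiv ℝ g (u x)) := hg'.comp hu
      have hgv : ContDiff ℝ ∞ (fun x => fderiv ℝ g (v x)) := hg'.comp hv
      have key : fderiv ℝ (fun x => g (u x) - g (v x)) = fun x =>
          ((fderiv ℝ g (u x) - fderiv ℝ g (v x)).comp (fderiv ℝ u x)) +
          ((fderiv ℝ g (v x)).comp (fderiv ℝ u x - fderiv ℝ v x)) := by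
        ext1 x
        have e1 : fderiv ℝ (fun x => g (u x)) x = (fderiv ℝ g (u x)).comp (fderiv ℝ u x) :=
          fderiv_comp x (hgd _) (hud _)
        have e2 : fderiv ℝ (fun x => g (v x)) x = (fderiv ℝ g (v x)).comp (fderiv ℝ v x) :=
          fderiv_comp x (hgd _) (hvd _)
        have e3 : fderiv ℝ (fun x => g (u x) - g (v x)) x
            = fderiv ℝ (fun x => g (u x)) x - fderiv ℝ (fun x => g (v x)) x :=
          fderiv_fun_sub ((hgd.comp hud) x) ((hgd.comp hvd) x)
        rw [e3, e1, e2]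
        ext w
        simp
      rw [key]
      have b1 : Bd r (C * δ) (fun x => fderiv ℝ g (u x) - fderiv ℝ g (v x)) := by
        refine hC D F (F →L[ℝ] G) (fderiv ℝ g) u v hg' hu hv ?_ (hub.mono (by omega) le_rfl)
          (hvb.mono (by omega) le_rfl) δ hδ (h.mono (by omega) le_rfl)
        have : Bd (r + 1) K (fderiv ℝ g) := hgb.fderiv
        exact this.bd1
      have b2 : Bd r K (fderiv ℝ u) := hub.fderiv
      have b3 : Bd r B (fun x => fderiv ℝ g (v x)) := by
        refine bd_comp hK hg' hv ?_ (hvb.mono (by omega) le_rfl)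
        have : Bd (r + 1) K (fderiv ℝ g) := hgb.fderiv
        exact this.mono (by omega) le_rfl
      have b4 : Bd r δ (fun x => fderiv ℝ u x - fderiv ℝ v x) := by
        have e : (fun x => fderiv ℝ u x - fderiv ℝ v x) = fderiv ℝ (fun x => u x - v x) := by
          ext1 x
          exact (fderiv_fun_sub (hud x) (hvd x)).symm
        rw [e]
        intro k hk y
        rw [norm_iteratedFDeriv_fderiv]
        exact h (k + 1) (by omega) y
      have c1 := bd_clm_comp (by positivity) hK (hgu.sub hgv) hu' b1 b2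
      have c2 := bd_clm_comp hB0 hδ hgv (hu'.sub hv') b3 b4
      have c := bd_add (((hgu.sub hgv)).clm_comp hu') (hgv.clm_comp (hu'.sub hv')) c1 c2
      refine (c j (by omega) x).trans ?_
      nlinarith [mul_nonneg hK hδ]

/-- conjugation: `G ∘ A ∘ H` depends on `A` in a Lipschitz way in the `C^r` norm, with a constant
depending only on bounds for the derivatives of `G` (order `1..r+1`) and of `H, A, A'`
(order `1..r`). -/
theorem conj_lip (r : ℕ) (K : ℝ) (hK : 0 ≤ K) : ∃ C : ℝ, 0 ≤ C ∧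
    ∀ (E : Type) [NormedAddCommGroup E] [NormedSpace ℝ E] (G H A A' : E → E),
      ContDiff ℝ ∞ G → ContDiff ℝ ∞ H → ContDiff ℝ ∞ A → ContDiff ℝ ∞ A' →
      Bd1 (r + 1) K G → Bd1 r K H → Bd1 r K A → Bd1 r K A' →
      ∀ δ : ℝ, 0 ≤ δ → Bd r δ (fun x => A x - A' x) →
      Bd r (C * δ) (fun x => G (A (H x)) - G (A' (H x))) := by
  set K' : ℝ := max K ((r.factorial : ℝ) * K * (max 1 K) ^ r) with hK'
  have hK'0 : 0 ≤ K' := hK.trans (le_max_left _ _)
  obtain ⟨C, hC0, hC⟩ := comp_lip r K' hK'0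
  refine ⟨C * ((r.factorial : ℝ) * (max 1 K) ^ r), by positivity, ?_⟩
  intro E _ _ G H A A' hG hH hA hA' bG bH bA bA' δ hδ h
  have hAH : Bd1 r K' (fun x => A (H x)) :=
    (bd1_comp hK hA hH bA bH).mono le_rfl (le_max_right _ _)
  have hAH' : Bd1 r K' (fun x => A' (H x)) :=
    (bd1_comp hK hA' hH bA' bH).mono le_rfl (le_max_right _ _)
  have hd : Bd r ((r.factorial : ℝ) * δ * (max 1 K) ^ r) (fun x => A (H x) - A' (H x)) :=
    bd_comp (g := fun x => A x - A' x) hδ (hA.sub hA') hH h bH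
  have := hC E E E G (fun x => A (H x)) (fun x => A' (H x)) hG (hA.comp hH) (hA'.comp hH)
    (bG.mono le_rfl (le_max_left _ _)) hAH hAH' _ (by positivity) hd
  refine this.mono le_rfl (le_of_eq ?_)
  ring

end Crest.Agent.R081.Sm
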