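import Crest.Prelude.Def_Torus3
import Crest.Agent.R081.SmCr

/-! Row 81, node SMOOTH LIMIT (SM1): lifted diffeomorphisms of the three-torus. -/

set_option autoImplicit false

namespace Crest.Agent.R081.Sm

open scoped ContDiff
open Crest.AnalysisR.Torus3

abbrev E3 : Type := Fin 3 → ℝ

/-- integer vectors inside `ℝ³` -/
def zv (k : Fin 3 → ℤ) : E3 := fun i => (k i : ℝ)

@[simp] theorem zv_apply (k : Fin 3 → ℤ) (i : Fin 3) : zv k i = (k i : ℝ) := rfl

theorem zv_zero : zv 0 = 0 := by ext i; simp [zv]
theorem zv_add (k m : Fin 3 → ℤ) : zv (k + m) = zv k + zv m := by ext i; simp [zv]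
theorem zv_neg (k : Fin 3 → ℤ) : zv (-k) = - zv k := by ext i; simp [zv]
theorem zv_sub (k m : Fin 3 → ℤ) : zv (k - m) = zv k - zv m := by ext i; simp [zv]

theorem proj_surj : Function.Surjective proj := by
  intro y
  choose x hx using fun i => QuotientAddGroup.mk_surjective (y i)
  exact ⟨x, funext hx⟩

theorem proj_eq_iff (x y : E3) : proj x = proj y ↔ ∃ k : Fin 3 → ℤ, y = x + zv k := by
  constructor
  · intro h
    have h' : ∀ i, ∃ n : ℤ, y i = x i + n := by
      intro i
      have hi : ((x i : ℝ) : UnitAddCircle) = ((y i : ℝ) : UnitAddCircle) := congrFun h i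
      have h0 : ((y i - x i : ℝ) : UnitAddCircle) = 0 := by
        rw [AddCircle.coe_sub, hi, sub_self]
      obtain ⟨n, hn⟩ := (AddCircle.coe_eq_zero_iff (1:ℝ)).1 h0
      refine ⟨n, ?_⟩
      simp at hn
      linarith
    choose k hk using h'
    exact ⟨k, funext hk⟩
  · rintro ⟨k, rfl⟩
    funext i
    simp only [proj, Pi.add_apply, zv_apply, AddCircle.coe_add]
    have : (((k i : ℤ) : ℝ) : UnitAddCircle) = 0 :=
      (AddCircle.coe_eq_zero_iff (1:ℝ)).2 ⟨k i, by simp⟩
    rw [this, add_zero]

theorem proj_add_zv (x : E3) (k : Fin 3 → ℤ) : proj (x + zv k) = proj x :=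
  ((proj_eq_iff x (x + zv k)).2 ⟨k, rfl⟩).symm

theorem continuous_proj : Continuous proj :=
  continuous_pi fun i => (AddCircle.continuous_mk' (1:ℝ)).comp (continuous_apply i)

theorem isOpenMap_proj : IsOpenMap proj := by
  have : proj = Pi.map (fun _ : Fin 3 => ((↑) : ℝ → UnitAddCircle)) := rfl
  rw [this]
  refine IsOpenMap.piMap (fun i => ?_) (Filter.Eventually.of_forall fun i => ?_)
  · exact QuotientAddGroup.isOpenMap_coe
  · exact QuotientAddGroup.mk_surjective

theorem isQuotientMap_proj : Topology.IsQuotientMap proj :=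
  isOpenMap_proj.isQuotientMap continuous_proj proj_surj

/-- `F` descends to the torus -/
def Per (F : E3 → E3) : Prop :=
  ∀ k : Fin 3 → ℤ, ∃ m : Fin 3 → ℤ, ∀ x, F (x + zv k) = F x + zv m

/-- the induced map of the torus -/
noncomputable def desc (F : E3 → E3) (y : T3) : T3 := proj (F (Classical.choose (proj_surj y)))

theorem desc_proj {F : E3 → E3} (hF : Per F) (x : E3) : desc F (proj x) = proj (F x) := by
  unfold desc
  have h := Classical.choose_spec (proj_surj (proj x))
  obtain ⟨k, hk⟩ := (proj_eq_iff _ _).1 h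
  obtain ⟨m, hm⟩ := hF k
  generalize Classical.choose (proj_surj (proj x)) = z at h hk
  rw [hk, hm z, proj_add_zv]

theorem continuous_desc {F : E3 → E3} (hF : Per F) (hc : Continuous F) : Continuous (desc F) := by
  rw [isQuotientMap_proj.continuous_iff]
  have : desc F ∘ proj = proj ∘ F := funext fun x => desc_proj hF x
  rw [this]
  exact continuous_proj.comp hc

/-- a smooth diffeomorphism of `ℝ³` with smooth inverse descending to the torus -/
structure LD where
  F : E3 → E3
  H : E3 → E3
  hF : ContDiff ℝ ∞ F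
  hH : ContDiff ℝ ∞ H
  pF : Per F
  pH : Per H
  FH : ∀ x, F (H x) = x
  HF : ∀ x, H (F x) = x

namespace LD

/-- the torus bijection -/
noncomputable def perm (A : LD) : Equiv.Perm T3 where
  toFun := desc A.F
  invFun := desc A.H
  left_inv := by
    intro y
    obtain ⟨x, rfl⟩ := proj_surj y
    rw [desc_proj A.pF, desc_proj A.pH, A.HF]
  right_inv := by
    intro y
    obtain ⟨x, rfl⟩ := proj_surj y
    rw [desc_proj A.pH, desc_proj A.pF, A.FH]

@[simp] theorem perm_proj (A : LD) (x : E3) : A.perm (proj x) = proj (A.F x) :=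
  desc_proj A.pF x

@[simp] theorem perm_symm_proj (A : LD) (x : E3) : A.perm.symm (proj x) = proj (A.H x) :=
  desc_proj A.pH x

@[simp] theorem perm_inv_proj (A : LD) (x : E3) : A.perm⁻¹ (proj x) = proj (A.H x) :=
  desc_proj A.pH x

theorem isSmoothDiffeo (A : LD) : IsSmoothDiffeo A.perm :=
  ⟨⟨A.F, A.hF, fun x => A.perm_proj x⟩, ⟨A.H, A.hH, fun x => A.perm_symm_proj x⟩⟩

theorem continuous_perm (A : LD) : Continuous A.perm := continuous_desc A.pF A.hF.continuous

theorem continuous_perm_symm (A : LD) : Continuous A.perm.symm :=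
  continuous_desc A.pH A.hH.continuous

theorem measurable_perm (A : LD) : Measurable A.perm := A.continuous_perm.measurable

theorem measurable_perm_symm (A : LD) : Measurable A.perm.symm := A.continuous_perm_symm.measurable

/-- identity -/
def one : LD where
  F := id
  H := id
  hF := contDiff_id
  hH := contDiff_id
  pF := fun k => ⟨k, fun _ => rfl⟩
  pH := fun k => ⟨k, fun _ => rfl⟩
  FH := fun _ => rfl
  HF := fun _ => rfl

/-- inverse -/
def inv (A : LD) : LD where
  F := A.H
  H := A.F
  hF := A.hH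
  hH := A.hF
  pF := A.pH
  pH := A.pF
  FH := A.HF
  HF := A.FH

theorem _root_.Crest.Agent.R081.Sm.Per.comp {F G : E3 → E3} (hF : Per F) (hG : Per G) :
    Per (fun x => F (G x)) := by
  intro k
  obtain ⟨m, hm⟩ := hG k
  obtain ⟨l, hl⟩ := hF m
  exact ⟨l, fun x => by show F (G (x + zv k)) = F (G x) + zv l; rw [hm, hl]⟩

/-- composition: first `B`, then `A` -/
def comp (A B : LD) : LD where
  F := fun x => A.F (B.F x)
  H := fun x => B.H (A.H x)
  hF := A.hF.comp B.hF
  hH := B.hH.comp A.hH
  pF := A.pF.comp B.pF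
  pH := B.pH.comp A.pH
  FH := fun x => by simp only [B.FH, A.FH]
  HF := fun x => by simp only [A.HF, B.HF]

theorem perm_one : one.perm = 1 := by
  ext1 y
  obtain ⟨x, rfl⟩ := proj_surj y
  simp [one]

theorem perm_inv (A : LD) : A.inv.perm = A.perm⁻¹ := by
  ext1 y
  obtain ⟨x, rfl⟩ := proj_surj y
  simp [inv]

theorem perm_comp (A B : LD) : (A.comp B).perm = A.perm * B.perm := by
  ext1 y
  obtain ⟨x, rfl⟩ := proj_surj y
  simp [comp]

/-- iterates of lifts -/
noncomputable def zpowF (A : LD) : ℤ → E3 → E3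
  | Int.ofNat n => A.F^[n]
  | Int.negSucc n => A.H^[n + 1]

theorem perm_pow_proj (A : LD) (n : ℕ) (x : E3) : (A.perm ^ n) (proj x) = proj (A.F^[n] x) := by
  induction n generalizing x with
  | zero => simp
  | succ n ih => rw [pow_succ, Equiv.Perm.mul_apply, perm_proj, ih, Function.iterate_succ_apply]

theorem perm_zpow_proj (A : LD) (k : ℤ) (x : E3) : (A.perm ^ k) (proj x) = proj (A.zpowF k x) := by
  cases k with
  | ofNat n => simpa [zpowF] using A.perm_pow_proj n x
  | negSucc n =>
    have h := A.inv.perm_pow_proj (n + 1) x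
    rw [perm_inv] at h
    rw [zpow_negSucc, ← inv_pow]
    exact h

theorem continuous_perm_zpow (A : LD) (k : ℤ) : Continuous (A.perm ^ k : Equiv.Perm T3) := by
  cases k with
  | ofNat n =>
    simp only [Int.ofNat_eq_natCast, zpow_natCast, Equiv.Perm.coe_pow]
    exact A.continuous_perm.iterate n
  | negSucc n =>
    rw [zpow_negSucc, ← inv_pow, Equiv.Perm.coe_pow]
    exact A.continuous_perm_symm.iterate (n + 1)

end LD

end Crest.Agent.R081.Sm
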