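import Mathlib

/-!
# Row 81: the spread function (helper472), algebraic part

For a finite field `F` with `Q` elements the plane `F × F` is the union of the `Q + 1` lines through
the origin (indexed by the slope `s : Option F`).  A nontrivial additive character is trivial on exactly one
of these lines; consequently every function of the slope has a Fourier transform which is flat.
-/

set_option autoImplicit false
set_option linter.unusedSectionVars false

namespace Crest.Agent.R081.Spread

open Finset

variable {F : Type*} [Field F] [Fintype F] [DecidableEq F]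

/-- the slope of a nonzero vector of the plane -/
def slope (u : F × F) : Option F := if u.1 = 0 then none else some (u.2 / u.1)

/-- parametrisation of the line with slope `s` -/
def line (s : Option F) (c : F) : F × F :=
  match s with
  | none => (0, c)
  | some a => (c, a * c)

@[simp] lemma line_none (c : F) : line none c = (0, c) := rfl
@[simp] lemma line_some (a c : F) : line (some a) c = (c, a * c) := rfl

lemma line_zero (s : Option F) : line s (0 : F) = 0 := by
  cases s <;> simp

lemma line_ne_zero (s : Option F) {c : F} (hc : c ≠ 0) : line s c ≠ 0 := by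
  cases s <;> simp [Prod.ext_iff, hc]

lemma line_add (s : Option F) (c d : F) : line s (c + d) = line s c + line s d := by
  cases s
  · simp
  · simp [mul_add]

lemma slope_line (s : Option F) {c : F} (hc : c ≠ 0) : slope (line s c) = s := by
  cases s
  · simp [slope]
  · simp [slope, hc]

/-- the nonzero vectors are the pairs (slope, nonzero parameter) -/
lemma exists_line {u : F × F} (hu : u ≠ 0) : ∃ c : F, c ≠ 0 ∧ line (slope u) c = u := by
  obtain ⟨x, y⟩ := u
  by_cases hx : x = 0
  · subst hx
    refine ⟨y, ?_, ?_⟩
    · intro h; apply hu; simp [h]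
    · simp [slope]
  · refine ⟨x, hx, ?_⟩
    simp [slope, hx]

lemma line_injective (s : Option F) : Function.Injective (line s : F → F × F) := by
  intro c d h
  cases s
  · simpa using h
  · simp only [line_some, Prod.mk.injEq] at h
    exact h.1

/-- Summation over the plane: a sum over the nonzero vectors is a sum over slopes and nonzero parameters. -/
lemma sum_ne_zero (f : F × F → ℂ) :
    ∑ u ∈ univ.filter (fun u : F × F => u ≠ 0), f u
      = ∑ s : Option F, ∑ c ∈ univ.filter (fun c : F => c ≠ 0), f (line s c) := by
  rw [← sum_product']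
  symm
  refine sum_bij (fun x _ => line x.1 x.2) ?_ ?_ ?_ ?_
  · intro x hx
    simp only [mem_product, mem_univ, true_and, mem_filter] at hx ⊢
    exact line_ne_zero _ hx
  · intro x hx y hy h
    simp only [mem_product, mem_univ, true_and, mem_filter] at hx hy
    have h1 : x.1 = y.1 := by
      have := congrArg slope h
      rwa [slope_line _ hx, slope_line _ hy] at this
    have h2 : x.2 = y.2 := by
      rw [h1] at h
      exact line_injective _ h
    exact Prod.ext h1 h2
  · intro u hu
    simp only [mem_filter, mem_univ, true_and] at hu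
    obtain ⟨c, hc, h⟩ := exists_line hu
    exact ⟨(slope u, c), by simp [hc], h⟩
  · intro x hx
    rfl

lemma sum_split_zero {α : Type*} [Fintype α] [DecidableEq α] [Zero α] (f : α → ℂ) :
    ∑ u, f u = f 0 + ∑ u ∈ univ.filter (fun u : α => u ≠ 0), f u := by
  rw [← sum_filter_add_sum_filter_not univ (fun u : α => u = 0)]
  congr 1
  simp [sum_filter]

/-- the character restricted to a line -/
def lineChar (χ : AddChar (F × F) ℂ) (s : Option F) : AddChar F ℂ where
  toFun c := χ (line s c)
  map_zero_eq_one' := by simp [line_zero]
  map_add_eq_mul' c d := by simp [line_add, AddChar.map_add_eq_mul]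

lemma lineChar_apply (χ : AddChar (F × F) ℂ) (s : Option F) (c : F) :
    lineChar χ s c = χ (line s c) := rfl

/-- A function of the slope, with an arbitrary value at the origin. -/
def slopeFun (w0 : ℂ) (W : Option F → ℂ) (u : F × F) : ℂ := if u = 0 then w0 else W (slope u)

lemma sum_slopeFun (w0 : ℂ) (W : Option F → ℂ) (χ : AddChar (F × F) ℂ) :
    ∑ u, slopeFun w0 W u * χ u = w0 + ∑ s : Option F, W s * (∑ c : F, χ (line s c) - 1) := by
  rw [sum_split_zero]
  congr 1
  · simp [slopeFun]
  · rw [sum_ne_zero]
    refine sum_congr rfl fun s _ => ?_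
    rw [sum_split_zero (fun c : F => χ (line s c)), line_zero, AddChar.map_zero_eq_one, add_sub_cancel_left,
      mul_sum]
    refine sum_congr rfl fun c hc => ?_
    simp only [mem_filter, mem_univ, true_and] at hc
    rw [slopeFun, if_neg (line_ne_zero s hc), slope_line s hc]

lemma sum_line (χ : AddChar (F × F) ℂ) (s : Option F) :
    ∑ c : F, χ (line s c) = if lineChar χ s = 0 then (Fintype.card F : ℂ) else 0 := by
  classical
  have := AddChar.sum_eq_ite (lineChar χ s)
  simpa [lineChar_apply] using this

/-- **Spread property**: a nontrivial character is trivial on exactly one line. -/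
theorem existsUnique_line (χ : AddChar (F × F) ℂ) (hχ : χ ≠ 0) :
    ∃ s0 : Option F, ∀ s, lineChar χ s = 0 ↔ s = s0 := by
  classical
  have hQ : (Fintype.card F : ℂ) ≠ 0 := by
    exact_mod_cast Fintype.card_ne_zero
  have h0 : ∑ u, χ u = 0 := by
    rw [AddChar.sum_eq_ite, if_neg hχ]
  have h1 := sum_slopeFun (1 : ℂ) (fun _ => (1 : ℂ)) χ
  have h2 : ∑ u, slopeFun (1 : ℂ) (fun _ => (1 : ℂ)) u * χ u = 0 := by
    rw [← h0]
    refine sum_congr rfl fun u _ => ?_
    simp [slopeFun]
  rw [h2] at h1
  simp only [one_mul, sum_sub_distrib, sum_const, card_univ, nsmul_eq_mul, mul_one] at h1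
  simp only [sum_line] at h1
  rw [Fintype.card_option] at h1
  rw [sum_ite, sum_const_zero, add_zero, sum_const, nsmul_eq_mul] at h1
  have h3 : ((univ.filter fun s : Option F => lineChar χ s = 0).card : ℂ) = 1 := by
    have : ((univ.filter fun s : Option F => lineChar χ s = 0).card : ℂ) * (Fintype.card F : ℂ)
        = 1 * (Fintype.card F : ℂ) := by
      push_cast at h1 ⊢
      linear_combination -h1
    exact mul_right_cancel₀ hQ this
  have h4 : (univ.filter fun s : Option F => lineChar χ s = 0).card = 1 := by exact_mod_cast h3
  obtain ⟨s0, hs0⟩ := card_eq_one.1 h4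
  refine ⟨s0, fun s => ?_⟩
  have : s ∈ (univ.filter fun s : Option F => lineChar χ s = 0) ↔ s ∈ ({s0} : Finset (Option F)) := by
    rw [hs0]
  simpa using this

/-- **Flatness**: the transform of a function of the slope at a nontrivial character. -/
theorem transform_slopeFun (χ : AddChar (F × F) ℂ) (hχ : χ ≠ 0) :
    ∃ s0 : Option F, ∀ (w0 : ℂ) (W : Option F → ℂ),
      ∑ u, slopeFun w0 W u * χ u = (Fintype.card F : ℂ) * W s0 + (w0 - ∑ s, W s) := by
  classical
  obtain ⟨s0, hs0⟩ := existsUnique_line χ hχ
  refine ⟨s0, fun w0 W => ?_⟩
  rw [sum_slopeFun]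
  simp only [sum_line, hs0, mul_sub, mul_one, sum_sub_distrib, mul_ite, mul_zero, sum_ite_eq', mem_univ,
    if_true]
  ring

/-- The transform at the trivial character. -/
theorem transform_slopeFun_zero (w0 : ℂ) (W : Option F → ℂ) :
    ∑ u : F × F, slopeFun w0 W u = w0 + ((Fintype.card F : ℂ) - 1) * ∑ s, W s := by
  classical
  have h := sum_slopeFun w0 W (0 : AddChar (F × F) ℂ)
  simp only [AddChar.zero_apply, mul_one, sum_const, card_univ, nsmul_eq_mul] at h
  rw [h, mul_sum]
  congr 1
  refine sum_congr rfl fun s _ => ?_
  ring

end Crest.Agent.R081.Spread
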