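import Crest.Agent.R081.Spread

/-!
# Row 81: the spread function on `(ℤ/p)^(2r)` (helper472)
-/

set_option autoImplicit false

namespace Crest.Agent.R081.Spread

open Finset

/-- the character `u ↦ e(-t·u/p)` of `(ℤ/p)^n` -/
noncomputable def chr (p : ℕ) [NeZero p] {n : ℕ} (t : Fin n → ℤ) : AddChar (Fin n → ZMod p) ℂ where
  toFun u := ∏ i, ZMod.stdAddChar (-(t i : ZMod p) * u i)
  map_zero_eq_one' := by simp
  map_add_eq_mul' u v := by
    simp only [Pi.add_apply, mul_add, AddChar.map_add_eq_mul, prod_mul_distrib]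

lemma chr_apply (p : ℕ) [NeZero p] {n : ℕ} (t : Fin n → ℤ) (u : Fin n → ZMod p) :
    chr p t u = ∏ i, ZMod.stdAddChar (-(t i : ZMod p) * u i) := rfl

lemma chr_exp (p : ℕ) [NeZero p] {n : ℕ} (t : Fin n → ℤ) (u : Fin n → ZMod p) :
    chr p t u = Complex.exp (-(2 * Real.pi * Complex.I) * (∑ i, (t i : ℂ) * (u i).val) / p) := by
  rw [chr_apply]
  have : ∀ i, (ZMod.stdAddChar (-(t i : ZMod p) * u i) : ℂ)
      = Complex.exp (-(2 * Real.pi * Complex.I) * ((t i : ℂ) * (u i).val) / p) := by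
    intro i
    have h1 : (-(t i : ZMod p) * u i) = (((-(t i) * ((u i).val : ℤ)) : ℤ) : ZMod p) := by
      push_cast
      rw [ZMod.natCast_zmod_val]
    rw [h1, ZMod.stdAddChar_coe]
    congr 1
    push_cast
    ring
  simp only [this]
  rw [← Complex.exp_sum]
  congr 1
  rw [mul_sum, sum_div]

lemma chr_ne_zero (p : ℕ) [Fact p.Prime] {n : ℕ} (t : Fin n → ℤ) (ht : ∃ i, ¬ (p : ℤ) ∣ t i) :
    chr p t ≠ 0 := by
  classical
  obtain ⟨i, hi⟩ := ht
  intro h
  have h1 : chr p t (Pi.single i 1) = 1 := by rw [h]; rfl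
  rw [chr_apply] at h1
  have h2 : ∏ j, (ZMod.stdAddChar (-(t j : ZMod p) * (Pi.single i (1 : ZMod p) : Fin n → ZMod p) j) : ℂ)
      = ZMod.stdAddChar (-(t i : ZMod p)) := by
    rw [prod_eq_single i]
    · simp
    · intro j _ hj
      rw [Pi.single_eq_of_ne hj, mul_zero, AddChar.map_zero_eq_one]
    · simp
  rw [h2] at h1
  have h3 : (-(t i : ZMod p)) = 0 := by
    apply ZMod.injective_stdAddChar
    rw [h1, AddChar.map_zero_eq_one]
  rw [neg_eq_zero, ZMod.intCast_zmod_eq_zero_iff_dvd] at h3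
  exact hi h3

lemma chr_eq_zero (p : ℕ) [NeZero p] {n : ℕ} (t : Fin n → ℤ) (ht : ∀ i, (p : ℤ) ∣ t i) :
    chr p t = 0 := by
  ext u
  rw [chr_apply]
  rw [AddChar.zero_apply]
  refine prod_eq_one fun i _ => ?_
  rw [(ZMod.intCast_zmod_eq_zero_iff_dvd _ _).2 (ht i)]
  simp

/-- **SP1+SP2.** The spread function on `(ℤ/p)^(2r)`. -/
theorem exists_spread (p r : ℕ) [Fact p.Prime] (hr : r ≠ 0) :
    ∃ g0 : (Fin (2 * r) → ZMod p) → ℕ, (∀ u, g0 u ≤ p ^ r) ∧
      (∀ t : Fin (2 * r) → ℤ, (∃ i, ¬ (p : ℤ) ∣ t i) → ∃ m ≤ p ^ r, ∀ z : ℂ,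
        ∑ u, z ^ g0 u * chr p t u
          = (p : ℂ) ^ r * z ^ m + (1 - ∑ k ∈ range (p ^ r + 1), z ^ k)) ∧
      (∀ t : Fin (2 * r) → ℤ, (∀ i, (p : ℤ) ∣ t i) → ∀ z : ℂ,
        ∑ u, z ^ g0 u * chr p t u
          = 1 + ((p : ℂ) ^ r - 1) * ∑ k ∈ range (p ^ r + 1), z ^ k) := by
  classical
  let _inst : Fintype (GaloisField p r) := Fintype.ofFinite _
  have hcard : Fintype.card (GaloisField p r) = p ^ r := by
    rw [← Nat.card_eq_fintype_card, GaloisField.card p r hr]
  have hfr : Module.finrank (ZMod p) (Fin (2 * r) → ZMod p)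
      = Module.finrank (ZMod p) (GaloisField p r × GaloisField p r) := by
    rw [Module.finrank_prod, GaloisField.finrank p hr, Module.finrank_fin_fun]
    ring
  let E : (Fin (2 * r) → ZMod p) ≃ₗ[ZMod p] (GaloisField p r × GaloisField p r) :=
    LinearEquiv.ofFinrankEq _ _ hfr
  let idx : Option (GaloisField p r) ≃ Fin (p ^ r + 1) :=
    Fintype.equivFinOfCardEq (by rw [Fintype.card_option, hcard])
  let g0 : (Fin (2 * r) → ZMod p) → ℕ := fun u => if E u = 0 then 0 else idx (slope (E u))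
  have hg : ∀ (z : ℂ) (u : Fin (2 * r) → ZMod p),
      z ^ g0 u = slopeFun 1 (fun s => z ^ (idx s : ℕ)) (E u) := by
    intro z u
    simp only [g0, slopeFun]
    split_ifs <;> simp
  have hsum : ∀ (z : ℂ), ∑ s : Option (GaloisField p r), z ^ (idx s : ℕ) = ∑ k ∈ range (p ^ r + 1), z ^ k := by
    intro z
    rw [Equiv.sum_comp idx (fun k : Fin (p ^ r + 1) => z ^ (k : ℕ)), Fin.sum_univ_eq_sum_range]
  have htr : ∀ (t : Fin (2 * r) → ℤ) (z : ℂ), ∑ u, z ^ g0 u * chr p t u
      = ∑ v : GaloisField p r × GaloisField p r, slopeFun 1 (fun s => z ^ (idx s : ℕ)) v *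
          ((chr p t).compAddMonoidHom (E.symm : _ →+ _)) v := by
    intro t z
    rw [← Equiv.sum_comp E.toEquiv]
    refine sum_congr rfl fun u _ => ?_
    rw [hg]
    congr 1
    change chr p t u = chr p t (E.symm (E u))
    rw [E.symm_apply_apply]
  refine ⟨g0, ?_, ?_, ?_⟩
  · intro u
    simp only [g0]
    split_ifs
    · exact Nat.zero_le _
    · have := (idx (slope (E u))).2
      omega
  · intro t ht
    have hne : (chr p t).compAddMonoidHom (E.symm : (GaloisField p r × GaloisField p r) →+ _) ≠ 0 := by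
      intro h
      apply chr_ne_zero p t ht
      ext u
      have h2 := DFunLike.congr_fun h (E u)
      rw [AddChar.zero_apply] at h2 ⊢
      rw [← h2]
      change chr p t u = chr p t (E.symm (E u))
      rw [E.symm_apply_apply]
    obtain ⟨s0, hs0⟩ := transform_slopeFun _ hne
    refine ⟨idx s0, by have := (idx s0).2; omega, fun z => ?_⟩
    rw [htr, hs0, hsum, hcard]
    push_cast
    ring
  · intro t ht z
    rw [htr]
    have h0 : (chr p t).compAddMonoidHom (E.symm : (GaloisField p r × GaloisField p r) →+ _) = 0 := by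
      ext v
      rw [chr_eq_zero p t ht]
      rfl
    rw [h0]
    simp only [AddChar.zero_apply, mul_one]
    rw [transform_slopeFun_zero, hsum, hcard]
    push_cast
    ring

end Crest.Agent.R081.Spread
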