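import Crest.Agent.R081.LdAvg

/-!
# Row 81: the spread data, and the L² estimate for the label function (helper472)
-/

set_option autoImplicit false

namespace Crest.Agent.R081.Spread

open MeasureTheory Finset Crest.Agent.R075

/-- a function of the cells -/
noncomputable def lf {N p : ℕ} (g0 : (Fin N → ZMod p) → ℕ) (E : ℕ → ℂ) (φ : Fin N → ℝ) : ℂ :=
  E (g0 (fun i => cell p (φ i)))

/-- the amplitude of the type `t` -/
noncomputable def am (p Q : ℕ) {N : ℕ} (t : Fin N → ℤ) : ℂ := (Q : ℂ) * ∏ i, kap p (t i)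

lemma kap_neg (p : ℕ) (t : ℤ) : kap p (-t) = (starRingEnd ℂ) (kap p t) := by
  unfold kap
  rw [intervalIntegral.integral_of_le (by positivity), intervalIntegral.integral_of_le (by positivity),
    ← integral_conj]
  congr 1
  funext x
  rw [ee_conj]
  congr 1
  push_cast
  ring

lemma am_neg (p Q : ℕ) {N : ℕ} (t : Fin N → ℤ) : am p Q (-t) = (starRingEnd ℂ) (am p Q t) := by
  unfold am
  rw [map_mul, map_prod, Complex.conj_natCast]
  congr 1
  refine prod_congr rfl fun i _ => ?_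
  rw [Pi.neg_apply, kap_neg]

lemma fc_conj {N : ℕ} (f : (Fin N → ℝ) → ℂ) (t : Fin N → ℤ) :
    fc (fun φ => (starRingEnd ℂ) (f φ)) (-t) = (starRingEnd ℂ) (fc f t) := by
  rw [fc_eq, fc_eq, ← integral_conj]
  congr 1
  funext φ
  rw [map_mul, ee_conj, dt_neg]

/-- the spread data -/
structure SData (ε : ℝ) (Q0 : ℕ) where
  n : ℕ
  n_pos : 0 < n
  p : ℕ
  Q : ℕ
  g0 : (Fin (n + 1) → ZMod p) → ℕ
  T : Finset (Fin (n + 1) → ℤ)
  lab : (Fin (n + 1) → ℤ) → ℕ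
  hp : p.Prime
  hQ0 : Q0 ≤ Q
  hQ1 : 1 ≤ Q
  hg0 : ∀ u, g0 u ≤ Q
  lab_le : ∀ t, lab t ≤ Q
  wpos : ∀ t ∈ T, 0 < wmass p t
  one_le : ∀ t ∈ T, 1 ≤ t 0
  nonpar : ∀ t ∈ T, ∀ t' ∈ T, t ≠ t' → ∃ i j, t i * t' j ≠ t j * t' i
  low : 1 - ε ≤ 2 * ∑ t ∈ T, wmass p t
  up : 2 * ∑ t ∈ T, wmass p t ≤ 1
  am_sq : ∀ t : Fin (n + 1) → ℤ, ‖am p Q t‖ ^ 2 = wmass p t
  fc_lab : ∀ t ∈ T, ∀ E : ℕ → ℂ, fc (lf g0 E) t
    = am p Q t * E (lab t) + am p Q t / Q * (E 0 - ∑ k ∈ range (Q + 1), E k)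
  fc_zero : ∀ E : ℕ → ℂ, fc (lf g0 E) 0 = (1 / (Q : ℂ) ^ 2) * (E 0 + ((Q : ℂ) - 1) * ∑ k ∈ range (Q + 1), E k)

theorem exists_sdata (ε : ℝ) (hε : 0 < ε) (Q0 : ℕ) : Nonempty (SData ε Q0) := by
  classical
  obtain ⟨n, p, Q, g0, T, hp, hQ0, hQ1, hQ2, hg0, hw, h1, -, hnp, hlow, hup, hsq, hfc, hnd, -, hz⟩ :=
    exists_labels ε hε Q0
  have hch : ∀ t ∈ T, ∃ m ≤ Q, ∀ E : ℕ → ℂ,
        fc (fun φ => E (g0 (fun i => cell p (φ i)))) t
          = ((Q : ℂ) * ∏ i, kap p (t i)) * E m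
            + (∏ i, kap p (t i)) * (E 0 - ∑ k ∈ range (Q + 1), E k) :=
    fun t ht => hfc t (hnd t (Or.inl ht))
  choose m hm hm2 using hch
  have hnpos : 0 < n := by
    by_contra h0
    have h0 : n = 0 := by omega
    subst h0
    -- Q^2 = p
    rw [zero_add, pow_one] at hQ2
    have : ¬ (Q ^ 2).Prime := Nat.Prime.not_prime_pow le_rfl
    rw [hQ2] at this
    exact this hp
  refine ⟨⟨n, hnpos, p, Q, g0, T, fun t => if h : t ∈ T then m t h else 0, hp, hQ0, hQ1, hg0, ?_, hw, h1, hnp, hlow, hup,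
    ?_, ?_, hz⟩⟩
  · intro t
    split_ifs with h
    · exact hm t h
    · exact Nat.zero_le _
  · intro t
    unfold am
    rw [← hsq, Real.sq_sqrt (wmass_nonneg _ _)]
  · intro t ht E
    simp only [dif_pos ht]
    have hQ' : (Q : ℂ) ≠ 0 := by exact_mod_cast (by omega : Q ≠ 0)
    have := hm2 t ht E
    unfold lf am
    rw [this]
    field_simp

namespace SData

variable {ε : ℝ} {Q0 : ℕ} (S : SData ε Q0)

/-- the remainder at `t` -/
lemma fc_neg (t : Fin (S.n + 1) → ℤ) (ht : t ∈ S.T) (E : ℕ → ℂ) :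
    fc (lf S.g0 E) (-t)
    = am S.p S.Q (-t) * E (S.lab t) + am S.p S.Q (-t) / S.Q * (E 0 - ∑ k ∈ range (S.Q + 1), E k) := by
  have h := S.fc_lab t ht (fun k => (starRingEnd ℂ) (E k))
  have h1 : lf S.g0 E = fun φ => (starRingEnd ℂ) (lf S.g0 (fun k => (starRingEnd ℂ) (E k)) φ) := by
    funext φ; unfold lf; rw [Complex.conj_conj]
  rw [h1, fc_conj, h, am_neg]
  simp only [map_add, map_mul, map_div₀, map_sub, map_sum, Complex.conj_conj, Complex.conj_natCast]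

/-- all types with signs -/
noncomputable def TT : Finset (Fin (S.n + 1) → ℤ) := by
  classical exact S.T ∪ S.T.image (fun t => -t)

/-- the label of a signed type -/
noncomputable def lb (t : Fin (S.n + 1) → ℤ) : ℕ := by
  classical exact if t ∈ S.T then S.lab t else S.lab (-t)

lemma mem_TT {t : Fin (S.n + 1) → ℤ} : t ∈ S.TT ↔ t ∈ S.T ∨ -t ∈ S.T := by
  classical
  unfold TT
  rw [mem_union, mem_image]
  constructor
  · rintro (h | ⟨s, hs, rfl⟩)
    · exact Or.inl h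
    · exact Or.inr (by rwa [neg_neg])
  · rintro (h | h)
    · exact Or.inl h
    · exact Or.inr ⟨-t, h, neg_neg t⟩

lemma not_mem_neg {t : Fin (S.n + 1) → ℤ} (ht : t ∈ S.T) : -t ∉ S.T := by
  intro h
  have h1 := S.one_le t ht
  have h2 := S.one_le _ h
  rw [Pi.neg_apply] at h2
  omega

lemma zero_not_mem_TT : (0 : Fin (S.n + 1) → ℤ) ∉ S.TT := by
  rw [mem_TT]
  rintro (h | h)
  · have := S.one_le _ h; simp at this
  · have := S.one_le _ h; simp at this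

lemma lb_T {t : Fin (S.n + 1) → ℤ} (ht : t ∈ S.T) : S.lb t = S.lab t := by
  classical
  unfold lb; rw [if_pos ht]

lemma lb_neg {t : Fin (S.n + 1) → ℤ} (ht : t ∈ S.T) : S.lb (-t) = S.lab t := by
  classical
  unfold lb; rw [if_neg (S.not_mem_neg ht), neg_neg]

lemma fc_TT (t : Fin (S.n + 1) → ℤ) (ht : t ∈ S.TT) (E : ℕ → ℂ) :
    fc (lf S.g0 E) t
    = am S.p S.Q t * E (S.lb t) + am S.p S.Q t / S.Q * (E 0 - ∑ k ∈ range (S.Q + 1), E k) := by
  rcases S.mem_TT.1 ht with h | h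
  · rw [S.lb_T h]; exact S.fc_lab t h E
  · have h2 := S.fc_neg (-t) h E
    rw [neg_neg] at h2
    have h3 := S.lb_neg h
    rw [neg_neg] at h3
    rw [h3]
    exact h2

lemma sum_TT (F : (Fin (S.n + 1) → ℤ) → ℝ) (hF : ∀ t, F (-t) = F t) :
    ∑ t ∈ S.TT, F t = 2 * ∑ t ∈ S.T, F t := by
  classical
  unfold TT
  rw [sum_union, sum_image]
  · simp only [hF]; ring
  · intro a _ b _ h
    exact neg_injective h
  · rw [disjoint_left]
    intro t ht h
    rw [mem_image] at h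
    obtain ⟨s, hs, rfl⟩ := h
    exact S.not_mem_neg hs ht

lemma measurable_lf {N p : ℕ} [NeZero p] (g0 : (Fin N → ZMod p) → ℕ) (E : ℕ → ℂ) : Measurable (lf g0 E) := by
  have h1 : Measurable (fun φ : Fin N → ℝ => fun i => cell p (φ i)) :=
    measurable_pi_lambda _ fun i => (measurable_cell p).comp (measurable_pi_apply i)
  have h2 : Measurable (fun u : Fin N → ZMod p => E (g0 u)) := measurable_of_finite _
  exact h2.comp h1

lemma per_lf {N p : ℕ} (g0 : (Fin N → ZMod p) → ℕ) (E : ℕ → ℂ) : Per (lf g0 E) := by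
  intro z x
  unfold lf
  congr 2
  funext i
  exact cell_add_int p (x i) (z i)

/-- the coefficients of the main part -/
noncomputable def mc (E : ℕ → ℂ) (t : Fin (S.n + 1) → ℤ) : ℂ := am S.p S.Q t * E (S.lb t)

/-- **SL2**: the label function is close to its main part in L² -/
theorem integral_label_sub_main (E : ℕ → ℂ) (hE : ∀ k ≤ S.Q, ‖E k‖ = 1) :
    ∫ φ in cube (S.n + 1), ‖lf S.g0 E φ - trig S.TT (S.mc E) φ‖ ^ 2
      ≤ ε + 2 * (1 + ‖∑ k ∈ range (S.Q + 1), E k‖) / S.Q := by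
  have hpf : Fact S.p.Prime := ⟨S.hp⟩
  have hQ0 : (0:ℝ) < S.Q := by exact_mod_cast S.hQ1
  have hlb : ∀ t, S.lb t ≤ S.Q := by
    classical
    intro t; unfold lb; split_ifs <;> exact S.lab_le _
  have hnorm : ∀ φ, ‖lf S.g0 E φ‖ = 1 := fun φ => hE _ (S.hg0 _)
  rw [integral_norm_sub_trig S.TT (S.mc E) (lf S.g0 E) (measurable_lf _ _) 1 (fun φ => (hnorm φ).le)]
  have h1 : ∫ φ in cube (S.n + 1), ‖lf S.g0 E φ‖ ^ 2 = 1 := by
    simp only [hnorm, one_pow]
    rw [integral_const]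
    simp
  rw [h1]
  set B : ℝ := (1 + ‖∑ k ∈ range (S.Q + 1), E k‖) / S.Q with hB
  have hmc : ∀ t, ‖S.mc E t‖ ^ 2 = wmass S.p t := by
    intro t
    unfold mc
    rw [norm_mul, hE _ (hlb t), mul_one, S.am_sq]
  have hterm : ∀ t ∈ S.TT, wmass S.p t - B * wmass S.p t ≤ ((starRingEnd ℂ) (S.mc E t) * fc (lf S.g0 E) t).re := by
    intro t ht
    rw [S.fc_TT t ht E, mul_add]
    have e1 : (starRingEnd ℂ) (S.mc E t) * (am S.p S.Q t * E (S.lb t)) = ((wmass S.p t : ℝ) : ℂ) := by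
      have : am S.p S.Q t * E (S.lb t) = S.mc E t := rfl
      rw [this, mul_comm, Complex.mul_conj, Complex.normSq_eq_norm_sq, hmc]
    rw [e1, Complex.add_re, Complex.ofReal_re]
    have e2 : ‖(starRingEnd ℂ) (S.mc E t) * (am S.p S.Q t / S.Q * (E 0 - ∑ k ∈ range (S.Q + 1), E k))‖
        ≤ B * wmass S.p t := by
      rw [norm_mul, RCLike.norm_conj, norm_mul, norm_div, Complex.norm_natCast]
      have e3 : ‖E 0 - ∑ k ∈ range (S.Q + 1), E k‖ ≤ 1 + ‖∑ k ∈ range (S.Q + 1), E k‖ := by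
        refine (norm_sub_le _ _).trans ?_
        rw [hE 0 (Nat.zero_le _)]
      have e4 : ‖S.mc E t‖ = ‖am S.p S.Q t‖ := by
        unfold mc; rw [norm_mul, hE _ (hlb t), mul_one]
      rw [e4]
      have e5 : ‖am S.p S.Q t‖ * (‖am S.p S.Q t‖ / S.Q * (1 + ‖∑ k ∈ range (S.Q + 1), E k‖)) = B * wmass S.p t := by
        rw [← S.am_sq t, hB]; ring
      rw [← e5]
      exact mul_le_mul_of_nonneg_left (mul_le_mul_of_nonneg_left e3 (by positivity)) (norm_nonneg _)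
    have e6 := (Complex.abs_re_le_norm _).trans e2
    rw [abs_le] at e6
    linarith [e6.1]
  have hs := sum_le_sum hterm
  simp only [hmc]
  rw [sum_sub_distrib, ← mul_sum] at hs
  have hTT := S.sum_TT (fun t => wmass S.p t) (fun t => wmass_neg S.p t)
  rw [hTT] at hs ⊢
  have hlow := S.low
  have hup := S.up
  have hB0 : 0 ≤ B := by rw [hB]; positivity
  have hBs : B * (2 * ∑ t ∈ S.T, wmass S.p t) ≤ B := by
    calc B * (2 * ∑ t ∈ S.T, wmass S.p t) ≤ B * 1 := mul_le_mul_of_nonneg_left hup hB0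
      _ = B := mul_one B
  have e7 : 2 * (1 + ‖∑ k ∈ range (S.Q + 1), E k‖) / S.Q = 2 * B := by rw [hB]; ring
  rw [e7]
  linarith

end SData

end Crest.Agent.R081.Spread
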