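import Crest.Agent.R081.SpreadC

/-!
# Row 81: the spread label function, for arbitrary label values (helper472)
-/

set_option autoImplicit false

namespace Crest.Agent.R081.Spread

open Finset

/-- **Spread labels**: `g0 : (ℤ/p)^(2r) → {0..p^r}` such that for *every* `E` the transform of `E ∘ g0` at a nontrivial
character is `p^r · E m` up to `E 0 - ∑ E`. -/
theorem exists_spreadE (p r : ℕ) [Fact p.Prime] (hr : r ≠ 0) :
    ∃ g0 : (Fin (2 * r) → ZMod p) → ℕ, (∀ u, g0 u ≤ p ^ r) ∧
      (∀ t : Fin (2 * r) → ℤ, (∃ i, ¬ (p : ℤ) ∣ t i) → ∃ m ≤ p ^ r, ∀ E : ℕ → ℂ,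
        ∑ u, E (g0 u) * chr p t u
          = (p : ℂ) ^ r * E m + (E 0 - ∑ k ∈ range (p ^ r + 1), E k)) ∧
      (∀ t : Fin (2 * r) → ℤ, (∀ i, (p : ℤ) ∣ t i) → ∀ E : ℕ → ℂ,
        ∑ u, E (g0 u) * chr p t u
          = E 0 + ((p : ℂ) ^ r - 1) * ∑ k ∈ range (p ^ r + 1), E k) ∧
      (∀ k ≤ p ^ r, (univ.filter (fun u => g0 u = k)).card = if k = 0 then p ^ r else p ^ r - 1) := by
  classical
  let _inst : Fintype (GaloisField p r) := Fintype.ofFinite _
  have hcard : Fintype.card (GaloisField p r) = p ^ r := by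
    rw [← Nat.card_eq_fintype_card, GaloisField.card p r hr]
  have hfr : Module.finrank (ZMod p) (Fin (2 * r) → ZMod p)
      = Module.finrank (ZMod p) (GaloisField p r × GaloisField p r) := by
    rw [Module.finrank_prod, GaloisField.finrank p hr, Module.finrank_fin_fun]
    ring
  let e : (Fin (2 * r) → ZMod p) ≃ₗ[ZMod p] (GaloisField p r × GaloisField p r) :=
    LinearEquiv.ofFinrankEq _ _ hfr
  let idx : Option (GaloisField p r) ≃ Fin (p ^ r + 1) :=
    Fintype.equivFinOfCardEq (by rw [Fintype.card_option, hcard])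
  let g0 : (Fin (2 * r) → ZMod p) → ℕ := fun u => if e u = 0 then 0 else idx (slope (e u))
  have hg : ∀ (E : ℕ → ℂ) (u : Fin (2 * r) → ZMod p),
      E (g0 u) = slopeFun (E 0) (fun s => E (idx s : ℕ)) (e u) := by
    intro E u
    simp only [g0, slopeFun]
    split_ifs <;> simp
  have hsum : ∀ (E : ℕ → ℂ), ∑ s : Option (GaloisField p r), E (idx s : ℕ) = ∑ k ∈ range (p ^ r + 1), E k := by
    intro E
    rw [Equiv.sum_comp idx (fun k : Fin (p ^ r + 1) => E (k : ℕ)), Fin.sum_univ_eq_sum_range]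
  have htr : ∀ (t : Fin (2 * r) → ℤ) (E : ℕ → ℂ), ∑ u, E (g0 u) * chr p t u
      = ∑ v : GaloisField p r × GaloisField p r, slopeFun (E 0) (fun s => E (idx s : ℕ)) v *
          ((chr p t).compAddMonoidHom (e.symm : _ →+ _)) v := by
    intro t E
    rw [← Equiv.sum_comp e.toEquiv]
    refine sum_congr rfl fun u _ => ?_
    rw [hg E u]
    congr 1
    change chr p t u = chr p t (e.symm (e u))
    rw [e.symm_apply_apply]
  have hg0 : ∀ u, g0 u ≤ p ^ r := by
    intro u
    simp only [g0]
    split_ifs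
    · exact Nat.zero_le _
    · have := (idx (slope (e u))).2
      omega
  have hdv : ∀ t : Fin (2 * r) → ℤ, (∀ i, (p : ℤ) ∣ t i) → ∀ E : ℕ → ℂ,
        ∑ u, E (g0 u) * chr p t u
          = E 0 + ((p : ℂ) ^ r - 1) * ∑ k ∈ range (p ^ r + 1), E k := by
    intro t ht E
    rw [htr]
    have h0 : (chr p t).compAddMonoidHom (e.symm : (GaloisField p r × GaloisField p r) →+ _) = 0 := by
      ext v
      rw [chr_eq_zero p t ht]
      rfl
    rw [h0]
    simp only [AddChar.zero_apply, mul_one]
    rw [transform_slopeFun_zero, hsum, hcard]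
    push_cast
    ring
  refine ⟨g0, hg0, ?_, hdv, ?_⟩
  · intro t ht
    have hne : (chr p t).compAddMonoidHom (e.symm : (GaloisField p r × GaloisField p r) →+ _) ≠ 0 := by
      intro h
      apply chr_ne_zero p t ht
      ext u
      have h2 := DFunLike.congr_fun h (e u)
      rw [AddChar.zero_apply] at h2 ⊢
      rw [← h2]
      change chr p t u = chr p t (e.symm (e u))
      rw [e.symm_apply_apply]
    obtain ⟨s0, hs0⟩ := transform_slopeFun _ hne
    refine ⟨idx s0, by have := (idx s0).2; omega, fun E => ?_⟩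
    rw [htr, hs0, hsum, hcard]
    push_cast
    ring
  · intro k hk
    have h := hdv 0 (by simp) (fun j => if j = k then 1 else 0)
    have hp1 : 1 ≤ p ^ r := Nat.one_le_pow _ _ (Fact.out : p.Prime).pos
    have h1 : ∀ u, chr p (0 : Fin (2 * r) → ℤ) u = 1 := by
      intro u
      rw [chr_eq_zero p 0 (by simp), AddChar.zero_apply]
    simp only [h1, mul_one] at h
    rw [sum_boole] at h
    have h2 : ∑ j ∈ range (p ^ r + 1), (if j = k then (1:ℂ) else 0) = 1 := by
      rw [sum_ite_eq' (range (p ^ r + 1)) k, if_pos (mem_range.2 (by omega))]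
    rw [h2] at h
    by_cases hk0 : k = 0
    · subst hk0
      rw [if_pos rfl] at h ⊢
      have : ((univ.filter (fun u => g0 u = 0)).card : ℂ) = ((p ^ r : ℕ) : ℂ) := by
        rw [h]; push_cast; ring
      exact_mod_cast this
    · rw [if_neg (Ne.symm hk0)] at h
      rw [if_neg hk0]
      have : ((univ.filter (fun u => g0 u = k)).card : ℂ) = ((p ^ r - 1 : ℕ) : ℂ) := by
        rw [h, Nat.cast_sub hp1]; push_cast; ring
      exact_mod_cast this

end Crest.Agent.R081.Spread
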