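import Crest.Agent.R081.SpreadT

/-!
# Row 81: the spread function, final form (helper472)
-/

set_option autoImplicit false

namespace Crest.Agent.R081.Spread

open MeasureTheory Finset Crest.Agent.R075

/-- Fourier coefficient of a function on the torus (integral over the unit cube) -/
noncomputable def fc {n : ℕ} (f : (Fin n → ℝ) → ℂ) (t : Fin n → ℤ) : ℂ :=
  ∫ φ in Set.univ.pi (fun _ : Fin n => Set.Ico (0:ℝ) 1), f φ * ee (-(∑ i, t i * φ i))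

lemma norm_geom_le {z : ℂ} (hz : ‖z‖ = 1) {d : ℝ} (hd : 0 < d) (h : d ≤ ‖z - 1‖) (N : ℕ) :
    ‖∑ k ∈ range N, z ^ k‖ ≤ 2 / d := by
  have h1 : z ≠ 1 := by
    rintro rfl
    simp at h
    linarith
  rw [geom_sum_eq h1, norm_div]
  have h2 : ‖z ^ N - 1‖ ≤ 2 := by
    refine (norm_sub_le _ _).trans ?_
    rw [norm_pow, hz, one_pow, norm_one]; norm_num
  exact div_le_div₀ (by norm_num) h2 hd h

lemma prod_kap_sq {p : ℕ} (hp : 1 ≤ p) {n : ℕ} (t : Fin n → ℤ) :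
    ((p:ℝ) ^ n) * (∏ i, ‖kap p (t i)‖) ^ 2 = wmass p t := by
  unfold wmass
  simp only [← norm_kap_sq hp]
  rw [prod_mul_distrib, prod_const, card_univ, Fintype.card_fin, prod_pow]

lemma sqrt_wmass {p : ℕ} (hp : 1 ≤ p) {r n : ℕ} (hn : n = r * 2) (t : Fin n → ℤ) :
    Real.sqrt (wmass p t) = (p:ℝ) ^ r * ∏ i, ‖kap p (t i)‖ := by
  have h : (p:ℝ) ^ n = ((p:ℝ) ^ r) ^ 2 := by rw [hn, pow_mul]
  rw [← prod_kap_sq hp, h, ← mul_pow, Real.sqrt_sq (by positivity)]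

lemma exists_spread' (p r n : ℕ) [Fact p.Prime] (hr : r ≠ 0) (hn : n = 2 * r) :
    ∃ g0 : (Fin n → ZMod p) → ℕ, (∀ u, g0 u ≤ p ^ r) ∧
      (∀ t : Fin n → ℤ, (∃ i, ¬ (p : ℤ) ∣ t i) → ∃ m ≤ p ^ r, ∀ z : ℂ,
        ∑ u, z ^ g0 u * chr p t u
          = (p : ℂ) ^ r * z ^ m + (1 - ∑ k ∈ range (p ^ r + 1), z ^ k)) ∧
      (∀ t : Fin n → ℤ, (∀ i, (p : ℤ) ∣ t i) → ∀ z : ℂ,
        ∑ u, z ^ g0 u * chr p t u
          = 1 + ((p : ℂ) ^ r - 1) * ∑ k ∈ range (p ^ r + 1), z ^ k) := by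
  subst hn
  exact exists_spread p r hr

lemma kap_zero {p : ℕ} : kap p 0 = ((1 / p : ℝ) : ℂ) := by
  unfold kap
  simp

/-- **the spread function, step form** -/
theorem exists_step (ε : ℝ) (hε : 0 < ε) :
    ∃ (n p Q : ℕ) (g0 : (Fin (n + 1) → ZMod p) → ℕ) (T : Finset (Fin (n + 1) → ℤ)),
      p.Prime ∧ 1 ≤ Q ∧ (∀ u, g0 u ≤ Q) ∧
      (∀ t ∈ T, 0 < wmass p t) ∧ (∀ t ∈ T, 1 ≤ t 0) ∧ (∀ t ∈ T, ∃ i, t i = 1 ∨ t i = -1) ∧
      (∀ t ∈ T, ∀ t' ∈ T, t ≠ t' → ∃ i j, t i * t' j ≠ t j * t' i) ∧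
      1 - ε ≤ 2 * ∑ t ∈ T, wmass p t ∧ 2 * ∑ t ∈ T, wmass p t ≤ 1 ∧
      (∀ t : Fin (n + 1) → ℤ, t ∈ T ∨ -t ∈ T → ∃ m ≤ Q, ∀ y : ℝ, ε ≤ ‖ee y - 1‖ →
        ‖fc (fun φ => ee (y * g0 (fun i => cell p (φ i)))) t
          - ((Q : ℂ) * ∏ i, kap p (t i)) * ee (y * m)‖ ≤ ε * Real.sqrt (wmass p t)) ∧
      (∀ t : Fin (n + 1) → ℤ, Real.sqrt (wmass p t) = ‖(Q : ℂ) * ∏ i, kap p (t i)‖) ∧
      (∀ y : ℝ, ε ≤ ‖ee y - 1‖ →
        ‖fc (fun φ => ee (y * g0 (fun i => cell p (φ i)))) (0 : Fin (n + 1) → ℤ)‖ ≤ ε) := by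
  classical
  obtain ⟨p, r, M, hp, hK, hM, hlow, hup⟩ := exists_params ε hε (⌈(1 + 2 / ε) / ε⌉₊ + 1)
  have hpf : Fact p.Prime := ⟨hp⟩
  have hp1 := hp.one_le
  obtain ⟨g0, hg0, hne, hdv⟩ := exists_spread' p (r + 1) (2 * r + 1 + 1) (Nat.succ_ne_zero r) (by ring)
  have hQ : (1 + 2 / ε) ≤ ε * ((p ^ (r + 1) : ℕ) : ℝ) := by
    have h1 : (1 + 2 / ε) / ε ≤ ((p ^ (r + 1) : ℕ) : ℝ) := by
      refine le_trans (Nat.le_ceil _) ?_
      exact_mod_cast (by omega : ⌈(1 + 2 / ε) / ε⌉₊ ≤ p ^ (r + 1))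
    rw [div_le_iff₀ hε] at h1
    linarith
  set Q : ℕ := p ^ (r + 1) with hQdef
  have hQ1 : 1 ≤ Q := Nat.one_le_pow _ _ hp.pos
  have hfc : ∀ (y : ℝ) (t : Fin (2 * r + 1 + 1) → ℤ),
      fc (fun φ => ee (y * g0 (fun i => cell p (φ i)))) t
        = (∏ i, kap p (t i)) * ∑ u, (ee y) ^ g0 u * chr p t u := by
    intro y t
    unfold fc
    rw [← integral_step (fun u => (ee y) ^ g0 u) t]
    congr 1
    funext φ
    beta_reduce
    rw [← ee_mul_nat, mul_comm (y : ℝ)]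
  have hsq : ∀ t : Fin (2 * r + 1 + 1) → ℤ, Real.sqrt (wmass p t) = ‖(Q : ℂ) * ∏ i, kap p (t i)‖ := by
    intro t
    have h := sqrt_wmass (r := r + 1) hp1 (by ring) t
    rw [h, norm_mul, Complex.norm_natCast, norm_prod, hQdef]
    push_cast
    rfl
  refine ⟨2 * r + 1, p, Q, g0, (types (2 * r + 1) M).filter (fun t => 0 < wmass p t), hp, hQ1, hg0, ?_, ?_, ?_,
    ?_, ?_, ?_, ?_, hsq, ?_⟩
  · intro t ht; exact (mem_filter.1 ht).2
  · intro t ht; exact types_pos (mem_filter.1 ht).1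
  · intro t ht
    have := (mem_filter.1 ht).1
    simp only [types, mem_filter] at this
    exact this.2.2
  · intro t ht t' ht' hne
    exact types_nonparallel (mem_filter.1 ht).1 (mem_filter.1 ht').1 hne
  · have : ∑ t ∈ (types (2 * r + 1) M).filter (fun t => 0 < wmass p t), wmass p t
        = ∑ t ∈ types (2 * r + 1) M, wmass p t := by
      refine sum_filter_of_ne fun t _ h => lt_of_le_of_ne (wmass_nonneg _ _) (Ne.symm h)
    rw [this]; exact hlow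
  · have : ∑ t ∈ (types (2 * r + 1) M).filter (fun t => 0 < wmass p t), wmass p t
        = ∑ t ∈ types (2 * r + 1) M, wmass p t := by
      refine sum_filter_of_ne fun t _ h => lt_of_le_of_ne (wmass_nonneg _ _) (Ne.symm h)
    rw [this]; exact hup
  · intro t ht
    have hnd : ∃ i, ¬ (p : ℤ) ∣ t i := by
      rcases ht with ht | ht
      · exact types_not_dvd (mem_filter.1 ht).1 hp.two_le
      · obtain ⟨i, hi⟩ := types_not_dvd (mem_filter.1 ht).1 hp.two_le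
        exact ⟨i, fun h => hi (by simpa using h)⟩
    obtain ⟨m, hm, hz⟩ := hne t hnd
    refine ⟨m, hm, fun y hy => ?_⟩
    rw [hfc, hz, hsq]
    have e1 : (∏ i, kap p (t i)) * ((p : ℂ) ^ (r + 1) * ee y ^ m + (1 - ∑ k ∈ range (p ^ (r + 1) + 1), ee y ^ k))
        - (Q : ℂ) * (∏ i, kap p (t i)) * ee (y * m)
        = (∏ i, kap p (t i)) * (1 - ∑ k ∈ range (p ^ (r + 1) + 1), ee y ^ k) := by
      rw [mul_comm y, ee_mul_nat, hQdef]
      push_cast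
      ring
    rw [e1, norm_mul, norm_mul, Complex.norm_natCast]
    have h3 : ‖(1 : ℂ) - ∑ k ∈ range (p ^ (r + 1) + 1), ee y ^ k‖ ≤ 1 + 2 / ε := by
      refine (norm_sub_le _ _).trans ?_
      rw [norm_one]
      have := norm_geom_le (norm_ee y) hε hy (p ^ (r + 1) + 1)
      linarith
    have h4 : ‖(1 : ℂ) - ∑ k ∈ range (p ^ (r + 1) + 1), ee y ^ k‖ ≤ ε * Q := h3.trans hQ
    calc ‖∏ i, kap p (t i)‖ * ‖(1 : ℂ) - ∑ k ∈ range (p ^ (r + 1) + 1), ee y ^ k‖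
        ≤ ‖∏ i, kap p (t i)‖ * (ε * Q) := mul_le_mul_of_nonneg_left h4 (norm_nonneg _)
      _ = _ := by ring
  · intro y hy
    rw [hfc, hdv 0 (by simp)]
    have hk : ∏ i : Fin (2 * r + 1 + 1), kap p ((0 : Fin (2 * r + 1 + 1) → ℤ) i) = ((1 / (Q:ℝ) ^ 2 : ℝ) : ℂ) := by
      simp only [Pi.zero_apply, kap_zero, prod_const, card_univ, Fintype.card_fin, hQdef]
      push_cast
      rw [one_div, one_div, inv_pow, ← pow_mul]
      congr 2
      ring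
    rw [hk, norm_mul, Complex.norm_real, Real.norm_of_nonneg (by positivity)]
    have hQ0 : (0:ℝ) < Q := by exact_mod_cast hQ1
    have h3 := norm_geom_le (norm_ee y) hε hy (p ^ (r + 1) + 1)
    have h5 : ‖(p : ℂ) ^ (r + 1) - 1‖ ≤ Q := by
      have : (p : ℂ) ^ (r + 1) - 1 = ((Q - 1 : ℕ) : ℂ) := by
        rw [Nat.cast_sub hQ1, hQdef]; push_cast; ring
      rw [this, Complex.norm_natCast]
      exact_mod_cast Nat.sub_le _ _
    have h4 : ‖(1 : ℂ) + ((p : ℂ) ^ (r + 1) - 1) * ∑ k ∈ range (p ^ (r + 1) + 1), ee y ^ k‖ ≤ 1 + Q * (2 / ε) := by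
      refine (norm_add_le _ _).trans ?_
      rw [norm_one, norm_mul]
      have := mul_le_mul h5 h3 (norm_nonneg _) hQ0.le
      linarith
    have hQ1' : (1:ℝ) ≤ Q := by exact_mod_cast hQ1
    have h6 : 1 + Q * (2 / ε) ≤ ε * Q * Q := by
      have h7 : 0 < 2 / ε := by positivity
      nlinarith
    calc 1 / (Q:ℝ) ^ 2 * _ ≤ 1 / (Q:ℝ) ^ 2 * (ε * Q * Q) :=
          mul_le_mul_of_nonneg_left (h4.trans h6) (by positivity)
      _ = ε := by field_simp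

end Crest.Agent.R081.Spread
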