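import Crest.Agent.R081.SpreadE
import Crest.Agent.R081.SpreadF

/-!
# Row 81: spread labels on the torus, for arbitrary label values (helper472)
-/

set_option autoImplicit false

namespace Crest.Agent.R081.Spread

open MeasureTheory Finset Crest.Agent.R075

lemma exists_spreadE' (p r n : ℕ) [Fact p.Prime] (hr : r ≠ 0) (hn : n = 2 * r) :
    ∃ g0 : (Fin n → ZMod p) → ℕ, (∀ u, g0 u ≤ p ^ r) ∧
      (∀ t : Fin n → ℤ, (∃ i, ¬ (p : ℤ) ∣ t i) → ∃ m ≤ p ^ r, ∀ E : ℕ → ℂ,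
        ∑ u, E (g0 u) * chr p t u
          = (p : ℂ) ^ r * E m + (E 0 - ∑ k ∈ range (p ^ r + 1), E k)) ∧
      (∀ t : Fin n → ℤ, (∀ i, (p : ℤ) ∣ t i) → ∀ E : ℕ → ℂ,
        ∑ u, E (g0 u) * chr p t u
          = E 0 + ((p : ℂ) ^ r - 1) * ∑ k ∈ range (p ^ r + 1), E k) ∧
      (∀ k ≤ p ^ r, (univ.filter (fun u => g0 u = k)).card = if k = 0 then p ^ r else p ^ r - 1) := by
  subst hn
  exact exists_spreadE p r hr

lemma kap_eq_zero {p : ℕ} (hp : 1 ≤ p) {t : ℤ} (ht : t ≠ 0) (hd : (p : ℤ) ∣ t) : kap p t = 0 := by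
  have h := norm_kap_sq hp t
  have hp0 : (0:ℝ) < p := by exact_mod_cast (by omega : 0 < p)
  have h1 : amass p t = 0 := by
    unfold amass
    rw [if_neg ht]
    obtain ⟨k, rfl⟩ := hd
    have : Real.pi * ((p * k : ℤ) : ℝ) / p = k * Real.pi := by
      push_cast; field_simp
    rw [this, Real.sin_int_mul_pi]
    simp
  rw [h1] at h
  have h2 : ‖kap p t‖ ^ 2 = 0 := by
    rcases mul_eq_zero.1 h with h | h
    · exact absurd h hp0.ne'
    · exact h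
  exact norm_eq_zero.1 (by nlinarith [norm_nonneg (kap p t), pow_eq_zero_iff (n := 2) (a := ‖kap p t‖) two_ne_zero |>.1 h2])

/-- **spread labels on the torus.**  `Q` labels up to one; the number of cells of each label is `Q - 1` (`Q` for the
label `0`), `Q ^ 2` cells in total. -/
theorem exists_labels (ε : ℝ) (hε : 0 < ε) (Q0 : ℕ) :
    ∃ (n p Q : ℕ) (g0 : (Fin (n + 1) → ZMod p) → ℕ) (T : Finset (Fin (n + 1) → ℤ)),
      p.Prime ∧ Q0 ≤ Q ∧ 1 ≤ Q ∧ Q ^ 2 = p ^ (n + 1) ∧ (∀ u, g0 u ≤ Q) ∧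
      (∀ t ∈ T, 0 < wmass p t) ∧ (∀ t ∈ T, 1 ≤ t 0) ∧ (∀ t ∈ T, ∃ i, t i = 1 ∨ t i = -1) ∧
      (∀ t ∈ T, ∀ t' ∈ T, t ≠ t' → ∃ i j, t i * t' j ≠ t j * t' i) ∧
      1 - ε ≤ 2 * ∑ t ∈ T, wmass p t ∧ 2 * ∑ t ∈ T, wmass p t ≤ 1 ∧
      (∀ t : Fin (n + 1) → ℤ, Real.sqrt (wmass p t) = ‖(Q : ℂ) * ∏ i, kap p (t i)‖) ∧
      (∀ t : Fin (n + 1) → ℤ, (∃ i, ¬ (p : ℤ) ∣ t i) → ∃ m ≤ Q, ∀ E : ℕ → ℂ,
        fc (fun φ => E (g0 (fun i => cell p (φ i)))) t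
          = ((Q : ℂ) * ∏ i, kap p (t i)) * E m
            + (∏ i, kap p (t i)) * (E 0 - ∑ k ∈ range (Q + 1), E k)) ∧
      (∀ t : Fin (n + 1) → ℤ, t ∈ T ∨ -t ∈ T → ∃ i, ¬ (p : ℤ) ∣ t i) ∧
      (∀ t : Fin (n + 1) → ℤ, t ≠ 0 → (∀ i, (p : ℤ) ∣ t i) → ∀ E : ℕ → ℂ,
        fc (fun φ => E (g0 (fun i => cell p (φ i)))) t = 0) ∧
      (∀ E : ℕ → ℂ, fc (fun φ => E (g0 (fun i => cell p (φ i)))) 0
          = (1 / (Q : ℂ) ^ 2) * (E 0 + ((Q : ℂ) - 1) * ∑ k ∈ range (Q + 1), E k)) := by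
  classical
  obtain ⟨p, r, M, hp, hK, hM, hlow, hup⟩ := exists_params ε hε (Q0 + 1)
  have hpf : Fact p.Prime := ⟨hp⟩
  have hp1 := hp.one_le
  obtain ⟨g0, hg0, hne, hdv, hcnt⟩ := exists_spreadE' p (r + 1) (2 * r + 1 + 1) (Nat.succ_ne_zero r) (by ring)
  set Q : ℕ := p ^ (r + 1) with hQdef
  have hQ1 : 1 ≤ Q := Nat.one_le_pow _ _ hp.pos
  have hfc : ∀ (E : ℕ → ℂ) (t : Fin (2 * r + 1 + 1) → ℤ),
      fc (fun φ => E (g0 (fun i => cell p (φ i)))) t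
        = (∏ i, kap p (t i)) * ∑ u, E (g0 u) * chr p t u := by
    intro E t
    unfold fc
    rw [← integral_step (fun u => E (g0 u)) t]
  have hsq : ∀ t : Fin (2 * r + 1 + 1) → ℤ, Real.sqrt (wmass p t) = ‖(Q : ℂ) * ∏ i, kap p (t i)‖ := by
    intro t
    have h := sqrt_wmass (r := r + 1) hp1 (by ring) t
    rw [h, norm_mul, Complex.norm_natCast, norm_prod, hQdef]
    push_cast
    rfl
  have hfilt : ∑ t ∈ (types (2 * r + 1) M).filter (fun t => 0 < wmass p t), wmass p t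
        = ∑ t ∈ types (2 * r + 1) M, wmass p t := by
    refine sum_filter_of_ne fun t _ h => lt_of_le_of_ne (wmass_nonneg _ _) (Ne.symm h)
  refine ⟨2 * r + 1, p, Q, g0, (types (2 * r + 1) M).filter (fun t => 0 < wmass p t), hp, ?_, hQ1, ?_, hg0, ?_, ?_, ?_,
    ?_, ?_, ?_, hsq, ?_, ?_, ?_, ?_⟩
  · omega
  · rw [hQdef, ← pow_mul]; congr 1; ring
  · intro t ht; exact (mem_filter.1 ht).2
  · intro t ht; exact types_pos (mem_filter.1 ht).1
  · intro t ht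
    have := (mem_filter.1 ht).1
    simp only [types, mem_filter] at this
    exact this.2.2
  · intro t ht t' ht' hne
    exact types_nonparallel (mem_filter.1 ht).1 (mem_filter.1 ht').1 hne
  · rw [hfilt]; exact hlow
  · rw [hfilt]; exact hup
  · intro t ht
    obtain ⟨m, hm, hz⟩ := hne t ht
    refine ⟨m, hm, fun E => ?_⟩
    rw [hfc, hz]
    rw [hQdef]
    push_cast
    ring
  · intro t ht
    rcases ht with ht | ht
    · exact types_not_dvd (mem_filter.1 ht).1 hp.two_le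
    · obtain ⟨i, hi⟩ := types_not_dvd (mem_filter.1 ht).1 hp.two_le
      exact ⟨i, fun h => hi (by simpa using h)⟩
  · intro t ht0 hd E
    rw [hfc]
    have : ∃ i, t i ≠ 0 := by
      by_contra hcon
      push Not at hcon
      exact ht0 (funext hcon)
    obtain ⟨i, hi⟩ := this
    rw [prod_eq_zero (mem_univ i) (kap_eq_zero hp1 hi (hd i)), zero_mul]
  · intro E
    rw [hfc, hdv 0 (by simp)]
    have hk : ∏ i : Fin (2 * r + 1 + 1), kap p ((0 : Fin (2 * r + 1 + 1) → ℤ) i) = 1 / (Q : ℂ) ^ 2 := by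
      simp only [Pi.zero_apply, kap_zero, prod_const, card_univ, Fintype.card_fin, hQdef]
      push_cast
      rw [one_div, one_div, inv_pow, ← pow_mul]
      congr 2
      ring
    rw [hk, hQdef]
    push_cast
    ring

end Crest.Agent.R081.Spread
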