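import Mathlib

/-!
# Row 81: the masses of the spread function (helper472)

`amass p t` is `p` times the square of the modulus of the Fourier coefficient of the indicator of `[0,1/p)`.
It is a probability on `ℤ`; the product masses are concentrated on the vectors with a coordinate `±1`.
-/

set_option autoImplicit false

namespace Crest.Agent.R081.Spread

open Finset Filter Topology

/-- `p · |κ(t)|²` -/
noncomputable def amass (p : ℕ) (t : ℤ) : ℝ :=
  if t = 0 then 1 / p else p * (Real.sin (Real.pi * t / p) / (Real.pi * t)) ^ 2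

lemma amass_zero (p : ℕ) : amass p 0 = 1 / p := by simp [amass]

lemma amass_nonneg (p : ℕ) (t : ℤ) : 0 ≤ amass p t := by
  unfold amass; split_ifs <;> positivity

lemma amass_neg (p : ℕ) (t : ℤ) : amass p (-t) = amass p t := by
  unfold amass
  by_cases h : t = 0
  · simp [h]
  · rw [if_neg (by simpa using h), if_neg h]
    push_cast
    rw [mul_neg, neg_div, Real.sin_neg, neg_div_neg_eq]

lemma amass_one_pos {p : ℕ} (hp : 2 ≤ p) : 0 < amass p 1 := by
  unfold amass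
  rw [if_neg one_ne_zero]
  have hp0 : (0:ℝ) < p := by exact_mod_cast (by omega : 0 < p)
  have hp1 : (1:ℝ) < p := by exact_mod_cast (by omega : 1 < p)
  have h1 : 0 < Real.sin (Real.pi * (1:ℤ) / p) := by
    apply Real.sin_pos_of_pos_of_lt_pi
    · have := Real.pi_pos
      push_cast
      positivity
    · push_cast
      rw [mul_one, div_lt_iff₀ hp0]
      nlinarith [Real.pi_pos]
  have h2 := Real.pi_pos
  have h3 : (0:ℝ) < Real.pi * (1:ℤ) := by push_cast; linarith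
  positivity

/-- the sum over the positive integers -/
lemma hasSum_amass {p : ℕ} (hp : 1 ≤ p) :
    HasSum (fun n : ℕ => amass p ((n : ℤ) + 1)) ((1 - 1 / p) / 2) := by
  have hp0 : (0:ℝ) < p := by exact_mod_cast (by omega : 0 < p)
  have hp1 : (1:ℝ) ≤ p := by exact_mod_cast hp
  have hx : (1 / p : ℝ) ∈ Set.Icc (0:ℝ) 1 := ⟨by positivity, by rw [div_le_one hp0]; exact hp1⟩
  have hx0 : (0 : ℝ) ∈ Set.Icc (0:ℝ) 1 := ⟨le_refl _, zero_le_one⟩
  have hB : ∀ x : ℝ, (Polynomial.map (algebraMap ℚ ℝ) (Polynomial.bernoulli (2 * 1))).eval x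
      = x ^ 2 - x + 1 / 6 := by
    intro x
    have hb2 : bernoulli 2 = 1 / 6 := by
      rw [bernoulli_eq_bernoulli'_of_ne_one (by norm_num), bernoulli'_two]
    have : Polynomial.bernoulli (2 * 1) = Polynomial.X ^ 2 - Polynomial.X + Polynomial.C (1/6 : ℚ) := by
      rw [show 2 * 1 = 2 by norm_num, Polynomial.bernoulli_def]
      simp only [Finset.sum_range_succ, Finset.sum_range_zero, Nat.sub_zero]
      rw [show (2 - 1 : ℕ) = 1 by norm_num, show (2 - 2 : ℕ) = 0 by norm_num, hb2, bernoulli_one, bernoulli_zero]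
      simp only [Nat.choose_zero_right, Nat.choose_one_right, Nat.choose_self, Nat.cast_one, mul_one]
      simp only [← Polynomial.C_mul_X_pow_eq_monomial]
      norm_num
      ring
    rw [this]
    simp
  have h1 := hasSum_one_div_nat_pow_mul_cos (k := 1) one_ne_zero hx
  have h0 := hasSum_one_div_nat_pow_mul_cos (k := 1) one_ne_zero hx0
  rw [hB] at h1 h0
  have h2 := h0.sub h1
  have h3 := h2.mul_left (p / (2 * Real.pi ^ 2))
  have hval : (p : ℝ) / (2 * Real.pi ^ 2) *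
      ((-1 : ℝ) ^ (1 + 1) * (2 * Real.pi) ^ (2 * 1) / 2 / ((2 * 1).factorial : ℝ) * (0 ^ 2 - 0 + 1 / 6)
        - (-1 : ℝ) ^ (1 + 1) * (2 * Real.pi) ^ (2 * 1) / 2 / ((2 * 1).factorial : ℝ)
          * ((1 / p) ^ 2 - 1 / p + 1 / 6)) = (1 - 1 / p) / 2 := by
    have hpi := Real.pi_ne_zero
    have hf : ((2 * 1).factorial : ℝ) = 2 := by norm_num [Nat.factorial]
    rw [hf]
    field_simp
    ring
  rw [hval] at h3
  rw [← hasSum_nat_add_iff' 1] at h3
  simp only [Finset.range_one, Finset.sum_singleton, Nat.cast_zero, mul_zero, zero_mul, Real.cos_zero,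
    sub_self, mul_one, sub_zero] at h3
  have key : (fun n : ℕ => amass p ((n : ℤ) + 1)) = fun n : ℕ => (p : ℝ) / (2 * Real.pi ^ 2) *
      (1 / ((n + 1 : ℕ) : ℝ) ^ 2
        - 1 / ((n + 1 : ℕ) : ℝ) ^ 2 * Real.cos (2 * Real.pi * ((n + 1 : ℕ) : ℝ) * (1 / p))) := by
    funext n
    have hn : (n : ℝ) + 1 ≠ 0 := by positivity
    have hpi := Real.pi_ne_zero
    have hne : ((n : ℤ) + 1) ≠ 0 := by omega
    have hs : Real.sin (Real.pi * ((n : ℝ) + 1) / p) ^ 2
        = 1 / 2 - Real.cos (2 * Real.pi * ((n : ℝ) + 1) * (1 / p)) / 2 := by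
      rw [Real.sin_sq_eq_half_sub]
      congr 3
      ring
    unfold amass
    rw [if_neg hne]
    push_cast
    rw [div_pow, hs]
    field_simp
  rw [key]
  exact h3

/-- the mass of `[-M, M]` -/
noncomputable def aint (p M : ℕ) : ℝ := ∑ t ∈ Icc (-(M : ℤ)) M, amass p t

lemma sum_Icc_symm (M : ℕ) (f : ℤ → ℝ) (hf : ∀ t, f (-t) = f t) :
    ∑ t ∈ Icc (-(M : ℤ)) M, f t = f 0 + 2 * ∑ n ∈ range M, f ((n : ℤ) + 1) := by
  induction M with
  | zero => simp
  | succ M ih =>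
    rw [sum_range_succ, mul_add, ← add_assoc, ← ih]
    have h : Icc (-((M + 1 : ℕ) : ℤ)) ((M + 1 : ℕ) : ℤ)
        = insert (-((M + 1 : ℕ) : ℤ)) (insert ((M + 1 : ℕ) : ℤ) (Icc (-(M : ℤ)) M)) := by
      ext x
      simp only [mem_Icc, mem_insert]
      push_cast
      omega
    rw [h, sum_insert, sum_insert]
    · rw [hf]
      push_cast
      ring
    · simp only [mem_Icc]; push_cast; omega
    · simp only [mem_insert, mem_Icc]; push_cast; omega

lemma tendsto_aint {p : ℕ} (hp : 1 ≤ p) : Tendsto (fun M => aint p M) atTop (𝓝 1) := by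
  have h := (hasSum_amass hp).tendsto_sum_nat
  have h2 := (h.const_mul 2).const_add (amass p 0)
  have e1 : amass p 0 + 2 * ((1 - 1 / p) / 2) = (1:ℝ) := by rw [amass_zero]; ring
  rw [e1] at h2
  refine h2.congr fun M => ?_
  rw [aint, sum_Icc_symm M _ (amass_neg p)]

lemma aint_le_one {p : ℕ} (hp : 1 ≤ p) (M : ℕ) : aint p M ≤ 1 := by
  rw [aint, sum_Icc_symm M _ (amass_neg p)]
  have h := sum_le_hasSum (range M) (fun n _ => amass_nonneg p ((n : ℤ) + 1)) (hasSum_amass hp)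
  rw [amass_zero]
  linarith

/-- product mass -/
noncomputable def wmass (p : ℕ) {n : ℕ} (t : Fin n → ℤ) : ℝ := ∏ i, amass p (t i)

lemma wmass_nonneg (p : ℕ) {n : ℕ} (t : Fin n → ℤ) : 0 ≤ wmass p t :=
  prod_nonneg fun _ _ => amass_nonneg _ _

lemma wmass_neg (p : ℕ) {n : ℕ} (t : Fin n → ℤ) : wmass p (-t) = wmass p t := by
  unfold wmass
  exact prod_congr rfl fun i _ => by rw [Pi.neg_apply, amass_neg]

/-- the types used by the design -/
noncomputable def types (n M : ℕ) : Finset (Fin (n + 1) → ℤ) :=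
  (Fintype.piFinset fun _ => Icc (-(M : ℤ)) M).filter fun t => 1 ≤ t 0 ∧ ∃ i, t i = 1 ∨ t i = -1

lemma sum_wmass_box (p n M : ℕ) :
    ∑ t ∈ Fintype.piFinset (fun _ : Fin (n + 1) => Icc (-(M : ℤ)) M), wmass p t = aint p M ^ (n + 1) := by
  unfold wmass
  rw [← prod_univ_sum (fun _ : Fin (n + 1) => Icc (-(M : ℤ)) (M : ℤ)) (fun _ t => amass p t)]
  rw [prod_const, card_univ, Fintype.card_fin]
  rfl

lemma sum_wmass_filter (p n M : ℕ) (P0 P : ℤ → Prop) [DecidablePred P0] [DecidablePred P] :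
    ∑ t ∈ (Fintype.piFinset fun _ : Fin (n + 1) => Icc (-(M : ℤ)) M).filter
        (fun t => P0 (t 0) ∧ ∀ i : Fin n, P (t i.succ)), wmass p t
      = (∑ t ∈ (Icc (-(M : ℤ)) M).filter P0, amass p t) *
        (∑ t ∈ (Icc (-(M : ℤ)) M).filter P, amass p t) ^ n := by
  have h : (Fintype.piFinset fun _ : Fin (n + 1) => Icc (-(M : ℤ)) M).filter
        (fun t => P0 (t 0) ∧ ∀ i : Fin n, P (t i.succ))
      = Fintype.piFinset (Fin.cons ((Icc (-(M : ℤ)) M).filter P0)
          (fun _ : Fin n => (Icc (-(M : ℤ)) M).filter P) : Fin (n + 1) → Finset ℤ) := by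
    ext t
    simp only [mem_filter, Fintype.mem_piFinset]
    constructor
    · rintro ⟨h1, h2, h3⟩ i
      refine Fin.cases ?_ (fun j => ?_) i
      · simp only [Fin.cons_zero, mem_filter]; exact ⟨h1 0, h2⟩
      · simp only [Fin.cons_succ, mem_filter]; exact ⟨h1 _, h3 j⟩
    · intro h
      have h0 := h 0
      simp only [Fin.cons_zero, mem_filter] at h0
      have hj : ∀ j : Fin n, t j.succ ∈ Icc (-(M : ℤ)) (M : ℤ) ∧ P (t j.succ) := by
        intro j
        have := h j.succ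
        simpa only [Fin.cons_succ, mem_filter] using this
      refine ⟨fun i => ?_, h0.2, fun j => (hj j).2⟩
      refine Fin.cases h0.1 (fun j => (hj j).1) i
  rw [h]
  unfold wmass
  rw [← prod_univ_sum (Fin.cons ((Icc (-(M : ℤ)) M).filter P0)
          (fun _ : Fin n => (Icc (-(M : ℤ)) M).filter P) : Fin (n + 1) → Finset ℤ) (fun _ t => amass p t)]
  rw [Fin.prod_univ_succ]
  simp

lemma sum_Icc_pos (p M : ℕ) :
    ∑ t ∈ (Icc (-(M : ℤ)) M).filter (fun t => 1 ≤ t), amass p t = (aint p M - 1 / p) / 2 := by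
  have h1 := sum_filter_add_sum_filter_not (Icc (-(M : ℤ)) M) (fun t => 1 ≤ t) (amass p)
  have h2 : ∑ t ∈ (Icc (-(M : ℤ)) M).filter (fun t => ¬ 1 ≤ t), amass p t
      = ∑ t ∈ (Icc (-(M : ℤ)) M).filter (fun t => 1 ≤ t), amass p t + 1 / p := by
    have h3 : (Icc (-(M : ℤ)) M).filter (fun t => ¬ 1 ≤ t)
        = insert 0 (((Icc (-(M : ℤ)) M).filter (fun t => 1 ≤ t)).image (fun t => -t)) := by
      ext x
      simp only [mem_filter, mem_Icc, mem_insert, mem_image]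
      constructor
      · rintro ⟨⟨h1, h2⟩, h3⟩
        by_cases hx : x = 0
        · exact Or.inl hx
        · exact Or.inr ⟨-x, ⟨⟨by omega, by omega⟩, by omega⟩, by omega⟩
      · rintro (h | ⟨y, ⟨⟨h1, h2⟩, h3⟩, h4⟩)
        · subst h; exact ⟨⟨by omega, by omega⟩, by omega⟩
        · subst h4; exact ⟨⟨by omega, by omega⟩, by omega⟩
    rw [h3, sum_insert, sum_image, amass_zero]
    · simp only [amass_neg]
      ring
    · intro x _ y _ h
      simpa using h
    · simp only [mem_image, mem_filter, mem_Icc]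
      rintro ⟨y, ⟨⟨h1, h2⟩, h3⟩, h4⟩
      omega
  rw [h2] at h1
  unfold aint
  linarith

lemma sum_Icc_not_one {p M : ℕ} (hM : 1 ≤ M) :
    ∑ t ∈ (Icc (-(M : ℤ)) M).filter (fun t => t ≠ 1 ∧ t ≠ -1), amass p t = aint p M - 2 * amass p 1 := by
  have h1 := sum_filter_add_sum_filter_not (Icc (-(M : ℤ)) M) (fun t => t ≠ 1 ∧ t ≠ -1) (amass p)
  have h2 : (Icc (-(M : ℤ)) M).filter (fun t => ¬ (t ≠ 1 ∧ t ≠ -1)) = {1, -1} := by
    ext x
    simp only [mem_filter, mem_Icc, mem_insert, mem_singleton]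
    omega
  rw [h2, sum_pair (by norm_num), amass_neg] at h1
  unfold aint
  linarith

lemma sum_union_le' {p n : ℕ} (A B : Finset (Fin n → ℤ)) :
    ∑ t ∈ A ∪ B, wmass p t ≤ ∑ t ∈ A, wmass p t + ∑ t ∈ B, wmass p t := by
  classical
  have h := sum_union_inter (s₁ := A) (s₂ := B) (f := fun t => wmass p t)
  have h2 : 0 ≤ ∑ t ∈ A ∩ B, wmass p t := sum_nonneg fun _ _ => wmass_nonneg _ _
  linarith

theorem sum_types_ge {p n M : ℕ} (hp : 1 ≤ p) (hM : 1 ≤ M) :
    (aint p M - 1 / p) / 2 * aint p M ^ n - (1 - 2 * amass p 1) ^ n ≤ ∑ t ∈ types n M, wmass p t := by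
  classical
  have h1 := sum_wmass_filter p n M (fun t => 1 ≤ t) (fun _ => True)
  have h2 := sum_wmass_filter p n M (fun t => 1 ≤ t ∧ (t ≠ 1 ∧ t ≠ -1)) (fun t => t ≠ 1 ∧ t ≠ -1)
  rw [sum_Icc_not_one hM] at h2
  rw [sum_Icc_pos, filter_true] at h1
  have hle1 : ∑ t ∈ (Icc (-(M : ℤ)) M).filter (fun t => 1 ≤ t ∧ (t ≠ 1 ∧ t ≠ -1)), amass p t ≤ 1 := by
    refine le_trans (sum_le_sum_of_subset_of_nonneg (filter_subset _ _) fun _ _ _ => amass_nonneg _ _) ?_
    exact aint_le_one hp M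
  have ha := aint_le_one hp M
  have hb0 : 0 ≤ aint p M - 2 * amass p 1 := by
    rw [← sum_Icc_not_one hM]; exact sum_nonneg fun _ _ => amass_nonneg _ _
  have h3 : ∑ t ∈ (Fintype.piFinset fun _ : Fin (n + 1) => Icc (-(M : ℤ)) M).filter
        (fun t => (1 ≤ t 0 ∧ (t 0 ≠ 1 ∧ t 0 ≠ -1)) ∧ ∀ i : Fin n, (t i.succ ≠ 1 ∧ t i.succ ≠ -1)), wmass p t
      ≤ (1 - 2 * amass p 1) ^ n := by
    rw [h2]
    have h4 : (aint p M - 2 * amass p 1) ^ n ≤ (1 - 2 * amass p 1) ^ n :=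
      pow_le_pow_left₀ hb0 (by linarith) n
    calc _ ≤ 1 * (aint p M - 2 * amass p 1) ^ n :=
          mul_le_mul_of_nonneg_right hle1 (pow_nonneg hb0 n)
      _ ≤ _ := by rw [one_mul]; exact h4
  have h5 : ∑ t ∈ (Fintype.piFinset fun _ : Fin (n + 1) => Icc (-(M : ℤ)) M).filter
        (fun t => 1 ≤ t 0 ∧ ∀ i : Fin n, True), wmass p t
      ≤ ∑ t ∈ types n M, wmass p t +
        ∑ t ∈ (Fintype.piFinset fun _ : Fin (n + 1) => Icc (-(M : ℤ)) M).filter
        (fun t => (1 ≤ t 0 ∧ (t 0 ≠ 1 ∧ t 0 ≠ -1)) ∧ ∀ i : Fin n, (t i.succ ≠ 1 ∧ t i.succ ≠ -1)), wmass p t := by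
    refine le_trans (sum_le_sum_of_subset_of_nonneg ?_ fun _ _ _ => wmass_nonneg _ _) (sum_union_le' _ _)
    intro t ht
    simp only [mem_filter, mem_union, types] at ht ⊢
    by_cases h : ∃ i, t i = 1 ∨ t i = -1
    · exact Or.inl ⟨ht.1, ht.2.1, h⟩
    · push_neg at h
      exact Or.inr ⟨ht.1, ⟨ht.2.1, h 0⟩, fun i => h _⟩
  rw [h1] at h5
  have h6 : ∑ t ∈ Icc (-(M : ℤ)) M, amass p t = aint p M := rfl
  rw [h6] at h5
  linarith

theorem sum_types_le {p n M : ℕ} (hp : 1 ≤ p) : 2 * ∑ t ∈ types n M, wmass p t ≤ 1 := by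
  classical
  have h1 := sum_wmass_filter p n M (fun t => 1 ≤ t) (fun _ => True)
  rw [sum_Icc_pos, filter_true] at h1
  have h2 : ∑ t ∈ types n M, wmass p t ≤ ∑ t ∈ (Fintype.piFinset fun _ : Fin (n + 1) => Icc (-(M : ℤ)) M).filter
        (fun t => 1 ≤ t 0 ∧ ∀ i : Fin n, True), wmass p t := by
    refine sum_le_sum_of_subset_of_nonneg ?_ fun _ _ _ => wmass_nonneg _ _
    intro t ht
    simp only [mem_filter, types] at ht ⊢
    exact ⟨ht.1, ht.2.1, fun _ => trivial⟩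
  rw [h1] at h2
  have ha := aint_le_one hp M
  have ha0 : 0 ≤ aint p M := sum_nonneg fun _ _ => amass_nonneg _ _
  have h6 : ∑ t ∈ Icc (-(M : ℤ)) M, amass p t = aint p M := rfl
  rw [h6] at h2
  have h7 : aint p M ^ n ≤ 1 := pow_le_one₀ ha0 ha
  have h8 : 0 ≤ (aint p M - 1 / p) / 2 := by
    rw [← sum_Icc_pos]; exact sum_nonneg fun _ _ => amass_nonneg _ _
  have hp0 : (0:ℝ) < 1 / p := by
    have : (0:ℝ) < p := by exact_mod_cast hp
    positivity
  nlinarith [pow_nonneg ha0 n]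

/-- choice of the parameters -/
theorem exists_params (ε : ℝ) (hε : 0 < ε) (K : ℕ) :
    ∃ p r M : ℕ, p.Prime ∧ K ≤ p ^ (r + 1) ∧ 1 ≤ M ∧
      1 - ε ≤ 2 * ∑ t ∈ types (2 * r + 1) M, wmass p t ∧ 2 * ∑ t ∈ types (2 * r + 1) M, wmass p t ≤ 1 := by
  obtain ⟨p, hpge, hpp⟩ := Nat.exists_infinite_primes (⌈4 / ε⌉₊ + 2)
  have hp2 := hpp.two_le
  have hp0 : (0:ℝ) < p := by exact_mod_cast hpp.pos
  have hpε : 1 / (p : ℝ) ≤ ε / 4 := by
    have h1 : 4 / ε ≤ p := by
      refine le_trans (Nat.le_ceil _) ?_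
      exact_mod_cast (by omega : ⌈4 / ε⌉₊ ≤ p)
    rw [div_le_iff₀ hε] at h1
    rw [div_le_div_iff₀ hp0 (by norm_num)]
    linarith
  have ha1 := amass_one_pos hp2
  have hb0 : 0 ≤ 1 - 2 * amass p 1 := by
    have h := sum_Icc_not_one (p := p) (M := 1) le_rfl
    have h1 : 0 ≤ ∑ t ∈ (Icc (-((1:ℕ) : ℤ)) ((1:ℕ):ℤ)).filter (fun t => t ≠ 1 ∧ t ≠ -1), amass p t :=
      sum_nonneg fun _ _ => amass_nonneg _ _
    have h2 := aint_le_one (p := p) hpp.one_le 1
    linarith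
  have hb1 : 1 - 2 * amass p 1 < 1 := by linarith
  have hr : ∀ᶠ r : ℕ in atTop, (1 - 2 * amass p 1) ^ (2 * r + 1) ≤ ε / 8 := by
    have h := tendsto_pow_atTop_nhds_zero_of_lt_one hb0 hb1
    have h2 : Tendsto (fun r : ℕ => 2 * r + 1) atTop atTop :=
      tendsto_atTop_mono (fun r => (by omega : r ≤ 2 * r + 1)) tendsto_id
    exact ((h.comp h2).eventually_lt_const (by positivity : (0:ℝ) < ε / 8)).mono fun r hr => hr.le
  have hK : ∀ᶠ r : ℕ in atTop, K ≤ p ^ (r + 1) := by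
    filter_upwards [eventually_ge_atTop K] with r hr
    have h1 : r + 1 < p ^ (r + 1) := Nat.lt_pow_self hpp.one_lt
    omega
  obtain ⟨r, hr1, hr2⟩ := (hr.and hK).exists
  have hM : Tendsto (fun M => (aint p M - 1 / p) / 2 * aint p M ^ (2 * r + 1)) atTop
      (𝓝 ((1 - 1 / p) / 2 * 1 ^ (2 * r + 1))) :=
    (((tendsto_aint hpp.one_le).sub_const _).div_const _).mul ((tendsto_aint hpp.one_le).pow _)
  have hM2 := (hM.eventually_const_lt (show (1 - 1 / p) / 2 * 1 ^ (2 * r + 1) - ε / 8 < _ by linarith)).and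
    (eventually_ge_atTop 1)
  obtain ⟨M, hM3, hM1⟩ := hM2.exists
  refine ⟨p, r, M, hpp, hr2, hM1, ?_, sum_types_le hpp.one_le⟩
  have h := sum_types_ge (n := 2 * r + 1) hpp.one_le hM1
  rw [one_pow, mul_one] at hM3
  linarith

lemma types_pos {n M : ℕ} {t : Fin (n + 1) → ℤ} (ht : t ∈ types n M) : 1 ≤ t 0 := by
  simp only [types, mem_filter] at ht; exact ht.2.1

lemma types_nonparallel {n M : ℕ} {t t' : Fin (n + 1) → ℤ} (ht : t ∈ types n M) (ht' : t' ∈ types n M)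
    (hne : t ≠ t') : ∃ i j, t i * t' j ≠ t j * t' i := by
  simp only [types, mem_filter] at ht ht'
  by_contra hcon
  push_neg at hcon
  obtain ⟨-, h0, i, hi⟩ := ht
  obtain ⟨-, h0', j, hj⟩ := ht'
  apply hne
  -- `t = a t'` with `a = ±` and positive first coordinates
  have e1 : t 0 * t' i = t i * t' 0 := (hcon 0 i)
  have e2 : t 0 * t' j = t j * t' 0 := (hcon 0 j)
  have key : t 0 = t' 0 := by
    have a1 : t 0 ∣ t' 0 := by
      rcases hi with h | h
      · rw [h, one_mul] at e1; exact ⟨t' i, e1.symm⟩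
      · rw [h] at e1; exact ⟨- t' i, by linarith⟩
    have a2 : t' 0 ∣ t 0 := by
      rcases hj with h | h
      · rw [h, mul_one] at e2; exact ⟨t j, by linarith⟩
      · rw [h] at e2; exact ⟨- t j, by linarith⟩
    exact Int.dvd_antisymm (by omega) (by omega) a1 a2
  funext k
  have e3 := hcon 0 k
  rw [key] at e3
  have : t' 0 * (t' k - t k) = 0 := by linarith
  rcases mul_eq_zero.1 this with h | h
  · omega
  · omega

lemma types_not_dvd {n M : ℕ} {t : Fin (n + 1) → ℤ} (ht : t ∈ types n M) {p : ℕ} (hp : 2 ≤ p) :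
    ∃ i, ¬ (p : ℤ) ∣ t i := by
  simp only [types, mem_filter] at ht
  obtain ⟨-, h0, i, hi⟩ := ht
  refine ⟨i, fun h => ?_⟩
  have h1 : (p : ℤ) ∣ 1 := by
    rcases hi with h2 | h2
    · rwa [h2] at h
    · rw [h2] at h; simpa using h
  have := Int.le_of_dvd one_pos h1
  omega

end Crest.Agent.R081.Spread
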