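import Crest.Agent.R081.SpreadL

/-!
# Row 81: the spread labels are close to a trigonometric polynomial in L² (helper472)
-/

set_option autoImplicit false

namespace Crest.Agent.R081.Spread

open MeasureTheory Finset Crest.Agent.R075

/-- the unit cube -/
def cube (n : ℕ) : Set (Fin n → ℝ) := Set.univ.pi (fun _ : Fin n => Set.Ico (0:ℝ) 1)

/-- `t · φ` -/
def dt {n : ℕ} (t : Fin n → ℤ) (φ : Fin n → ℝ) : ℝ := ∑ i, t i * φ i

lemma dt_neg {n : ℕ} (t : Fin n → ℤ) (φ : Fin n → ℝ) : dt (-t) φ = - dt t φ := by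
  unfold dt
  rw [← sum_neg_distrib]
  refine sum_congr rfl fun i _ => ?_
  simp

lemma dt_sub {n : ℕ} (s t : Fin n → ℤ) (φ : Fin n → ℝ) : dt (s - t) φ = dt s φ - dt t φ := by
  unfold dt
  rw [← sum_sub_distrib]
  refine sum_congr rfl fun i _ => ?_
  simp [sub_mul]

lemma dt_add {n : ℕ} (t : Fin n → ℤ) (φ ψ : Fin n → ℝ) : dt t (φ + ψ) = dt t φ + dt t ψ := by
  unfold dt
  rw [← sum_add_distrib]
  refine sum_congr rfl fun i _ => ?_
  simp [mul_add]

lemma continuous_dt {n : ℕ} (t : Fin n → ℤ) : Continuous (dt t) := by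
  unfold dt; fun_prop

lemma fc_eq {n : ℕ} (f : (Fin n → ℝ) → ℂ) (t : Fin n → ℤ) :
    fc f t = ∫ φ in cube n, f φ * ee (-(dt t φ)) := rfl

instance isProb_cube (n : ℕ) : IsProbabilityMeasure ((volume : Measure (Fin n → ℝ)).restrict (cube n)) := by
  constructor
  rw [Measure.restrict_apply MeasurableSet.univ, Set.univ_inter]
  unfold cube
  rw [Real.volume_pi_Ico]
  simp

lemma ee_sum {ι : Type*} (s : Finset ι) (f : ι → ℝ) : ee (∑ i ∈ s, f i) = ∏ i ∈ s, ee (f i) := by
  classical
  induction s using Finset.induction_on with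
  | empty => simp
  | insert a s ha ih => rw [sum_insert ha, prod_insert ha, ee_add, ih]

lemma integral_ee_one (t : ℤ) : ∫ x in Set.Ico (0:ℝ) 1, ee (t * x) = if t = 0 then 1 else 0 := by
  rw [integral_Ico_eq_integral_Ioc, ← intervalIntegral.integral_of_le zero_le_one]
  by_cases ht : t = 0
  · subst ht; simp
  · rw [if_neg ht]
    have hc : (2 * Real.pi * Complex.I * t : ℂ) ≠ 0 := by
      have h1 : (Real.pi : ℂ) ≠ 0 := by exact_mod_cast Real.pi_ne_zero
      have h2 : (t : ℂ) ≠ 0 := by exact_mod_cast ht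
      simp [h1, h2]
    have h1 : ∀ x : ℝ, ee (t * x) = Complex.exp ((2 * Real.pi * Complex.I * t : ℂ) * x) := by
      intro x
      unfold ee
      congr 1
      push_cast
      ring
    simp only [h1]
    rw [integral_exp_mul_complex hc]
    have h2 : Complex.exp ((2 * Real.pi * Complex.I * t : ℂ) * ((1:ℝ):ℂ)) = 1 := by
      rw [← h1, mul_one, ee_int]
    rw [h2]
    simp

lemma integral_ee_dt {n : ℕ} (t : Fin n → ℤ) : ∫ φ in cube n, ee (dt t φ) = if t = 0 then 1 else 0 := by
  classical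
  unfold cube dt
  rw [restrict_cube]
  simp only [ee_sum]
  rw [integral_fintype_prod_eq_prod (f := fun (i : Fin n) (x : ℝ) => ee (t i * x))]
  simp only [integral_ee_one]
  by_cases h : t = 0
  · subst h; simp
  · rw [if_neg h]
    have : ∃ i, t i ≠ 0 := by
      by_contra hcon
      push Not at hcon
      exact h (funext hcon)
    obtain ⟨i, hi⟩ := this
    exact prod_eq_zero (mem_univ i) (if_neg hi)

/-- trigonometric polynomial -/
noncomputable def trig {n : ℕ} (S : Finset (Fin n → ℤ)) (c : (Fin n → ℤ) → ℂ) (φ : Fin n → ℝ) : ℂ :=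
  ∑ t ∈ S, c t * ee (dt t φ)

lemma continuous_trig {n : ℕ} (S : Finset (Fin n → ℤ)) (c : (Fin n → ℤ) → ℂ) : Continuous (trig S c) := by
  unfold trig
  refine continuous_finsetSum _ fun t _ => continuous_const.mul (ee_continuous.comp (continuous_dt t))

lemma norm_trig_le {n : ℕ} (S : Finset (Fin n → ℤ)) (c : (Fin n → ℤ) → ℂ) (φ : Fin n → ℝ) :
    ‖trig S c φ‖ ≤ ∑ t ∈ S, ‖c t‖ := by
  unfold trig
  refine (norm_sum_le _ _).trans (sum_le_sum fun t _ => ?_)
  rw [norm_mul, norm_ee, mul_one]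

lemma integral_mul_conj_trig {n : ℕ} (S : Finset (Fin n → ℤ)) (c : (Fin n → ℤ) → ℂ)
    (f : (Fin n → ℝ) → ℂ) (hf : Measurable f) (C : ℝ) (hC : ∀ φ, ‖f φ‖ ≤ C) :
    ∫ φ in cube n, f φ * (starRingEnd ℂ) (trig S c φ) = ∑ t ∈ S, (starRingEnd ℂ) (c t) * fc f t := by
  have h1 : ∀ φ, f φ * (starRingEnd ℂ) (trig S c φ)
      = ∑ t ∈ S, (starRingEnd ℂ) (c t) * (f φ * ee (-(dt t φ))) := by
    intro φ
    unfold trig
    rw [map_sum, mul_sum]
    refine sum_congr rfl fun t _ => ?_
    rw [map_mul, ee_conj]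
    ring
  simp only [h1]
  rw [integral_finsetSum]
  · refine sum_congr rfl fun t _ => ?_
    rw [integral_const_mul]
    rfl
  · intro t _
    refine Integrable.const_mul ?_ _
    refine Integrable.mono' (integrable_const C) ?_ (ae_of_all _ fun φ => ?_)
    · exact (hf.mul ((ee_continuous.comp (continuous_dt t).neg).measurable)).aestronglyMeasurable
    · rw [norm_mul, norm_ee, mul_one]; exact hC φ

lemma fc_trig {n : ℕ} (S : Finset (Fin n → ℤ)) (c : (Fin n → ℤ) → ℂ) (t : Fin n → ℤ) (ht : t ∈ S) :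
    fc (trig S c) t = c t := by
  classical
  rw [fc_eq]
  have h1 : ∀ φ, trig S c φ * ee (-(dt t φ)) = ∑ s ∈ S, c s * ee (dt (s - t) φ) := by
    intro φ
    unfold trig
    rw [sum_mul]
    refine sum_congr rfl fun s _ => ?_
    rw [mul_assoc, ← ee_add, dt_sub, sub_eq_add_neg]
  simp only [h1]
  rw [integral_finsetSum]
  · simp only [integral_const_mul, integral_ee_dt]
    rw [sum_eq_single t]
    · simp
    · intro s _ hs
      rw [if_neg (sub_ne_zero.2 hs), mul_zero]
    · intro h; exact absurd ht h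
  · intro s _
    refine Integrable.const_mul ?_ _
    refine Integrable.mono' (integrable_const 1) ?_ (ae_of_all _ fun φ => ?_)
    · exact ((ee_continuous.comp (continuous_dt _)).measurable).aestronglyMeasurable
    · rw [norm_ee]

lemma integrable_bdd {n : ℕ} {f : (Fin n → ℝ) → ℂ} (hf : Measurable f) (C : ℝ) (hC : ∀ φ, ‖f φ‖ ≤ C) :
    Integrable f ((volume : Measure (Fin n → ℝ)).restrict (cube n)) :=
  Integrable.mono' (integrable_const C) hf.aestronglyMeasurable (ae_of_all _ hC)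

/-- the L² distance to a trigonometric polynomial -/
theorem integral_norm_sub_trig {n : ℕ} (S : Finset (Fin n → ℤ)) (c : (Fin n → ℤ) → ℂ)
    (f : (Fin n → ℝ) → ℂ) (hf : Measurable f) (C : ℝ) (hC : ∀ φ, ‖f φ‖ ≤ C) :
    ∫ φ in cube n, ‖f φ - trig S c φ‖ ^ 2
      = (∫ φ in cube n, ‖f φ‖ ^ 2) - 2 * (∑ t ∈ S, ((starRingEnd ℂ) (c t) * fc f t).re) + ∑ t ∈ S, ‖c t‖ ^ 2 := by
  have hm := (continuous_trig S c).measurable
  have h1 : ∀ φ, ‖f φ - trig S c φ‖ ^ 2
      = ‖f φ‖ ^ 2 - 2 * (f φ * (starRingEnd ℂ) (trig S c φ)).re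
        + (trig S c φ * (starRingEnd ℂ) (trig S c φ)).re := by
    intro φ
    rw [← Complex.normSq_eq_norm_sq, ← Complex.normSq_eq_norm_sq, Complex.normSq_sub, Complex.mul_conj]
    simp only [Complex.ofReal_re]
    ring
  simp only [h1]
  have i1 : Integrable (fun φ => ‖f φ‖ ^ 2) ((volume : Measure (Fin n → ℝ)).restrict (cube n)) := by
    refine Integrable.mono' (integrable_const (C ^ 2)) (hf.norm.pow_const 2).aestronglyMeasurable
      (ae_of_all _ fun φ => ?_)
    rw [Real.norm_of_nonneg (by positivity)]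
    exact pow_le_pow_left₀ (norm_nonneg _) (hC φ) 2
  set B := ∑ t ∈ S, ‖c t‖ with hB
  have hB0 : 0 ≤ B := sum_nonneg fun _ _ => norm_nonneg _
  have hC0 : 0 ≤ C := (norm_nonneg _).trans (hC 0)
  have i2 : Integrable (fun φ => f φ * (starRingEnd ℂ) (trig S c φ))
      ((volume : Measure (Fin n → ℝ)).restrict (cube n)) := by
    refine integrable_bdd (hf.mul (Complex.continuous_conj.measurable.comp hm)) (C * B) fun φ => ?_
    rw [norm_mul, RCLike.norm_conj]
    exact mul_le_mul (hC φ) (norm_trig_le _ _ _) (norm_nonneg _) hC0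
  have i3 : Integrable (fun φ => trig S c φ * (starRingEnd ℂ) (trig S c φ))
      ((volume : Measure (Fin n → ℝ)).restrict (cube n)) := by
    refine integrable_bdd (hm.mul (Complex.continuous_conj.measurable.comp hm)) (B * B) fun φ => ?_
    rw [norm_mul, RCLike.norm_conj]
    exact mul_le_mul (norm_trig_le _ _ _) (norm_trig_le _ _ _) (norm_nonneg _) hB0
  have e2 : ∫ φ in cube n, (f φ * (starRingEnd ℂ) (trig S c φ)).re
      = (∑ t ∈ S, ((starRingEnd ℂ) (c t) * fc f t).re) := by
    rw [← Complex.re_sum, ← integral_mul_conj_trig S c f hf C hC]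
    exact (integral_re i2)
  have e3 : ∫ φ in cube n, (trig S c φ * (starRingEnd ℂ) (trig S c φ)).re = ∑ t ∈ S, ‖c t‖ ^ 2 := by
    have h3 : ∫ φ in cube n, (trig S c φ * (starRingEnd ℂ) (trig S c φ)).re
        = (∫ φ in cube n, trig S c φ * (starRingEnd ℂ) (trig S c φ)).re := integral_re i3
    rw [h3, integral_mul_conj_trig S c (trig S c) hm B (norm_trig_le S c), Complex.re_sum]
    refine sum_congr rfl fun t ht => ?_
    rw [fc_trig S c t ht, mul_comm, Complex.mul_conj, Complex.ofReal_re, Complex.normSq_eq_norm_sq]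
  have j2 : Integrable (fun φ => 2 * (f φ * (starRingEnd ℂ) (trig S c φ)).re)
      ((volume : Measure (Fin n → ℝ)).restrict (cube n)) := i2.re.const_mul 2
  have j3 : Integrable (fun φ => (trig S c φ * (starRingEnd ℂ) (trig S c φ)).re)
      ((volume : Measure (Fin n → ℝ)).restrict (cube n)) := i3.re
  have j12 : Integrable (fun φ => ‖f φ‖ ^ 2 - 2 * (f φ * (starRingEnd ℂ) (trig S c φ)).re)
      ((volume : Measure (Fin n → ℝ)).restrict (cube n)) := i1.sub j2
  rw [integral_add j12 j3, integral_sub i1 j2, integral_const_mul, e2, e3]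

end Crest.Agent.R081.Spread
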