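import Crest.Agent.R075.Basic
import Crest.Agent.R081.SpreadC
import Crest.Agent.R081.SpreadM

/-!
# Row 81: the spread step function on the torus and its Fourier coefficients (helper472)
-/

set_option autoImplicit false

namespace Crest.Agent.R081.Spread

open MeasureTheory Finset Crest.Agent.R075

/-- the cell of a real number -/
noncomputable def cell (p : ℕ) (x : ℝ) : ZMod p := ((⌊(p:ℝ) * x⌋ : ℤ) : ZMod p)

lemma cell_add_int (p : ℕ) (x : ℝ) (k : ℤ) : cell p (x + k) = cell p x := by
  unfold cell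
  rw [mul_add, show (p:ℝ) * (k:ℝ) = ((p * k : ℤ) : ℝ) by push_cast; ring, Int.floor_add_intCast]
  push_cast
  simp

lemma measurable_cell (p : ℕ) : Measurable (cell p) := by
  have h1 : Measurable (fun x : ℝ => ⌊(p:ℝ) * x⌋) := (measurable_const_mul _).floor
  exact (measurable_from_top (f := fun k : ℤ => (k : ZMod p))).comp h1

lemma cell_eq_iff {p : ℕ} [NeZero p] {x : ℝ} (hx : x ∈ Set.Ico (0:ℝ) 1) (u : ZMod p) :
    cell p x = u ↔ x ∈ Set.Ico ((u.val : ℝ) / p) ((u.val : ℝ) / p + 1 / p) := by
  have hp0 : (0:ℝ) < p := by exact_mod_cast Nat.pos_of_ne_zero (NeZero.ne p)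
  have h0 : 0 ≤ ⌊(p:ℝ) * x⌋ := Int.floor_nonneg.2 (mul_nonneg hp0.le hx.1)
  have h1 : ⌊(p:ℝ) * x⌋ < p := by
    rw [Int.floor_lt]
    push_cast
    nlinarith [hx.2]
  have h2 : cell p x = u ↔ ⌊(p:ℝ) * x⌋ = u.val := by
    unfold cell
    constructor
    · intro h
      rw [← h]
      obtain ⟨m, hm⟩ := Int.eq_ofNat_of_zero_le h0
      rw [hm]
      push_cast
      rw [ZMod.val_natCast, Nat.mod_eq_of_lt (by omega)]
    · intro h
      rw [h]
      simp
  rw [h2, Int.floor_eq_iff, Set.mem_Ico, div_le_iff₀ hp0, ← add_div, lt_div_iff₀ hp0]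
  push_cast
  rw [mul_comm x]

/-- the Fourier coefficient of the indicator of `[0,1/p)` -/
noncomputable def kap (p : ℕ) (t : ℤ) : ℂ := ∫ x in (0:ℝ)..(1 / p), ee (-(t * x))

lemma norm_kap_sq {p : ℕ} (hp : 1 ≤ p) (t : ℤ) : p * ‖kap p t‖ ^ 2 = amass p t := by
  have hp0 : (0:ℝ) < p := by exact_mod_cast (by omega : 0 < p)
  unfold kap amass
  by_cases ht : t = 0
  · subst ht
    simp only [Int.cast_zero, zero_mul, neg_zero, ee_zero, if_true]
    rw [intervalIntegral.integral_const]
    rw [norm_smul, norm_one, mul_one, sub_zero, Real.norm_of_nonneg (by positivity)]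
    field_simp
  · rw [if_neg ht]
    have ht' : (t : ℝ) ≠ 0 := by exact_mod_cast ht
    have hc : (-(2 * Real.pi * t) * Complex.I : ℂ) ≠ 0 := by
      have h1 : (Real.pi : ℂ) ≠ 0 := by exact_mod_cast Real.pi_ne_zero
      have h2 : (t : ℂ) ≠ 0 := by exact_mod_cast ht
      simp [h1, h2]
    have h1 : ∀ x : ℝ, ee (-(t * x)) = Complex.exp ((-(2 * Real.pi * t) * Complex.I : ℂ) * x) := by
      intro x
      unfold ee
      congr 1
      push_cast
      ring
    simp only [h1]
    rw [integral_exp_mul_complex hc]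
    rw [norm_div]
    have h2 : ‖Complex.exp ((-(2 * Real.pi * t) * Complex.I : ℂ) * ((1 / p : ℝ) : ℂ))
        - Complex.exp ((-(2 * Real.pi * t) * Complex.I : ℂ) * ((0 : ℝ) : ℂ))‖
        = 2 * |Real.sin (Real.pi * t / p)| := by
      have e1 : (-(2 * Real.pi * t) * Complex.I : ℂ) * ((1 / p : ℝ) : ℂ)
          = Complex.I * ((-(2 * Real.pi * t / p) : ℝ) : ℂ) := by
        push_cast; ring
      rw [e1, Complex.ofReal_zero, mul_zero, Complex.exp_zero, Complex.norm_exp_I_mul_ofReal_sub_one]
      rw [norm_mul, Real.norm_of_nonneg (by norm_num : (0:ℝ) ≤ 2), Real.norm_eq_abs]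
      congr 1
      rw [show -(2 * Real.pi * t / p) / 2 = -(Real.pi * t / p) by ring, Real.sin_neg, abs_neg]
    rw [h2]
    have h3 : ‖(-(2 * Real.pi * t) * Complex.I : ℂ)‖ = 2 * |Real.pi * t| := by
      rw [norm_mul, Complex.norm_I, mul_one, norm_neg]
      rw [show (2 * Real.pi * t : ℂ) = ((2 * (Real.pi * t) : ℝ) : ℂ) by push_cast; ring, Complex.norm_real,
        norm_mul, Real.norm_of_nonneg (by norm_num : (0:ℝ) ≤ 2), Real.norm_eq_abs]
    rw [h3]
    rw [mul_div_mul_left _ _ (by norm_num : (2:ℝ) ≠ 0), ← abs_div, sq_abs]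

/-- integral over one cell -/
lemma integral_cell {p : ℕ} [NeZero p] (t : ℤ) (u : ZMod p) :
    ∫ x in Set.Ico (0:ℝ) 1, (if cell p x = u then ee (-(t * x)) else 0)
      = ee (-(t * u.val / p)) * kap p t := by
  have hp0 : (0:ℝ) < p := by exact_mod_cast Nat.pos_of_ne_zero (NeZero.ne p)
  have hu : (u.val : ℝ) + 1 ≤ p := by exact_mod_cast ZMod.val_lt u
  have h1 : ∫ x in Set.Ico (0:ℝ) 1, (if cell p x = u then ee (-(t * x)) else 0)
      = ∫ x in Set.Ico (0:ℝ) 1,
        (Set.Ico ((u.val : ℝ) / p) ((u.val : ℝ) / p + 1 / p)).indicator (fun x => ee (-(t * x))) x := by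
    refine setIntegral_congr_fun measurableSet_Ico fun x hx => ?_
    simp only [Set.indicator_apply, cell_eq_iff hx u]
  have hsub : Set.Ico ((u.val : ℝ) / p) ((u.val : ℝ) / p + 1 / p) ⊆ Set.Ico (0:ℝ) 1 := by
    refine Set.Ico_subset_Ico (by positivity) ?_
    rw [← add_div, div_le_one hp0]
    exact hu
  rw [h1, integral_indicator measurableSet_Ico, Measure.restrict_restrict measurableSet_Ico,
    Set.inter_eq_left.2 hsub]
  rw [integral_Ico_eq_integral_Ioc, ← intervalIntegral.integral_of_le (by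
    have : (0:ℝ) < 1 / p := by positivity
    linarith)]
  unfold kap
  have h2 := intervalIntegral.integral_comp_add_right (a := 0) (b := 1 / (p:ℝ)) (fun x => ee (-(t * x)))
    ((u.val : ℝ) / p)
  rw [zero_add, add_comm (1 / (p:ℝ))] at h2
  rw [← h2, ← intervalIntegral.integral_const_mul]
  congr 1
  funext x
  rw [← ee_add]
  congr 1
  ring

lemma restrict_cube (n : ℕ) : (volume : Measure (Fin n → ℝ)).restrict (Set.univ.pi fun _ => Set.Ico (0:ℝ) 1)
    = Measure.pi (fun _ : Fin n => (volume : Measure ℝ).restrict (Set.Ico (0:ℝ) 1)) := by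
  rw [volume_pi, Measure.restrict_pi_pi]

lemma integrable_cell_one (p : ℕ) (t : ℤ) (u : ZMod p) :
    Integrable (fun x : ℝ => if cell p x = u then ee (-(t * x)) else 0)
      ((volume : Measure ℝ).restrict (Set.Ico (0:ℝ) 1)) := by
  classical
  have hm : MeasurableSet {x : ℝ | cell p x = u} := (measurable_cell p) (MeasurableSet.of_discrete (s := {u}))
  have h1 : Measurable (fun x : ℝ => if cell p x = u then ee (-(t * x)) else 0) :=
    Measurable.ite hm ((ee_continuous.comp (by fun_prop)).measurable) measurable_const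
  refine Integrable.mono' (integrable_const (1:ℝ)) h1.aestronglyMeasurable (ae_of_all _ fun x => ?_)
  split_ifs <;> simp

/-- Fourier coefficients of a step function -/
theorem integral_step {p : ℕ} [NeZero p] {n : ℕ} (h : (Fin n → ZMod p) → ℂ) (t : Fin n → ℤ) :
    ∫ φ in Set.univ.pi (fun _ : Fin n => Set.Ico (0:ℝ) 1),
        h (fun i => cell p (φ i)) * ee (-(∑ i, t i * φ i))
      = (∏ i, kap p (t i)) * ∑ u, h u * chr p t u := by
  classical
  have h1 : ∀ φ : Fin n → ℝ, h (fun i => cell p (φ i)) * ee (-(∑ i, t i * φ i))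
      = ∑ u : Fin n → ZMod p, h u * ∏ i, (if cell p (φ i) = u i then ee (-(t i * φ i)) else 0) := by
    intro φ
    rw [sum_eq_single (fun i => cell p (φ i))]
    · congr 1
      simp only [if_true]
      rw [← sum_neg_distrib]
      induction (univ : Finset (Fin n)) using Finset.induction_on with
      | empty => simp
      | insert a s ha ih => rw [sum_insert ha, prod_insert ha, ee_add, ih]
    · intro u _ hu
      have : ∃ i, cell p (φ i) ≠ u i := by
        by_contra hcon
        apply hu
        funext i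
        by_contra h2
        exact hcon ⟨i, fun h3 => h2 h3.symm⟩
      obtain ⟨i, hi⟩ := this
      rw [prod_eq_zero (mem_univ i) (if_neg hi), mul_zero]
    · intro h2; exact absurd (mem_univ _) h2
  simp only [h1]
  rw [restrict_cube]
  have hint : ∀ u : Fin n → ZMod p, Integrable (fun φ : Fin n → ℝ =>
      ∏ i, (if cell p (φ i) = u i then ee (-(t i * φ i)) else 0))
      (Measure.pi (fun _ : Fin n => (volume : Measure ℝ).restrict (Set.Ico (0:ℝ) 1))) := by
    intro u
    exact Integrable.fintype_prod (f := fun (i : Fin n) (x : ℝ) => if cell p x = u i then ee (-(t i * x)) else 0)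
      (fun i => integrable_cell_one p (t i) (u i))
  rw [integral_finsetSum _ (fun u _ => (hint u).const_mul _), mul_sum]
  refine sum_congr rfl fun u _ => ?_
  rw [integral_const_mul]
  rw [integral_fintype_prod_eq_prod (f := fun (i : Fin n) (x : ℝ) => if cell p x = u i then ee (-(t i * x)) else 0)]
  simp only [integral_cell]
  rw [prod_mul_distrib]
  have h2 : ∏ i, ee (-(t i * (u i).val / p)) = chr p t u := by
    rw [chr_exp]
    unfold ee
    rw [← Complex.exp_sum]
    congr 1
    rw [mul_sum, sum_div]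
    refine sum_congr rfl fun i _ => ?_
    push_cast
    ring
  rw [h2]
  ring

end Crest.Agent.R081.Spread
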