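import Mathlib

/-!
# Row 81 (S0108): spreads of `(ZMod p)^(2r)` and the flat function attached to them

`V = (ZMod p)^(2r)` is identified with `F × F`, `F` the field with `N = p^r` elements; the `N + 1`
lines through `0` partition `V \ {0}`.  A function that is constant on the punctured lines has a
discrete Fourier transform which, off `0`, is `N` times one of its values plus a bounded error.
(helper287, after notes 10962 and 13196.)
-/

set_option autoImplicit false

open Finset

namespace Crest.Agent.R081.SpreadZ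

/-- `N + 1` subgroups of order `N`, pairwise meeting in `0` and covering `V`. -/
structure Spread (V : Type*) [AddCommGroup V] (N : ℕ) where
  L : Fin (N + 1) → AddSubgroup V
  card : ∀ n, Nat.card (L n) = N
  disj : ∀ m n, m ≠ n → ∀ v, v ∈ L m → v ∈ L n → v = 0
  cover : ∀ v, ∃ n, v ∈ L n

namespace Spread

/-- the lines of `F × F`. -/
def line (F : Type*) [Field F] : Option F → AddSubgroup (F × F)
  | none => (AddMonoidHom.inr F F).range
  | some a => ((AddMonoidHom.id F).prod (AddMonoidHom.mulLeft a)).range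

lemma mem_line_none {F : Type*} [Field F] (v : F × F) : v ∈ line F none ↔ v.1 = 0 := by
  constructor
  · rintro ⟨x, rfl⟩; rfl
  · intro h; exact ⟨v.2, by ext <;> simp [h]⟩

lemma mem_line_some {F : Type*} [Field F] (a : F) (v : F × F) :
    v ∈ line F (some a) ↔ v.2 = a * v.1 := by
  constructor
  · rintro ⟨x, rfl⟩; simp
  · intro h; exact ⟨v.1, by ext <;> simp [h]⟩

lemma card_line {F : Type*} [Field F] (o : Option F) :
    Nat.card (line F o) = Nat.card F := by
  cases o with
  | none =>
    refine (Nat.card_congr (Equiv.ofInjective (AddMonoidHom.inr F F) ?_)).symm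
    intro x y h
    have := congrArg Prod.snd h
    simpa using this
  | some a =>
    refine (Nat.card_congr (Equiv.ofInjective ((AddMonoidHom.id F).prod (AddMonoidHom.mulLeft a))
      ?_)).symm
    intro x y h
    have := congrArg Prod.fst h
    simpa using this

lemma line_disj {F : Type*} [Field F] (o o' : Option F) (h : o ≠ o') (v : F × F)
    (hv : v ∈ line F o) (hv' : v ∈ line F o') : v = 0 := by
  have key : ∀ a : F, v ∈ line F none → v ∈ line F (some a) → v = 0 := by
    intro a h1 h2
    rw [mem_line_none] at h1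
    rw [mem_line_some, h1, mul_zero] at h2
    exact Prod.ext h1 h2
  cases o with
  | none =>
    cases o' with
    | none => exact absurd rfl h
    | some a => exact key a hv hv'
  | some a =>
    cases o' with
    | none => exact key a hv' hv
    | some b =>
      rw [mem_line_some] at hv hv'
      have hab : a - b ≠ 0 := sub_ne_zero.2 fun e => h (by rw [e])
      have h3 : (a - b) * v.1 = 0 := by rw [sub_mul, ← hv, ← hv', sub_self]
      have h1 : v.1 = 0 := (mul_eq_zero.1 h3).resolve_left hab
      exact Prod.ext h1 (by rw [hv, h1, mul_zero]; rfl)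

lemma line_cover {F : Type*} [Field F] (v : F × F) : ∃ o, v ∈ line F o := by
  by_cases h : v.1 = 0
  · exact ⟨none, (mem_line_none v).2 h⟩
  · exact ⟨some (v.2 / v.1), (mem_line_some _ v).2 (by field_simp)⟩

/-- a spread can be transported along an additive equivalence. -/
def comap {V W : Type*} [AddCommGroup V] [AddCommGroup W] {N : ℕ} (S : Spread W N) (e : V ≃+ W) :
    Spread V N where
  L n := (S.L n).comap e.toAddMonoidHom
  card n := by
    refine Eq.trans (Nat.card_congr ⟨fun v => ⟨e v.1, v.2⟩, fun w => ⟨e.symm w.1, ?_⟩, ?_, ?_⟩)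
      (S.card n)
    · change e (e.symm w.1) ∈ S.L n
      rw [e.apply_symm_apply]; exact w.2
    · intro v; exact Subtype.ext (e.symm_apply_apply v.1)
    · intro w; exact Subtype.ext (e.apply_symm_apply w.1)
  disj m n h v hv hv' := by
    have := S.disj m n h (e v) hv hv'
    exact (map_eq_zero_iff e e.injective).1 this
  cover v := by
    obtain ⟨n, hn⟩ := S.cover (e v)
    exact ⟨n, hn⟩

/-- the spread of `F × F`. -/
noncomputable def ofField (F : Type*) [Field F] (N : ℕ) (e : Fin (N + 1) ≃ Option F)
    (hN : Nat.card F = N) : Spread (F × F) N where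
  L n := line F (e n)
  card n := (card_line _).trans hN
  disj m n h v hv hv' := line_disj _ _ (fun q => h (e.injective q)) v hv hv'
  cover v := by
    obtain ⟨o, ho⟩ := line_cover v
    exact ⟨e.symm o, by rw [e.apply_symm_apply]; exact ho⟩

/-- spreads of `(ZMod p)^(2r)` exist. -/
theorem exists_spread (p r : ℕ) [Fact p.Prime] (hr : 0 < r) :
    Nonempty (Spread (Fin (2 * r) → ZMod p) (p ^ r)) := by
  classical
  have hr' : r ≠ 0 := hr.ne'
  have hcard : Nat.card (GaloisField p r) = p ^ r := GaloisField.card p r hr'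
  have : Finite (GaloisField p r) := by
    apply Nat.finite_of_card_ne_zero
    rw [hcard]
    exact pow_ne_zero _ (Fact.out : p.Prime).ne_zero
  have : Fintype (GaloisField p r) := Fintype.ofFinite _
  have e1 : Nonempty (Fin (p ^ r + 1) ≃ Option (GaloisField p r)) := by
    refine ⟨(Fintype.equivFinOfCardEq ?_).symm⟩
    rw [Fintype.card_option, ← Nat.card_eq_fintype_card, hcard]
  have hfr : Module.finrank (ZMod p) (Fin (2 * r) → ZMod p)
      = Module.finrank (ZMod p) (GaloisField p r × GaloisField p r) := by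
    rw [Module.finrank_prod, GaloisField.finrank p hr', Module.finrank_fin_fun]
    ring
  obtain ⟨e1⟩ := e1
  exact ⟨(ofField _ _ e1 hcard).comap (LinearEquiv.ofFinrankEq _ _ hfr).toAddEquiv⟩

variable {V : Type*} [AddCommGroup V] {N : ℕ} (S : Spread V N)

/-- index of the line through a vector (`0` for the zero vector). -/
noncomputable def idx (v : V) : Fin (N + 1) := by
  classical exact if v = 0 then 0 else (S.cover v).choose

lemma idx_zero : S.idx 0 = 0 := by simp [idx]

lemma mem_iff {v : V} (hv : v ≠ 0) (n : Fin (N + 1)) : v ∈ S.L n ↔ S.idx v = n := by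
  have h1 : v ∈ S.L (S.idx v) := by
    simp only [idx, hv, if_false]
    exact (S.cover v).choose_spec
  constructor
  · intro h
    by_contra hne
    exact hv (S.disj _ _ hne v h1 h)
  · intro h; rw [← h]; exact h1

variable [Fintype V]

open Classical in
lemma sum_line (n : Fin (N + 1)) (f : V → ℂ) :
    ∑ v ∈ univ.filter (fun v => v ∈ S.L n), f v
      = f 0 + ∑ v ∈ univ.filter (fun v => v ≠ 0 ∧ S.idx v = n), f v := by
  have h0 : (univ.filter (fun v => v ∈ S.L n)) =
      insert 0 (univ.filter (fun v => v ≠ 0 ∧ S.idx v = n)) := by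
    ext v
    simp only [mem_filter, mem_univ, true_and, mem_insert]
    by_cases hv : v = 0
    · subst hv; simp [(S.L n).zero_mem]
    · simp [hv, S.mem_iff hv]
  rw [h0, sum_insert (by simp)]

open Classical in
lemma sum_all (f : V → ℂ) :
    ∑ v, f v = f 0 + ∑ n, ∑ v ∈ univ.filter (fun v => v ≠ 0 ∧ S.idx v = n), f v := by
  have h1 : ∑ n, ∑ v ∈ univ.filter (fun v => v ≠ 0 ∧ S.idx v = n), f v
      = ∑ v ∈ univ.filter (fun v : V => v ≠ 0), f v := by
    rw [← Finset.sum_fiberwise (univ.filter (fun v : V => v ≠ 0)) (fun v => S.idx v)]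
    refine sum_congr rfl fun n _ => ?_
    rw [filter_filter]
  rw [h1, ← Finset.sum_filter_add_sum_filter_not univ (fun v : V => v = 0)]
  congr 1
  rw [Finset.filter_eq' univ (0 : V), if_pos (mem_univ _), sum_singleton]

open Classical in
lemma sum_char_line (n : Fin (N + 1)) (χ : AddChar V ℂ) :
    ∑ v ∈ univ.filter (fun v => v ∈ S.L n), χ v
      = if (∀ v ∈ S.L n, χ v = 1) then (N : ℂ) else 0 := by
  have h1 : ∑ v ∈ univ.filter (fun v => v ∈ S.L n), χ v = ∑ v : S.L n, χ v := by
    rw [← Finset.sum_subtype (univ.filter (fun v => v ∈ S.L n)) (p := fun v => v ∈ S.L n)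
      (by simp) (fun v => χ v)]
  rw [h1]
  let ψ : AddChar (S.L n) ℂ := χ.compAddMonoidHom (S.L n).subtype
  have h2 : ∑ v : S.L n, χ v = ∑ v, ψ v := rfl
  have hc : Fintype.card (S.L n) = N := by rw [← Nat.card_eq_fintype_card]; exact S.card n
  rw [h2, AddChar.sum_eq_ite, hc]
  have h3 : ψ = 0 ↔ ∀ v ∈ S.L n, χ v = 1 := by
    constructor
    · intro h v hv
      have := DFunLike.congr_fun h (⟨v, hv⟩ : S.L n)
      simpa [ψ] using this
    · intro h
      ext v
      simpa [ψ] using h v.1 v.2
  simp only [h3]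

open Classical in
/-- exactly one line is orthogonal to a nontrivial character. -/
theorem exists_unique_orth (hN : 0 < N) {χ : AddChar V ℂ} (hχ : χ ≠ 0) :
    ∃ n0, ∀ n, (∀ v ∈ S.L n, χ v = 1) ↔ n = n0 := by
  have h1 : ∑ n, ∑ v ∈ univ.filter (fun v => v ∈ S.L n), χ v = (N : ℂ) := by
    have h2 : ∑ n, ∑ v ∈ univ.filter (fun v => v ∈ S.L n), χ v
        = (N + 1 : ℂ) + ∑ n, ∑ v ∈ univ.filter (fun v => v ≠ 0 ∧ S.idx v = n), χ v := by
      rw [Finset.sum_congr rfl fun n _ => S.sum_line n χ, Finset.sum_add_distrib]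
      simp
    have h3 := S.sum_all χ
    rw [AddChar.sum_eq_zero_iff_ne_zero.2 hχ, AddChar.map_zero_eq_one] at h3
    rw [h2]
    linear_combination -h3
  simp only [S.sum_char_line _ χ, Finset.sum_ite, Finset.sum_const_zero, add_zero,
    Finset.sum_const, nsmul_eq_mul] at h1
  have hN' : (N : ℂ) ≠ 0 := by exact_mod_cast hN.ne'
  have h2 : ((univ.filter (fun n => ∀ v ∈ S.L n, χ v = 1)).card : ℂ) = 1 := by
    have : ((univ.filter (fun n => ∀ v ∈ S.L n, χ v = 1)).card : ℂ) * N = 1 * N := by
      rw [h1, one_mul]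
    exact mul_right_cancel₀ hN' this
  have h3 : (univ.filter (fun n => ∀ v ∈ S.L n, χ v = 1)).card = 1 := by exact_mod_cast h2
  obtain ⟨n0, hn0⟩ := Finset.card_eq_one.1 h3
  refine ⟨n0, fun n => ?_⟩
  have := Finset.ext_iff.1 hn0 n
  simpa using this

/-- **Fourier transform of a function that is constant on the punctured lines.** -/
theorem dft (hN : 0 < N) {χ : AddChar V ℂ} (hχ : χ ≠ 0) :
    ∃ n0, ∀ h : Fin (N + 1) → ℂ,
      ∑ v, h (S.idx v) * χ v = N * h n0 - ∑ n, h n + h 0 := by
  classical
  obtain ⟨n0, hn0⟩ := S.exists_unique_orth hN hχ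
  refine ⟨n0, fun h => ?_⟩
  rw [S.sum_all]
  have h1 : ∀ n, ∑ v ∈ univ.filter (fun v => v ≠ 0 ∧ S.idx v = n), h (S.idx v) * χ v
      = h n * ((if n = n0 then (N : ℂ) else 0) - 1) := by
    intro n
    have h2 := S.sum_line n χ
    rw [S.sum_char_line n χ, AddChar.map_zero_eq_one] at h2
    simp only [hn0] at h2
    have h3 : ∑ v ∈ univ.filter (fun v => v ≠ 0 ∧ S.idx v = n), h (S.idx v) * χ v
        = h n * ∑ v ∈ univ.filter (fun v => v ≠ 0 ∧ S.idx v = n), χ v := by
      rw [Finset.mul_sum]
      refine Finset.sum_congr rfl fun v hv => ?_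
      rw [(Finset.mem_filter.1 hv).2.2]
    rw [h3]
    linear_combination (-h n) * h2
  rw [Finset.sum_congr rfl fun n _ => h1 n, S.idx_zero, AddChar.map_zero_eq_one, mul_one]
  simp only [mul_sub, mul_one, mul_ite, mul_zero, Finset.sum_sub_distrib,
    Finset.sum_ite_eq', Finset.mem_univ, if_true]
  ring

end Spread

end Crest.Agent.R081.SpreadZ
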