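import Crest.Agent.R081.StSkel

/-! # Row 81, route B, node STEP: assembly of `StepStmt` (helper9) -/

set_option autoImplicit false
set_option linter.unusedVariables false

namespace Crest.Agent.R081.St

open MeasureTheory Crest.AnalysisR.Torus3 Crest.Agent.R075 Crest.Agent.R081.Fm
  Crest.Agent.R081.Sm Crest.Agent.R081.Tw
open scoped ContDiff

theorem perm_comp_apply (A B : LD) (y : T3) : (A.comp B).perm y = A.perm (B.perm y) := by
  rw [LD.perm_comp]; rfl

theorem ms_nonneg (B : Set X) (u : T3 → ℂ) : 0 ≤ ms B u := Real.sqrt_nonneg _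

theorem nrm_eq (s : Stage) (B : Set X) (f : T3 → ℂ) : s.nrm B f = ms B (fun y => f (s.H.perm y)) := rfl

/-- smaller sets have smaller mass -/
theorem ms_mono_ae {B C : Set X} {u : T3 → ℂ} (hu : Integrable (fun x => ‖fcX u x‖ ^ 2) muX)
    (hC : MeasurableSet C) (h : ∀ᵐ x ∂muX, x ∈ B → x ∈ C) : ms B u ≤ ms C u := by
  apply Real.sqrt_le_sqrt
  apply setIntegral_mono_set hu.integrableOn
  · exact Filter.Eventually.of_forall fun x => by positivity
  · exact h

theorem stepStmt (hD : DesStmt) (hS : SmoothStmt) (hM : ModesStmt) (h3 : T3Stmt) (h2 : T2Stmt)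
    (h1 : T1Stmt) (h0 : T0Stmt) (hGA : GAStmt) (hGP : GPStmt) (hHE : HEStmt)
    (hfc : ∀ u : T3 → ℂ, MemLp u 2 volume → Integrable (fun x => ‖fcX u x‖ ^ 2) muX) : StepStmt := by
  intro s Fs hFs r e he
  -- functions in the coordinates of the twist
  have hmp : MeasurePreserving s.H.perm (volume : Measure T3) volume := s.mpH
  let U : (T3 → ℂ) → (T3 → ℂ) := fun f y => f (s.H.perm y)
  have hU : ∀ f ∈ Fs, MemLp (U f) 2 volume := fun f hf => (hFs f hf).1.comp_measurePreserving hmp
  have hU0 : ∀ f ∈ Fs, ∫ y, U f y = 0 := by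
    intro f hf
    have : ∫ y, f (s.H.perm y) = ∫ y, f y :=
      hmp.integral_comp (by
        exact (Homeomorph.measurableEmbedding
          (⟨s.H.perm, s.H.continuous_perm, s.H.continuous_perm_symm⟩ : T3 ≃ₜ T3))) f
    show ∫ y, f (s.H.perm y) = 0
    rw [this]; exact (hFs f hf).2
  obtain ⟨e1, he1, GP⟩ := hGP s e he
  have E3 := Ev.all Fs (fun f _ _ d _ _ G => ms {x | x.2 ∉ Set.Icc d.del (1 - d.del)}
    (fun y => U f (G.perm y)) ≤ e) fun f hf => h3 s.t (U f) (hU f hf) e he
  have E2 := Ev.all Fs (fun f _ _ d _ _ G => ms {x | x.1 = 0 ∨ x.2 ∉ Set.Icc d.del (1 - d.del)}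
    (fun y => U f (G.perm y)) ≤ ms (offJ s.t) (U f) + e) fun f hf => h2 s.t (U f) (hU f hf) (hU0 f hf) e he
  have E1 := Ev.all Fs (fun f _ _ d _ P' G => ms (overE d P')ᶜ (fun y => U f (G.perm y))
    ≤ ms (offZ s.t) (U f) + e) fun f hf => h1 s.t (U f) (hU f hf) e he
  have E0 := Ev.all Fs (fun f _ _ d h P' G => ms (stepS s.M d h P')ᶜ (fun y => U f (G.perm y))
    ≤ ms s.M.Salᶜ (U f) + e) fun f hf => h0 s.t s.M (U f) (hU f hf) e he
  have EG := hGA s e1 he1
  obtain ⟨K0, eps0, heps0, EV⟩ := E3.and (E2.and (E1.and (E0.and EG)))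
  obtain ⟨d⟩ := hD s.t.q s.t.q_pos K0 eps0 heps0
  obtain ⟨hh0, EV⟩ := EV K0 eps0 (Finset.Subset.refl _) heps0 le_rfl d
  obtain ⟨hh1, SM⟩ := hS s.t s.H s.T s.hT K0 eps0 d r e he
  obtain ⟨h, P', hpos, hge, hP⟩ := hHE s.t K0 eps0 d (max hh0 hh1)
  obtain ⟨G, T', hG, hGF, hT', hb1, hb2⟩ := SM h hpos ((le_max_right _ _).trans hge) P' hP
  obtain ⟨M', hM1, hM2, hM3⟩ := hM s.t s.M K0 eps0 d h hpos P' hP
  obtain ⟨F3, F2, F1, F0, a, ha1, ha2, ha3, ha4⟩ :=
    EV h hpos ((le_max_left _ _).trans hge) P' hP G hG hGF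
  obtain ⟨g', hg1, hg2, hg3⟩ := GP K0 eps0 d h hpos P' hP G hG M' hM1 hM2 a ha1 ha2 ha3 ha4
  have hGm : MeasurePreserving G.perm (volume : Measure T3) volume := hG
  let s' : Stage :=
    { t := d.tw h hpos P' hP
      H := s.H.comp G
      mpH := s.mpH.comp hG
      T := T'
      hT := hT'
      M := M'
      g := g'
      g_lp := hg1
      flat := hg2 }
  have hcomp : ∀ f : T3 → ℂ, (fun y => f (s'.H.perm y)) = fun y => U f (G.perm y) := by
    intro f; funext y
    show f ((s.H.comp G).perm y) = f (s.H.perm (G.perm y))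
    rw [perm_comp_apply]
  refine ⟨s', hb1, hb2, ?_, fun f hf => ?_⟩
  · -- closeness of g
    have hmp' : MeasurePreserving s'.H.perm (volume : Measure T3) volume := s'.mpH
    have hme : MeasurableEmbedding s'.H.perm :=
      (⟨s'.H.perm, s'.H.continuous_perm, s'.H.continuous_perm_symm⟩ : T3 ≃ₜ T3).measurableEmbedding
    have := hmp'.integral_comp hme (fun x => (s'.gT x - s.gT x) ^ 2)
    rw [← this]
    refine le_trans (le_of_eq ?_) hg3
    refine integral_congr_ae (Filter.Eventually.of_forall fun y => ?_)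
    show (g' (s'.H.perm.symm (s'.H.perm y)) - s.g (s.H.perm.symm (s'.H.perm y))) ^ 2
      = (g' y - s.g (G.perm y)) ^ 2
    have e1 : s'.H.perm.symm (s'.H.perm y) = y := Equiv.symm_apply_apply _ _
    have e2 : s.H.perm.symm (s'.H.perm y) = G.perm y := by
      have : s'.H.perm y = s.H.perm (G.perm y) := perm_comp_apply s.H G y
      rw [this, Equiv.symm_apply_apply]
    rw [e1, e2]
  · have hint : Integrable (fun x => ‖fcX (fun y => U f (G.perm y)) x‖ ^ 2) muX :=
      hfc _ ((hU f hf).comp_measurePreserving hGm)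
    have hmS : MeasurableSet (stepS s.M d h P')ᶜ ∨ True := Or.inr trivial
    refine ⟨?_, ?_, ?_, ?_⟩
    · show ms M'.Sᶜ (fun y => f (s'.H.perm y)) ≤ s.D1 f + e
      rw [hcomp]
      refine le_trans ?_ (F0 f hf)
      apply Real.sqrt_le_sqrt
      apply setIntegral_mono_set hint.integrableOn
      · exact Filter.Eventually.of_forall fun x => by positivity
      · exact Filter.Eventually.of_forall fun x hx => fun h' => hx (hM1 h')
    · show ms M'.Salᶜ (fun y => f (s'.H.perm y)) ≤ s.D2 f + e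
      rw [hcomp]
      refine le_trans ?_ (F1 f hf)
      apply Real.sqrt_le_sqrt
      apply setIntegral_mono_set hint.integrableOn
      · exact Filter.Eventually.of_forall fun x => by positivity
      · filter_upwards [hM3] with x hx hx' h'
        exact hx' (hx h')
    · show ms _ (fun y => f (s'.H.perm y)) ≤ s.D3 f + e
      rw [hcomp]
      exact F2 f hf
    · show ms _ (fun y => f (s'.H.perm y)) ≤ e
      rw [hcomp]
      exact F3 f hf

end Crest.Agent.R081.St
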