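import Crest.Agent.R081.StAsm
import Crest.Agent.R081.TwArith
import Crest.Agent.R081.TwStmt
import Crest.Agent.R081.FmBase

/-! # Row 81, route B, node STEP: discharged inputs of `stepStmt` (helper9) -/

set_option autoImplicit false
set_option linter.unusedVariables false

namespace Crest.Agent.R081.St

open MeasureTheory Crest.AnalysisR.Torus3 Crest.Agent.R075 Crest.Agent.R081.Fm
  Crest.Agent.R081.Sm Crest.Agent.R081.Tw
open scoped ContDiff

theorem heStmt : HEStmt := by
  intro t K eps d h0
  obtain ⟨h, h1, h2, Pp, h3⟩ := exists_h (P := t.P) t.q_pos t.cop.symm d.cop h0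
  exact ⟨h, Pp, h2, h1, h3⟩

theorem int_fcX_sq (u : T3 → ℂ) (hu : MemLp u 2 volume) : Integrable (fun x => ‖fcX u x‖ ^ 2) muX := by
  have := (memLp_fcX hu).integrable_norm_pow (by norm_num)
  simpa using this

/-- `StepStmt` from the inputs which are still open -/
theorem stepStmt' (hD : DesStmt) (hM : ModesStmt) (h3 : T3Stmt) (h2 : T2Stmt)
    (h1 : T1Stmt) (h0 : T0Stmt) (hGA : GAStmt) (hGP : GPStmt) : StepStmt :=
  stepStmt hD smoothStmt hM h3 h2 h1 h0 hGA hGP heStmt int_fcX_sq

end Crest.Agent.R081.St
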