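import Crest.Agent.R081.KC
import Crest.Agent.R081.ArCF
import Crest.Agent.R081.SmLimit

/-! Row 81, node TOWER-SMOOTH: definitions (mid-variable tower of note 13608). -/

set_option autoImplicit false

namespace Crest.Agent.R081.TS

open Crest.Agent.R081 Crest.Agent.R081.Shear
open scoped ContDiff Topology

noncomputable section

/-- Design data of one stage. -/
structure Stage where
  Q : ℕ
  hQ : 1 ≤ Q
  ρ : ℝ
  hρ : 0 < ρ
  hρ' : ρ ≤ 1 / 4
  G : ℝ → ℝ
  G_smooth : ContDiff ℝ ∞ G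
  G_per : ∀ z, G (z + 1) = G z
  c : ℤ → ℝ → ℝ
  c_smooth : ∀ l, ContDiff ℝ ∞ (c l)
  c_per : ∀ l s, c (l + Q) s = c l s
  c_supp : ∀ l s, (s ≤ ρ ∨ 1 - ρ ≤ s) → c l s = 0
  Φ : ℝ → ℝ
  Φ_smooth : ContDiff ℝ ∞ Φ
  Φ_supp : ∀ s, (s ≤ ρ ∨ 1 - ρ ≤ s) → Φ s = 0

/-- smooth step -/
abbrev ST : ℝ → ℝ := Real.smoothTransition

theorem ST_contDiff : ContDiff ℝ ∞ ST := Real.smoothTransition.contDiff

/-- gap profile: `0` on `[-3r/4, 0]`, `1` for `v ≤ -r` or `v ≥ r/4`. -/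
def gB (r v : ℝ) : ℝ := 1 - ST ((v + r) * (4 / r)) * (1 - ST (v * (4 / r)))

theorem gB_contDiff (r : ℝ) : ContDiff ℝ ∞ (gB r) := by
  unfold gB
  refine contDiff_const.sub (ContDiff.mul ?_ (contDiff_const.sub ?_))
  · exact ST_contDiff.comp ((contDiff_id.add contDiff_const).mul contDiff_const)
  · exact ST_contDiff.comp (contDiff_id.mul contDiff_const)

theorem gB_zero {r v : ℝ} (hr : 0 < r) (h1 : -(3 * r / 4) ≤ v) (h2 : v ≤ 0) : gB r v = 0 := by
  have e1 : ST ((v + r) * (4 / r)) = 1 := by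
    apply Real.smoothTransition.one_of_one_le
    rw [mul_div_assoc', le_div_iff₀ hr]; linarith
  have e2 : ST (v * (4 / r)) = 0 := by
    apply Real.smoothTransition.zero_of_nonpos
    exact mul_nonpos_of_nonpos_of_nonneg h2 (by positivity)
  rw [gB, e1, e2]; ring

theorem gB_one {r v : ℝ} (hr : 0 < r) (h : v ≤ -r ∨ r / 4 ≤ v) : gB r v = 1 := by
  rcases h with h | h
  · have e1 : ST ((v + r) * (4 / r)) = 0 := by
      apply Real.smoothTransition.zero_of_nonpos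
      exact mul_nonpos_of_nonpos_of_nonneg (by linarith) (by positivity)
    rw [gB, e1]; ring
  · have e2 : ST (v * (4 / r)) = 1 := by
      apply Real.smoothTransition.one_of_one_le
      rw [mul_div_assoc', le_div_iff₀ hr]; linarith
    rw [gB, e2]; ring

theorem gB_mem (r v : ℝ) : 0 ≤ gB r v ∧ gB r v ≤ 1 := by
  have a1 := Real.smoothTransition.nonneg ((v + r) * (4 / r))
  have a2 := Real.smoothTransition.le_one ((v + r) * (4 / r))
  have b1 := Real.smoothTransition.nonneg (v * (4 / r))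
  have b2 := Real.smoothTransition.le_one (v * (4 / r))
  unfold gB ST
  constructor <;> nlinarith

/-- 1-periodization of a profile centred at the integers. -/
def pz (f : ℝ → ℝ) (x : ℝ) : ℝ := f (x - round x)

theorem pz_eq {f : ℝ → ℝ} {c : ℝ} (hf : ∀ v, 1 / 4 ≤ |v| → f v = c) {x : ℝ} {k : ℤ}
    (h : |x - k| < 3 / 4) : pz f x = f (x - k) := by
  unfold pz
  rcases eq_or_ne (round x) k with h1 | h1
  · rw [h1]
  · have h2 : 1 / 4 ≤ |x - round x| := by
      have h3 : (1 : ℝ) ≤ |(round x : ℝ) - k| := by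
        have : (1 : ℤ) ≤ |round x - k| := Int.one_le_abs (sub_ne_zero.2 h1)
        exact_mod_cast this
      have h4 : |(round x : ℝ) - k| ≤ |x - k| + |x - round x| := by
        have := abs_sub_le (round x : ℝ) x k
        rw [abs_sub_comm (round x : ℝ) x] at this
        linarith
      linarith
    have h5 : 1 / 4 ≤ |x - k| := by
      have h3 : (1 : ℝ) ≤ |(round x : ℝ) - k| := by
        have : (1 : ℤ) ≤ |round x - k| := Int.one_le_abs (sub_ne_zero.2 h1)
        exact_mod_cast this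
      have h4 : |(round x : ℝ) - k| ≤ |x - k| + |x - round x| := by
        have := abs_sub_le (round x : ℝ) x k
        rw [abs_sub_comm (round x : ℝ) x] at this
        linarith
      have h6 := abs_sub_round x
      linarith
    rw [hf _ h2, hf _ h5]

theorem pz_contDiff {f : ℝ → ℝ} {c : ℝ} (hf : ∀ v, 1 / 4 ≤ |v| → f v = c) (hs : ContDiff ℝ ∞ f) :
    ContDiff ℝ ∞ (pz f) := by
  rw [contDiff_iff_contDiffAt]
  intro x
  have h1 : |x - round x| < 3 / 4 := by have := abs_sub_round x; linarith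
  have hev : pz f =ᶠ[𝓝 x] fun y => f (y - round x) := by
    have ho : {y : ℝ | |y - round x| < 3 / 4} ∈ 𝓝 x :=
      (isOpen_lt (by fun_prop) continuous_const).mem_nhds h1
    filter_upwards [ho] with y hy
    exact pz_eq hf hy
  exact (hs.comp (contDiff_id.sub contDiff_const)).contDiffAt.congr_of_eventuallyEq hev

theorem pz_int (f : ℝ → ℝ) (x : ℝ) (k : ℤ) : pz f (x + k) = pz f x := by
  unfold pz
  rw [round_add_intCast]
  congr 1
  push_cast
  ring

theorem gB_const {r : ℝ} (hr : 0 < r) (hr' : r ≤ 1 / 4) : ∀ v, 1 / 4 ≤ |v| → gB r v = 1 := by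
  intro v hv
  apply gB_one hr
  rcases le_abs.1 hv with h | h
  · right; linarith
  · left; linarith

/-- rising step inside the gap: `0` for `u ≤ 1 - r/2`, `1` for `u ≥ 1 - r/4`. -/
def chi (r u : ℝ) : ℝ := ST ((u - 1 + r / 2) * (4 / r))

theorem chi_contDiff (r : ℝ) : ContDiff ℝ ∞ (chi r) :=
  ST_contDiff.comp (((contDiff_id.sub contDiff_const).add contDiff_const).mul contDiff_const)

theorem chi_zero {r u : ℝ} (hr : 0 < r) (h : u ≤ 1 - r / 2) : chi r u = 0 := by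
  apply Real.smoothTransition.zero_of_nonpos
  exact mul_nonpos_of_nonpos_of_nonneg (by linarith) (by positivity)

theorem chi_one {r u : ℝ} (hr : 0 < r) (h : 1 - r / 4 ≤ u) : chi r u = 1 := by
  apply Real.smoothTransition.one_of_one_le
  rw [mul_div_assoc', le_div_iff₀ hr]; linarith

variable (S : Stage)

/-- local formula of the chirp, `W = X_n`, `X = X_{n+1}`. -/
def lc (r g : ℝ) (L k : ℤ) (W X : ℝ) : ℝ :=
  S.c (L - k) (X - k - g * (W - L)) + S.Φ (X - k - g * (W - L)) / g +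
    chi r (W - L) * (S.c (L - k + 1) (X - k - g * (W - L) + g) - S.c (L - k) (X - k - g * (W - L)) +
      (S.Φ (X - k - g * (W - L) + g) - S.Φ (X - k - g * (W - L))) / g)

/-- the chirp as a function of `(X_n, X_{n+1})`. -/
def bb (r g W X : ℝ) : ℝ := lc S r g ⌊W⌋ ⌊X⌋ W X

variable {S}

theorem lc_succ_left {r g : ℝ} (hr : 0 < r) (hr' : r ≤ 1) {L k : ℤ} {W X : ℝ}
    (h1 : L + 1 - r / 4 ≤ W) (h2 : W ≤ L + 1 + r / 2) :
    lc S r g L k W X = lc S r g (L + 1) k W X := by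
  have e1 : chi r (W - L) = 1 := chi_one hr (by linarith)
  have e2 : chi r (W - ((L + 1 : ℤ) : ℝ)) = 0 := chi_zero hr (by push_cast; linarith)
  unfold lc
  rw [e1, e2]
  have a1 : X - k - g * (W - L) + g = X - k - g * (W - ((L + 1 : ℤ) : ℝ)) := by push_cast; ring
  have a2 : L - k + 1 = L + 1 - k := by ring
  rw [a1, a2]
  ring

theorem lc_congr_left {r g : ℝ} (hr : 0 < r) (hr' : r ≤ 1) {L k : ℤ} {W X : ℝ}
    (h1 : L - r / 4 ≤ W) (h2 : W ≤ L + 1 + r / 4) :
    lc S r g L k W X = lc S r g ⌊W⌋ k W X := by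
  have hf1 := Int.floor_le W
  have hf2 := Int.lt_floor_add_one W
  have c1 : L - 1 ≤ ⌊W⌋ := by
    have : (((L - 1 : ℤ)) : ℝ) ≤ W := by push_cast; linarith
    exact Int.le_floor.2 this
  have c2 : ⌊W⌋ ≤ L + 1 := by
    have : (⌊W⌋ : ℝ) < ((L + 2 : ℤ) : ℝ) := by push_cast; linarith
    have := Int.cast_lt.1 this
    omega
  rcases (by omega : ⌊W⌋ = L - 1 ∨ ⌊W⌋ = L ∨ ⌊W⌋ = L + 1) with h | h | h
  · rw [h]
    rw [h] at hf1 hf2
    push_cast at hf1 hf2
    have := lc_succ_left (S := S) (g := g) (k := k) (X := X) hr hr' (L := L - 1) (W := W)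
      (by push_cast; linarith) (by push_cast; linarith)
    rw [this]
    congr 1
    ring
  · rw [h]
  · rw [h]
    rw [h] at hf1 hf2
    push_cast at hf1 hf2
    exact lc_succ_left hr hr' (by linarith) (by linarith)

theorem lc_zero {r g : ℝ} (hr : 0 < r) (hr' : r ≤ 1 / 4) (hg : 0 < g) (hg' : g ≤ S.ρ / 2) {L k : ℤ} {W X : ℝ}
    (h1 : L - r / 4 ≤ W) (h2 : W ≤ L + 1 + r / 4) (hX : X ≤ k + S.ρ / 4 ∨ k + 1 - S.ρ / 4 ≤ X) :
    lc S r g L k W X = 0 := by
  have hρ := S.hρ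
  have hu1 : -(1 / 16) ≤ W - L := by linarith
  have hu2 : W - L ≤ 17 / 16 := by linarith
  have hgu1 : -(S.ρ / 32) ≤ g * (W - L) := by nlinarith
  have hgu2 : g * (W - L) ≤ 17 * S.ρ / 32 := by nlinarith
  have e1 : ∀ l, S.c l (X - k - g * (W - L)) = 0 := by
    intro l
    apply S.c_supp
    rcases hX with h | h
    · left; linarith
    · right; linarith
  have e2 : ∀ l, S.c l (X - k - g * (W - L) + g) = 0 := by
    intro l
    apply S.c_supp
    rcases hX with h | h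
    · left
      have : -(g * (W - L)) + g = g * (1 - (W - L)) := by ring
      have h3 : g * (1 - (W - L)) ≤ 17 * S.ρ / 32 := by nlinarith
      linarith
    · right; linarith
  have e3 : S.Φ (X - k - g * (W - L)) = 0 := by
    apply S.Φ_supp
    rcases hX with h | h
    · left; linarith
    · right; linarith
  have e4 : S.Φ (X - k - g * (W - L) + g) = 0 := by
    apply S.Φ_supp
    rcases hX with h | h
    · left
      have h3 : g * (1 - (W - L)) ≤ 17 * S.ρ / 32 := by nlinarith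
      linarith
    · right; linarith
  unfold lc
  rw [e1, e2, e3, e4]
  simp

theorem bb_eq {r g : ℝ} (hr : 0 < r) (hr' : r ≤ 1 / 4) (hg : 0 < g) (hg' : g ≤ S.ρ / 2) {L k : ℤ} {W X : ℝ}
    (h1 : L - r / 4 ≤ W) (h2 : W ≤ L + 1 + r / 4) (h3 : k - S.ρ / 4 ≤ X) (h4 : X ≤ k + 1 + S.ρ / 4) :
    bb S r g W X = lc S r g L k W X := by
  have hρ := S.hρ
  have hρ' := S.hρ'
  rw [lc_congr_left hr (by linarith) h1 h2]
  unfold bb
  have hf1 := Int.floor_le X
  have hf2 := Int.lt_floor_add_one X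
  have w1 := Int.floor_le W
  have w2 := Int.lt_floor_add_one W
  have c1 : k - 1 ≤ ⌊X⌋ := by
    have : (((k - 1 : ℤ)) : ℝ) ≤ X := by push_cast; linarith
    exact Int.le_floor.2 this
  have c2 : ⌊X⌋ ≤ k + 1 := by
    have : (⌊X⌋ : ℝ) < ((k + 2 : ℤ) : ℝ) := by push_cast; linarith
    have := Int.cast_lt.1 this
    omega
  rcases (by omega : ⌊X⌋ = k - 1 ∨ ⌊X⌋ = k ∨ ⌊X⌋ = k + 1) with h | h | h
  · rw [h] at hf1 hf2
    push_cast at hf1 hf2
    rw [lc_zero (k := ⌊X⌋) hr hr' hg hg' (by linarith) (by linarith) (by right; rw [h]; push_cast; linarith),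
      lc_zero (k := k) hr hr' hg hg' (by linarith) (by linarith) (by left; linarith)]
  · rw [h]
  · rw [h] at hf1 hf2
    push_cast at hf1 hf2
    rw [lc_zero (k := ⌊X⌋) hr hr' hg hg' (by linarith) (by linarith) (by left; rw [h]; push_cast; linarith),
      lc_zero (k := k) hr hr' hg hg' (by linarith) (by linarith) (by right; linarith)]

/-- plateau -/
theorem bb_zero {r g : ℝ} (hr : 0 < r) (hr' : r ≤ 1 / 4) (hg : 0 < g) (hg' : g ≤ S.ρ / 2) {k : ℤ} {W X : ℝ}
    (h : |X - k| ≤ S.ρ / 4) : bb S r g W X = 0 := by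
  have hρ := S.hρ
  have hρ' := S.hρ'
  obtain ⟨h5, h6⟩ := abs_le.1 h
  have w1 := Int.floor_le W
  have w2 := Int.lt_floor_add_one W
  rw [bb_eq hr hr' hg hg' (L := ⌊W⌋) (k := k) (by linarith) (by linarith) (by linarith) (by linarith)]
  exact lc_zero hr hr' hg hg' (by linarith) (by linarith) (by left; linarith)

theorem c_add_mul (l : ℤ) (j : ℤ) (s : ℝ) : S.c (l + j * S.Q) s = S.c l s := by
  induction j using Int.induction_on with
  | zero => simp
  | succ i ih =>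
    have : l + ((i : ℤ) + 1) * S.Q = (l + i * S.Q) + S.Q := by ring
    rw [this, S.c_per, ih]
  | pred i ih =>
    have : l + (-(i : ℤ)) * S.Q = (l + (-(i : ℤ) - 1) * S.Q) + S.Q := by ring
    rw [this, S.c_per] at ih
    exact ih

theorem bb_per (r g W X : ℝ) (i j d : ℤ) (h : i - j = d * S.Q) : bb S r g (W + i) (X + j) = bb S r g W X := by
  unfold bb lc
  rw [Int.floor_add_intCast, Int.floor_add_intCast]
  have a1 : X + j - ((⌊X⌋ + j : ℤ) : ℝ) - g * (W + i - ((⌊W⌋ + i : ℤ) : ℝ)) = X - ⌊X⌋ - g * (W - ⌊W⌋) := by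
    push_cast; ring
  have a2 : W + i - ((⌊W⌋ + i : ℤ) : ℝ) = W - ⌊W⌋ := by push_cast; ring
  have a3 : ⌊W⌋ + i - (⌊X⌋ + j) = (⌊W⌋ - ⌊X⌋) + d * S.Q := by rw [← h]; ring
  have a4 : ⌊W⌋ + i - (⌊X⌋ + j) + 1 = (⌊W⌋ - ⌊X⌋ + 1) + d * S.Q := by rw [a3]; ring
  rw [a4, a3, a1, a2]
  simp only [c_add_mul]

theorem lc_contDiff (r g : ℝ) (L k : ℤ) {E : Type} [NormedAddCommGroup E] [NormedSpace ℝ E]
    {w x : E → ℝ} (hw : ContDiff ℝ ∞ w) (hx : ContDiff ℝ ∞ x) :
    ContDiff ℝ ∞ (fun y => lc S r g L k (w y) (x y)) := by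
  have hs : ContDiff ℝ ∞ (fun y => x y - k - g * (w y - L)) :=
    (hx.sub contDiff_const).sub (contDiff_const.mul (hw.sub contDiff_const))
  have hsg : ContDiff ℝ ∞ (fun y => x y - k - g * (w y - L) + g) := hs.add contDiff_const
  unfold lc
  refine (((S.c_smooth _).comp hs).add (((S.Φ_smooth).comp hs).div_const g)).add
    (((chi_contDiff r).comp (hw.sub contDiff_const)).mul ?_)
  exact (((S.c_smooth _).comp hsg).sub ((S.c_smooth _).comp hs)).add
    ((((S.Φ_smooth).comp hsg).sub ((S.Φ_smooth).comp hs)).div_const g)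

theorem bb_contDiff {r g : ℝ} (hr : 0 < r) (hr' : r ≤ 1 / 4) (hg : 0 < g) (hg' : g ≤ S.ρ / 2)
    {E : Type} [NormedAddCommGroup E] [NormedSpace ℝ E]
    {w x : E → ℝ} (hw : ContDiff ℝ ∞ w) (hx : ContDiff ℝ ∞ x) :
    ContDiff ℝ ∞ (fun y => bb S r g (w y) (x y)) := by
  have hρ := S.hρ
  rw [contDiff_iff_contDiffAt]
  intro y0
  have w1 := Int.floor_le (w y0)
  have w2 := Int.lt_floor_add_one (w y0)
  have x1 := Int.floor_le (x y0)
  have x2 := Int.lt_floor_add_one (x y0)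
  have hev : (fun y => bb S r g (w y) (x y)) =ᶠ[𝓝 y0] fun y => lc S r g ⌊w y0⌋ ⌊x y0⌋ (w y) (x y) := by
    have o1 : ∀ᶠ y in 𝓝 y0, (⌊w y0⌋ : ℝ) - r / 4 < w y :=
      hw.continuous.continuousAt.eventually (lt_mem_nhds (by linarith))
    have o2 : ∀ᶠ y in 𝓝 y0, w y < (⌊w y0⌋ : ℝ) + 1 + r / 4 :=
      hw.continuous.continuousAt.eventually (gt_mem_nhds (by linarith))
    have o3 : ∀ᶠ y in 𝓝 y0, (⌊x y0⌋ : ℝ) - S.ρ / 4 < x y :=
      hx.continuous.continuousAt.eventually (lt_mem_nhds (by linarith))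
    have o4 : ∀ᶠ y in 𝓝 y0, x y < (⌊x y0⌋ : ℝ) + 1 + S.ρ / 4 :=
      hx.continuous.continuousAt.eventually (gt_mem_nhds (by linarith))
    filter_upwards [o1, o2, o3, o4] with y h1 h2 h3 h4
    exact bb_eq hr hr' hg hg' h1.le h2.le h3.le h4.le
  exact (lc_contDiff r g _ _ hw hx).contDiffAt.congr_of_eventuallyEq hev

/-! ### parameters -/

variable (st : ℕ → Stage)

/-- cycle lengths -/
def Qs (n : ℕ) : ℕ := (st n).Q

/-- margins -/
def Ls (n : ℕ) : ℕ := ⌈32 / (st n).ρ⌉₊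

/-- gap radii -/
def rr : ℕ → ℝ
  | 0 => 1 / 16
  | (n + 1) => (st n).ρ / 8

theorem rr_pos (n : ℕ) : 0 < rr st n := by
  cases n with
  | zero => norm_num [rr]
  | succ n => have := (st n).hρ; simp only [rr]; positivity

theorem rr_le (n : ℕ) : rr st n ≤ 1 / 16 := by
  cases n with
  | zero => norm_num [rr]
  | succ n => have := (st n).hρ'; simp only [rr]; linarith

/-- All parameters of the tower. -/
structure Par where
  M : ℕ → ℕ
  a : Fin 2 → ℝ
  rot : CF.Rot M (Qs st) (Ls st) a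
  hM0 : 128 * (Qs st 0 + 1) ≤ M 0

variable {st}

namespace Par

variable (θ : Par st)

/-- speeds `δ_n`. -/
def del (n : ℕ) : ℝ := CF.X θ.M (Qs st) n θ.a

/-- ratios `g_n = δ_{n+1} / δ_n`. -/
def gg (n : ℕ) : ℝ := θ.del (n + 1) / θ.del n

theorem hQs (n : ℕ) : 1 ≤ Qs st n := (st n).hQ

theorem del_pos (n : ℕ) : 0 < θ.del n := θ.rot.delta_pos hQs n

theorem gg_pos (n : ℕ) : 0 < θ.gg n := div_pos (θ.del_pos _) (θ.del_pos _)

theorem gg_mul (n : ℕ) : θ.gg n * θ.del n = θ.del (n + 1) := by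
  unfold gg; rw [div_mul_cancel₀ _ (θ.del_pos n).ne']

theorem Ls_ge (n : ℕ) : 32 / (st n).ρ ≤ (Ls st n : ℝ) := Nat.le_ceil _

/-- `β_n`. -/
def bet (n : ℕ) : ℝ := CF.D θ.M n (θ.a 0)

theorem bet_pos (n : ℕ) : 0 < θ.bet n := θ.rot.pos n

theorem bet_le_del (n : ℕ) : (Qs st n : ℝ) * θ.bet n ≤ θ.del n := by
  have h1 : θ.del n = Qs st n * θ.bet n + θ.del (n + 1) := CF.Rot.delta_eq n
  have := θ.del_pos (n + 1)
  linarith

theorem del_succ_le (n : ℕ) : θ.del (n + 1) ≤ θ.bet n * ((st n).ρ / 64) := by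
  have h1 : θ.del (n + 1) ≤ θ.bet n / (2 * Ls st n) := θ.rot.delta_succ_le hQs n
  have hρ := (st n).hρ
  have h2 := Ls_ge (st := st) n
  have hL : (0:ℝ) < Ls st n := lt_of_lt_of_le (by positivity) h2
  refine h1.trans ?_
  rw [div_le_iff₀ (by positivity)]
  have h3 : 32 ≤ Ls st n * (st n).ρ := by
    rw [div_le_iff₀ hρ] at h2; exact h2
  have := θ.bet_pos n
  nlinarith

theorem bet_le_one (n : ℕ) : θ.bet n ≤ 1 := by
  have h := CF.beta_le_inv θ.rot.hM θ.rot.pos n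
  have hq : (1 : ℝ) ≤ CF.q θ.M (n + 1) := by
    have := CF.q_pos θ.rot.hM (n + 1)
    exact_mod_cast this
  refine h.trans ?_
  rw [div_le_one (by linarith)]
  exact hq

theorem gg_le (n : ℕ) : θ.gg n ≤ (st n).ρ / 64 := by
  unfold gg
  rw [div_le_iff₀ (θ.del_pos n)]
  refine (θ.del_succ_le n).trans ?_
  have h1 := θ.bet_le_del n
  have hQ : (1 : ℝ) ≤ Qs st n := by exact_mod_cast hQs n
  have hb := θ.bet_pos n
  have hρ := (st n).hρ
  have : θ.bet n ≤ θ.del n := by nlinarith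
  nlinarith

theorem gg_le' (n : ℕ) : θ.gg n ≤ (st n).ρ / 2 := by
  have := θ.gg_le n
  have hρ := (st n).hρ
  linarith

theorem gg_le_one (n : ℕ) : θ.gg n ≤ 1 := by
  have := θ.gg_le n
  have hρ := (st n).hρ'
  linarith

theorem del_le_rr (n : ℕ) : θ.del n ≤ rr st n / 8 := by
  cases n with
  | zero =>
    have h1 : θ.del 0 = Qs st 0 * θ.bet 0 + θ.del 1 := CF.Rot.delta_eq 0
    have h2 := θ.del_succ_le 0
    have h3 : θ.bet 0 ≤ 1 / CF.q θ.M 1 := CF.beta_le_inv θ.rot.hM θ.rot.pos 0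
    have h4 : (CF.q θ.M 1 : ℝ) = θ.M 0 := by rw [CF.q_one]; simp
    have hM0 : ((128 * (Qs st 0 + 1) : ℕ) : ℝ) ≤ θ.M 0 := by exact_mod_cast θ.hM0
    push_cast at hM0
    have hQ : (0 : ℝ) ≤ Qs st 0 := by positivity
    rw [h4, le_div_iff₀ (by linarith)] at h3
    have hb := θ.bet_pos 0
    have hρ := (st 0).hρ'
    have hρ0 := (st 0).hρ
    have h5 : θ.del 0 ≤ (Qs st 0 + 1) * θ.bet 0 := by nlinarith
    have h6 : 128 * ((Qs st 0 + 1) * θ.bet 0) ≤ 1 := by nlinarith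
    simp only [rr]
    linarith
  | succ n =>
    have h2 := θ.del_succ_le n
    have h3 := θ.bet_le_one n
    have hb := θ.bet_pos n
    have hρ0 := (st n).hρ
    simp only [rr]
    nlinarith

theorem del_le (n : ℕ) : θ.del n ≤ 1 / 128 := by
  have := θ.del_le_rr n
  have := rr_le st n
  linarith

/-- `X_n` on `ℝ³`. -/
def XX (n : ℕ) (x : Sm.E3) : ℝ := x 1 - CF.N θ.M (Qs st) n * x 0 + CF.C θ.M (Qs st) n

theorem XX_eq (n : ℕ) (x : Sm.E3) : θ.XX n x = CF.X θ.M (Qs st) n ![x 0, x 1] := by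
  rw [CF.X_eq]; simp [XX]

/-- rotation vector -/
def av : Sm.E3 := ![θ.a 0, θ.a 1, 0]

theorem XX_add_av (n : ℕ) (x : Sm.E3) (σ : ℝ) : θ.XX n (x + σ • θ.av) = θ.XX n x + σ * (θ.del n - CF.C θ.M (Qs st) n) := by
  have : θ.del n = θ.a 1 - CF.N θ.M (Qs st) n * θ.a 0 + CF.C θ.M (Qs st) n := CF.X_eq _ _ _ _
  rw [this]
  simp [XX, av]
  ring

end Par

end

end Crest.Agent.R081.TS
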