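import Crest.Agent.R081.TSDefs

/-! Row 81, node TOWER-SMOOTH: kicks, chirps, conjugacies, increments. -/

set_option autoImplicit false

namespace Crest.Agent.R081.TS

open Crest.Agent.R081 Crest.Agent.R081.Shear MeasureTheory Crest.AnalysisR.Torus3
open scoped ContDiff Topology

noncomputable section

variable {st : ℕ → Stage}

theorem G_int (S : Stage) (z : ℝ) (k : ℤ) : S.G (z + k) = S.G z := by
  have hp : Function.Periodic S.G 1 := S.G_per
  have := hp.int_mul k z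
  simpa using this

namespace Par

variable (θ : Par st)

/-- `p_n / q_n`. -/
def pq (n : ℕ) : ℝ := (CF.p θ.M n : ℝ) / CF.q θ.M n

theorem contDiff_XX (n : ℕ) : ContDiff ℝ ∞ (θ.XX n) := by
  unfold XX
  exact ((contDiff_apply ℝ ℝ (1 : Fin 3)).sub (contDiff_const.mul (contDiff_apply ℝ ℝ (0 : Fin 3)))).add
    contDiff_const

theorem continuous_XX (n : ℕ) : Continuous (θ.XX n) := (θ.contDiff_XX n).continuous

theorem XX_add_int (n : ℕ) (x : Sm.E3) (m : Fin 3 → ℤ) :
    θ.XX n (fun i => x i + m i) = θ.XX n x + ((m 1 - CF.N θ.M (Qs st) n * m 0 : ℤ) : ℝ) := by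
  simp only [XX]; push_cast; ring

theorem rr_le_quarter (n : ℕ) : rr st n ≤ 1 / 4 := by have := rr_le st n; linarith

theorem pzB_contDiff (n : ℕ) : ContDiff ℝ ∞ (pz (gB (rr st n))) :=
  pz_contDiff (gB_const (rr_pos st n) (rr_le_quarter n)) (gB_contDiff _)

/-- kick `k_n` -/
def kick (n : ℕ) : ShearData where
  w := ![1, CF.N θ.M (Qs st) n, 0]
  b := fun x => θ.pq n * pz (gB (rr st n)) (θ.XX n x) * (st n).G (x 2)
  smooth := (contDiff_const.mul ((pzB_contDiff n).comp (θ.contDiff_XX n))).mul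
    ((st n).G_smooth.comp (contDiff_apply ℝ ℝ (2 : Fin 3)))
  per := by
    intro m x
    refine ⟨0, ?_⟩
    rw [XX_add_int, pz_int, G_int]
    simp
  inv := by
    intro x s
    have h1 : θ.XX n (fun i => x i + s * ((![1, CF.N θ.M (Qs st) n, 0] : Fin 3 → ℤ) i : ℝ)) = θ.XX n x := by
      simp only [XX]
      simp
      ring
    rw [h1]
    simp

/-- chirp `e_n` -/
def chirp (n : ℕ) : ShearData where
  w := ![0, 0, 1]
  b := fun x => bb (st n) (rr st n) (θ.gg n) (θ.XX n x) (θ.XX (n + 1) x)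
  smooth := bb_contDiff (rr_pos st n) (rr_le_quarter n) (θ.gg_pos n) (θ.gg_le' n) (θ.contDiff_XX n)
    (θ.contDiff_XX (n + 1))
  per := by
    intro m x
    refine ⟨0, ?_⟩
    rw [XX_add_int, XX_add_int]
    rw [bb_per (S := st n) (rr st n) (θ.gg n) (θ.XX n x) (θ.XX (n + 1) x) _ _
      ((-1) ^ n * CF.q θ.M n * m 0)]
    · simp
    · have : CF.N θ.M (Qs st) (n + 1) = CF.N θ.M (Qs st) n + (-1) ^ n * ((Qs st n : ℤ) * CF.q θ.M n) := by
        simp only [CF.N, Finset.sum_range_succ]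
      rw [this]
      show _ = (-1) ^ n * CF.q θ.M n * m 0 * ((Qs st n : ℕ) : ℤ)
      ring
  inv := by
    intro x s
    have h1 : ∀ j, θ.XX j (fun i => x i + s * ((![0, 0, 1] : Fin 3 → ℤ) i : ℝ)) = θ.XX j x := by
      intro j
      simp [XX]
    rw [h1, h1]

end Par

/-- LD of a shear with genuinely periodic amplitude -/
def ofShear (D : ShearData) (hD : ∀ (m : Fin 3 → ℤ) (x : Fin 3 → ℝ), D.b (fun i => x i + m i) = D.b x) : Sm.LD where
  F := D.lift
  H := D.symm.lift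
  hF := D.contDiff_lift
  hH := D.symm.contDiff_lift
  pF := fun k => ⟨k, fun x => by
    have : D.b (x + Sm.zv k) = D.b x := hD k x
    funext i
    simp only [ShearData.lift, Pi.add_apply, Sm.zv_apply]
    rw [this]; ring⟩
  pH := fun k => ⟨k, fun x => by
    have : D.b (x + Sm.zv k) = D.b x := hD k x
    funext i
    simp only [ShearData.lift, ShearData.symm, Pi.add_apply, Sm.zv_apply]
    rw [this]; ring⟩
  FH := D.lift_lift_symm
  HF := D.lift_symm_lift

theorem ofShear_perm (D : ShearData) (hD) : (ofShear D hD).perm = D.perm := by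
  ext1 y
  obtain ⟨x, rfl⟩ := Sm.proj_surj y
  rw [Sm.LD.perm_proj]
  show proj (D.lift x) = D.map (proj x)
  rw [D.map_proj]

/-- translation -/
def trans (v : Sm.E3) : Sm.LD where
  F := fun x => x + v
  H := fun x => x - v
  hF := contDiff_id.add contDiff_const
  hH := contDiff_id.sub contDiff_const
  pF := fun k => ⟨k, fun x => by funext i; simp only [Pi.add_apply]; ring⟩
  pH := fun k => ⟨k, fun x => by funext i; simp only [Pi.add_apply, Pi.sub_apply]; ring⟩
  FH := fun x => by funext i; simp only [Pi.add_apply, Pi.sub_apply]; ring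
  HF := fun x => by funext i; simp only [Pi.add_apply, Pi.sub_apply]; ring

/-- both directions measure preserving -/
def MPL (A : Sm.LD) : Prop :=
  MeasurePreserving A.perm (volume : Measure T3) volume ∧ MeasurePreserving A.inv.perm (volume : Measure T3) volume

theorem MPL.inv {A : Sm.LD} (h : MPL A) : MPL A.inv := ⟨h.2, h.1⟩

theorem MPL.comp {A B : Sm.LD} (hA : MPL A) (hB : MPL B) : MPL (A.comp B) := by
  constructor
  · rw [Sm.LD.perm_comp]
    exact hA.1.comp hB.1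
  · have : (A.comp B).inv = B.inv.comp A.inv := rfl
    rw [this, Sm.LD.perm_comp]
    exact hB.2.comp hA.2

theorem MPL.one : MPL Sm.LD.one := by
  constructor
  · rw [Sm.LD.perm_one]; exact MeasurePreserving.id _
  · rw [Sm.LD.perm_inv, Sm.LD.perm_one]; exact MeasurePreserving.id _

theorem MPL.ofShear (D : ShearData) (hD) : MPL (ofShear D hD) := by
  constructor
  · rw [ofShear_perm]; exact D.perm_measurePreserving
  · rw [Sm.LD.perm_inv, ofShear_perm]; exact D.perm_symm_measurePreserving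

theorem trans_perm (v : Sm.E3) (y : T3) : (trans v).perm y = y + proj v := by
  obtain ⟨x, rfl⟩ := Sm.proj_surj y
  rw [Sm.LD.perm_proj]
  show proj (x + v) = proj x + proj v
  funext i
  simp [proj]

theorem MPL_trans (v : Sm.E3) : MPL (trans v) := by
  have h : ∀ v : Sm.E3, MeasurePreserving (trans v).perm (volume : Measure T3) volume := by
    intro v
    have e : ((TS.trans v).perm : T3 → T3) = fun y => y + proj v := funext (trans_perm v)
    rw [e]
    exact translate_mp (proj v)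
  refine ⟨h v, ?_⟩
  have e : (TS.trans v).inv.perm = (TS.trans (-v)).perm := by
    ext1 y
    obtain ⟨x, rfl⟩ := Sm.proj_surj y
    rw [Sm.LD.perm_proj, Sm.LD.perm_proj]
    show proj (x - v) = proj (x + -v)
    rw [sub_eq_add_neg]
  rw [e]; exact h _

namespace Par

variable (θ : Par st)

theorem kick_per (n : ℕ) (m : Fin 3 → ℤ) (x : Fin 3 → ℝ) :
    (θ.kick n).b (fun i => x i + m i) = (θ.kick n).b x := by
  simp only [kick]
  rw [XX_add_int, pz_int, G_int]

theorem bb_int (n : ℕ) (m : Fin 3 → ℤ) (x : Fin 3 → ℝ) :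
    (θ.chirp n).b (fun i => x i + m i) = (θ.chirp n).b x := by
  simp only [chirp]
  rw [XX_add_int, XX_add_int]
  rw [bb_per (S := st n) (rr st n) (θ.gg n) (θ.XX n x) (θ.XX (n + 1) x) _ _
      ((-1) ^ n * CF.q θ.M n * m 0)]
  have : CF.N θ.M (Qs st) (n + 1) = CF.N θ.M (Qs st) n + (-1) ^ n * ((Qs st n : ℤ) * CF.q θ.M n) := by
    simp only [CF.N, Finset.sum_range_succ]
  rw [this]
  show _ = (-1) ^ n * CF.q θ.M n * m 0 * ((Qs st n : ℕ) : ℤ)
  ring

/-- kick as LD -/
def kickL (n : ℕ) : Sm.LD := ofShear (θ.kick n) (θ.kick_per n)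
/-- chirp as LD -/
def chirpL (n : ℕ) : Sm.LD := ofShear (θ.chirp n) (θ.bb_int n)

/-- conjugacies `G_0 = id`, `G_{n+1} = G_n k_n e_n` -/
def GG : ℕ → Sm.LD
  | 0 => Sm.LD.one
  | (n + 1) => (GG n).comp ((θ.kickL n).comp (θ.chirpL n))

/-- `T_n = G_n R_a G_n⁻¹` -/
def TT (n : ℕ) : Sm.LD := (θ.GG n).comp ((trans θ.av).comp (θ.GG n).inv)

theorem MPL_GG (n : ℕ) : MPL (θ.GG n) := by
  induction n with
  | zero => exact MPL.one
  | succ n ih => exact ih.comp ((MPL.ofShear _ _).comp (MPL.ofShear _ _))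

theorem MPL_TT (n : ℕ) : MPL (θ.TT n) := (θ.MPL_GG n).comp ((MPL_trans _).comp (θ.MPL_GG n).inv)

theorem kick_wv (n : ℕ) : (θ.kick n).wv = ![1, (CF.N θ.M (Qs st) n : ℝ), 0] := by
  funext i
  fin_cases i <;> simp [ShearData.wv, kick]

theorem chirp_wv (n : ℕ) : (θ.chirp n).wv = ![0, 0, 1] := by
  funext i
  fin_cases i <;> simp [ShearData.wv, chirp]

theorem XX_add_e3 (n : ℕ) (x : Sm.E3) (s : ℝ) : θ.XX n (x + s • ![0, 0, 1]) = θ.XX n x := by
  simp [XX]

theorem XX_add_kick (n : ℕ) (x : Sm.E3) (s : ℝ) :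
    θ.XX n (x + s • ![1, (CF.N θ.M (Qs st) n : ℝ), 0]) = θ.XX n x := by
  simp [XX]; ring

/-- value of the chirp after a rotation step, `σ = ±1` -/
theorem chirp_b_add (n : ℕ) (x : Sm.E3) {σ : ℝ} (hσ : σ = 1 ∨ σ = -1) :
    (θ.chirp n).b (x + σ • θ.av) =
      bb (st n) (rr st n) (θ.gg n) (θ.XX n x + σ * θ.del n) (θ.XX (n + 1) x + σ * θ.del (n + 1)) := by
  obtain ⟨ε, rfl, hε⟩ : ∃ ε : ℤ, σ = ε ∧ (ε = 1 ∨ ε = -1) := by
    rcases hσ with h | h
    · exact ⟨1, by simp [h], Or.inl rfl⟩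
    · exact ⟨-1, by simp [h], Or.inr rfl⟩
  simp only [chirp]
  rw [XX_add_av, XX_add_av]
  have h := bb_per (S := st n) (rr st n) (θ.gg n) (θ.XX n x + ε * θ.del n)
    (θ.XX (n + 1) x + ε * θ.del (n + 1)) (-ε * CF.C θ.M (Qs st) n) (-ε * CF.C θ.M (Qs st) (n + 1))
    (ε * ((-1) ^ n * CF.p θ.M n)) (by
      have : CF.C θ.M (Qs st) (n + 1) = CF.C θ.M (Qs st) n + (-1) ^ n * ((Qs st n : ℤ) * CF.p θ.M n) := by
        simp only [CF.C, Finset.sum_range_succ]
      rw [this]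
      show _ = ε * ((-1) ^ n * CF.p θ.M n) * ((Qs st n : ℕ) : ℤ)
      ring)
  rw [← h]
  congr 1 <;> push_cast <;> ring

theorem kick_b_add (n : ℕ) (x : Sm.E3) {σ : ℝ} (hσ : σ = 1 ∨ σ = -1) :
    (θ.kick n).b (x + σ • θ.av) =
      θ.pq n * pz (gB (rr st n)) (θ.XX n x + σ * θ.del n) * (st n).G (x 2) := by
  obtain ⟨ε, rfl, hε⟩ : ∃ ε : ℤ, σ = ε ∧ (ε = 1 ∨ ε = -1) := by
    rcases hσ with h | h
    · exact ⟨1, by simp [h], Or.inl rfl⟩
    · exact ⟨-1, by simp [h], Or.inr rfl⟩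
  simp only [kick]
  rw [XX_add_av]
  have e1 : θ.XX n x + (ε : ℝ) * (θ.del n - CF.C θ.M (Qs st) n) =
      (θ.XX n x + ε * θ.del n) + ((-ε * CF.C θ.M (Qs st) n : ℤ) : ℝ) := by push_cast; ring
  rw [e1, pz_int]
  have e2 : (x + (ε : ℝ) • θ.av) 2 = x 2 := by simp [av]
  rw [e2]

/-- increment of the chirp: local formula -/
def phiL (S : Stage) (r g d : ℝ) (L k : ℤ) (W X : ℝ) : ℝ :=
  (chi r (W - L + d) - chi r (W - L)) *
    (S.c (L - k + 1) (X - k - g * (W - L) + g) - S.c (L - k) (X - k - g * (W - L)) +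
      (S.Φ (X - k - g * (W - L) + g) - S.Φ (X - k - g * (W - L))) / g)

theorem lc_incr (S : Stage) (r g d : ℝ) (L k : ℤ) (W X : ℝ) :
    lc S r g L k (W + d) (X + g * d) - lc S r g L k W X = phiL S r g d L k W X := by
  unfold lc phiL
  have e1 : X + g * d - k - g * (W + d - L) = X - k - g * (W - L) := by ring
  have e2 : W + d - L = W - L + d := by ring
  rw [e1, e2]
  ring

theorem incr_chirp (n : ℕ) (x : Sm.E3) {σ : ℝ} (hσ : σ = 1 ∨ σ = -1) {L k : ℤ}
    (h1 : L - rr st n / 8 ≤ θ.XX n x) (h2 : θ.XX n x ≤ L + 1 + rr st n / 8)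
    (h3 : k - (st n).ρ / 8 ≤ θ.XX (n + 1) x) (h4 : θ.XX (n + 1) x ≤ k + 1 + (st n).ρ / 8) :
    incr (θ.chirp n).b (σ • θ.av) x =
      phiL (st n) (rr st n) (θ.gg n) (σ * θ.del n) L k (θ.XX n x) (θ.XX (n + 1) x) := by
  have hσ' : |σ| = 1 := by rcases hσ with h | h <;> simp [h]
  have hd := θ.del_le_rr n
  have hd' := θ.del_le_rr (n + 1)
  have hp := θ.del_pos n
  have hp' := θ.del_pos (n + 1)
  have hρ := (st n).hρ
  have hr := rr_pos st n
  simp only [rr] at hd'
  have a1 : |σ * θ.del n| = θ.del n := by rw [abs_mul, hσ', one_mul, abs_of_pos hp]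
  have a2 : |σ * θ.del (n + 1)| = θ.del (n + 1) := by rw [abs_mul, hσ', one_mul, abs_of_pos hp']
  obtain ⟨b1, b2⟩ := abs_le.1 a1.le
  obtain ⟨b3, b4⟩ := abs_le.1 a2.le
  unfold incr
  rw [θ.chirp_b_add n x hσ]
  show _ - bb (st n) (rr st n) (θ.gg n) (θ.XX n x) (θ.XX (n + 1) x) = _
  rw [bb_eq (L := L) (k := k) hr (rr_le_quarter n) (θ.gg_pos n) (θ.gg_le' n) (by linarith) (by linarith)
      (by linarith) (by linarith),
    bb_eq (L := L) (k := k) hr (rr_le_quarter n) (θ.gg_pos n) (θ.gg_le' n) (by linarith) (by linarith)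
      (by linarith) (by linarith), ← lc_incr]
  congr 2
  rw [← θ.gg_mul n]; ring

/-- the increment of the chirp vanishes off the gap -/
theorem incr_chirp_zero (n : ℕ) (x : Sm.E3) {σ : ℝ} (hσ : σ = 1 ∨ σ = -1)
    (h : ∀ L : ℤ, ¬ (L - 5 * rr st n / 8 < θ.XX n x ∧ θ.XX n x < L - rr st n / 8)) :
    incr (θ.chirp n).b (σ • θ.av) x = 0 := by
  have hσ' : |σ| = 1 := by rcases hσ with h | h <;> simp [h]
  have hd := θ.del_le_rr n
  have hp := θ.del_pos n
  have hρ := (st n).hρ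
  have hr := rr_pos st n
  have a1 : |σ * θ.del n| = θ.del n := by rw [abs_mul, hσ', one_mul, abs_of_pos hp]
  obtain ⟨b1, b2⟩ := abs_le.1 a1.le
  have w1 := Int.floor_le (θ.XX n x)
  have w2 := Int.lt_floor_add_one (θ.XX n x)
  have x1 := Int.floor_le (θ.XX (n + 1) x)
  have x2 := Int.lt_floor_add_one (θ.XX (n + 1) x)
  rw [θ.incr_chirp n x hσ (L := ⌊θ.XX n x⌋) (k := ⌊θ.XX (n + 1) x⌋) (by linarith) (by linarith)
    (by linarith) (by linarith)]
  have key : chi (rr st n) (θ.XX n x - ⌊θ.XX n x⌋ + σ * θ.del n) =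
      chi (rr st n) (θ.XX n x - ⌊θ.XX n x⌋) := by
    have h' := h (⌊θ.XX n x⌋ + 1)
    push_cast at h'
    rw [not_and_or, not_lt, not_lt] at h'
    rcases h' with h' | h'
    · rw [chi_zero hr (by linarith), chi_zero hr (by linarith)]
    · rw [chi_one hr (by linarith), chi_one hr (by linarith)]
  unfold phiL
  rw [key]; ring

/-- the kick vanishes in the chirp gap -/
theorem kick_zero (n : ℕ) (x : Sm.E3) (L : ℤ) (h1 : L - 3 * rr st n / 4 ≤ θ.XX n x) (h2 : θ.XX n x ≤ L) :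
    (θ.kick n).b x = 0 := by
  have hr := rr_pos st n
  have hr' := rr_le st n
  simp only [kick]
  rw [pz_eq (gB_const hr (rr_le_quarter n)) (k := L) (by rw [abs_lt]; constructor <;> linarith),
    gB_zero hr (by linarith) (by linarith)]
  ring

/-- `Y_n = k_n e_n R e_n⁻¹ k_n⁻¹` -/
theorem Y_eq (n : ℕ) (x : Sm.E3) {σ : ℝ} (hσ : σ = 1 ∨ σ = -1) :
    (θ.kick n).lift ((θ.chirp n).lift ((θ.chirp n).symm.lift ((θ.kick n).symm.lift x) + σ • θ.av)) =
      x + σ • θ.av + incr (θ.chirp n).b (σ • θ.av) x • (θ.chirp n).wv +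
        incr (θ.kick n).b (σ • θ.av) x • (θ.kick n).wv := by
  have hσ' : |σ| = 1 := by rcases hσ with h | h <;> simp [h]
  have hd := θ.del_le_rr n
  have hp := θ.del_pos n
  have hr := rr_pos st n
  have a1 : |σ * θ.del n| = θ.del n := by rw [abs_mul, hσ', one_mul, abs_of_pos hp]
  obtain ⟨b1, b2⟩ := abs_le.1 a1.le
  apply kick_chirp_conj
  by_cases hL : ∀ L : ℤ, ¬ (L - 5 * rr st n / 8 < θ.XX n x ∧ θ.XX n x < L - rr st n / 8)
  · left
    intro s
    apply θ.incr_chirp_zero n _ hσ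
    intro L
    rw [θ.kick_wv, XX_add_kick]
    exact hL L
  · right
    push Not at hL
    obtain ⟨L, h1, h2⟩ := hL
    refine ⟨θ.kick_zero n x L (by linarith) (by linarith), fun s => ?_⟩
    have e : (θ.kick n).b (x + σ • θ.av + s • (θ.chirp n).wv) =
        θ.pq n * pz (gB (rr st n)) (θ.XX n x + σ * θ.del n) * (st n).G ((x + s • (θ.chirp n).wv) 2) := by
      have : x + σ • θ.av + s • (θ.chirp n).wv = (x + s • (θ.chirp n).wv) + σ • θ.av := by abel
      rw [this, θ.kick_b_add n _ hσ, θ.chirp_wv, XX_add_e3]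
    rw [e]
    have hr' := rr_le st n
    rw [pz_eq (gB_const hr (rr_le_quarter n)) (k := L) (by rw [abs_lt]; constructor <;> linarith),
      gB_zero hr (by linarith) (by linarith)]
    ring

end Par

end

end Crest.Agent.R081.TS
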