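import Crest.Agent.R081.DCells
import Crest.Agent.R075.DesignData
import Crest.Agent.R075.ThmQ
import Crest.Agent.R075.PackMain
import Crest.Agent.R075.Gauss
import Crest.Agent.R075.Basic

/-!
# Row 81: THM D (design) in generic form

Arbitrary masses `p t`, arbitrary pairwise non parallel types `t` with `t 0 ≥ 1` (no parity).
The arcs `[X, X + t 0)`, `X = t.om_i + j h q_t`, and their mirrors are pairwise disjoint in
`ℤ/(hQ)`, the mass `p_t / D_t` of a line is (up to `1 + eps`) `P` times the relative length of its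
arc, and the Gauss sum splits the type `t` into its `D_t = Q / q_t` lines.
-/

set_option autoImplicit false

namespace Crest.Agent.R081.D

open Finset Crest.Agent.R075

/-- output of the design. -/
structure Design {R : ℕ} (T : Finset (Fin (R+1) → ℤ)) (p : (Fin (R+1) → ℤ) → ℝ) (eps : ℝ)
    (B0 : ℕ) where
  /-- number of pieces -/
  P : ℕ
  P_pos : 0 < P
  h : ℕ
  h_pos : 0 < h
  q : (Fin (R+1) → ℤ) → ℕ
  q_odd : ∀ t ∈ T, Odd (q t)
  q_one : ∀ t ∈ T, 1 < q t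
  q_cop : ∀ t ∈ T, ∀ t' ∈ T, t ≠ t' → Nat.Coprime (q t) (q t')
  q_B0 : ∀ t ∈ T, ∀ n : ℕ, 1 ≤ n → n ≤ B0 → Nat.Coprime (q t) n
  A : Fin (R+1) → ℤ
  A_dvd : ∀ t ∈ T, (q t : ℤ) ∣ ∑ r, t r * A r
  A_cop : ∀ t ∈ T, ∀ t' ∈ T, t ≠ t' → IsCoprime (∑ r, t r * A r) (q t' : ℤ)
  om : Fin P → Fin (R+1) → ℤ
  disj : ∀ (i i' : Fin P), ∀ t ∈ T, ∀ t' ∈ T, ∀ j < ∏ u ∈ T.erase t, q u,
    ∀ j' < ∏ u ∈ T.erase t', q u, ∀ c : ℤ,
      CD.InZ (h * ∏ u ∈ T, q u) (∑ r, t r * om i r + j * (h * q t)) (t 0) c →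
      CD.InZ (h * ∏ u ∈ T, q u) (∑ r, t' r * om i' r + j' * (h * q t')) (t' 0) c →
      i = i' ∧ t = t' ∧ j = j'
  disj_mirror : ∀ (i i' : Fin P), ∀ t ∈ T, ∀ t' ∈ T, ∀ j < ∏ u ∈ T.erase t, q u,
    ∀ j' < ∏ u ∈ T.erase t', q u, ∀ c : ℤ,
      CD.InZ (h * ∏ u ∈ T, q u) (∑ r, t r * om i r + j * (h * q t)) (t 0) c →
      CD.InZ (h * ∏ u ∈ T, q u) (∑ r, t' r * om i' r + j' * (h * q t')) (t' 0) (-1 - c) →
      False
  mass_lo : ∀ t ∈ T, (P : ℝ) * t 0 / (h * q t) ≤ p t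
  mass_hi : ∀ t ∈ T, p t ≤ (1 + eps) * ((P : ℝ) * t 0 / (h * q t))

/-- data coming from the packing lemma and the torsion lemma (no parity) -/
structure PD (R : ℕ) where
  T : Finset (Fin (R+1) → ℤ)
  hpos : ∀ t ∈ T, 1 ≤ t 0
  L : ℕ
  l : ℕ
  L_pos : 0 < L
  l_pos : 0 < l
  hdvd : ∀ t ∈ T, t 0 ∣ (L : ℤ)
  sigma : ZMod l → (Fin (R+1) → ℤ)
  hsigma : ∀ B, sigma (-1 - B) = - sigma B
  W : Finset ((Fin (R+1) → ZMod l) × ℕ)
  hW : ∀ g ∈ W, ∀ t ∈ T, sigma (pblk l L t g) = t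
  kap : ℕ
  q : (Fin (R+1) → ℤ) → ℕ
  q_pos : ∀ t ∈ T, 0 < q t
  q_cop : ∀ t ∈ T, ∀ t2 ∈ T, t ≠ t2 → Nat.Coprime (q t) (q t2)
  q_copL : ∀ t ∈ T, Nat.Coprime (t 0).toNat (q t)
  load : ∀ t ∈ T, ∀ (B : ZMod l) (r : ℤ),
    kap * (W.filter fun g => pblk l L t g = B ∧ t 0 * g.2 % L = r).card ≤ q t

namespace PD

variable {R : ℕ} (P : PD R)

abbrev Ty : Type := {t : Fin (R+1) → ℤ // t ∈ P.T}
abbrev Wt : Type := {g : (Fin (R+1) → ZMod P.l) × ℕ // g ∈ P.W}

lemma exists_a : ∃ a : P.Wt × Fin P.kap → ℤ, ∀ (t : P.Ty) (i i2 : P.Wt × Fin P.kap),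
    sS P.l P.L t.1 i.1.1 = sS P.l P.L t.1 i2.1.1 →
      (NN P.l P.L t.1 i.1.1 / P.l) + (t.1 0).toNat * a i
        ≡ (NN P.l P.L t.1 i2.1.1 / P.l) + (t.1 0).toNat * a i2 [ZMOD P.q t.1] → i = i2 := by
  classical
  have : NeZero P.l := ⟨P.l_pos.ne'⟩
  have hL' : (0:ℤ) < P.L := by exact_mod_cast P.L_pos
  have hl' : (0:ℤ) < P.l := by exact_mod_cast P.l_pos
  apply exists_residues P.kap (fun (w : P.Wt) (t : P.Ty) => sS P.l P.L t.1 w.1) (fun t => P.q t.1)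
    (fun t => P.q_pos t.1 t.2)
    (fun t t2 h => P.q_cop t.1 t.2 t2.1 t2.2 (fun h' => h (Subtype.ext h')))
    (fun t => (t.1 0).toNat) (fun t => P.q_copL t.1 t.2) _ (fun w t => NN P.l P.L t.1 w.1 / P.l)
  intro t x
  refine le_trans ?_ (P.load t.1 t.2 ((x / P.L : ℕ) : ZMod P.l) ((x % P.L : ℕ) : ℤ))
  apply Nat.mul_le_mul_left
  rw [← Finset.card_map (Function.Embedding.subtype _)]
  apply Finset.card_le_card
  intro g hg
  simp only [mem_map, mem_filter, mem_univ, true_and, Function.Embedding.subtype_apply] at hg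
  obtain ⟨w, hw, rfl⟩ := hg
  rw [mem_filter]
  refine ⟨w.2, ?_⟩
  have hr : (t.1 0 * w.1.2 % P.L).toNat < P.L := by
    have := Int.emod_lt_of_pos (t.1 0 * w.1.2) hL'
    have := Int.emod_nonneg (t.1 0 * w.1.2) hL'.ne'
    omega
  have h1 : x / P.L = (NN P.l P.L t.1 w.1 % P.l).toNat := by
    rw [← hw]; unfold sS
    rw [Nat.mul_add_div P.L_pos, Nat.div_eq_of_lt hr, add_zero]
  have h2 : x % P.L = (t.1 0 * w.1.2 % P.L).toNat := by
    rw [← hw]; unfold sS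
    rw [Nat.mul_add_mod, Nat.mod_eq_of_lt hr]
  refine ⟨?_, ?_⟩
  · rw [h1, NNmod_cast]
  · rw [h2, Int.toNat_of_nonneg (Int.emod_nonneg _ hL'.ne')]

noncomputable def a : P.Wt × Fin P.kap → ℤ := P.exists_a.choose

noncomputable def cells : CD P.Ty (P.Wt × Fin P.kap) where
  L := P.L
  l := P.l
  L_pos := P.L_pos
  l_pos := P.l_pos
  t1 := fun t => (t.1 0).toNat
  t1_pos := by
    intro t
    have := P.hpos t.1 t.2
    omega
  t1_dvd := by
    intro t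
    have h1 := P.hpos t.1 t.2
    have h2 := P.hdvd t.1 t.2
    have h3 : (((t.1 0).toNat : ℕ) : ℤ) = t.1 0 := Int.toNat_of_nonneg (by omega)
    rw [← h3] at h2
    exact_mod_cast h2
  tau := by
    classical
    exact fun B => if h : P.sigma (B : ZMod P.l) ∈ P.T then some ⟨_, h⟩ else none
  tau_symm := by
    classical
    intro B hB t ht
    split_ifs at ht with h
    rw [dif_neg]
    intro h2
    have h3 : ((P.l - 1 - B : ℕ) : ZMod P.l) = -1 - (B : ZMod P.l) := by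
      have e : (P.l - 1 - B) + 1 + B = P.l := by omega
      have e2 : (((P.l - 1 - B) + 1 + B : ℕ) : ZMod P.l) = 0 := by rw [e]; simp
      push_cast at e2
      linear_combination e2
    rw [h3, P.hsigma] at h2
    have h4 := P.hpos _ h
    have h5 := P.hpos _ h2
    simp only [Pi.neg_apply] at h5
    omega
  s := fun i t => sS P.l P.L t.1 i.1.1
  s_blk := by
    classical
    have : NeZero P.l := ⟨P.l_pos.ne'⟩
    intro i t
    have hL' : (0:ℤ) < P.L := by exact_mod_cast P.L_pos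
    have hl' : (0:ℤ) < P.l := by exact_mod_cast P.l_pos
    refine ⟨(NN P.l P.L t.1 i.1.1 % P.l).toNat, ?_, (t.1 0 * i.1.1.2 % P.L).toNat, ?_, ?_, rfl, ?_⟩
    · have := Int.emod_lt_of_pos (NN P.l P.L t.1 i.1.1) hl'
      have := Int.emod_nonneg (NN P.l P.L t.1 i.1.1) hl'.ne'
      omega
    · have := Int.emod_lt_of_pos (t.1 0 * i.1.1.2) hL'
      have := Int.emod_nonneg (t.1 0 * i.1.1.2) hL'.ne'
      omega
    · have h1 := P.hpos t.1 t.2
      have h3 : (((t.1 0).toNat : ℕ) : ℤ) = t.1 0 := Int.toNat_of_nonneg (by omega)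
      have h4 : (((t.1 0 * i.1.1.2 % P.L).toNat : ℕ) : ℤ) = t.1 0 * i.1.1.2 % P.L :=
        Int.toNat_of_nonneg (Int.emod_nonneg _ hL'.ne')
      have h5 : t.1 0 ∣ t.1 0 * i.1.1.2 % P.L := by
        rw [Int.emod_def]
        exact dvd_sub (Dvd.intro _ rfl) (dvd_mul_of_dvd_left (P.hdvd t.1 t.2) _)
      rw [← Int.natCast_dvd_natCast, h3, h4]
      exact h5
    · have h1 := NNmod_cast P.l P.L t.1 i.1.1
      have h2 := P.hW i.1.1 i.1.2 t.1 t.2
      have h3 : P.sigma (((NN P.l P.L t.1 i.1.1 % P.l).toNat : ℕ) : ZMod P.l) = t.1 := by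
        rw [h1, h2]
      rw [dif_pos (by rw [h3]; exact t.2)]
      congr 1
      exact Subtype.ext h3
  q := fun t => P.q t.1
  q_pos := fun t => P.q_pos t.1 t.2
  v := fun i t => NN P.l P.L t.1 i.1.1 / P.l + (t.1 0).toNat * P.a i
  v_inj := fun t i i2 h1 h2 => P.exists_a.choose_spec t i i2 h1 h2

/-- the integer frequency vector of a piece. -/
noncomputable def omv (i : P.Wt × Fin P.kap) (r : Fin (R+1)) : ℤ :=
  uu P.l P.L i.1.1 r + (if r = 0 then ((P.L * P.l : ℕ) : ℤ) * P.a i else 0)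

lemma XI_eq (i : P.Wt × Fin P.kap) (t : P.Ty) (j : ℕ) :
    P.cells.XI i t j = ∑ r, t.1 r * P.omv i r + j * (((P.L * P.l : ℕ) : ℤ) * P.q t.1) := by
  have h1 := P.hpos t.1 t.2
  have h3 : (((t.1 0).toNat : ℕ) : ℤ) = t.1 0 := Int.toNat_of_nonneg (by omega)
  have e1 : P.cells.XI i t j = (sS P.l P.L t.1 i.1.1 : ℤ)
      + ((P.L * P.l : ℕ) : ℤ) * ((NN P.l P.L t.1 i.1.1 / P.l + (t.1 0).toNat * P.a i)
        + j * P.q t.1) := rfl
  have e2 : ∑ r, t.1 r * P.omv i r = ∑ r, t.1 r * uu P.l P.L i.1.1 r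
      + t.1 0 * (((P.L * P.l : ℕ) : ℤ) * P.a i) := by
    unfold omv
    simp only [mul_add, Finset.sum_add_distrib]
    congr 1
    simp
  rw [e1, e2, sum_uu P.l P.L P.L_pos P.l_pos t.1 i.1.1, h3]
  ring

lemma Q_eq : P.cells.Q = ∏ u ∈ P.T, P.q u := by
  have : P.cells.Q = ∏ t : P.Ty, P.q t.1 := rfl
  rw [this, Finset.prod_coe_sort P.T (fun u => P.q u)]

lemma Dt_eq (t : P.Ty) : P.cells.Dt t = ∏ u ∈ P.T.erase t.1, P.q u := by
  have h1 : P.q t.1 * ∏ u ∈ P.T.erase t.1, P.q u = ∏ u ∈ P.T, P.q u :=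
    Finset.mul_prod_erase P.T P.q t.2
  have h2 := P.cells.Q_eq t
  rw [P.Q_eq, ← h1] at h2
  exact (Nat.eq_of_mul_eq_mul_left (P.q_pos t.1 t.2) h2).symm

end PD

set_option maxHeartbeats 1000000 in
/-- **THM D, generic form.** -/
theorem exists_design {R : ℕ} (T : Finset (Fin (R+1) → ℤ)) (hpos : ∀ t ∈ T, 1 ≤ t 0)
    (hnp : ∀ t ∈ T, ∀ t' ∈ T, t ≠ t' → ∃ i j, t i * t' j ≠ t j * t' i)
    (p : (Fin (R+1) → ℤ) → ℝ) (hp : ∀ t ∈ T, 0 < p t) (hsum : 2 * ∑ t ∈ T, p t ≤ 1)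
    (eps : ℝ) (heps : 0 < eps) (B0 : ℕ) : Nonempty (Design T p eps B0) := by
  classical
  set e : ℝ := min eps 1 / 4 with he
  have he0 : 0 < e := by rw [he]; positivity
  have he1 : e ≤ 1 / 4 := by
    rw [he]; have := min_le_right eps 1; linarith
  have heε : (1 + e) * (1 + e) ≤ 1 + eps := by
    have : 4 * e ≤ eps := by rw [he]; have := min_le_left eps 1; linarith
    nlinarith
  set L : ℕ := ∏ t ∈ T, (t 0).toNat with hL
  have hcast : ∀ t ∈ T, (((t 0).toNat : ℕ) : ℤ) = t 0 := fun t ht =>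
    Int.toNat_of_nonneg (by have := hpos t ht; omega)
  have hLpos : 0 < L := Finset.prod_pos fun t ht => by have := hpos t ht; omega
  have hdvdN : ∀ t ∈ T, (t 0).toNat ∣ L := fun t ht => Finset.dvd_prod_of_mem _ ht
  have hdvd : ∀ t ∈ T, t 0 ∣ (L : ℤ) := by
    intro t ht
    rw [← hcast t ht]
    exact_mod_cast hdvdN t ht
  obtain ⟨l0, hl0⟩ := Crest.Agent.R075.Pack.packing T hpos hnp p hp hsum L hLpos hdvd e he0
  obtain ⟨l, hl_ge, hlp⟩ := Nat.exists_infinite_primes l0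
  obtain ⟨sigma, W, hWne, hsig, hWL, hW, hload⟩ := hl0 l hl_ge hlp
  have hWc : (0:ℝ) < W.card := by exact_mod_cast Finset.card_pos.mpr hWne
  have hLpos' : (0:ℝ) < L := by exact_mod_cast hLpos
  have hlpos' : (0:ℝ) < l := by exact_mod_cast hlp.pos
  have ht0 : ∀ t ∈ T, (0:ℝ) < t 0 := fun t ht => by
    have := hpos t ht
    have h2 : (0:ℤ) < t 0 := by omega
    exact_mod_cast h2
  set H : (Fin (R+1) → ℤ) → ℝ := fun t => (1+e) * W.card * t 0 / (p t * (L * l)) with hH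
  have hHpos : ∀ t ∈ T, 0 < H t := by
    intro t ht
    have h1 := hp t ht
    have h2 := ht0 t ht
    simp only [hH]
    positivity
  obtain ⟨kap, q, A, hkap, -, hq, hqB, hqc, hqA, hqA2⟩ := thmQ T hpos hnp H hHpos e he0 (max L B0)
  have hkap0 : (0:ℝ) < kap := by exact_mod_cast hkap
  have hqpos : ∀ t ∈ T, 0 < q t := fun t ht => by have := (hq t ht).2.1; omega
  let P : PD R := {
    T := T
    hpos := hpos
    L := L
    l := l
    L_pos := hLpos
    l_pos := hlp.pos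
    hdvd := hdvd
    sigma := sigma
    hsigma := hsig
    W := W
    hW := hW
    kap := kap
    q := q
    q_pos := hqpos
    q_cop := hqc
    q_copL := by
      intro t ht
      apply Nat.Coprime.symm
      apply hqB t ht
      · have := hpos t ht; omega
      · exact le_trans (Nat.le_of_dvd hLpos (hdvdN t ht)) (le_max_left _ _)
    load := by
      intro t ht B r
      have h1 := hload t ht B r
      have h2 := (hq t ht).2.2.1
      have h3 : (kap : ℝ) * ((W.filter fun g => pblk l L t g = B ∧ t 0 * g.2 % L = r).card : ℝ)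
        ≤ kap * H t := mul_le_mul_of_nonneg_left h1 hkap0.le
      have h4 : (kap : ℝ) * ((W.filter fun g => pblk l L t g = B ∧ t 0 * g.2 % L = r).card : ℝ)
        ≤ q t := le_trans h3 h2
      exact_mod_cast h4 }
  -- pieces
  have hcard : Fintype.card (P.Wt × Fin P.kap) = W.card * kap := by
    rw [Fintype.card_prod, Fintype.card_fin, Fintype.card_coe]
  let eqv : Fin (W.card * kap) ≃ P.Wt × Fin P.kap := (Fintype.equivFinOfCardEq hcard).symm
  have hmass : ∀ t ∈ T, kap * H t = (1 + e) * (((W.card * kap : ℕ) : ℝ) * t 0 / (L * l)) / p t := by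
    intro t ht
    have h1 := hp t ht
    simp only [hH]
    push_cast
    field_simp
  have hM : (L * l) * ∏ u ∈ T, q u = P.cells.M := by
    have h1 : P.cells.M = (L * l) * P.cells.Q := rfl
    rw [h1, P.Q_eq]
  refine ⟨{
    P := W.card * kap
    P_pos := Nat.mul_pos (Finset.card_pos.mpr hWne) hkap
    h := L * l
    h_pos := Nat.mul_pos hLpos hlp.pos
    q := q
    q_odd := fun t ht => (hq t ht).1
    q_one := fun t ht => (hq t ht).2.1
    q_cop := hqc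
    q_B0 := fun t ht n h1 h2 => hqB t ht n h1 (le_trans h2 (le_max_right _ _))
    A := A
    A_dvd := hqA
    A_cop := hqA2
    om := fun i => P.omv (eqv i)
    disj := ?_
    disj_mirror := ?_
    mass_lo := ?_
    mass_hi := ?_ }⟩
  · intro i i' t ht t' ht' j hj j' hj' c hc hc'
    rw [hM] at hc hc'
    have e1 := P.XI_eq (eqv i) ⟨t, ht⟩ j
    have e2 := P.XI_eq (eqv i') ⟨t', ht'⟩ j'
    have d1 := P.Dt_eq ⟨t, ht⟩
    have d2 := P.Dt_eq ⟨t', ht'⟩
    have c1 : ((P.cells.t1 ⟨t, ht⟩ : ℕ) : ℤ) = t 0 := hcast t ht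
    have c2 : ((P.cells.t1 ⟨t', ht'⟩ : ℕ) : ℤ) = t' 0 := hcast t' ht'
    have := P.cells.disj (i := eqv i) (i' := eqv i') (t := ⟨t, ht⟩) (t' := ⟨t', ht'⟩) (j := j)
      (j' := j') (c := c) (by rw [d1]; exact hj) (by rw [d2]; exact hj')
      (by rw [e1, c1]; exact hc) (by rw [e2, c2]; exact hc')
    obtain ⟨a1, a2, a3⟩ := this
    exact ⟨eqv.injective a1, congrArg Subtype.val a2, a3⟩
  · intro i i' t ht t' ht' j hj j' hj' c hc hc'
    rw [hM] at hc hc'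
    have e1 := P.XI_eq (eqv i) ⟨t, ht⟩ j
    have e2 := P.XI_eq (eqv i') ⟨t', ht'⟩ j'
    have c1 : ((P.cells.t1 ⟨t, ht⟩ : ℕ) : ℤ) = t 0 := hcast t ht
    have c2 : ((P.cells.t1 ⟨t', ht'⟩ : ℕ) : ℤ) = t' 0 := hcast t' ht'
    exact P.cells.disj_mirror (i := eqv i) (i' := eqv i') (t := ⟨t, ht⟩) (t' := ⟨t', ht'⟩) (j := j)
      (j' := j') (c := c) (by rw [e1, c1]; exact hc) (by rw [e2, c2]; exact hc')
  · intro t ht
    have h1 := (hq t ht).2.2.1
    rw [hmass t ht] at h1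
    have h2 := hp t ht
    have h3 : (0:ℝ) < q t := by exact_mod_cast hqpos t ht
    have h4 : 0 ≤ ((W.card * kap : ℕ) : ℝ) * t 0 / (L * l) := by
      have := ht0 t ht; positivity
    rw [div_le_iff₀ h2] at h1
    have h5 : ((W.card * kap : ℕ) : ℝ) * t 0 / (((L * l : ℕ) : ℝ) * q t)
        = (((W.card * kap : ℕ) : ℝ) * t 0 / (L * l)) / q t := by
      push_cast; field_simp
    rw [h5, div_le_iff₀ h3]
    nlinarith
  · intro t ht
    have h1 := (hq t ht).2.2.2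
    rw [hmass t ht] at h1
    have h2 := hp t ht
    have h3 : (0:ℝ) < q t := by exact_mod_cast hqpos t ht
    have h4 : 0 ≤ ((W.card * kap : ℕ) : ℝ) * t 0 / (L * l) := by
      have := ht0 t ht; positivity
    have h5 : ((W.card * kap : ℕ) : ℝ) * t 0 / (((L * l : ℕ) : ℝ) * q t)
        = (((W.card * kap : ℕ) : ℝ) * t 0 / (L * l)) / q t := by
      push_cast; field_simp
    rw [h5, ← mul_div_assoc, le_div_iff₀ h3]
    have h6 : (1 + e) * ((1 + e) * (((W.card * kap : ℕ) : ℝ) * t 0 / (L * l)) / p t)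
        = ((1 + e) * (1 + e)) * (((W.card * kap : ℕ) : ℝ) * t 0 / (L * l)) / p t := by ring
    rw [h6, le_div_iff₀ h2] at h1
    calc p t * q t = q t * p t := mul_comm _ _
      _ ≤ ((1 + e) * (1 + e)) * (((W.card * kap : ℕ) : ℝ) * t 0 / (L * l)) := h1
      _ ≤ (1 + eps) * (((W.card * kap : ℕ) : ℝ) * t 0 / (L * l)) :=
        mul_le_mul_of_nonneg_right heε h4

namespace Design

variable {R : ℕ} {T : Finset (Fin (R+1) → ℤ)} {p : (Fin (R+1) → ℤ) → ℝ} {eps : ℝ} {B0 : ℕ}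
  (D : Design T p eps B0)

/-- `Q = ∏ q_t`. -/
def Q : ℕ := ∏ u ∈ T, D.q u

/-- number `D_t = Q / q_t` of lines of type `t`. -/
def Dt (t : Fin (R+1) → ℤ) : ℕ := ∏ u ∈ T.erase t, D.q u

/-- start of the arc of the line `j` of type `t` in the piece `i`, in units `1/(hQ)`. -/
def X (i : Fin D.P) (t : Fin (R+1) → ℤ) (j : ℕ) : ℤ :=
  ∑ r, t r * D.om i r + j * (D.h * D.q t)

lemma q_pos {t : Fin (R+1) → ℤ} (ht : t ∈ T) : 0 < D.q t := by
  have := D.q_one t ht; omega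

lemma Q_pos : 0 < D.Q := Finset.prod_pos fun _ ht => D.q_pos ht

lemma Dt_pos (t : Fin (R+1) → ℤ) : 0 < D.Dt t :=
  Finset.prod_pos fun _ hu => D.q_pos (Finset.mem_of_mem_erase hu)

lemma Dt_odd (t : Fin (R+1) → ℤ) : Odd (D.Dt t) := by
  unfold Dt
  apply Finset.prod_induction _ Odd (fun a b => Odd.mul) odd_one
  intro u hu; exact D.q_odd u (Finset.mem_of_mem_erase hu)

lemma Q_eq {t : Fin (R+1) → ℤ} (ht : t ∈ T) : D.Q = D.q t * D.Dt t :=
  (Finset.mul_prod_erase T D.q ht).symm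

/-- mass of a line versus length of its arc. -/
lemma line_lo {t : Fin (R+1) → ℤ} (ht : t ∈ T) :
    (D.P : ℝ) * t 0 / (D.h * D.Q) ≤ p t / D.Dt t := by
  have h1 := D.mass_lo t ht
  have h2 : (0:ℝ) < D.Dt t := by exact_mod_cast D.Dt_pos t
  have h3 : (0:ℝ) < D.q t := by exact_mod_cast D.q_pos ht
  have h4 : (0:ℝ) < D.h := by exact_mod_cast D.h_pos
  rw [le_div_iff₀ h2]
  refine le_trans (le_of_eq ?_) h1
  rw [D.Q_eq ht]; push_cast; field_simp

lemma line_hi {t : Fin (R+1) → ℤ} (ht : t ∈ T) :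
    p t / D.Dt t ≤ (1 + eps) * ((D.P : ℝ) * t 0 / (D.h * D.Q)) := by
  have h1 := D.mass_hi t ht
  have h2 : (0:ℝ) < D.Dt t := by exact_mod_cast D.Dt_pos t
  have h3 : (0:ℝ) < D.q t := by exact_mod_cast D.q_pos ht
  have h4 : (0:ℝ) < D.h := by exact_mod_cast D.h_pos
  rw [div_le_iff₀ h2]
  refine le_trans h1 (le_of_eq ?_)
  rw [D.Q_eq ht]; push_cast; field_simp

/-- the arcs (with their mirrors) cover almost the mass `2 ∑ p`. -/
lemma cover : 2 * ∑ t ∈ T, p t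
    ≤ (1 + eps) * (2 * ∑ t ∈ T, (D.P : ℝ) * D.Dt t * t 0 / (D.h * D.Q)) := by
  rw [Finset.mul_sum, Finset.mul_sum, Finset.mul_sum]
  refine Finset.sum_le_sum fun t ht => ?_
  have h1 := D.mass_hi t ht
  have h2 : (0:ℝ) < D.Dt t := by exact_mod_cast D.Dt_pos t
  have h3 : (0:ℝ) < D.q t := by exact_mod_cast D.q_pos ht
  have h4 : (0:ℝ) < D.h := by exact_mod_cast D.h_pos
  have h5 : (D.P : ℝ) * D.Dt t * t 0 / (D.h * D.Q) = (D.P : ℝ) * t 0 / (D.h * D.q t) := by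
    rw [D.Q_eq ht]; push_cast; field_simp
  rw [h5]; linarith

/-- **Gauss splitting** of the type `t` into its lines (same coefficients for all pieces). -/
theorem gauss_split {t : Fin (R+1) → ℤ} (ht : t ∈ T) :
    ∃ g : ℕ → ℂ, (∀ j, ‖g j‖ = 1 / Real.sqrt (D.Dt t)) ∧ ∀ (i : Fin D.P) (l : ℤ),
      ee (((∑ r, t r * D.A r : ℤ) : ℝ) * (l : ℝ) ^ 2 / D.Q
          + ((∑ r, t r * D.om i r : ℤ) : ℝ) * l / (D.h * D.Q))
        = ∑ j ∈ range (D.Dt t), g j * ee ((D.X i t j : ℝ) * l / (D.h * D.Q)) := by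
  obtain ⟨c, hc⟩ := D.A_dvd t ht
  have hcop : IsCoprime c (D.Dt t : ℤ) := by
    unfold Dt
    push_cast
    apply IsCoprime.prod_right
    intro t' ht'
    have h1 := D.A_cop t ht t' (Finset.mem_of_mem_erase ht') (Finset.ne_of_mem_erase ht').symm
    rw [hc] at h1
    exact h1.of_mul_left_right
  obtain ⟨g, hg, hg2⟩ := gauss (D.Dt t) (D.Dt_odd t) c hcop
  refine ⟨g, hg, fun i l => ?_⟩
  have h2 : (0:ℝ) < D.Dt t := by exact_mod_cast D.Dt_pos t
  have h3 : (0:ℝ) < D.q t := by exact_mod_cast D.q_pos ht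
  have h4 : (0:ℝ) < D.h := by exact_mod_cast D.h_pos
  have e1 : ((∑ r, t r * D.A r : ℤ) : ℝ) * (l : ℝ) ^ 2 / D.Q = (c * l ^ 2 / D.Dt t : ℝ) := by
    rw [hc, D.Q_eq ht]; push_cast; field_simp
  have hk := hg2 l
  have hee : ∀ x : ℝ, Complex.exp (2 * Real.pi * Complex.I * (x : ℂ)) = ee x := fun x => rfl
  rw [hee] at hk
  simp only [hee] at hk
  rw [e1, ee_add, hk, Finset.sum_mul]
  refine Finset.sum_congr rfl fun j _ => ?_
  rw [mul_assoc, ← ee_add]
  congr 2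
  unfold X
  rw [D.Q_eq ht]; push_cast; field_simp
  ring

end Design

end Crest.Agent.R081.D
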