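import Crest.Agent.R081.ThmD

/-!
# Row 81: THM D for a general direction `L` with last entry `1`

`t 0` of `ThmD` is replaced by `t · L`: the real sweep moves the phases along `L`.
-/

set_option autoImplicit false

namespace Crest.Agent.R081.D

open Finset Crest.Agent.R075

/-- the scalar product. -/
def dot {R : ℕ} (t x : Fin (R+1) → ℤ) : ℤ := ∑ r, t r * x r

/-- output of the design, direction `L`. -/
structure DesignL {R : ℕ} (T : Finset (Fin (R+1) → ℤ)) (L : Fin (R+1) → ℤ)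
    (p : (Fin (R+1) → ℤ) → ℝ) (eps : ℝ) (B0 : ℕ) where
  /-- number of pieces -/
  P : ℕ
  P_pos : 0 < P
  h : ℕ
  h_pos : 0 < h
  q : (Fin (R+1) → ℤ) → ℕ
  q_odd : ∀ t ∈ T, Odd (q t)
  q_one : ∀ t ∈ T, 1 < q t
  q_cop : ∀ t ∈ T, ∀ t' ∈ T, t ≠ t' → Nat.Coprime (q t) (q t')
  q_B0 : ∀ t ∈ T, ∀ n : ℕ, 1 ≤ n → n ≤ B0 → Nat.Coprime (q t) n
  A : Fin (R+1) → ℤ
  A_dvd : ∀ t ∈ T, (q t : ℤ) ∣ dot t A
  A_cop : ∀ t ∈ T, ∀ t' ∈ T, t ≠ t' → IsCoprime (dot t A) (q t' : ℤ)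
  om : Fin P → Fin (R+1) → ℤ
  disj : ∀ (i i' : Fin P), ∀ t ∈ T, ∀ t' ∈ T, ∀ j < ∏ u ∈ T.erase t, q u,
    ∀ j' < ∏ u ∈ T.erase t', q u, ∀ c : ℤ,
      CD.InZ (h * ∏ u ∈ T, q u) (dot t (om i) + j * (h * q t)) (dot t L) c →
      CD.InZ (h * ∏ u ∈ T, q u) (dot t' (om i') + j' * (h * q t')) (dot t' L) c →
      i = i' ∧ t = t' ∧ j = j'
  disj_mirror : ∀ (i i' : Fin P), ∀ t ∈ T, ∀ t' ∈ T, ∀ j < ∏ u ∈ T.erase t, q u,
    ∀ j' < ∏ u ∈ T.erase t', q u, ∀ c : ℤ,
      CD.InZ (h * ∏ u ∈ T, q u) (dot t (om i) + j * (h * q t)) (dot t L) c →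
      CD.InZ (h * ∏ u ∈ T, q u) (dot t' (om i') + j' * (h * q t')) (dot t' L) (-1 - c) →
      False
  mass_lo : ∀ t ∈ T, (P : ℝ) * dot t L / (h * q t) ≤ p t
  mass_hi : ∀ t ∈ T, p t ≤ (1 + eps) * ((P : ℝ) * dot t L / (h * q t))

/-- change of basis on the types: first entry `t · L`, then the entries of `t` but the last. -/
def chT {R : ℕ} (L t : Fin (R+1) → ℤ) : Fin (R+1) → ℤ :=
  Fin.cons (dot t L) (fun r : Fin R => t r.castSucc)

/-- the dual change of basis on the vectors. -/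
def chV {R : ℕ} (L x : Fin (R+1) → ℤ) : Fin (R+1) → ℤ :=
  Fin.snoc (fun r : Fin R => x 0 * L r.castSucc + x r.succ) (x 0)

lemma dot_ch {R : ℕ} (L : Fin (R+1) → ℤ) (hL : L (Fin.last R) = 1) (t x : Fin (R+1) → ℤ) :
    dot t (chV L x) = dot (chT L t) x := by
  have h1 : dot t (chV L x) = ∑ r : Fin R, t r.castSucc * (x 0 * L r.castSucc + x r.succ)
      + t (Fin.last R) * x 0 := by
    unfold dot chV
    rw [Fin.sum_univ_castSucc]
    simp
  have h2 : dot (chT L t) x = dot t L * x 0 + ∑ r : Fin R, t r.castSucc * x r.succ := by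
    have e0 : dot (chT L t) x = ∑ r, chT L t r * x r := rfl
    rw [e0, Fin.sum_univ_succ]
    simp only [chT, Fin.cons_zero, Fin.cons_succ]
  have h3 : dot t L = ∑ r : Fin R, t r.castSucc * L r.castSucc + t (Fin.last R) := by
    unfold dot
    rw [Fin.sum_univ_castSucc, hL, mul_one]
  rw [h1, h2, h3]
  simp only [mul_add, Finset.sum_add_distrib, add_mul, Finset.sum_mul]
  have h4 : ∑ r : Fin R, t r.castSucc * (x 0 * L r.castSucc)
      = ∑ r : Fin R, t r.castSucc * L r.castSucc * x 0 :=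
    Finset.sum_congr rfl fun r _ => by ring
  rw [h4]; ring

lemma chT_zero {R : ℕ} (L t : Fin (R+1) → ℤ) : chT L t 0 = dot t L := by simp [chT]

/-- recovery of `t` from `chT L t`. -/
lemma chT_recover {R : ℕ} (L : Fin (R+1) → ℤ) (hL : L (Fin.last R) = 1) (t : Fin (R+1) → ℤ) :
    (∀ r : Fin R, t r.castSucc = chT L t r.succ) ∧
      t (Fin.last R) = chT L t 0 - ∑ r : Fin R, chT L t r.succ * L r.castSucc := by
  have h0 : ∀ r : Fin R, t r.castSucc = chT L t r.succ := fun r => by simp [chT]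
  refine ⟨h0, ?_⟩
  have h3 : dot t L = ∑ r : Fin R, t r.castSucc * L r.castSucc + t (Fin.last R) := by
    unfold dot
    rw [Fin.sum_univ_castSucc, hL, mul_one]
  rw [chT_zero, h3]
  simp only [h0]
  ring

lemma chT_inj {R : ℕ} (L : Fin (R+1) → ℤ) (hL : L (Fin.last R) = 1) :
    Function.Injective (chT L) := by
  intro t t' h
  have h1 := chT_recover L hL t
  have h2 := chT_recover L hL t'
  rw [← h] at h2
  ext r
  refine Fin.lastCases ?_ (fun r => ?_) r
  · rw [h1.2, h2.2]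
  · rw [h1.1, h2.1]

/-- if all `2 × 2` minors of `(chT L t, chT L t')` vanish, so do those of `(t, t')`. -/
lemma parallel_of_chT {R : ℕ} (L : Fin (R+1) → ℤ) (hL : L (Fin.last R) = 1)
    (t t' : Fin (R+1) → ℤ)
    (h : ∀ i j, chT L t i * chT L t' j = chT L t j * chT L t' i) :
    ∀ i j, t i * t' j = t j * t' i := by
  have h1 := chT_recover L hL t
  have h2 := chT_recover L hL t'
  have key : ∀ i : Fin R, ∀ k : Fin (R+1), t i.castSucc * t' k = t k * t' i.castSucc := by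
    intro i k
    refine Fin.lastCases ?_ (fun r => ?_) k
    · rw [h1.1 i, h2.1 i, h1.2, h2.2, mul_sub, sub_mul, h i.succ 0, Finset.mul_sum,
        Finset.sum_mul]
      congr 1
      refine Finset.sum_congr rfl fun r _ => ?_
      have := h i.succ r.succ
      linear_combination L r.castSucc * this
    · rw [h1.1 i, h2.1 i, h1.1 r, h2.1 r]
      exact h _ _
  intro i j
  revert j
  refine Fin.lastCases ?_ (fun r => ?_) i
  · intro j
    refine Fin.lastCases rfl (fun r => ?_) j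
    exact (key r (Fin.last R)).symm
  · intro j; exact key r j

theorem exists_designL {R : ℕ} (T : Finset (Fin (R+1) → ℤ)) (L : Fin (R+1) → ℤ)
    (hL : L (Fin.last R) = 1) (hpos : ∀ t ∈ T, 1 ≤ dot t L)
    (hnp : ∀ t ∈ T, ∀ t' ∈ T, t ≠ t' → ∃ i j, t i * t' j ≠ t j * t' i)
    (p : (Fin (R+1) → ℤ) → ℝ) (hp : ∀ t ∈ T, 0 < p t) (hsum : 2 * ∑ t ∈ T, p t ≤ 1)
    (eps : ℝ) (heps : 0 < eps) (B0 : ℕ) : Nonempty (DesignL T L p eps B0) := by
  classical
  have hinj := chT_inj L hL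
  set p' : (Fin (R+1) → ℤ) → ℝ := fun t => p (Function.invFun (chT L) t) with hp'
  have hp'e : ∀ t, p' (chT L t) = p t := by
    intro t
    simp only [hp']
    rw [Function.leftInverse_invFun hinj t]
  set T' : Finset (Fin (R+1) → ℤ) := T.map ⟨chT L, hinj⟩ with hT'
  have hmem : ∀ t', t' ∈ T' ↔ ∃ t ∈ T, chT L t = t' := by
    intro t'; simp [hT']
  have hprodG : ∀ f : (Fin (R+1) → ℤ) → ℕ, ∏ u ∈ T', f u = ∏ u ∈ T, f (chT L u) := by
    intro f; rw [hT', Finset.prod_map]; rfl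
  have hprodGE : ∀ (f : (Fin (R+1) → ℤ) → ℕ) (t : Fin (R+1) → ℤ),
      ∏ u ∈ T'.erase (chT L t), f u = ∏ u ∈ T.erase t, f (chT L u) := by
    intro f t
    have : T'.erase (chT L t) = (T.erase t).map ⟨chT L, hinj⟩ := by
      rw [hT', Finset.map_erase]; rfl
    rw [this, Finset.prod_map]; rfl
  obtain ⟨D⟩ := exists_design T'
    (by
      intro t' ht'
      obtain ⟨t, ht, rfl⟩ := (hmem t').1 ht'
      rw [chT_zero]; exact hpos t ht)
    (by
      intro a ha b hb hab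
      obtain ⟨t, ht, rfl⟩ := (hmem a).1 ha
      obtain ⟨t', ht', rfl⟩ := (hmem b).1 hb
      have hne : t ≠ t' := fun h => hab (by rw [h])
      by_contra hcon
      push Not at hcon
      obtain ⟨i, j, hij⟩ := hnp t ht t' ht' hne
      exact hij (parallel_of_chT L hL t t' hcon i j))
    p'
    (by
      intro t' ht'
      obtain ⟨t, ht, rfl⟩ := (hmem t').1 ht'
      rw [hp'e]; exact hp t ht)
    (by
      rw [hT', Finset.sum_map]
      simp only [Function.Embedding.coeFn_mk, hp'e]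
      exact hsum)
    eps heps B0
  have hprod : ∏ u ∈ T', D.q u = ∏ u ∈ T, D.q (chT L u) := hprodG D.q
  have hprodE : ∀ t, ∏ u ∈ T'.erase (chT L t), D.q u = ∏ u ∈ T.erase t, D.q (chT L u) :=
    hprodGE D.q
  have hin : ∀ t ∈ T, chT L t ∈ T' := fun t ht => (hmem _).2 ⟨t, ht, rfl⟩
  have hX : ∀ (i : Fin D.P) (t : Fin (R+1) → ℤ), dot t (chV L (D.om i))
      = ∑ r, chT L t r * D.om i r := fun i t => dot_ch L hL t (D.om i)
  refine ⟨{
    P := D.P
    P_pos := D.P_pos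
    h := D.h
    h_pos := D.h_pos
    q := fun t => D.q (chT L t)
    q_odd := fun t ht => D.q_odd _ (hin t ht)
    q_one := fun t ht => D.q_one _ (hin t ht)
    q_cop := fun t ht t' ht' hne => D.q_cop _ (hin t ht) _ (hin t' ht') (fun h => hne (hinj h))
    q_B0 := fun t ht => D.q_B0 _ (hin t ht)
    A := chV L D.A
    A_dvd := fun t ht => by
      rw [dot_ch L hL]; exact D.A_dvd _ (hin t ht)
    A_cop := fun t ht t' ht' hne => by
      rw [dot_ch L hL]; exact D.A_cop _ (hin t ht) _ (hin t' ht') (fun h => hne (hinj h))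
    om := fun i => chV L (D.om i)
    disj := ?_
    disj_mirror := ?_
    mass_lo := ?_
    mass_hi := ?_ }⟩
  · intro i i' t ht t' ht' j hj j' hj' c hc hc'
    rw [hX, ← hprod, ← chT_zero] at hc hc'
    obtain ⟨a1, a2, a3⟩ := D.disj i i' _ (hin t ht) _ (hin t' ht') j (by rw [hprodE]; exact hj) j'
      (by rw [hprodE]; exact hj') c hc hc'
    exact ⟨a1, hinj a2, a3⟩
  · intro i i' t ht t' ht' j hj j' hj' c hc hc'
    rw [hX, ← hprod, ← chT_zero] at hc hc'
    exact D.disj_mirror i i' _ (hin t ht) _ (hin t' ht') j (by rw [hprodE]; exact hj) j'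
      (by rw [hprodE]; exact hj') c hc hc'
  · intro t ht
    have := D.mass_lo _ (hin t ht)
    rw [hp'e, chT_zero] at this
    exact this
  · intro t ht
    have := D.mass_hi _ (hin t ht)
    rw [hp'e, chT_zero] at this
    exact this

namespace DesignL

variable {R : ℕ} {T : Finset (Fin (R+1) → ℤ)} {L : Fin (R+1) → ℤ} {p : (Fin (R+1) → ℤ) → ℝ}
  {eps : ℝ} {B0 : ℕ} (D : DesignL T L p eps B0)

/-- `Q = ∏ q_t`. -/
def Q : ℕ := ∏ u ∈ T, D.q u

/-- number `D_t = Q / q_t` of lines of type `t`. -/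
def Dt (t : Fin (R+1) → ℤ) : ℕ := ∏ u ∈ T.erase t, D.q u

/-- start of the arc of the line `j` of type `t` in the piece `i`, in units `1/(hQ)`. -/
def X (i : Fin D.P) (t : Fin (R+1) → ℤ) (j : ℕ) : ℤ := dot t (D.om i) + j * (D.h * D.q t)

lemma q_pos {t : Fin (R+1) → ℤ} (ht : t ∈ T) : 0 < D.q t := by
  have := D.q_one t ht; omega

lemma Q_pos : 0 < D.Q := Finset.prod_pos fun _ ht => D.q_pos ht

lemma Dt_pos (t : Fin (R+1) → ℤ) : 0 < D.Dt t :=
  Finset.prod_pos fun _ hu => D.q_pos (Finset.mem_of_mem_erase hu)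

lemma Dt_odd (t : Fin (R+1) → ℤ) : Odd (D.Dt t) := by
  unfold Dt
  apply Finset.prod_induction _ Odd (fun a b => Odd.mul) odd_one
  intro u hu; exact D.q_odd u (Finset.mem_of_mem_erase hu)

lemma Q_odd : Odd D.Q := by
  unfold Q
  apply Finset.prod_induction _ Odd (fun a b => Odd.mul) odd_one
  intro u hu; exact D.q_odd u hu

lemma Q_eq {t : Fin (R+1) → ℤ} (ht : t ∈ T) : D.Q = D.q t * D.Dt t :=
  (Finset.mul_prod_erase T D.q ht).symm

/-- mass of a line versus length of its arc. -/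
lemma line_lo {t : Fin (R+1) → ℤ} (ht : t ∈ T) :
    (D.P : ℝ) * dot t L / (D.h * D.Q) ≤ p t / D.Dt t := by
  have h1 := D.mass_lo t ht
  have h2 : (0:ℝ) < D.Dt t := by exact_mod_cast D.Dt_pos t
  have h3 : (0:ℝ) < D.q t := by exact_mod_cast D.q_pos ht
  have h4 : (0:ℝ) < D.h := by exact_mod_cast D.h_pos
  rw [le_div_iff₀ h2]
  refine le_trans (le_of_eq ?_) h1
  rw [D.Q_eq ht]; push_cast; field_simp

lemma line_hi {t : Fin (R+1) → ℤ} (ht : t ∈ T) :
    p t / D.Dt t ≤ (1 + eps) * ((D.P : ℝ) * dot t L / (D.h * D.Q)) := by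
  have h1 := D.mass_hi t ht
  have h2 : (0:ℝ) < D.Dt t := by exact_mod_cast D.Dt_pos t
  have h3 : (0:ℝ) < D.q t := by exact_mod_cast D.q_pos ht
  have h4 : (0:ℝ) < D.h := by exact_mod_cast D.h_pos
  rw [div_le_iff₀ h2]
  refine le_trans h1 (le_of_eq ?_)
  rw [D.Q_eq ht]; push_cast; field_simp

/-- the arcs (with their mirrors) cover almost the mass `2 ∑ p`. -/
lemma cover : 2 * ∑ t ∈ T, p t
    ≤ (1 + eps) * (2 * ∑ t ∈ T, (D.P : ℝ) * D.Dt t * dot t L / (D.h * D.Q)) := by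
  rw [Finset.mul_sum, Finset.mul_sum, Finset.mul_sum]
  refine Finset.sum_le_sum fun t ht => ?_
  have h1 := D.mass_hi t ht
  have h2 : (0:ℝ) < D.Dt t := by exact_mod_cast D.Dt_pos t
  have h3 : (0:ℝ) < D.q t := by exact_mod_cast D.q_pos ht
  have h4 : (0:ℝ) < D.h := by exact_mod_cast D.h_pos
  have h5 : (D.P : ℝ) * D.Dt t * dot t L / (D.h * D.Q) = (D.P : ℝ) * dot t L / (D.h * D.q t) := by
    rw [D.Q_eq ht]; push_cast; field_simp
  rw [h5]; linarith

/-- **Gauss splitting** of the type `t` into its lines (same coefficients for all pieces). -/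
theorem gauss_split {t : Fin (R+1) → ℤ} (ht : t ∈ T) :
    ∃ g : ℕ → ℂ, (∀ j, ‖g j‖ = 1 / Real.sqrt (D.Dt t)) ∧ ∀ (i : Fin D.P) (l : ℤ),
      ee ((dot t D.A : ℝ) * (l : ℝ) ^ 2 / D.Q + (dot t (D.om i) : ℝ) * l / (D.h * D.Q))
        = ∑ j ∈ range (D.Dt t), g j * ee ((D.X i t j : ℝ) * l / (D.h * D.Q)) := by
  obtain ⟨c, hc⟩ := D.A_dvd t ht
  have hcop : IsCoprime c (D.Dt t : ℤ) := by
    unfold Dt
    push_cast
    apply IsCoprime.prod_right
    intro t' ht'
    have h1 := D.A_cop t ht t' (Finset.mem_of_mem_erase ht') (Finset.ne_of_mem_erase ht').symm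
    rw [hc] at h1
    exact h1.of_mul_left_right
  obtain ⟨g, hg, hg2⟩ := gauss (D.Dt t) (D.Dt_odd t) c hcop
  refine ⟨g, hg, fun i l => ?_⟩
  have h2 : (0:ℝ) < D.Dt t := by exact_mod_cast D.Dt_pos t
  have h3 : (0:ℝ) < D.q t := by exact_mod_cast D.q_pos ht
  have h4 : (0:ℝ) < D.h := by exact_mod_cast D.h_pos
  have e1 : (dot t D.A : ℝ) * (l : ℝ) ^ 2 / D.Q = (c * l ^ 2 / D.Dt t : ℝ) := by
    rw [hc, D.Q_eq ht]; push_cast; field_simp
  have hk := hg2 l
  have hee : ∀ x : ℝ, Complex.exp (2 * Real.pi * Complex.I * (x : ℂ)) = ee x := fun x => rfl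
  rw [hee] at hk
  simp only [hee] at hk
  rw [e1, ee_add, hk, Finset.sum_mul]
  refine Finset.sum_congr rfl fun j _ => ?_
  rw [mul_assoc, ← ee_add]
  congr 2
  unfold X
  rw [D.Q_eq ht]; push_cast; field_simp
  ring

end DesignL

end Crest.Agent.R081.D
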