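import Mathlib
import Crest.Agent.R081.FmDefs

/-! Row 81, route B, node TRANSITIONS (helper177), part A: the closure argument.

`off B w` is the `L²(muX)` norm of `w` outside `B`.  For a filter `l` of choices (designs, `h`), isometries
`KK i` and target sets `B i`, the vectors `w` with `off (B i) (KK i w) → 0` form a closed submodule; hence
it is enough to treat single modes. -/

set_option autoImplicit false

namespace Crest.Agent.R081.Tr

open MeasureTheory Filter Crest.Agent.R081.Fm
open scoped ENNReal Topology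

/-- mode space -/
abbrev X : Type := (ℤ × ℤ) × ℝ

/-- square integrable arrays -/
abbrev V : Type := Lp ℂ 2 muX

/-- the `L²` mass of `w` outside `B` (a norm, not its square) -/
noncomputable def off (B : Set X) (w : V) : ℝ := (eLpNorm (Bᶜ.indicator w) 2 muX).toReal

theorem memLp_ind {B : Set X} (hB : MeasurableSet B) (w : V) : MemLp (Bᶜ.indicator w) 2 muX :=
  (Lp.memLp w).indicator hB.compl

theorem off_nonneg (B : Set X) (w : V) : 0 ≤ off B w := ENNReal.toReal_nonneg

theorem off_le_norm (B : Set X) (w : V) : off B w ≤ ‖w‖ := by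
  rw [Lp.norm_def]
  exact ENNReal.toReal_mono (Lp.eLpNorm_ne_top w) (eLpNorm_indicator_le _)

theorem off_add_le {B : Set X} (hB : MeasurableSet B) (v w : V) :
    off B (v + w) ≤ off B v + off B w := by
  unfold off
  rw [← ENNReal.toReal_add (memLp_ind hB v).eLpNorm_ne_top (memLp_ind hB w).eLpNorm_ne_top]
  refine ENNReal.toReal_mono (ENNReal.add_ne_top.2
    ⟨(memLp_ind hB v).eLpNorm_ne_top, (memLp_ind hB w).eLpNorm_ne_top⟩) ?_
  have h : Bᶜ.indicator (v + w : V) =ᵐ[muX] Bᶜ.indicator v + Bᶜ.indicator w := by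
    filter_upwards [Lp.coeFn_add v w] with x hx
    by_cases hxB : x ∈ Bᶜ
    · simp only [Set.indicator_of_mem hxB, Pi.add_apply, hx]
    · simp [Set.indicator_of_notMem hxB, Pi.add_apply]
  rw [eLpNorm_congr_ae h]
  exact eLpNorm_add_le (memLp_ind hB v).1 (memLp_ind hB w).1 (by norm_num)

theorem off_smul {B : Set X} (_hB : MeasurableSet B) (a : ℂ) (w : V) :
    off B (a • w) = ‖a‖ * off B w := by
  unfold off
  have h : Bᶜ.indicator (a • w : V) =ᵐ[muX] a • Bᶜ.indicator w := by
    filter_upwards [Lp.coeFn_smul a w] with x hx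
    by_cases hxB : x ∈ Bᶜ
    · simp only [Set.indicator_of_mem hxB, Pi.smul_apply, hx]
    · simp [Set.indicator_of_notMem hxB, Pi.smul_apply]
  rw [eLpNorm_congr_ae h, eLpNorm_const_smul, ENNReal.toReal_mul]
  simp

theorem off_neg {B : Set X} (hB : MeasurableSet B) (w : V) : off B (-w) = off B w := by
  have := off_smul hB (-1) w
  simpa using this

theorem off_le_add_norm {B : Set X} (hB : MeasurableSet B) (v w : V) :
    off B v ≤ off B w + ‖v - w‖ := by
  have h := off_add_le hB w (v - w)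
  have e : w + (v - w) = v := by abel
  rw [e] at h
  exact h.trans (by gcongr; exact off_le_norm _ _)

theorem off_eq_zero {B : Set X} {w : V} (h : ∀ᵐ x ∂muX, x ∉ B → w x = 0) : off B w = 0 := by
  unfold off
  have : Bᶜ.indicator w =ᵐ[muX] 0 := by
    filter_upwards [h] with x hx
    by_cases hxB : x ∈ B
    · simp [hxB]
    · simp [hxB, hx hxB]
  rw [eLpNorm_congr_ae this]
  simp

theorem off_mono {B C : Set X} (h : B ⊆ C) (w : V) : off C w ≤ off B w := by
  unfold off
  by_cases hfin : eLpNorm (Bᶜ.indicator w) 2 muX = ⊤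
  · exfalso
    have := (eLpNorm_indicator_le (s := Bᶜ) (f := (w : X → ℂ)) (p := 2) (μ := muX))
    exact (Lp.eLpNorm_ne_top w) (top_le_iff.1 (hfin ▸ this))
  · refine ENNReal.toReal_mono hfin (eLpNorm_mono fun x => ?_)
    by_cases hx : x ∈ Cᶜ
    · have : x ∈ Bᶜ := fun hb => hx (h hb)
      simp [Set.indicator_of_mem hx, Set.indicator_of_mem this]
    · simp [Set.indicator_of_notMem hx]

theorem off_mono_ae {B C : Set X} (h : ∀ᵐ x ∂muX, x ∈ B → x ∈ C) (w : V) : off C w ≤ off B w := by
  unfold off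
  by_cases hfin : eLpNorm (Bᶜ.indicator w) 2 muX = ⊤
  · exfalso
    have := (eLpNorm_indicator_le (s := Bᶜ) (f := (w : X → ℂ)) (p := 2) (μ := muX))
    exact (Lp.eLpNorm_ne_top w) (top_le_iff.1 (hfin ▸ this))
  · refine ENNReal.toReal_mono hfin (eLpNorm_mono_ae ?_)
    filter_upwards [h] with x hx0
    by_cases hx : x ∈ Cᶜ
    · have : x ∈ Bᶜ := fun hb => hx (hx0 hb)
      simp [Set.indicator_of_mem hx, Set.indicator_of_mem this]
    · simp [Set.indicator_of_notMem hx]

/-- restriction of an array to a set -/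
noncomputable def res (A : Set X) (hA : MeasurableSet A) (w : V) : V :=
  ((Lp.memLp w).indicator hA).toLp (A.indicator w)

theorem res_coe (A : Set X) (hA : MeasurableSet A) (w : V) :
    res A hA w =ᵐ[muX] A.indicator w := MemLp.coeFn_toLp _

theorem res_add_compl (A : Set X) (hA : MeasurableSet A) (w : V) :
    res A hA w + res Aᶜ hA.compl w = w := by
  apply Lp.ext
  filter_upwards [Lp.coeFn_add (res A hA w) (res Aᶜ hA.compl w), res_coe A hA w,
    res_coe Aᶜ hA.compl w] with x h1 h2 h3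
  rw [h1, Pi.add_apply, h2, h3, ← Pi.add_apply, Set.indicator_self_add_compl]

theorem norm_res_compl (A : Set X) (hA : MeasurableSet A) (w : V) :
    ‖res Aᶜ hA.compl w‖ = off A w := by
  rw [res, Lp.norm_toLp, off]

theorem norm_res_le (A : Set X) (hA : MeasurableSet A) (w : V) : ‖res A hA w‖ ≤ ‖w‖ := by
  rw [res, Lp.norm_toLp, Lp.norm_def]
  exact ENNReal.toReal_mono (Lp.eLpNorm_ne_top w) (eLpNorm_indicator_le _)

/-- the closed submodule of vectors whose images concentrate on the target sets -/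
def Good {ι : Type*} (l : Filter ι) (KK : ι → V →ₗᵢ[ℂ] V) (B : ι → Set X)
    (hB : ∀ i, MeasurableSet (B i)) : Submodule ℂ V where
  carrier := {w | ∀ ε : ℝ, 0 < ε → ∀ᶠ i in l, off (B i) (KK i w) ≤ ε}
  add_mem' := by
    intro v w hv hw ε hε
    filter_upwards [hv (ε / 2) (by positivity), hw (ε / 2) (by positivity)] with i h1 h2
    rw [map_add]
    refine (off_add_le (hB i) _ _).trans ?_
    linarith
  zero_mem' := by
    intro ε hε
    refine Eventually.of_forall fun i => ?_
    rw [map_zero]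
    have : off (B i) (0 : V) ≤ ‖(0 : V)‖ := off_le_norm _ _
    rw [norm_zero] at this
    linarith
  smul_mem' := by
    intro a w hw ε hε
    by_cases ha : a = 0
    · subst ha
      refine Eventually.of_forall fun i => ?_
      rw [zero_smul, map_zero]
      have : off (B i) (0 : V) ≤ ‖(0 : V)‖ := off_le_norm _ _
      rw [norm_zero] at this
      linarith
    · have hpos : 0 < ‖a‖ := norm_pos_iff.2 ha
      filter_upwards [hw (ε / ‖a‖) (by positivity)] with i h1
      rw [map_smul, off_smul (hB i)]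
      calc ‖a‖ * off (B i) (KK i w) ≤ ‖a‖ * (ε / ‖a‖) := by gcongr
        _ = ε := by field_simp

section Good

variable {ι : Type*} {l : Filter ι} {KK : ι → V →ₗᵢ[ℂ] V} {B : ι → Set X}
  {hB : ∀ i, MeasurableSet (B i)}

theorem mem_Good (w : V) :
    w ∈ Good l KK B hB ↔ ∀ ε : ℝ, 0 < ε → ∀ᶠ i in l, off (B i) (KK i w) ≤ ε := Iff.rfl

theorem Good_of_close (w : V)
    (h : ∀ ε : ℝ, 0 < ε → ∃ v ∈ Good l KK B hB, ‖w - v‖ ≤ ε) : w ∈ Good l KK B hB := by
  intro ε hε
  obtain ⟨v, hv, hvw⟩ := h (ε / 2) (by positivity)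
  filter_upwards [hv (ε / 2) (by positivity)] with i hi
  refine (off_le_add_norm (hB i) _ (KK i v)).trans ?_
  rw [← map_sub, LinearIsometry.norm_map]
  linarith

theorem isClosed_Good : IsClosed (Good l KK B hB : Set V) := by
  rw [← closure_eq_iff_isClosed]
  refine Set.Subset.antisymm ?_ subset_closure
  intro w hw
  refine Good_of_close w fun ε hε => ?_
  obtain ⟨v, hv, hvw⟩ := Metric.mem_closure_iff.1 hw ε hε
  exact ⟨v, hv, by rw [← dist_eq_norm]; exact hvw.le⟩

end Good

/-- the `k`-th fibre of the mode space -/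
def fib (k : ℤ × ℤ) : Set X := {x | x.1 = k}

theorem measurableSet_fib (k : ℤ × ℤ) : MeasurableSet (fib k) :=
  measurable_fst (measurableSet_singleton k)

/-- finite unions of fibres -/
def fibs (K : Finset (ℤ × ℤ)) : Set X := {x | x.1 ∈ K}

theorem measurableSet_fibs (K : Finset (ℤ × ℤ)) : MeasurableSet (fibs K) :=
  measurable_fst K.measurableSet

/-- truncation: an array is close to its restriction to finitely many modes -/
theorem exists_trunc (w : V) {ε : ℝ} (hε : 0 < ε) :
    ∃ K : Finset (ℤ × ℤ), off (fibs K) w ≤ ε := by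
  classical
  -- the finite measure `|w|² muX`
  have hfin : ∫⁻ x, ‖w x‖ₑ ^ (2 : ℝ) ∂muX ≠ ⊤ := by
    have h := Lp.eLpNorm_ne_top w
    rw [eLpNorm_eq_lintegral_rpow_enorm_toReal (by norm_num) (by norm_num)] at h
    intro htop
    apply h
    rw [ENNReal.toReal_ofNat, htop]
    simp
  set m : Measure X := muX.withDensity (fun x => ‖w x‖ₑ ^ (2 : ℝ)) with hm
  have hmeas : AEMeasurable (fun x => ‖w x‖ₑ ^ (2 : ℝ)) muX :=
    (Lp.aestronglyMeasurable w).enorm.pow_const _
  have hmfin : m Set.univ ≠ ⊤ := by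
    rw [hm, withDensity_apply _ MeasurableSet.univ, Measure.restrict_univ]
    exact hfin
  -- exhaustion
  obtain ⟨e, he⟩ : ∃ e : ℕ → ℤ × ℤ, Function.Surjective e := exists_surjective_nat (ℤ × ℤ)
  set Kn : ℕ → Finset (ℤ × ℤ) := fun n => (Finset.range n).image e with hKn
  have hlim : Tendsto (fun n => m ((fibs (Kn n))ᶜ)) atTop (𝓝 (m (⋂ n, (fibs (Kn n))ᶜ))) := by
    refine tendsto_measure_iInter_atTop (fun n => (measurableSet_fibs _).compl.nullMeasurableSet)
      ?_ ⟨0, ?_⟩
    · intro a b hab x hx hxa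
      apply hx
      simp only [fibs, Set.mem_ofPred_eq, hKn, Finset.mem_image, Finset.mem_range] at hxa ⊢
      obtain ⟨j, hj, hje⟩ := hxa
      exact ⟨j, lt_of_lt_of_le hj hab, hje⟩
    · exact ne_top_of_le_ne_top hmfin (measure_mono (Set.subset_univ _))
  have hemp : (⋂ n, (fibs (Kn n))ᶜ) = ∅ := by
    ext x
    simp only [Set.mem_iInter, Set.mem_compl_iff, Set.mem_empty_iff_false, iff_false, not_forall,
      not_not]
    obtain ⟨j, hj⟩ := he x.1
    refine ⟨j + 1, ?_⟩
    simp only [fibs, Set.mem_ofPred_eq, hKn, Finset.mem_image, Finset.mem_range]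
    exact ⟨j, by omega, hj⟩
  rw [hemp, measure_empty] at hlim
  have hε2 : (0 : ℝ≥0∞) < ENNReal.ofReal (ε ^ 2) := by
    rw [ENNReal.ofReal_pos]; positivity
  obtain ⟨n, hn⟩ := ((ENNReal.tendsto_nhds_zero.1 hlim) _ hε2).exists
  refine ⟨Kn n, ?_⟩
  unfold off
  have h1 : eLpNorm ((fibs (Kn n))ᶜ.indicator w) 2 muX ≤ ENNReal.ofReal ε := by
    rw [eLpNorm_eq_lintegral_rpow_enorm_toReal (by norm_num) (by norm_num)]
    have e2 : ∫⁻ x, ‖((fibs (Kn n))ᶜ.indicator w) x‖ₑ ^ (2 : ℝ≥0∞).toReal ∂muX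
        = m ((fibs (Kn n))ᶜ) := by
      rw [hm, withDensity_apply _ (measurableSet_fibs _).compl,
        ← lintegral_indicator (measurableSet_fibs _).compl]
      refine lintegral_congr fun x => ?_
      by_cases hx : x ∈ (fibs (Kn n))ᶜ
      · simp [Set.indicator_of_mem hx]
      · simp [Set.indicator_of_notMem hx]
    rw [e2]
    calc (m ((fibs (Kn n))ᶜ)) ^ (1 / (2 : ℝ≥0∞).toReal)
        ≤ (ENNReal.ofReal (ε ^ 2)) ^ (1 / (2 : ℝ≥0∞).toReal) := by gcongr
      _ = ENNReal.ofReal ε := by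
        rw [ENNReal.ofReal_rpow_of_pos (by positivity)]
        congr 1
        rw [ENNReal.toReal_ofNat, ← Real.sqrt_eq_rpow, Real.sqrt_sq hε.le]
  calc _ ≤ (ENNReal.ofReal ε).toReal := ENNReal.toReal_mono ENNReal.ofReal_ne_top h1
    _ = ε := ENNReal.toReal_ofReal hε.le

end Crest.Agent.R081.Tr
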