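import Mathlib
import Crest.Agent.R081.TrA

/-! Row 81, route B, node TRANSITIONS (helper177), part B: from single modes to all vectors. -/

set_option autoImplicit false

namespace Crest.Agent.R081.Tr

open MeasureTheory Filter Crest.Agent.R081.Fm
open scoped ENNReal Topology

/-- `w` vanishes outside `A` -/
def Supp (A : Set X) (w : V) : Prop := ∀ᵐ x ∂muX, x ∉ A → w x = 0

theorem off_eq_zero' {A : Set X} {w : V} (h : Supp A w) : off A w = 0 := off_eq_zero h

theorem supp_res (A : Set X) (hA : MeasurableSet A) (w : V) : Supp A (res A hA w) := by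
  filter_upwards [res_coe A hA w] with x hx hxA
  rw [hx, Set.indicator_of_notMem hxA]

theorem Supp.res_inter {A B : Set X} (hB : MeasurableSet B) {w : V} (h : Supp A w) :
    Supp (A ∩ B) (res B hB w) := by
  filter_upwards [res_coe B hB w, h] with x hx h1 hxA
  rw [hx]
  by_cases hxB : x ∈ B
  · rw [Set.indicator_of_mem hxB]
    exact h1 fun h2 => hxA ⟨h2, hxB⟩
  · rw [Set.indicator_of_notMem hxB]

/-- `off (fibs K) w` is the distance to the truncation -/
theorem sub_res (A : Set X) (hA : MeasurableSet A) (w : V) : w - res A hA w = res Aᶜ hA.compl w := by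
  have := res_add_compl A hA w
  rw [sub_eq_iff_eq_add']
  exact this.symm

/-- the restriction to finitely many fibres is the sum of the restrictions to the fibres -/
theorem res_fibs (K : Finset (ℤ × ℤ)) (w : V) :
    res (fibs K) (measurableSet_fibs K) w
      = ∑ k ∈ K, res (fib k) (measurableSet_fib k) w := by
  classical
  induction K using Finset.induction_on with
  | empty =>
    rw [Finset.sum_empty]
    apply Lp.ext
    filter_upwards [res_coe (fibs ∅) (measurableSet_fibs ∅) w, Lp.coeFn_zero ℂ 2 muX] with x h1 h2
    rw [h1, h2]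
    simp [fibs]
  | insert k K hk ih =>
    rw [Finset.sum_insert hk, ← ih]
    apply Lp.ext
    filter_upwards [res_coe (fibs (insert k K)) (measurableSet_fibs _) w,
      Lp.coeFn_add (res (fib k) (measurableSet_fib k) w) (res (fibs K) (measurableSet_fibs K) w),
      res_coe (fib k) (measurableSet_fib k) w, res_coe (fibs K) (measurableSet_fibs K) w]
      with x h1 h2 h3 h4
    rw [h1, h2, Pi.add_apply, h3, h4]
    by_cases h : x.1 = k
    · have a1 : x ∈ fibs (insert k K) := by simp [fibs, h]
      have a2 : x ∈ fib k := h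
      have a3 : x ∉ fibs K := by simp [fibs, h, hk]
      simp [Set.indicator_of_mem a1, Set.indicator_of_mem a2, Set.indicator_of_notMem a3]
    · have a2 : x ∉ fib k := h
      by_cases h' : x.1 ∈ K
      · have a1 : x ∈ fibs (insert k K) := by simp [fibs, h']
        have a3 : x ∈ fibs K := h'
        simp [Set.indicator_of_mem a1, Set.indicator_of_notMem a2, Set.indicator_of_mem a3]
      · have a1 : x ∉ fibs (insert k K) := by simp [fibs, h, h']
        have a3 : x ∉ fibs K := h'
        simp [Set.indicator_of_notMem a1, Set.indicator_of_notMem a2, Set.indicator_of_notMem a3]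

section

variable {ι : Type*} {l : Filter ι} {KK : ι → V →ₗᵢ[ℂ] V} {B : ι → Set X}
  {hB : ∀ i, MeasurableSet (B i)}

/-- **Closure argument.** If all single modes supported in `A` are good, all vectors supported in
`A` are. -/
theorem Good_of_modes {A : Set X}
    (h : ∀ k : ℤ × ℤ, ∀ w : V, Supp (A ∩ fib k) w → w ∈ Good l KK B hB)
    (w : V) (hw : Supp A w) : w ∈ Good l KK B hB := by
  refine Good_of_close w fun ε hε => ?_
  obtain ⟨K, hK⟩ := exists_trunc w hε
  refine ⟨res (fibs K) (measurableSet_fibs K) w, ?_, ?_⟩
  · rw [res_fibs]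
    refine Submodule.sum_mem _ fun k _ => h k _ ?_
    exact hw.res_inter (measurableSet_fib k)
  · rw [sub_res _ (measurableSet_fibs K), norm_res_compl _ (measurableSet_fibs K)]
    exact hK

/-- single modes are good as soon as they have a good main part -/
theorem Good_of_main (w : V) (main : ι → V)
    (h1 : ∀ ε : ℝ, 0 < ε → ∀ᶠ i in l, ‖KK i w - main i‖ ≤ ε)
    (h2 : ∀ᶠ i in l, Supp (B i) (main i)) : w ∈ Good l KK B hB := by
  intro ε hε
  filter_upwards [h1 ε hε, h2] with i a b
  refine (off_le_add_norm (hB i) _ (main i)).trans ?_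
  rw [off_eq_zero b]
  linarith

/-- the same with a main part that may depend on the tolerance -/
theorem Good_of_main' (w : V)
    (h : ∀ ε : ℝ, 0 < ε → ∀ᶠ i in l, ∃ m : V, ‖KK i w - m‖ ≤ ε ∧ Supp (B i) m) :
    w ∈ Good l KK B hB := by
  intro ε hε
  filter_upwards [h ε hε] with i ⟨m, a, b⟩
  refine (off_le_add_norm (hB i) _ m).trans ?_
  rw [off_eq_zero b]
  linarith

/-- **Transition inequality.** The new defect (off the target set) is at most the old defect (off
`A`) plus `ε`. -/
theorem transition {A : Set X} (hA : MeasurableSet A)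
    (h : ∀ w : V, Supp A w → w ∈ Good l KK B hB) (u : V) {ε : ℝ} (hε : 0 < ε) :
    ∀ᶠ i in l, off (B i) (KK i u) ≤ off A u + ε := by
  filter_upwards [h _ (supp_res A hA u) ε hε] with i hi
  have h1 : KK i u = KK i (res A hA u) + KK i (res Aᶜ hA.compl u) := by
    rw [← map_add, res_add_compl]
  rw [h1]
  refine (off_add_le (hB i) _ _).trans ?_
  have h2 : off (B i) (KK i (res Aᶜ hA.compl u)) ≤ off A u := by
    refine (off_le_norm _ _).trans ?_
    rw [LinearIsometry.norm_map, norm_res_compl _ hA]
  linarith

/-- the transition for a finite family -/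
theorem transition_finset {A : Set X} (hA : MeasurableSet A)
    (h : ∀ w : V, Supp A w → w ∈ Good l KK B hB) (F : Finset V) {ε : ℝ} (hε : 0 < ε) :
    ∀ᶠ i in l, ∀ u ∈ F, off (B i) (KK i u) ≤ off A u + ε := by
  rw [Filter.eventually_all_finset]
  exact fun u _ => transition hA h u hε

end

end Crest.Agent.R081.Tr
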