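import Mathlib
import Crest.Agent.R081.TrB

/-! Row 81, route B, node TRANSITIONS (helper177), part C: FLAT REPAIR.

`C` = coefficients of the old generator in the new frame, `m` = its main part, whose modulus is the flat
profile `ρ` or zero.  Then `a = ρ · sgn C` is close to `C`. -/

set_option autoImplicit false

namespace Crest.Agent.R081.Tr

open MeasureTheory Filter Crest.Agent.R081.Fm
open scoped ENNReal Topology

/-- the phase of a complex number, `1` at zero -/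
noncomputable def sg (z : ℂ) : ℂ := if z = 0 then 1 else z / (‖z‖ : ℂ)

theorem norm_sg (z : ℂ) : ‖sg z‖ = 1 := by
  unfold sg
  split_ifs with h
  · simp
  · rw [norm_div, Complex.norm_real, norm_norm, div_self (norm_ne_zero_iff.2 h)]

theorem norm_mul_sg (z : ℂ) : (‖z‖ : ℂ) * sg z = z := by
  unfold sg
  split_ifs with h
  · simp [h]
  · have : (‖z‖ : ℂ) ≠ 0 := by exact_mod_cast norm_ne_zero_iff.2 h
    field_simp

theorem sg_conj (z : ℂ) : sg (starRingEnd ℂ z) = starRingEnd ℂ (sg z) := by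
  unfold sg
  by_cases h : z = 0
  · simp [h]
  · have h' : starRingEnd ℂ z ≠ 0 := by
      simpa using h
    rw [if_neg h, if_neg h', map_div₀, RCLike.norm_conj, Complex.conj_ofReal]

theorem measurable_sg : Measurable sg := by
  unfold sg
  exact Measurable.ite (measurableSet_singleton 0) measurable_const
    (measurable_id.div (Complex.measurable_ofReal.comp measurable_norm))

/-- pointwise: `‖ρ sgn z - z‖ = |ρ - ‖z‖|` -/
theorem norm_repair (r : ℝ) (z : ℂ) : ‖(r : ℂ) * sg z - z‖ = |r - ‖z‖| := by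
  have h : (r : ℂ) * sg z - z = ((r - ‖z‖ : ℝ) : ℂ) * sg z := by
    conv_lhs => rw [← norm_mul_sg z]
    rw [norm_mul_sg z]
    push_cast
    rw [sub_mul, norm_mul_sg]
  rw [h, norm_mul, norm_sg, mul_one, Complex.norm_real, Real.norm_eq_abs]

theorem eLpNorm_two_sq {α E : Type*} [MeasurableSpace α] {μ : Measure α} [NormedAddCommGroup E]
    (f : α → E) : eLpNorm f 2 μ ^ 2 = ∫⁻ x, ‖f x‖ₑ ^ 2 ∂μ := by
  rw [eLpNorm_eq_lintegral_rpow_enorm_toReal (by norm_num) (by norm_num)]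
  simp only [ENNReal.toReal_ofNat, one_div]
  rw [← ENNReal.rpow_natCast, ← ENNReal.rpow_mul]
  norm_num

/-- **FLAT REPAIR.** -/
theorem flat_repair (C m : V) (ρ : X → ℝ) (hρm : Measurable ρ) (hρ0 : ∀ x, 0 ≤ ρ x)
    (hρ1 : ∫⁻ x, ‖ρ x‖ₑ ^ 2 ∂muX = 1) (hm : ∀ᵐ x ∂muX, m x = 0 ∨ ‖m x‖ = ρ x) (hC : ‖C‖ = 1)
    {ε : ℝ} (h : ‖C - m‖ ≤ ε) :
    MemLp (fun x => (ρ x : ℂ) * sg (C x)) 2 muX ∧
      eLpNorm (fun x => (ρ x : ℂ) * sg (C x) - C x) 2 muX ≤ ENNReal.ofReal (ε + √(2 * ε)) := by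
  have hε : 0 ≤ ε := (norm_nonneg _).trans h
  have hCm : AEStronglyMeasurable (C : X → ℂ) muX := Lp.aestronglyMeasurable C
  have hmm : AEStronglyMeasurable (m : X → ℂ) muX := Lp.aestronglyMeasurable m
  have hρL : MemLp ρ 2 muX := by
    refine ⟨hρm.aestronglyMeasurable, ?_⟩
    have h1 : eLpNorm ρ 2 muX ^ 2 = 1 := by rw [eLpNorm_two_sq, hρ1]
    by_contra htop
    rw [not_lt, top_le_iff] at htop
    rw [htop] at h1
    simp at h1
  have hfa : AEStronglyMeasurable (fun x => (ρ x : ℂ) * sg (C x)) muX := by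
    refine (Complex.measurable_ofReal.comp hρm).aestronglyMeasurable.mul ?_
    exact (measurable_sg.comp_aemeasurable hCm.aemeasurable).aestronglyMeasurable
  have hfaL : MemLp (fun x => (ρ x : ℂ) * sg (C x)) 2 muX := by
    refine hρL.of_le hfa (Eventually.of_forall fun x => ?_)
    rw [norm_mul, norm_sg, mul_one, Complex.norm_real]
  refine ⟨hfaL, ?_⟩
  -- the distance is `‖ρ - |C|‖`
  have e1 : eLpNorm (fun x => (ρ x : ℂ) * sg (C x) - C x) 2 muX
      = eLpNorm (fun x => ρ x - ‖C x‖) 2 muX := by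
    refine eLpNorm_congr_norm_ae (Eventually.of_forall fun x => ?_)
    rw [norm_repair, Real.norm_eq_abs]
  have hn1 : AEStronglyMeasurable (fun x => ρ x - ‖m x‖) muX :=
    hρm.aestronglyMeasurable.sub hmm.norm
  have hn2 : AEStronglyMeasurable (fun x => ‖m x‖ - ‖C x‖) muX := hmm.norm.sub hCm.norm
  have e2 : eLpNorm (fun x => ρ x - ‖C x‖) 2 muX ≤
      eLpNorm (fun x => ρ x - ‖m x‖) 2 muX + eLpNorm (fun x => ‖m x‖ - ‖C x‖) 2 muX := by
    have : (fun x => ρ x - ‖C x‖) = (fun x => ρ x - ‖m x‖) + fun x => ‖m x‖ - ‖C x‖ := by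
      funext x; simp
    rw [this]
    exact eLpNorm_add_le hn1 hn2 (by norm_num)
  have e3 : eLpNorm (fun x => ‖m x‖ - ‖C x‖) 2 muX ≤ ENNReal.ofReal ε := by
    have h1 : eLpNorm (fun x => ‖m x‖ - ‖C x‖) 2 muX ≤ eLpNorm (C - m : V) 2 muX := by
      refine eLpNorm_mono_ae ?_
      filter_upwards [Lp.coeFn_sub C m] with x hx
      rw [hx, Pi.sub_apply, Real.norm_eq_abs, norm_sub_rev]
      exact abs_norm_sub_norm_le _ _
    refine h1.trans ?_
    rw [← ENNReal.ofReal_toReal (Lp.eLpNorm_ne_top (C - m)), ← Lp.norm_def]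
    exact ENNReal.ofReal_le_ofReal h
  -- the mass of `ρ - |m|`
  have e4 : eLpNorm (fun x => ρ x - ‖m x‖) 2 muX ^ 2 + eLpNorm (m : X → ℂ) 2 muX ^ 2 = 1 := by
    rw [eLpNorm_two_sq, eLpNorm_two_sq, ← hρ1, ← lintegral_add_right']
    · refine lintegral_congr_ae ?_
      filter_upwards [hm] with x hx
      rcases hx with hx | hx
      · simp [hx]
      · rw [hx, sub_self, ← ofReal_norm (m x), hx, ← ofReal_norm (ρ x), Real.norm_eq_abs,
          abs_of_nonneg (hρ0 x)]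
        simp
    · exact (hmm.enorm.pow_const 2)
  have hmn : eLpNorm (m : X → ℂ) 2 muX = ENNReal.ofReal ‖m‖ := by
    rw [Lp.norm_def, ENNReal.ofReal_toReal (Lp.eLpNorm_ne_top m)]
  set A : ℝ≥0∞ := eLpNorm (fun x => ρ x - ‖m x‖) 2 muX with hA
  have hAfin : A ≠ ⊤ := by
    intro htop
    rw [htop] at e4
    simp at e4
  have e5 : A.toReal ^ 2 + ‖m‖ ^ 2 = 1 := by
    have h1 := congrArg ENNReal.toReal e4
    rw [hmn, ENNReal.toReal_add (by simp [hAfin]) (by simp), ENNReal.toReal_pow,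
      ENNReal.toReal_pow, ENNReal.toReal_ofReal (norm_nonneg _), ENNReal.toReal_one] at h1
    exact h1
  have hmlow : 1 - ε ≤ ‖m‖ := by
    have h1 : ‖C‖ ≤ ‖C - m‖ + ‖m‖ := by
      have := norm_add_le (C - m) m
      rwa [sub_add_cancel] at this
    linarith
  have e6 : A.toReal ^ 2 ≤ 2 * ε := by
    by_cases h1 : ε ≤ 1
    · have h2 : (1 - ε) ^ 2 ≤ ‖m‖ ^ 2 := pow_le_pow_left₀ (by linarith) hmlow 2
      nlinarith [sq_nonneg ε]
    · have h2 : 0 ≤ ‖m‖ ^ 2 := by positivity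
      nlinarith
  have e7 : A ≤ ENNReal.ofReal (√(2 * ε)) := by
    rw [← ENNReal.ofReal_toReal hAfin]
    refine ENNReal.ofReal_le_ofReal ?_
    exact Real.le_sqrt_of_sq_le e6
  rw [e1, add_comm ε, ENNReal.ofReal_add (by positivity) hε]
  exact e2.trans (add_le_add e7 e3)

end Crest.Agent.R081.Tr
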