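import Crest.Agent.R081.StSkel
import Crest.Agent.R081.FmIso
import Crest.Agent.R081.TrC
import Crest.Agent.R081.MsStep

/-! Row 81, route B, node TRANSITIONS (helper177), part D: the filter of admissible choices, the
isometries on the mode space, measurability of the target sets. -/

set_option autoImplicit false

namespace Crest.Agent.R081.Tr

open MeasureTheory Filter Crest.AnalysisR.Torus3 Crest.Agent.R075 Crest.Agent.R081.Fm
  Crest.Agent.R081.Sm Crest.Agent.R081.Tw Crest.Agent.R081.St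
open scoped ENNReal Topology ContDiff

/-- an admissible choice for the next step -/
structure Ch (t : TwD) where
  K : Finset (ℤ × ℤ)
  eps : ℝ
  d : Des t.q K eps
  h : ℕ
  hh : 0 < h
  P' : ℤ
  hP : t.q * P' = t.P * h * d.q2 + 1
  G : LD
  mp : MP G
  gf : Nonempty (GForm d h G)

/-- the filter of good choices -/
def EvF (t : TwD) : Filter (Ch t) where
  sets := {A | Ev t fun K eps d h P' G => ∀ (hh : 0 < h) (hP : t.q * P' = t.P * h * d.q2 + 1)
    (mp : MP G) (gf : Nonempty (GForm d h G)), (⟨K, eps, d, h, hh, P', hP, G, mp, gf⟩ : Ch t) ∈ A}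
  univ_sets := (Ev.const (t := t) trivial).mono fun _ _ _ _ _ _ _ _ _ _ _ => trivial
  sets_of_superset := by
    intro A B hA hAB
    exact Ev.mono hA fun _ _ _ _ _ _ h hh hP mp gf => hAB (h hh hP mp gf)
  inter_sets := by
    intro A B hA hB
    exact (Ev.and hA hB).mono fun _ _ _ _ _ _ h hh hP mp gf => ⟨h.1 hh hP mp gf, h.2 hh hP mp gf⟩

theorem ev_of_eventually {t : TwD}
    {Q : ∀ (K : Finset (ℤ × ℤ)) (eps : ℝ) (d : Des t.q K eps) (h : ℕ) (P' : ℤ) (G : LD), Prop}
    (hQ : ∀ᶠ c : Ch t in EvF t, Q c.K c.eps c.d c.h c.P' c.G) : Ev t Q := by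
  have h1 : Ev t fun K eps d h P' G => ∀ (hh : 0 < h) (hP : t.q * P' = t.P * h * d.q2 + 1)
    (mp : MP G) (gf : Nonempty (GForm d h G)), Q K eps d h P' G := hQ
  obtain ⟨K0, e0, he0, H⟩ := h1
  refine ⟨K0, e0, he0, fun K eps hK h1 h2 d => ?_⟩
  obtain ⟨h0, H'⟩ := H K eps hK h1 h2 d
  exact ⟨h0, fun h hh hh0 P' hP G mp gf => H' h hh hh0 P' hP G mp gf hh hP mp gf⟩

/-- all parameters are eventually as good as one wants -/
theorem eventually_params (t : TwD) (K0 : Finset (ℤ × ℤ)) {e0 : ℝ} (he0 : 0 < e0) (h0 : ℕ) :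
    ∀ᶠ c : Ch t in EvF t, K0 ⊆ c.K ∧ 0 < c.eps ∧ c.eps ≤ e0 ∧ h0 ≤ c.h := by
  change Ev t fun K eps d h P' G => ∀ (hh : 0 < h) (hP : t.q * P' = t.P * h * d.q2 + 1)
    (mp : MP G) (gf : Nonempty (GForm d h G)), K0 ⊆ K ∧ 0 < eps ∧ eps ≤ e0 ∧ h0 ≤ h
  exact ⟨K0, e0, he0, fun K eps hK h1 h2 d => ⟨h0, fun h hh hh0 P' hP G mp gf _ _ _ _ =>
    ⟨hK, h1, h2, hh0⟩⟩⟩

/-- composition with a measure preserving lifted diffeomorphism on `L²` of the torus -/
noncomputable def cc (A : LD) (hA : MP A) : HT →ₗᵢ[ℂ] HT := Lp.compMeasurePreservingₗᵢ ℂ A.perm hA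

theorem cc_coe (A : LD) (hA : MP A) (f : HT) : cc A hA f =ᵐ[volume] fun y => f (A.perm y) :=
  Lp.coeFn_compMeasurePreserving f hA

theorem cc_toLp (A : LD) (hA : MP A) {f : T3 → ℂ} (hf : MemLp f 2 volume) :
    cc A hA (hf.toLp f) =ᵐ[volume] fun y => f (A.perm y) := by
  refine (cc_coe A hA _).trans ?_
  exact hA.quasiMeasurePreserving.ae_eq_comp hf.coeFn_toLp

/-- the step isometry on the mode space -/
noncomputable def KK {t : TwD} (c : Ch t) : V →ₗᵢ[ℂ] V :=
  Phi.toLinearIsometry.comp ((cc c.G c.mp).comp Phi.symm.toLinearIsometry)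

theorem KK_Phi {t : TwD} (c : Ch t) (f : HT) : KK c (Phi f) = Phi (cc c.G c.mp f) := by
  simp [KK]

theorem KK_toLp {t : TwD} (c : Ch t) {f : T3 → ℂ} (hf : MemLp f 2 volume) :
    (KK c (Phi (hf.toLp f)) : X → ℂ) =ᵐ[muX] fcX (fun y => f (c.G.perm y)) := by
  rw [KK_Phi]
  exact (Phi_coe _).trans (fc_congr (cc_toLp c.G c.mp hf))

theorem memLp_comp {A : LD} (hA : MP A) {f : T3 → ℂ} (hf : MemLp f 2 volume) :
    MemLp (fun y => f (A.perm y)) 2 volume := hf.comp_measurePreserving hA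

/-- `ms` as `off` -/
theorem ms_eq_off {B : Set X} (hB : MeasurableSet B) {u : T3 → ℂ} {w : V}
    (hw : (w : X → ℂ) =ᵐ[muX] fcX u) : ms Bᶜ u = off B w := by
  have hwL : MemLp (Bᶜ.indicator w) 2 muX := memLp_ind hB w
  have h1 : (eLpNorm (Bᶜ.indicator w) 2 muX).toReal ^ 2 = ∫ x in Bᶜ, ‖fcX u x‖ ^ 2 ∂muX := by
    have h2 : eLpNorm (Bᶜ.indicator w) 2 muX ^ 2 = ∫⁻ x, ‖Bᶜ.indicator w x‖ₑ ^ 2 ∂muX :=
      eLpNorm_two_sq _
    rw [← ENNReal.toReal_pow, h2, ← integral_indicator hB.compl]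
    rw [integral_eq_lintegral_of_nonneg_ae]
    · congr 1
      refine lintegral_congr_ae ?_
      filter_upwards [hw] with x hx
      by_cases hxB : x ∈ Bᶜ
      · rw [Set.indicator_of_mem hxB, Set.indicator_of_mem hxB, hx,
          ENNReal.ofReal_pow (norm_nonneg _), ofReal_norm]
      · rw [Set.indicator_of_notMem hxB, Set.indicator_of_notMem hxB]
        simp
    · exact Eventually.of_forall fun x => Set.indicator_nonneg (fun _ _ => by positivity) _
    · refine AEStronglyMeasurable.indicator ?_ hB.compl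
      have h3 : AEStronglyMeasurable (fcX u) muX :=
        (Lp.aestronglyMeasurable w).congr hw
      exact h3.norm.pow 2
  unfold ms off
  rw [← h1, Real.sqrt_sq ENNReal.toReal_nonneg]

/-- measurability on the mode space by fibres -/
theorem measurableSet_of_fibres {B : Set X} (h : ∀ k : ℤ × ℤ, MeasurableSet {c : ℝ | (k, c) ∈ B}) :
    MeasurableSet B := by
  have : B = ⋃ k : ℤ × ℤ, (fib k ∩ {x : X | (k, x.2) ∈ B}) := by
    ext x
    simp only [Set.mem_iUnion, Set.mem_inter_iff, fib, Set.mem_ofPred_eq]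
    constructor
    · intro hx
      exact ⟨x.1, rfl, hx⟩
    · rintro ⟨k, rfl, hx⟩
      exact hx
  rw [this]
  refine MeasurableSet.iUnion fun k => (measurableSet_fib k).inter ?_
  exact measurable_snd (h k)

theorem meas_overE {q : ℕ} {K : Finset (ℤ × ℤ)} {eps : ℝ} (d : Des q K eps) (P' : ℤ) :
    MeasurableSet (overE d P') := by
  refine measurableSet_of_fibres fun k => ?_
  exact d.E_meas ((k.1 * P' : ℤ) : ZMod d.q2) k.2

theorem meas_Sal {t : TwD} (M : Modes t) : MeasurableSet M.Sal := by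
  have : M.Sal = ⋃ r : ℤ, {x : X | (((x.1.1 + r * t.q, x.1.2), x.2) : X) ∈ M.S} := by
    ext x
    simp [Modes.Sal]
  rw [this]
  refine MeasurableSet.iUnion fun r => ?_
  refine measurableSet_of_fibres fun k => ?_
  exact (measurable_prodMk_left (x := ((k.1 + r * t.q, k.2) : ℤ × ℤ))) M.meas

theorem meas_offZ (t : TwD) : MeasurableSet (offZ t) := by
  refine measurableSet_of_fibres fun k => ?_
  by_cases hk : k = 0
  · subst hk
    simp [offZ]
  · have : {c : ℝ | ((k, c) : X) ∈ offZ t} = (Set.Icc t.del (1 - t.del))ᶜ := by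
      ext c
      simp [offZ, hk]
    rw [this]
    exact measurableSet_Icc.compl

theorem measurable_Fp (v : ℝ) {d : ℝ} (hd : 0 < d) : Measurable (Fp v d) :=
  (Fp_smooth v hd).continuous.measurable

theorem stepS_eq {t : TwD} (M : Modes t) {K : Finset (ℤ × ℤ)} {eps : ℝ} (d : Des t.q K eps) (h : ℕ)
    (P' : ℤ) : stepS M d h P' = Ms.StepSet t.q d.q2 h P' t.psi (Fp d.v d.del) M.S
      {y : X | (((y.1.1 : ZMod d.q2), y.1.2), y.2) ∈ d.E} := rfl

theorem meas_stepS {t : TwD} (M : Modes t) {K : Finset (ℤ × ℤ)} {eps : ℝ} (d : Des t.q K eps)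
    {h : ℕ} (hh : 0 < h) (P' : ℤ) : MeasurableSet (stepS M d h P') := by
  rw [stepS_eq]
  refine Ms.stepSet_measurable hh t.al t.del t.al_pos.ne' (Set.Icc t.del (1 - t.del)) t.lin M.sub
    M.ne0 M.meas ?_ (measurable_Fp _ d.del_pos)
  refine measurableSet_of_fibres fun k => ?_
  exact d.E_meas (k.1 : ZMod d.q2) k.2

end Crest.Agent.R081.Tr
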