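import Crest.Agent.R081.TrD
import Crest.Agent.R081.Tp3
import Crest.Agent.R081.Fresnel5

/-! Row 81, route B, node TRANSITIONS (helper177), part E: single modes, (T1) and (T0). -/

set_option autoImplicit false

namespace Crest.Agent.R081.Tr

open MeasureTheory Filter Crest.AnalysisR.Torus3 Crest.Agent.R075 Crest.Agent.R081.Fm
  Crest.Agent.R081.Sm Crest.Agent.R081.Tw Crest.Agent.R081.St
open scoped ENNReal Topology ContDiff

/-- the section of an array over the mode `k` -/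
noncomputable def sec (w : X → ℂ) (k : ℤ × ℤ) (c : ℝ) : ℂ := w (k, c)

/-- **(MAIN)** for one mode, with an arbitrary main function `psi` in place of `phi`: input from
helper27 / helper230.  `u` is measurable, square integrable on `(0,1]` and vanishes off `J`;
`U` is any square integrable function on the torus whose coefficients are `u` on the mode `k` and zero on
the other modes. -/
def MainStmt : Prop :=
  ∀ (t : TwD) (K : Finset (ℤ × ℤ)) (eps : ℝ) (d : Des t.q K eps) (h : ℕ) (G : LD) (_ : MP G)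
    (gf : GForm d h G) (k : ℤ × ℤ) (_ : k ∈ K) (_ : k ≠ 0) (u : ℝ → ℂ) (_ : Measurable u)
    (_ : MemLp u 2 (volume.restrict (Set.Ioc 0 1)))
    (_ : ∀ c, c ∉ Set.Icc t.del (1 - t.del) → u c = 0)
    (U : T3 → ℂ) (_ : MemLp U 2 volume)
    (_ : ∀ᵐ x ∂muX, fcX U x = if x.1 = k then u x.2 else 0)
    (psi : ℝ → ℂ) (_ : Measurable psi),
    ∫⁻ x, ‖fcX (fun y => U (G.perm y)) x
      - Tp.mainA t.q d.q2 d.N k.1 (Fp d.v d.del) psi (d.M k) x‖ₑ ^ 2 ∂muX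
      ≤ 2 * ((∫⁻ c in Set.Ioc 0 1, ‖u c‖ₑ ^ 2) * ENNReal.ofReal (eps ^ 2)
        + ∫⁻ τ, ‖Co.phi u gf.chi k.2 τ - psi τ‖ₑ ^ 2)

/-- `N` and `P'` agree modulo `q''` -/
theorem cast_N_eq {t : TwD} {K : Finset (ℤ × ℤ)} {eps : ℝ} (d : Des t.q K eps) {h : ℕ} {P' : ℤ}
    (hP : t.q * P' = t.P * h * d.q2 + 1) (j : ℤ) :
    ((j * d.N : ℤ) : ZMod d.q2) = ((j * P' : ℤ) : ZMod d.q2) := by
  have h1 : ((d.N * t.q - 1 : ℤ) : ZMod d.q2) = 0 := (ZMod.intCast_zmod_eq_zero_iff_dvd _ _).2 d.hN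
  have h2 : ((t.q * P' : ℤ) : ZMod d.q2) = ((t.P * h * d.q2 + 1 : ℤ) : ZMod d.q2) := by rw [hP]
  push_cast at h1 h2 ⊢
  rw [ZMod.natCast_self, mul_zero, zero_add] at h2
  have h3 : (d.N : ZMod d.q2) = (P' : ZMod d.q2) := by
    have h4 : (d.N : ZMod d.q2) * t.q = 1 := by linear_combination h1
    calc (d.N : ZMod d.q2) = d.N * (t.q * P') := by rw [h2, mul_one]
      _ = (d.N * t.q) * P' := by ring
      _ = P' := by rw [h4, one_mul]
  rw [h3]

/-- support of the main array, part 1 -/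
theorem mainA_ne {t : TwD} {K : Finset (ℤ × ℤ)} {eps : ℝ} (d : Des t.q K eps) {h : ℕ} {P' : ℤ}
    (hP : t.q * P' = t.P * h * d.q2 + 1) {k : ℤ × ℤ} {psi : ℝ → ℂ} {x : X}
    (hx : Tp.mainA t.q d.q2 d.N k.1 (Fp d.v d.del) psi (d.M k) x ≠ 0) :
    x ∈ overE d P' ∧ (t.q : ℤ) ∣ x.1.1 - k.1 ∧
      psi (x.1.1 / (t.q * d.q2) + x.1.2 * Fp d.v d.del x.2) ≠ 0 := by
  unfold Tp.mainA at hx
  split_ifs at hx with hd
  · have h1 := right_ne_zero_of_mul hx
    have h2 := left_ne_zero_of_mul h1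
    have h3 := right_ne_zero_of_mul h1
    refine ⟨?_, hd, h2⟩
    have h4 := d.M_norm k (x.1.1 * d.N) x.1.2 x.2
    have h5 : x.2 ∈ {c : ℝ | ((((x.1.1 * d.N : ℤ) : ZMod d.q2), x.1.2), c) ∈ d.E} := by
      by_contra hne
      rw [Set.indicator_of_notMem hne] at h4
      have : ‖d.M k (x.1.1 * d.N) x.1.2 x.2‖ = 0 := by simpa using h4
      exact h3 (norm_eq_zero.1 this)
    have h6 : ((((x.1.1 * d.N : ℤ) : ZMod d.q2), x.1.2), x.2) ∈ d.E := h5
    rw [cast_N_eq d hP] at h6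
    exact h6
  · exact absurd rfl hx

theorem meas_sec {w : V} (k : ℤ × ℤ) {A : Set X} (hA : MeasurableSet A) :
    Measurable fun c : ℝ => A.indicator (w : X → ℂ) (k, c) := by
  have h1 : Measurable (A.indicator (w : X → ℂ)) :=
    (Lp.stronglyMeasurable w).measurable.indicator hA
  exact h1.comp measurable_prodMk_left

/-- the section of a square integrable array is square integrable -/
theorem lintegral_sec_le (f : X → ℂ) (hf : Measurable f) (k : ℤ × ℤ) :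
    ∫⁻ c in Set.Ioc (0 : ℝ) 1, ‖f (k, c)‖ₑ ^ 2 ≤ ∫⁻ x, ‖f x‖ₑ ^ 2 ∂muX := by
  have h1 : Measurable fun x => ‖f x‖ₑ ^ 2 := hf.enorm.pow_const 2
  rw [Tp.lintegral_muX h1]
  refine lintegral_mono fun c => ?_
  calc ‖f (k, c)‖ₑ ^ 2 = ‖f ((k.1, k.2), c)‖ₑ ^ 2 := rfl
    _ ≤ ∑' j : ℤ, ‖f ((j, k.2), c)‖ₑ ^ 2 := ENNReal.le_tsum k.1
    _ ≤ _ := ENNReal.le_tsum (f := fun b : ℤ => ∑' j : ℤ, ‖f ((j, b), c)‖ₑ ^ 2) k.2

end Crest.Agent.R081.Tr
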