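import Crest.Agent.R081.TrE

/-! Row 81, route B, node TRANSITIONS (helper177), part F: (T1) and (T0) from (MAIN). -/

set_option autoImplicit false

namespace Crest.Agent.R081.Tr

open MeasureTheory Filter Crest.AnalysisR.Torus3 Crest.Agent.R075 Crest.Agent.R081.Fm
  Crest.Agent.R081.Sm Crest.Agent.R081.Tw Crest.Agent.R081.St
open scoped ENNReal Topology ContDiff

theorem continuous_coPhi {f : ℝ → ℂ} (hf : IntervalIntegrable f volume 0 1) {χ : ℝ → ℝ}
    (hχ : Continuous χ) (k2 : ℤ) : Continuous (Co.phi f χ k2) := by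
  have hee : Continuous ee := by unfold ee; fun_prop
  unfold Co.phi
  refine intervalIntegral.continuous_of_dominated_interval (bound := fun c => ‖f c‖) ?_ ?_ ?_ ?_
  · intro τ
    refine hf.def'.aestronglyMeasurable.mul ?_
    exact (hee.comp (by fun_prop)).aestronglyMeasurable
  · intro τ
    refine Eventually.of_forall fun c _ => ?_
    rw [norm_mul, norm_ee, mul_one]
  · exact hf.norm
  · refine Eventually.of_forall fun c _ => ?_
    exact continuous_const.mul (hee.comp (by fun_prop))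

section single

variable {t : TwD}

/-- a vector supported on one fibre inside `A` -/
theorem ae_eq_of_supp {A : Set X} {k : ℤ × ℤ} {w : V} (hw : Supp (A ∩ fib k) w) :
    ∀ᵐ x ∂muX, (w : X → ℂ) x = if x.1 = k then A.indicator (w : X → ℂ) (k, x.2) else 0 := by
  filter_upwards [hw] with x hx
  by_cases hk : x.1 = k
  · rw [if_pos hk]
    have e : ((k, x.2) : X) = x := by rw [← hk]
    rw [e]
    by_cases hA : x ∈ A
    · rw [Set.indicator_of_mem hA]
    · rw [Set.indicator_of_notMem hA]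
      exact hx fun h => hA h.1
  · rw [if_neg hk]
    exact hx fun h => hk h.2

theorem enorm_sq_V (w : V) : ‖w‖ₑ ^ 2 = ∫⁻ x, ‖w x‖ₑ ^ 2 ∂muX := enorm_sq_Lp w

theorem lintegral_sec_V {A : Set X} (hA : MeasurableSet A) (k : ℤ × ℤ) (w : V) :
    ∫⁻ c in Set.Ioc (0 : ℝ) 1, ‖A.indicator (w : X → ℂ) (k, c)‖ₑ ^ 2 ≤ ‖w‖ₑ ^ 2 := by
  have hm : Measurable (A.indicator (w : X → ℂ)) :=
    (Lp.stronglyMeasurable w).measurable.indicator hA
  refine (lintegral_sec_le _ hm k).trans ?_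
  rw [enorm_sq_V]
  refine lintegral_mono fun x => ?_
  simp only
  gcongr
  exact enorm_indicator_le_enorm_self _ _

theorem memLp_sec_V {A : Set X} (hA : MeasurableSet A) (k : ℤ × ℤ) (w : V) :
    MemLp (fun c => A.indicator (w : X → ℂ) (k, c)) 2 (volume.restrict (Set.Ioc 0 1)) := by
  refine ⟨(meas_sec k hA).aestronglyMeasurable, ?_⟩
  have h1 : eLpNorm (fun c => A.indicator (w : X → ℂ) (k, c)) 2 (volume.restrict (Set.Ioc 0 1)) ^ 2
      ≤ ‖w‖ₑ ^ 2 := by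
    rw [eLpNorm_two_sq]
    exact lintegral_sec_V hA k w
  by_contra htop
  rw [not_lt, top_le_iff] at htop
  rw [htop] at h1
  have h2 : ‖w‖ₑ ^ 2 = ⊤ := by simpa using h1
  have h3 : ‖w‖ₑ ≠ ⊤ := enorm_ne_top
  exact (ENNReal.pow_ne_top h3) h2

theorem measurable_mainA' {K : Finset (ℤ × ℤ)} {eps : ℝ} (d : Des t.q K eps) (k : ℤ × ℤ)
    {psi : ℝ → ℂ} (hpsi : Measurable psi) :
    Measurable (Tp.mainA t.q d.q2 d.N k.1 (Fp d.v d.del) psi (d.M k)) :=
  Tp.measurable_mainA (measurable_Fp _ d.del_pos) hpsi (d.M_meas k)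

/-- the single mode estimate in `V` -/
theorem single_main (hM : MainStmt) (c : Ch t) (gf : GForm c.d c.h c.G) {k : ℤ × ℤ} (hk : k ∈ c.K)
    (hk0 : k ≠ 0) {A : Set X} (hA : MeasurableSet A)
    (hAJ : ∀ x ∈ A, x.2 ∈ Set.Icc t.del (1 - t.del)) (w : V) (hw : Supp (A ∩ fib k) w)
    (psi : ℝ → ℂ) (hpsi : Measurable psi) {B : ℝ≥0∞} (hB : B ≠ ⊤)
    (hphi : ∫⁻ τ, ‖Co.phi (fun c => A.indicator (w : X → ℂ) (k, c)) gf.chi k.2 τ - psi τ‖ₑ ^ 2 ≤ B) :
    ∃ m : V, ((m : X → ℂ) =ᵐ[muX] Tp.mainA t.q c.d.q2 c.d.N k.1 (Fp c.d.v c.d.del) psi (c.d.M k)) ∧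
      ‖KK c w - m‖ₑ ^ 2 ≤ 2 * (‖w‖ₑ ^ 2 * ENNReal.ofReal (c.eps ^ 2) + B) := by
  set U : HT := Phi.symm w with hU
  have hUw : Phi U = w := by rw [hU, LinearIsometryEquiv.apply_symm_apply]
  have hUL : MemLp (U : T3 → ℂ) 2 volume := Lp.memLp U
  have hfc : ∀ᵐ x ∂muX, fcX (U : T3 → ℂ) x
      = if x.1 = k then A.indicator (w : X → ℂ) (k, x.2) else 0 := by
    have h1 : (Phi U : X → ℂ) =ᵐ[muX] fcX U := Phi_coe U
    rw [hUw] at h1
    filter_upwards [h1, ae_eq_of_supp hw] with x e1 e2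
    rw [← e1, e2]
  have hmain := hM t c.K c.eps c.d c.h c.G c.mp gf k hk hk0
    (fun c => A.indicator (w : X → ℂ) (k, c)) (meas_sec k hA) (memLp_sec_V hA k w)
    (fun y hy => Set.indicator_of_notMem (fun h => hy (hAJ _ h)) _) U hUL hfc psi hpsi
  have hKK : (KK c w : X → ℂ) =ᵐ[muX] fcX (fun y => U (c.G.perm y)) := by
    have h1 := KK_Phi c U
    rw [hUw] at h1
    rw [h1]
    exact (Phi_coe _).trans (fc_congr (cc_coe c.G c.mp U))
  set mf := Tp.mainA t.q c.d.q2 c.d.N k.1 (Fp c.d.v c.d.del) psi (c.d.M k) with hmf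
  have hmfm : Measurable mf := measurable_mainA' c.d k hpsi
  have hbound : ∫⁻ x, ‖(KK c w : X → ℂ) x - mf x‖ₑ ^ 2 ∂muX
      ≤ 2 * (‖w‖ₑ ^ 2 * ENNReal.ofReal (c.eps ^ 2) + B) := by
    calc ∫⁻ x, ‖(KK c w : X → ℂ) x - mf x‖ₑ ^ 2 ∂muX
        = ∫⁻ x, ‖fcX (fun y => U (c.G.perm y)) x - mf x‖ₑ ^ 2 ∂muX := by
          refine lintegral_congr_ae ?_
          filter_upwards [hKK] with x hx
          rw [hx]
      _ ≤ _ := hmain
      _ ≤ _ := by
          gcongr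
          exact lintegral_sec_V hA k w
  have hfin : 2 * (‖w‖ₑ ^ 2 * ENNReal.ofReal (c.eps ^ 2) + B) ≠ ⊤ := by
    refine ENNReal.mul_ne_top (by norm_num) (ENNReal.add_ne_top.2 ⟨?_, hB⟩)
    exact ENNReal.mul_ne_top (ENNReal.pow_ne_top enorm_ne_top) ENNReal.ofReal_ne_top
  have hdL : MemLp (fun x => (KK c w : X → ℂ) x - mf x) 2 muX := by
    refine ⟨(Lp.aestronglyMeasurable _).sub hmfm.aestronglyMeasurable, ?_⟩
    by_contra htop
    rw [not_lt, top_le_iff] at htop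
    have h1 := eLpNorm_two_sq (μ := muX) (fun x => (KK c w : X → ℂ) x - mf x)
    rw [htop] at h1
    have h2 : (⊤ : ℝ≥0∞) ≤ 2 * (‖w‖ₑ ^ 2 * ENNReal.ofReal (c.eps ^ 2) + B) := by
      refine le_trans ?_ hbound
      rw [← h1]
      simp
    exact hfin (top_le_iff.1 h2)
  have hmL : MemLp mf 2 muX := by
    have h1 : mf = fun x => (KK c w : X → ℂ) x - ((KK c w : X → ℂ) x - mf x) := by
      funext x; ring
    rw [h1]
    exact (Lp.memLp _).sub hdL
  refine ⟨hmL.toLp mf, hmL.coeFn_toLp, ?_⟩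
  rw [enorm_sq_V]
  refine le_trans (le_of_eq ?_) hbound
  refine lintegral_congr_ae ?_
  filter_upwards [Lp.coeFn_sub (KK c w) (hmL.toLp mf), hmL.coeFn_toLp] with x e1 e2
  rw [e1, Pi.sub_apply, e2]

end single

end Crest.Agent.R081.Tr
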