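import Crest.Agent.R081.TrF

/-! Row 81, route B, node TRANSITIONS (helper177), part G: the literal (T1) and (T0) from (MAIN). -/

set_option autoImplicit false

namespace Crest.Agent.R081.Tr

open MeasureTheory Filter Crest.AnalysisR.Torus3 Crest.Agent.R075 Crest.Agent.R081.Fm
  Crest.Agent.R081.Sm Crest.Agent.R081.Tw Crest.Agent.R081.St
open scoped ENNReal Topology ContDiff

theorem norm_le_of_enorm_sq {v : V} {ε : ℝ} (hε : 0 ≤ ε) (h : ‖v‖ₑ ^ 2 ≤ ENNReal.ofReal (ε ^ 2)) :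
    ‖v‖ ≤ ε := by
  rw [← ofReal_norm, ← ENNReal.ofReal_pow (norm_nonneg _),
    ENNReal.ofReal_le_ofReal_iff (by positivity)] at h
  exact (pow_le_pow_iff_left₀ (norm_nonneg _) hε two_ne_zero).1 h

theorem two_mul_bound {w : V} {eps B ε : ℝ} (hB0 : 0 ≤ B)
    (h : 2 * (‖w‖ ^ 2 * eps ^ 2 + B) ≤ ε ^ 2) :
    2 * (‖w‖ₑ ^ 2 * ENNReal.ofReal (eps ^ 2) + ENNReal.ofReal B) ≤ ENNReal.ofReal (ε ^ 2) := by
  have h1 : ‖w‖ₑ ^ 2 * ENNReal.ofReal (eps ^ 2) + ENNReal.ofReal B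
      = ENNReal.ofReal (‖w‖ ^ 2 * eps ^ 2 + B) := by
    rw [← ofReal_norm, ← ENNReal.ofReal_pow (norm_nonneg _),
      ← ENNReal.ofReal_mul (by positivity), ← ENNReal.ofReal_add (by positivity) hB0]
  rw [h1]
  have h2 : 2 * ENNReal.ofReal (‖w‖ ^ 2 * eps ^ 2 + B)
      = ENNReal.ofReal (2 * (‖w‖ ^ 2 * eps ^ 2 + B)) := by
    rw [ENNReal.ofReal_mul (by norm_num)]
    simp
  rw [h2]
  exact ENNReal.ofReal_le_ofReal h

theorem supp_main {t : TwD} {K : Finset (ℤ × ℤ)} {eps : ℝ} (d : Des t.q K eps) {k : ℤ × ℤ}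
    {psi : ℝ → ℂ} {m : V}
    (hm : (m : X → ℂ) =ᵐ[muX] Tp.mainA t.q d.q2 d.N k.1 (Fp d.v d.del) psi (d.M k)) {B : Set X}
    (h : ∀ x, Tp.mainA t.q d.q2 d.N k.1 (Fp d.v d.del) psi (d.M k) x ≠ 0 → x ∈ B) : Supp B m := by
  filter_upwards [hm] with x hx hxB
  rw [hx]
  by_contra hne
  exact hxB (h x hne)

theorem zero_of_supp_empty {A : Set X} (hA : A = ∅) {w : V} (hw : Supp A w) : w = 0 := by
  apply Lp.ext
  filter_upwards [hw, Lp.coeFn_zero ℂ 2 muX] with x h1 h2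
  rw [h2]
  exact h1 (by simp [hA])

section T1

variable {t : TwD}

/-- the target sets of (T1) -/
def B1 (t : TwD) (c : Ch t) : Set X := overE c.d c.P'

theorem good1 (hM : MainStmt) (k : ℤ × ℤ) (w : V) (hw : Supp ((offZ t)ᶜ ∩ fib k) w) :
    w ∈ Good (EvF t) (fun c => KK c) (B1 t) (fun c => meas_overE c.d c.P') := by
  by_cases hk0 : k = 0
  · have he : (offZ t)ᶜ ∩ fib k = ∅ := by
      ext x
      simp only [Set.mem_inter_iff, Set.mem_compl_iff, Set.mem_empty_iff_false, iff_false, not_and]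
      intro h1 h2
      apply h1
      left
      have : x.1 = k := h2
      rw [this, hk0]
    rw [zero_of_supp_empty he hw]
    exact Submodule.zero_mem _
  refine Good_of_main' w fun ε hε => ?_
  set e0 : ℝ := ε / (2 * (‖w‖ + 1)) with he0
  have hw1 : 0 < ‖w‖ + 1 := by positivity
  have he0p : 0 < e0 := by positivity
  filter_upwards [eventually_params t {k} he0p 0] with c hc
  obtain ⟨h1, h2, h3, -⟩ := hc
  have hkK : k ∈ c.K := h1 (Finset.mem_singleton_self k)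
  obtain ⟨gf⟩ := c.gf
  set u : ℝ → ℂ := fun y => (offZ t)ᶜ.indicator (w : X → ℂ) (k, y) with hu
  have huL := memLp_sec_V (meas_offZ t).compl k w
  have hui : IntervalIntegrable u volume 0 1 := by
    rw [intervalIntegrable_iff_integrableOn_Ioc_of_le zero_le_one]
    exact huL.integrable (by norm_num)
  obtain ⟨m, hm, hmb⟩ := single_main hM c gf hkK hk0 (meas_offZ t).compl
    (fun x hx => by
      by_contra hne
      exact hx (Or.inr hne)) w hw (Co.phi u gf.chi k.2)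
    (continuous_coPhi hui gf.chi_cont k.2).measurable (B := ENNReal.ofReal 0)
    (by simp) (by simp [hu])
  refine ⟨m, ?_, ?_⟩
  · refine norm_le_of_enorm_sq hε.le (hmb.trans (two_mul_bound le_rfl ?_))
    have h5 : ‖w‖ * c.eps ≤ ε / 2 := by
      calc ‖w‖ * c.eps ≤ (‖w‖ + 1) * e0 := mul_le_mul (by linarith) h3 h2.le hw1.le
        _ = ε / 2 := by rw [he0]; field_simp
    have h6 : 0 ≤ ‖w‖ * c.eps := by positivity
    nlinarith
  · exact supp_main c.d hm fun x hx => (mainA_ne c.d c.hP hx).1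

end T1

/-- **(T1)** -/
theorem t1Stmt (hM : MainStmt) : T1Stmt := by
  intro t u hu e he
  set w : V := Phi (hu.toLp u) with hwd
  have hwu : (w : X → ℂ) =ᵐ[muX] fcX u := Phi_toLp hu
  have h1 := transition (KK := fun c : Ch t => KK c) (B := B1 t)
    (hB := fun c => meas_overE c.d c.P') (l := EvF t) (meas_offZ t).compl
    (fun w' hw' => Good_of_modes (fun k w'' hw'' => good1 hM k w'' hw'') w' hw') w he
  refine ev_of_eventually (h1.mono fun c hc => ?_)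
  have e1 : ms (overE c.d c.P')ᶜ (fun y => u (c.G.perm y)) = off (B1 t c) (KK c w) :=
    ms_eq_off (meas_overE c.d c.P') (KK_toLp c hu)
  have e2 : ms (offZ t) u = off (offZ t)ᶜ w := by
    have := ms_eq_off (meas_offZ t).compl hwu
    rwa [compl_compl] at this
  rw [e1, e2]
  exact hc

section T0

variable {t : TwD}

def B0 (M : Modes t) (c : Ch t) : Set X := stepS M c.d c.h c.P'

theorem Sal_J (M : Modes t) : ∀ x ∈ M.Sal, x.2 ∈ Set.Icc t.del (1 - t.del) := by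
  rintro x ⟨r, hr⟩
  exact M.sub (((x.1.1 + r * t.q, x.1.2), x.2) : X) hr

theorem Sal_ne0 (M : Modes t) : ∀ x ∈ M.Sal, x.1.2 ≠ 0 := by
  rintro x ⟨r, hr⟩
  exact M.ne0 (((x.1.1 + r * t.q, x.1.2), x.2) : X) hr

theorem J_sub_Ioc (t : TwD) {c : ℝ} (hc : c ∈ Set.Icc t.del (1 - t.del)) : c ∈ Set.Ioc (0 : ℝ) 1 :=
  ⟨lt_of_lt_of_le t.del_pos hc.1, hc.2.trans (by linarith [t.del_pos])⟩

/-- the main phase function of a mode -/
noncomputable def psiM (t : TwD) (h : ℕ) (chi0 : ℝ) (k2 : ℤ) (u : ℝ → ℂ) (τ : ℝ) : ℂ :=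
  ee (k2 * chi0) * Fr.mainT (k2 * (h * t.al)) t.del (Fr.cut u) τ

theorem measurable_psiM (t : TwD) (h : ℕ) (chi0 : ℝ) (k2 : ℤ) {u : ℝ → ℂ} (hu : Measurable u) :
    Measurable (psiM t h chi0 k2 u) := by
  unfold psiM Fr.mainT Fr.cut
  refine measurable_const.mul ((measurable_const.mul (Fr.continuous_ze _).measurable).mul ?_)
  exact (hu.indicator measurableSet_Ioc).comp (by fun_prop)

theorem psiM_ne {t : TwD} {h : ℕ} {chi0 : ℝ} {k2 : ℤ} {u : ℝ → ℂ} {τ : ℝ}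
    (hx : psiM t h chi0 k2 u τ ≠ 0) : u (t.del + τ / (k2 * (h * t.al))) ≠ 0 := by
  intro h0
  apply hx
  unfold psiM Fr.mainT Fr.cut
  by_cases hc : t.del + τ / (k2 * (h * t.al)) ∈ Set.Ioc (0 : ℝ) 1
  · rw [Set.indicator_of_mem hc, h0, mul_zero, mul_zero]
  · rw [Set.indicator_of_notMem hc, mul_zero, mul_zero]

/-- Fresnel: the main phase function is close to the exact one -/
theorem fresnel_bound (t : TwD) {u : ℝ → ℂ}
    (hu2 : MemLp u 2 (volume.restrict (Set.Ioc 0 1)))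
    (huJ : ∀ c, c ∉ Set.Icc t.del (1 - t.del) → u c = 0) {k2 : ℤ} (hk : k2 ≠ 0) {δ : ℝ} (hδ : 0 < δ) :
    ∃ h0 : ℕ, ∀ h : ℕ, h0 ≤ h → ∀ (chi : ℝ → ℝ) (chi0 : ℝ),
      (∀ c ∈ Set.Icc t.del (1 - t.del), chi c = chi0 + h * t.al * (c - t.del) ^ 2 / 2) →
      ∫⁻ τ, ‖Co.phi u chi k2 τ - psiM t h chi0 k2 u τ‖ₑ ^ 2 ≤ ENNReal.ofReal (δ ^ 2) := by
  obtain ⟨Lam, hL, H⟩ := Fr.phi_L2 (Fr.integrable_cut hu2) (Fr.memLp_cut hu2) hδ
  refine ⟨⌈Lam / t.al⌉₊, fun h hh chi chi0 hchi => ?_⟩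
  have hal := t.al_pos
  have h1 : Lam / t.al ≤ h := (Nat.le_ceil _).trans (by exact_mod_cast hh)
  have h2 : Lam ≤ h * t.al := (div_le_iff₀ hal).1 h1
  have hk1 : (1 : ℝ) ≤ |(k2 : ℝ)| := by
    rw [← Int.cast_abs]
    exact_mod_cast Int.one_le_abs hk
  have hh0 : (0 : ℝ) ≤ h * t.al := by positivity
  have hlam : Lam ≤ |(k2 : ℝ) * (h * t.al)| := by
    rw [abs_mul, abs_of_nonneg hh0]
    nlinarith
  have h3 := H _ hlam t.del
  have h4 : ∫⁻ τ, ‖Co.phi u chi k2 τ - psiM t h chi0 k2 u τ‖ₑ ^ 2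
      = eLpNorm (fun tau => Fr.phi (k2 * (h * t.al)) t.del (Fr.cut u) tau
        - Fr.mainT (k2 * (h * t.al)) t.del (Fr.cut u) tau) 2 volume ^ 2 := by
    rw [eLpNorm_two_sq]
    refine lintegral_congr fun τ => ?_
    rw [Fr.co_phi_eq u chi k2 (h * t.al) chi0 t.del (fun c _ hc => by
      have hcJ : c ∈ Set.Icc t.del (1 - t.del) := by
        by_contra hne
        exact hc (huJ c hne)
      rw [hchi c hcJ]; ring) τ]
    unfold psiM
    rw [← mul_sub, enorm_mul]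
    have : ‖ee ((k2 : ℝ) * chi0)‖ₑ = 1 := by
      rw [← ofReal_norm, norm_ee]; simp
    rw [this, one_mul]
  rw [h4, ENNReal.ofReal_pow hδ.le]
  gcongr

/-- support of the main array, part 2 -/
theorem main_stepS (M : Modes t) {K : Finset (ℤ × ℤ)} {eps : ℝ} (d : Des t.q K eps) {h : ℕ}
    (hh : 0 < h) {P' : ℤ} (hP : t.q * P' = t.P * h * d.q2 + 1) {k : ℤ × ℤ} (hk : k.2 ≠ 0)
    {u : ℝ → ℂ} (hu : ∀ c, u c ≠ 0 → ((k, c) : X) ∈ M.Sal) {chi0 : ℝ} {x : X}
    (hx : Tp.mainA t.q d.q2 d.N k.1 (Fp d.v d.del) (psiM t h chi0 k.2 u) (d.M k) x ≠ 0) :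
    x ∈ stepS M d h P' := by
  obtain ⟨h1, h2, h3⟩ := mainA_ne d hP hx
  have h4 := hu _ (psiM_ne h3)
  obtain ⟨r, hr⟩ := h4
  refine ⟨h1, _, hr, ?_, ?_⟩
  · obtain ⟨n, hn⟩ := h2
    refine ⟨n - r, ?_⟩
    simp only
    linear_combination hn
  · have hJ := M.sub _ hr
    simp only at hJ ⊢
    rw [t.lin _ hJ]
    have hk' : (k.2 : ℝ) ≠ 0 := by exact_mod_cast hk
    have hh' : (h : ℝ) ≠ 0 := by exact_mod_cast hh.ne'
    have hal := t.al_pos.ne'
    rw [add_sub_cancel_left]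
    field_simp

theorem good0 (hM : MainStmt) (M : Modes t) (k : ℤ × ℤ) (w : V) (hw : Supp (M.Sal ∩ fib k) w) :
    w ∈ Good (EvF t) (fun c => KK c) (B0 M) (fun c => meas_stepS M c.d c.hh c.P') := by
  by_cases hk2 : k.2 = 0
  · have he : M.Sal ∩ fib k = ∅ := by
      ext x
      simp only [Set.mem_inter_iff, Set.mem_empty_iff_false, iff_false, not_and]
      intro h1 h2
      have : x.1 = k := h2
      exact Sal_ne0 M x h1 (by rw [this, hk2])
    rw [zero_of_supp_empty he hw]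
    exact Submodule.zero_mem _
  have hk0 : k ≠ 0 := fun h => hk2 (by rw [h]; rfl)
  refine Good_of_main' w fun ε hε => ?_
  set e0 : ℝ := ε / (2 * (‖w‖ + 1)) with he0
  have hw1 : 0 < ‖w‖ + 1 := by positivity
  have he0p : 0 < e0 := by positivity
  set u : ℝ → ℂ := fun y => M.Sal.indicator (w : X → ℂ) (k, y) with hu
  have huL : MemLp u 2 (volume.restrict (Set.Ioc 0 1)) := memLp_sec_V (meas_Sal M) k w
  have huJ : ∀ c, c ∉ Set.Icc t.del (1 - t.del) → u c = 0 := fun c hc =>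
    Set.indicator_of_notMem (fun h => hc (Sal_J M _ h)) _
  obtain ⟨h0, hF⟩ := fresnel_bound t huL huJ hk2 (δ := ε / 2) (by positivity)
  filter_upwards [eventually_params t {k} he0p h0] with c hc
  obtain ⟨h1, h2, h3, h4⟩ := hc
  have hkK : k ∈ c.K := h1 (Finset.mem_singleton_self k)
  obtain ⟨gf⟩ := c.gf
  obtain ⟨m, hm, hmb⟩ := single_main hM c gf hkK hk0 (meas_Sal M) (Sal_J M) w hw
    (psiM t c.h gf.chi0 k.2 u) (measurable_psiM t c.h gf.chi0 k.2 (meas_sec k (meas_Sal M)))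
    ENNReal.ofReal_ne_top (hF c.h h4 gf.chi gf.chi0 gf.chi_J)
  refine ⟨m, ?_, ?_⟩
  · refine norm_le_of_enorm_sq hε.le (hmb.trans (two_mul_bound (by positivity) ?_))
    have h5 : ‖w‖ * c.eps ≤ ε / 2 := by
      calc ‖w‖ * c.eps ≤ (‖w‖ + 1) * e0 := mul_le_mul (by linarith) h3 h2.le hw1.le
        _ = ε / 2 := by rw [he0]; field_simp
    have h6 : 0 ≤ ‖w‖ * c.eps := by positivity
    nlinarith
  · refine supp_main c.d hm fun x hx => main_stepS M c.d c.hh c.hP hk2 (fun y hy => ?_) hx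
    by_contra hne
    exact hy (Set.indicator_of_notMem hne _)

end T0

/-- **(T0)** -/
theorem t0Stmt (hM : MainStmt) : T0Stmt := by
  intro t M u hu e he
  set w : V := Phi (hu.toLp u) with hwd
  have hwu : (w : X → ℂ) =ᵐ[muX] fcX u := Phi_toLp hu
  have h1 := transition (KK := fun c : Ch t => KK c) (B := B0 M)
    (hB := fun c => meas_stepS M c.d c.hh c.P') (l := EvF t) (meas_Sal M)
    (fun w' hw' => Good_of_modes (fun k w'' hw'' => good0 hM M k w'' hw'') w' hw') w he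
  refine ev_of_eventually (h1.mono fun c hc => ?_)
  have e1 : ms (stepS M c.d c.h c.P')ᶜ (fun y => u (c.G.perm y)) = off (B0 M c) (KK c w) :=
    ms_eq_off (meas_stepS M c.d c.hh c.P') (KK_toLp c hu)
  have e2 : ms M.Salᶜ u = off M.Sal w := ms_eq_off (meas_Sal M) hwu
  rw [e1, e2]
  exact hc

end Crest.Agent.R081.Tr
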