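import Crest.Agent.R081.TwLD

/-! Row 81, node EXPLICIT STEP: the linear involution `(c', θ1, θ2) ↦ (N θ1 - c', θ1, θ2)`. -/

set_option autoImplicit false

namespace Crest.Agent.R081.Tw

open scoped ContDiff
open MeasureTheory Crest.AnalysisR.Torus3 Crest.Agent.R081.Sm Crest.Agent.R081.Shear

theorem lin_smooth (N : ℕ) : ContDiff ℝ ∞ (fun x : E3 => (![N * x 1 - x 0, x 1, x 2] : E3)) := by
  rw [contDiff_pi]
  intro i
  fin_cases i
  · exact (contDiff_const.mul (contDiff_apply ℝ ℝ (1 : Fin 3))).sub (contDiff_apply ℝ ℝ (0 : Fin 3))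
  · exact contDiff_apply ℝ ℝ (1 : Fin 3)
  · exact contDiff_apply ℝ ℝ (2 : Fin 3)

theorem lin_per (N : ℕ) : Per (fun x : E3 => (![N * x 1 - x 0, x 1, x 2] : E3)) := by
  intro k
  refine ⟨![N * k 1 - k 0, k 1, k 2], fun x => ?_⟩
  funext i
  fin_cases i
  · simp; ring
  · simp
  · simp

theorem lin_lin (N : ℕ) (x : E3) :
    (![N * (![N * x 1 - x 0, x 1, x 2] : E3) 1 - (![N * x 1 - x 0, x 1, x 2] : E3) 0,
      (![N * x 1 - x 0, x 1, x 2] : E3) 1, (![N * x 1 - x 0, x 1, x 2] : E3) 2] : E3) = x := by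
  funext i
  fin_cases i <;> simp

/-- the involution `(c', θ1, θ2) ↦ (N θ1 - c', θ1, θ2)` -/
noncomputable def linLD (N : ℕ) : LD where
  F := fun x => ![N * x 1 - x 0, x 1, x 2]
  H := fun x => ![N * x 1 - x 0, x 1, x 2]
  hF := lin_smooth N
  hH := lin_smooth N
  pF := lin_per N
  pH := lin_per N
  FH := lin_lin N
  HF := lin_lin N

theorem linLD_F (N : ℕ) (x : E3) : (linLD N).F x = ![N * x 1 - x 0, x 1, x 2] := rfl

theorem linLD_H (N : ℕ) (x : E3) : (linLD N).H x = ![N * x 1 - x 0, x 1, x 2] := rfl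

/-- sign change of the first coordinate -/
noncomputable def negLD : LD where
  F := fun x => ![- x 0, x 1, x 2]
  H := fun x => ![- x 0, x 1, x 2]
  hF := by
    rw [contDiff_pi]
    intro i
    fin_cases i
    · exact (contDiff_apply ℝ ℝ (0 : Fin 3)).neg
    · exact contDiff_apply ℝ ℝ (1 : Fin 3)
    · exact contDiff_apply ℝ ℝ (2 : Fin 3)
  hH := by
    rw [contDiff_pi]
    intro i
    fin_cases i
    · exact (contDiff_apply ℝ ℝ (0 : Fin 3)).neg
    · exact contDiff_apply ℝ ℝ (1 : Fin 3)
    · exact contDiff_apply ℝ ℝ (2 : Fin 3)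
  pF := by
    intro k
    refine ⟨![- k 0, k 1, k 2], fun x => ?_⟩
    funext i
    fin_cases i
    · simp; ring
    · simp
    · simp
  pH := by
    intro k
    refine ⟨![- k 0, k 1, k 2], fun x => ?_⟩
    funext i
    fin_cases i
    · simp; ring
    · simp
    · simp
  FH := fun x => by funext i; fin_cases i <;> simp
  HF := fun x => by funext i; fin_cases i <;> simp

theorem mp_negLD : MP negLD := by
  unfold MP
  have e : (⇑negLD.perm) = fun (y : T3) (i : Fin 3) =>
      (if i = 0 then (fun t : UnitAddCircle => - t) else id) (y i) := by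
    funext y
    obtain ⟨x, rfl⟩ := proj_surj y
    rw [LD.perm_proj]
    funext i
    fin_cases i <;> simp [negLD, proj]
  rw [e]
  refine measurePreserving_pi (fun _ : Fin 3 => (volume : Measure UnitAddCircle))
    (fun _ : Fin 3 => (volume : Measure UnitAddCircle))
    (f := fun i : Fin 3 => (if i = 0 then (fun t : UnitAddCircle => - t) else id)) ?_
  intro i
  by_cases hi : i = 0
  · simp only [hi, if_true]
    exact Measure.measurePreserving_neg _
  · simp only [hi, if_false]
    exact MeasurePreserving.id _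

/-- `c += N θ1` -/
noncomputable def addLD (N : ℕ) : LD :=
  shLD { w := ![1, 0, 0]
         b := fun x => N * x 1
         smooth := contDiff_const.mul (contDiff_apply ℝ ℝ (1 : Fin 3))
         per := fun m x => ⟨N * m 1, by push_cast; ring⟩
         inv := fun x s => by simp }
    (fun m => ⟨N * m 1, fun x => by push_cast; ring⟩)

theorem linLD_perm (N : ℕ) : (linLD N).perm = ((addLD N).comp negLD).perm := by
  ext1 y
  obtain ⟨x, rfl⟩ := proj_surj y
  rw [LD.perm_proj, LD.perm_proj]
  congr 1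
  funext i
  fin_cases i
  · simp [linLD, LD.comp, addLD, negLD, shLD, ShearData.lift]; ring
  · simp [linLD, LD.comp, addLD, negLD, shLD, ShearData.lift]
  · simp [linLD, LD.comp, addLD, negLD, shLD, ShearData.lift]

theorem mp_linLD (N : ℕ) : MP (linLD N) := by
  have h : MP ((addLD N).comp negLD) := (mp_shLD _ _).comp mp_negLD
  unfold MP at h ⊢
  rw [linLD_perm]
  exact h

end Crest.Agent.R081.Tw
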