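import Crest.Agent.R081.TwLD
import Crest.Agent.R081.TwProf

/-! Row 81, node EXPLICIT STEP: the data of a step, the plane maps `B_c`, `l_{s,c}`, `G_s`. -/

set_option autoImplicit false

namespace Crest.Agent.R081.Tw

open scoped ContDiff
open MeasureTheory Crest.AnalysisR.Torus3 Crest.Agent.R081.Sm Crest.Agent.R081.Shear

/-- the data of one explicit step (everything except `h`) -/
structure Dat where
  q : ℕ
  q2 : ℕ
  P : ℤ
  w : Word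
  F : ℝ → ℝ
  ψ : ℝ → ℝ
  δ : ℝ
  hq : 0 < q
  hq2 : 0 < q2
  hF : ContDiff ℝ ∞ F
  pF : ∀ c, F (c + 1) = F c
  hψ : ContDiff ℝ ∞ ψ
  pψ : ∀ c, ψ (c + 1) = ψ c
  hδ0 : 0 < δ
  hδ1 : δ < 1 / 8
  zψ : ∀ c, |c| ≤ δ / 2 → ψ c = 0

namespace Dat

variable (D : Dat)

/-- `q q''` -/
def N : ℕ := D.q * D.q2

theorem hN : 0 < D.N := Nat.mul_pos D.hq D.hq2

theorem hN0 : (D.N : ℝ) ≠ 0 := by exact_mod_cast D.hN.ne'

theorem hq0 : (D.q : ℝ) ≠ 0 := by exact_mod_cast D.hq.ne'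

theorem N_mul (P : ℤ) : (D.N : ℝ) * ((P : ℝ) / D.q) = ((D.q2 * P : ℤ) : ℝ) := by
  have := D.hq0
  unfold N
  push_cast
  field_simp

/-- the profiles -/
noncomputable def pr : Prof D.δ := prof D.δ D.hδ0 D.hδ1

/-- `β` -/
noncomputable def β : ℝ → ℝ := D.pr.β

theorem β_smooth : ContDiff ℝ ∞ D.β := D.pr.β_smooth

theorem β_per (c : ℝ) : D.β (c + 1) = D.β c := D.pr.β_per c

theorem β_int (m : ℤ) (c : ℝ) : D.β (c + m) = D.β c := per_int D.β_per m c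

theorem β_eq {c : ℝ} {m : ℤ} (h1 : D.δ / 8 ≤ c - m) (h2 : c - m ≤ 1 - D.δ / 8) :
    D.β c = c - m := by
  have h := D.pr.β_eq (c - m) h1 h2
  have h3 := D.β_int m (c - m)
  rw [sub_add_cancel] at h3
  rw [h3]; exact h

theorem F_int (m : ℤ) (c : ℝ) : D.F (c + m) = D.F c := per_int D.pF m c

theorem ψ_int (m : ℤ) (c : ℝ) : D.ψ (c + m) = D.ψ c := per_int D.pψ m c

/-- `B_c` -/
noncomputable def Bf (c : ℝ) (z : ℝ × ℝ) : ℝ × ℝ :=
  Word.act D.q D.w (z.1 - D.β c / D.N, z.2 - D.β c * D.F (D.N * z.1 - c))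

/-- `B_c⁻¹` -/
noncomputable def Bi (c : ℝ) (y : ℝ × ℝ) : ℝ × ℝ :=
  ((Word.act D.q (Word.inv D.w) y).1 + D.β c / D.N,
    (Word.act D.q (Word.inv D.w) y).2 +
      D.β c * D.F (D.N * ((Word.act D.q (Word.inv D.w) y).1 + D.β c / D.N) - c))

theorem Bf_Bi (c : ℝ) (y : ℝ × ℝ) : D.Bf c (D.Bi c y) = y := by
  unfold Bf Bi
  simp only [add_sub_cancel_right]
  rw [Prod.mk.eta, Word.act_inv]

theorem Bi_Bf (c : ℝ) (z : ℝ × ℝ) : D.Bi c (D.Bf c z) = z := by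
  unfold Bf Bi
  rw [Word.inv_act]
  simp

theorem Bf_add_int (c : ℝ) (z : ℝ × ℝ) (m n : ℤ) :
    D.Bf c (z + ((m : ℝ), (n : ℝ))) = D.Bf c z + ((m : ℝ), (n : ℝ)) := by
  unfold Bf
  rw [← Word.act_add_int]
  congr 1
  have e : (D.N : ℝ) * (z + ((m : ℝ), (n : ℝ))).1 - c = D.N * z.1 - c + ((D.N * m : ℤ) : ℝ) := by
    push_cast; simp only [Prod.fst_add]; ring
  rw [e, F_int]
  ext
  · simp only [Prod.fst_add]; ring
  · simp only [Prod.snd_add]; ring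

theorem Bf_add_div (c : ℝ) (z : ℝ × ℝ) (P : ℤ) :
    D.Bf c (z + ((P : ℝ) / D.q, 0)) = D.Bf c z + ((P : ℝ) / D.q, 0) := by
  unfold Bf
  rw [← Word.act_add_div D.hq.ne']
  congr 1
  have e : (D.N : ℝ) * (z + ((P : ℝ) / D.q, (0 : ℝ))).1 - c
      = D.N * z.1 - c + ((D.q2 * P : ℤ) : ℝ) := by
    rw [← D.N_mul P]; simp only [Prod.fst_add]; ring
  rw [e, F_int]
  ext
  · simp only [Prod.fst_add]; ring
  · simp only [Prod.snd_add]; ring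

theorem Bf_int (c : ℝ) (z : ℝ × ℝ) (m : ℤ) : D.Bf (c + m) z = D.Bf c z := by
  unfold Bf
  rw [β_int]
  have e : (D.N : ℝ) * z.1 - (c + m) = D.N * z.1 - c + ((-m : ℤ) : ℝ) := by push_cast; ring
  rw [e, F_int]

theorem Bi_add_int (c : ℝ) (y : ℝ × ℝ) (m n : ℤ) :
    D.Bi c (y + ((m : ℝ), (n : ℝ))) = D.Bi c y + ((m : ℝ), (n : ℝ)) := by
  have h := D.Bf_add_int c (D.Bi c y) m n
  rw [Bf_Bi] at h
  rw [← h, Bi_Bf]

theorem Bi_int (c : ℝ) (y : ℝ × ℝ) (m : ℤ) : D.Bi (c + m) y = D.Bi c y := by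
  have h := D.Bf_int c (D.Bi c y) m
  rw [Bf_Bi] at h
  conv_lhs => rw [← h]
  rw [Bi_Bf]

/-- `l_{s,c}` -/
noncomputable def lf (P : ℤ) (s c : ℝ) (z : ℝ × ℝ) : ℝ × ℝ :=
  (z.1 + (P : ℝ) / D.q + s / D.N, z.2 + s * D.F (D.N * z.1 - c))

theorem lf_zero (P : ℤ) (c : ℝ) (z : ℝ × ℝ) : D.lf P 0 c z = z + ((P : ℝ) / D.q, 0) := by
  unfold lf
  ext <;> simp

theorem lf_add_int (P : ℤ) (s c : ℝ) (z : ℝ × ℝ) (m n : ℤ) :
    D.lf P s c (z + ((m : ℝ), (n : ℝ))) = D.lf P s c z + ((m : ℝ), (n : ℝ)) := by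
  unfold lf
  have e : (D.N : ℝ) * (z + ((m : ℝ), (n : ℝ))).1 - c = D.N * z.1 - c + ((D.N * m : ℤ) : ℝ) := by
    push_cast; simp only [Prod.fst_add]; ring
  rw [e, F_int]
  ext
  · simp only [Prod.fst_add]; ring
  · simp only [Prod.snd_add]; ring

theorem lf_int (P : ℤ) (s c : ℝ) (z : ℝ × ℝ) (m : ℤ) : D.lf P s (c + m) z = D.lf P s c z := by
  unfold lf
  have e : (D.N : ℝ) * z.1 - (c + m) = D.N * z.1 - c + ((-m : ℤ) : ℝ) := by push_cast; ring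
  rw [e, F_int]

/-- `G_s(c, y) = B_{c+s} l_{s,c} B_c⁻¹ y` -/
noncomputable def G (P : ℤ) (s c : ℝ) (y : ℝ × ℝ) : ℝ × ℝ := D.Bf (c + s) (D.lf P s c (D.Bi c y))

theorem G_zero (P : ℤ) (c : ℝ) (y : ℝ × ℝ) : D.G P 0 c y = y + ((P : ℝ) / D.q, 0) := by
  unfold G
  rw [lf_zero, add_zero, Bf_add_div, Bf_Bi]

theorem G_add_int (P : ℤ) (s c : ℝ) (y : ℝ × ℝ) (m n : ℤ) :
    D.G P s c (y + ((m : ℝ), (n : ℝ))) = D.G P s c y + ((m : ℝ), (n : ℝ)) := by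
  unfold G
  rw [Bi_add_int, lf_add_int, Bf_add_int]

theorem G_int (P : ℤ) (s c : ℝ) (y : ℝ × ℝ) (m : ℤ) : D.G P s (c + m) y = D.G P s c y := by
  unfold G
  rw [Bi_int, lf_int, show c + m + s = c + s + m by ring, Bf_int]

/-- away from the integers `G_s(c, ·)` is a translation -/
theorem G_far (P : ℤ) (s c : ℝ) (m : ℤ) (y : ℝ × ℝ) (h1 : D.β c = c - m)
    (h2 : D.β (c + s) = c + s - m) : D.G P s c y = y + ((P : ℝ) / D.q, 0) := by
  have hN := D.hN0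
  have h3 : D.G P s c y = Word.act D.q D.w (Word.act D.q (Word.inv D.w) y + ((P : ℝ) / D.q, 0)) := by
    unfold G Bf
    congr 1
    unfold lf Bi
    set v := Word.act D.q (Word.inv D.w) y with hv
    rw [h1, h2]
    have e1 : (D.N : ℝ) * (v.1 + (c - m) / D.N) - c = D.N * v.1 + ((-m : ℤ) : ℝ) := by
      push_cast; field_simp; ring
    have e2 : (D.N : ℝ) * (v.1 + (c - m) / D.N + (P : ℝ) / D.q + s / D.N) - (c + s)
        = D.N * v.1 + ((D.q2 * P - m : ℤ) : ℝ) := by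
      have := D.N_mul P
      push_cast at this ⊢
      have e3 : (D.N : ℝ) * (v.1 + (c - m) / D.N + (P : ℝ) / D.q + s / D.N) - (c + s)
        = D.N * v.1 + (D.N * ((P : ℝ) / D.q)) - m := by
        field_simp; ring
      rw [e3, this]; ring
    simp only [e1, e2, F_int]
    ext
    · simp only [Prod.fst_add]; field_simp; ring
    · simp only [Prod.snd_add]; ring
  rw [h3, Word.act_add_div D.hq.ne', Word.act_inv]

end Dat

end Crest.Agent.R081.Tw
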