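import Crest.Agent.R081.TwGam
import Crest.Agent.R081.TwLin

/-! Row 81, node EXPLICIT STEP: smoothness of `Γ`, the perm identity and the closeness statement. -/

set_option autoImplicit false

namespace Crest.Agent.R081.Tw

open scoped ContDiff
open MeasureTheory Crest.AnalysisR.Torus3 Crest.Agent.R081.Sm Crest.Agent.R081.Shear

theorem contDiff_vec3 {E : Type} [NormedAddCommGroup E] [NormedSpace ℝ E] {f g k : E → ℝ}
    (hf : ContDiff ℝ ∞ f) (hg : ContDiff ℝ ∞ g) (hk : ContDiff ℝ ∞ k) :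
    ContDiff ℝ ∞ (fun x => (![f x, g x, k x] : E3)) := by
  refine contDiff_pi.2 fun i => ?_
  fin_cases i
  · exact hf
  · exact hg
  · exact hk

namespace Dat

variable (D : Dat)

theorem contDiff_Bf : ContDiff ℝ ∞ (fun p : ℝ × (ℝ × ℝ) => D.Bf p.1 p.2) := by
  unfold Bf
  refine (Word.contDiff_act D.q D.w).comp ?_
  have h1 : ContDiff ℝ ∞ (fun p : ℝ × (ℝ × ℝ) => D.β p.1) := D.β_smooth.comp contDiff_fst
  have h2 : ContDiff ℝ ∞ (fun p : ℝ × (ℝ × ℝ) => p.2.1) := contDiff_fst.comp contDiff_snd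
  have h3 : ContDiff ℝ ∞ (fun p : ℝ × (ℝ × ℝ) => p.2.2) := contDiff_snd.comp contDiff_snd
  exact (h2.sub (h1.div_const _)).prodMk
    (h3.sub (h1.mul (D.hF.comp ((contDiff_const.mul h2).sub contDiff_fst))))

theorem contDiff_Bi : ContDiff ℝ ∞ (fun p : ℝ × (ℝ × ℝ) => D.Bi p.1 p.2) := by
  unfold Bi
  have h0 : ContDiff ℝ ∞ (fun p : ℝ × (ℝ × ℝ) => Word.act D.q (Word.inv D.w) p.2) :=
    (Word.contDiff_act D.q _).comp contDiff_snd
  have h1 : ContDiff ℝ ∞ (fun p : ℝ × (ℝ × ℝ) => D.β p.1) := D.β_smooth.comp contDiff_fst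
  have h2 : ContDiff ℝ ∞ (fun p : ℝ × (ℝ × ℝ) => (Word.act D.q (Word.inv D.w) p.2).1) :=
    contDiff_fst.comp h0
  have h3 : ContDiff ℝ ∞ (fun p : ℝ × (ℝ × ℝ) => (Word.act D.q (Word.inv D.w) p.2).2) :=
    contDiff_snd.comp h0
  have h4 := h2.add (h1.div_const (D.N : ℝ))
  exact h4.prodMk (h3.add (h1.mul (D.hF.comp ((contDiff_const.mul h4).sub contDiff_fst))))

theorem contDiff_lf (P : ℤ) : ContDiff ℝ ∞ (fun p : (ℝ × ℝ) × (ℝ × ℝ) => D.lf P p.1.1 p.1.2 p.2) := by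
  unfold lf
  have h1 : ContDiff ℝ ∞ (fun p : (ℝ × ℝ) × (ℝ × ℝ) => p.1.1) := contDiff_fst.comp contDiff_fst
  have h2 : ContDiff ℝ ∞ (fun p : (ℝ × ℝ) × (ℝ × ℝ) => p.1.2) := contDiff_snd.comp contDiff_fst
  have h3 : ContDiff ℝ ∞ (fun p : (ℝ × ℝ) × (ℝ × ℝ) => p.2.1) := contDiff_fst.comp contDiff_snd
  have h4 : ContDiff ℝ ∞ (fun p : (ℝ × ℝ) × (ℝ × ℝ) => p.2.2) := contDiff_snd.comp contDiff_snd
  exact ((h3.add contDiff_const).add (h1.div_const _)).prodMk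
    (h4.add (h1.mul (D.hF.comp ((contDiff_const.mul h3).sub h2))))

theorem contDiff_G (P : ℤ) : ContDiff ℝ ∞ (fun p : (ℝ × ℝ) × (ℝ × ℝ) => D.G P p.1.1 p.1.2 p.2) := by
  unfold G
  have h1 : ContDiff ℝ ∞ (fun p : (ℝ × ℝ) × (ℝ × ℝ) => p.1.1) := contDiff_fst.comp contDiff_fst
  have h2 : ContDiff ℝ ∞ (fun p : (ℝ × ℝ) × (ℝ × ℝ) => p.1.2) := contDiff_snd.comp contDiff_fst
  have h3 : ContDiff ℝ ∞ (fun p : (ℝ × ℝ) × (ℝ × ℝ) => D.Bi p.1.2 p.2) :=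
    D.contDiff_Bi.comp (h2.prodMk contDiff_snd)
  have h4 : ContDiff ℝ ∞ (fun p : (ℝ × ℝ) × (ℝ × ℝ) => D.lf P p.1.1 p.1.2 (D.Bi p.1.2 p.2)) :=
    (D.contDiff_lf P).comp (contDiff_fst.prodMk h3)
  exact D.contDiff_Bf.comp ((h2.add h1).prodMk h4)

theorem contDiff_Gam (σ : ℝ) (P : ℤ) :
    ContDiff ℝ ∞ (fun p : ℝ × ℝ × E3 => D.Gam σ P p.1 p.2.1 p.2.2) := by
  unfold Gam
  have hs : ContDiff ℝ ∞ (fun p : ℝ × ℝ × E3 => p.1) := contDiff_fst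
  have hb : ContDiff ℝ ∞ (fun p : ℝ × ℝ × E3 => p.2.1) := contDiff_fst.comp contDiff_snd
  have hx : ∀ i : Fin 3, ContDiff ℝ ∞ (fun p : ℝ × ℝ × E3 => p.2.2 i) := fun i =>
    (contDiff_apply ℝ ℝ i).comp (contDiff_snd.comp contDiff_snd)
  have hz : ContDiff ℝ ∞ (fun p : ℝ × ℝ × E3 => D.pr.z (p.2.2 0)) := D.pr.z_smooth.comp (hx 0)
  have hzt : ContDiff ℝ ∞ (fun p : ℝ × ℝ × E3 => D.pr.zt (p.2.2 0)) := D.pr.zt_smooth.comp (hx 0)
  have hzt2 : ContDiff ℝ ∞ (fun p : ℝ × ℝ × E3 => D.pr.zt (p.2.2 0 + p.1)) :=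
    D.pr.zt_smooth.comp ((hx 0).add hs)
  have hav : ContDiff ℝ ∞ (fun p : ℝ × ℝ × E3 => av D.ψ p.1 (p.2.2 0)) :=
    (av_smooth D.hψ).comp (hs.prodMk (hx 0))
  have hG : ContDiff ℝ ∞ (fun p : ℝ × ℝ × E3 =>
      D.G P p.1 (p.2.2 0) (p.2.2 1, p.2.2 2 + p.2.1 * D.pr.z (p.2.2 0))) :=
    (D.contDiff_G P).comp ((hs.prodMk (hx 0)).prodMk ((hx 1).prodMk ((hx 2).add (hb.mul hz))))
  exact contDiff_vec3 ((hx 0).add hs) (contDiff_fst.comp hG)
    ((contDiff_snd.comp hG).add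
      (((contDiff_const.mul hav).sub (hb.mul (hzt2.sub hzt))).sub (hb.mul hz)))

/-- `L = L_{P, 1/h}` -/
noncomputable def L (h : ℕ) : LD := D.LL D.P (1 / h)

theorem mp_L (h : ℕ) : MP (D.L h) := D.mp_LL _ _

/-- `K L K⁻¹` -/
noncomputable def C (h : ℕ) : LD := (D.K h).comp ((D.L h).comp (D.K h).inv)

theorem C_F (h : ℕ) (x : E3) : (D.C h).F x = (D.K h).F ((D.L h).F ((D.K h).H x)) := rfl
theorem C_H (h : ℕ) (x : E3) : (D.C h).H x = (D.K h).F ((D.L h).H ((D.K h).H x)) := rfl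

theorem mp_C (h : ℕ) : MP (D.C h) := (D.mp_K h).comp ((D.mp_L h).comp (D.mp_K h).inv)

theorem C_F_eq {h : ℕ} (hh : 0 < h) (h1 : 1 / (h : ℝ) < D.δ / 16) (x : E3) :
    (D.C h).F x = D.Gam 1 D.P (1 / h) (D.Bh h) x := by
  have h0 : (0 : ℝ) < h := by exact_mod_cast hh
  rw [C_F, L]
  refine D.K_L_K h 1 D.P (1 / h) (by field_simp) ?_ x
  rw [abs_of_pos (by positivity)]
  exact h1

theorem C_H_eq {h : ℕ} (hh : 0 < h) (h1 : 1 / (h : ℝ) < D.δ / 16) (x : E3) :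
    (D.C h).H x = D.Gam (-1) (-D.P) (-(1 / h)) (D.Bh h) x := by
  have h0 : (0 : ℝ) < h := by exact_mod_cast hh
  rw [C_H, L, LL_H]
  refine D.K_L_K h (-1) (-D.P) (-(1 / h)) (by field_simp) ?_ x
  rw [abs_neg, abs_of_pos (by positivity)]
  exact h1

/-- **closeness of `K L K⁻¹` to `R_t`**, conjugated by a fixed `H` -/
theorem close (H : LD) (r : ℕ) {ε : ℝ} (hε : 0 < ε) :
    ∃ h0 : ℕ, 0 < h0 ∧ ∀ h : ℕ, h0 ≤ h →
      Bd r ε (fun x => (H.comp ((D.C h).comp H.inv)).F x - (H.comp (D.R.comp H.inv)).F x) ∧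
      Bd r ε (fun x => (H.comp ((D.C h).comp H.inv)).H x - (H.comp (D.R.comp H.inv)).H x) := by
  obtain ⟨s1, hs1, h1⟩ := TwSoft.soft_conj' H (fun s b x => D.Gam 1 D.P s b x) D.R.F
    (D.contDiff_Gam 1 D.P) D.R.hF (fun b x => D.Gam_one b x) (fun s b => D.Gam_equi _ _ s b)
    (by
      have : D.R.F = D.Gam 1 D.P 0 0 := funext fun x => (D.Gam_one 0 x).symm
      rw [this]; exact D.Gam_equi _ _ _ _) r hε
  obtain ⟨s2, hs2, h2⟩ := TwSoft.soft_conj' H (fun s b x => D.Gam (-1) (-D.P) s b x) D.R.H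
    (D.contDiff_Gam (-1) (-D.P)) D.R.hH (fun b x => D.Gam_neg_one b x)
    (fun s b => D.Gam_equi _ _ s b)
    (by
      have : D.R.H = D.Gam (-1) (-D.P) 0 0 := funext fun x => (D.Gam_neg_one 0 x).symm
      rw [this]; exact D.Gam_equi _ _ _ _) r hε
  obtain ⟨n, hn⟩ := exists_nat_gt (1 / (min (min s1 s2) (D.δ / 16)))
  have hm : 0 < min (min s1 s2) (D.δ / 16) := by
    have := D.hδ0
    positivity
  refine ⟨n + 1, Nat.succ_pos _, fun h hh => ?_⟩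
  have hpos : (0 : ℝ) < h := by
    have : 0 < h := by omega
    exact_mod_cast this
  have hlt : 1 / (h : ℝ) < min (min s1 s2) (D.δ / 16) := by
    rw [div_lt_iff₀ hpos]
    have h3 : (n : ℝ) < h := by exact_mod_cast (by omega : n < h)
    have h4 : 1 / (min (min s1 s2) (D.δ / 16)) < h := hn.trans h3
    rw [div_lt_iff₀ hm] at h4
    linarith
  have a1 : 1 / (h : ℝ) < s1 := hlt.trans_le ((min_le_left _ _).trans (min_le_left _ _))
  have a2 : 1 / (h : ℝ) < s2 := hlt.trans_le ((min_le_left _ _).trans (min_le_right _ _))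
  have a3 : 1 / (h : ℝ) < D.δ / 16 := hlt.trans_le (min_le_right _ _)
  have hh0 : 0 < h := by omega
  constructor
  · have e : (fun x => (H.comp ((D.C h).comp H.inv)).F x - (H.comp (D.R.comp H.inv)).F x)
        = fun x => H.F (D.Gam 1 D.P (1 / h) (D.Bh h) (H.H x)) - H.F (D.R.F (H.H x)) := by
      funext x
      show H.F ((D.C h).F (H.H x)) - H.F (D.R.F (H.H x)) = _
      rw [D.C_F_eq hh0 a3]
    rw [e]
    exact h1 (1 / h) (by rw [abs_of_pos (by positivity)]; exact a1.le) _ (D.Bh_mem h)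
  · have e : (fun x => (H.comp ((D.C h).comp H.inv)).H x - (H.comp (D.R.comp H.inv)).H x)
        = fun x => H.F (D.Gam (-1) (-D.P) (-(1 / h)) (D.Bh h) (H.H x)) - H.F (D.R.H (H.H x)) := by
      funext x
      show H.F ((D.C h).H (H.H x)) - H.F (D.R.H (H.H x)) = _
      rw [D.C_H_eq hh0 a3]
    rw [e]
    exact h2 (-(1 / h)) (by rw [abs_neg, abs_of_pos (by positivity)]; exact a2.le) _ (D.Bh_mem h)

/-! ### the new twist -/

/-- `R_{t+}`, `q_+ = h q''`, `ψ_+ = F/h` -/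
noncomputable def Rp (h : ℕ) (Pp : ℤ) : LD :=
  twLD ((Pp : ℝ) / ((h * D.q2 : ℕ) : ℝ)) (fun c => D.F c / h) (D.hF.div_const _)
    (fun c => by rw [D.pF])

/-- `H_+ = H K Lin` -/
noncomputable def Hp (H : LD) (h : ℕ) : LD := H.comp ((D.K h).comp (linLD D.N))

theorem mp_Hp {H : LD} (hH : MP H) (h : ℕ) : MP (D.Hp H h) :=
  hH.comp ((D.mp_K h).comp (mp_linLD _))

theorem lin_L_lin {h : ℕ} (hh : 0 < h) {Pp : ℤ} (hP : (D.q : ℤ) * Pp = D.P * h * D.q2 + 1) (x : E3) :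
    (linLD D.N).F ((D.L h).F ((linLD D.N).F x)) = (D.Rp h Pp).F x + zv ![D.q2 * D.P, 0, 0] := by
  have h0 : (h : ℝ) ≠ 0 := by exact_mod_cast hh.ne'
  have hN := D.hN0
  have hq := D.hq0
  have hq2 : (D.q2 : ℝ) ≠ 0 := by exact_mod_cast D.hq2.ne'
  have hNe : (D.N : ℝ) = D.q * D.q2 := by unfold N; push_cast; ring
  have hP' : (D.q : ℝ) * Pp = D.P * h * D.q2 + 1 := by exact_mod_cast hP
  rw [linLD_F, linLD_F, L, LL_F, Rp, twLD_F]
  funext i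
  fin_cases i
  · simp [lf]
    rw [hNe]
    field_simp
    ring
  · simp [lf]
    rw [hNe]
    field_simp
    linear_combination (-1 : ℝ) * hP'
  · simp [lf]
    field_simp

theorem perm_lin_L_lin {h : ℕ} (hh : 0 < h) {Pp : ℤ} (hP : (D.q : ℤ) * Pp = D.P * h * D.q2 + 1) :
    (linLD D.N).perm * (D.L h).perm * (linLD D.N).perm = (D.Rp h Pp).perm := by
  ext1 y
  obtain ⟨x, rfl⟩ := proj_surj y
  rw [Equiv.Perm.mul_apply, Equiv.Perm.mul_apply, LD.perm_proj, LD.perm_proj, LD.perm_proj,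
    LD.perm_proj, D.lin_L_lin hh hP, proj_add_zv]

theorem lin_lin : (linLD D.N).perm * (linLD D.N).perm = 1 := by
  ext1 y
  obtain ⟨x, rfl⟩ := proj_surj y
  rw [Equiv.Perm.mul_apply, LD.perm_proj, LD.perm_proj, linLD_F, linLD_F]
  simp only [Equiv.Perm.one_apply]
  congr 1
  funext i
  fin_cases i <;> simp

/-- **the perm identity** `H_+ R_{t+} H_+⁻¹ = H (K L K⁻¹) H⁻¹` -/
theorem perm_eq (H : LD) {h : ℕ} (hh : 0 < h) {Pp : ℤ} (hP : (D.q : ℤ) * Pp = D.P * h * D.q2 + 1) :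
    ((D.Hp H h).comp ((D.Rp h Pp).comp (D.Hp H h).inv)).perm
      = (H.comp ((D.C h).comp H.inv)).perm := by
  have h1 := D.perm_lin_L_lin hh hP
  have h2 := D.lin_lin
  unfold Hp C
  simp only [LD.perm_comp, LD.perm_inv]
  rw [← h1]
  have h3 : (linLD D.N).perm⁻¹ = (linLD D.N).perm := by
    rw [inv_eq_iff_mul_eq_one]; exact h2
  simp only [mul_inv_rev, h3]
  have h4 : ∀ a b : Equiv.Perm T3, a * ((linLD D.N).perm * ((linLD D.N).perm * b)) = a * b := by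
    intro a b
    rw [← mul_assoc (linLD D.N).perm, h2, one_mul]
  simp only [mul_assoc, h4]

/-- **the explicit smooth step**: `T` any lift of `H R_t H⁻¹`; `T'` a lift of `H_+ R_{t+} H_+⁻¹` -/
theorem step (H T : LD) (hT : T.perm = (H.comp (D.R.comp H.inv)).perm) (r : ℕ) {ε : ℝ}
    (hε : 0 < ε) :
    ∃ h0 : ℕ, 0 < h0 ∧ ∀ h : ℕ, h0 ≤ h → ∀ Pp : ℤ, (D.q : ℤ) * Pp = D.P * h * D.q2 + 1 →
      ∃ T' : LD, T'.perm = ((D.Hp H h).comp ((D.Rp h Pp).comp (D.Hp H h).inv)).perm ∧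
        Bd r ε (fun x => T'.F x - T.F x) ∧ Bd r ε (fun x => T'.H x - T.H x) := by
  obtain ⟨h0, h0p, hh⟩ := D.close H r hε
  refine ⟨h0, h0p, fun h hle Pp hP => ?_⟩
  obtain ⟨b1, b2⟩ := hh h hle
  obtain ⟨T', e1, e2, e3⟩ := TwSoft.transfer T _ _ hT b1 b2
  exact ⟨T', by rw [e1, D.perm_eq H (by omega) hP], e2, e3⟩

/-! ### pointwise formulas for the coefficient computation -/

theorem K_lin_F (h : ℕ) (x : E3) :
    ((D.K h).comp (linLD D.N)).F x = ![D.N * x 1 - x 0,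
      (Word.act D.q D.w (x 1 - D.β (D.N * x 1 - x 0) / D.N,
        x 2 - D.β (D.N * x 1 - x 0) * D.F (x 0))).1,
      (Word.act D.q D.w (x 1 - D.β (D.N * x 1 - x 0) / D.N,
        x 2 - D.β (D.N * x 1 - x 0) * D.F (x 0))).2 + D.χ h (D.N * x 1 - x 0)] := by
  rw [comp_F, linLD_F, K_F]
  simp only [Matrix.cons_val_zero, Matrix.cons_val_one, Matrix.cons_val, Bf]
  rw [sub_sub_cancel]

end Dat

end Crest.Agent.R081.Tw
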