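import Crest.Agent.R075.Osc

/-!
# Row 81: van der Corput comparison for quadratic exponential sums (helper301)

`vdc` : if all increments `s (j+1/2) + μ` of the quadratic phase are at most `3/4` in modulus, the
exponential sum differs from the exponential integral by at most `4 + |s| n`.
-/

set_option autoImplicit false

open MeasureTheory Set Filter Topology Complex intervalIntegral
open Crest.Agent.R075

namespace Crest.Agent.R081.Vdc

/-- the odd increasing function `1/(π v) - cot (π v)` -/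
noncomputable def qf (v : ℝ) : ℝ := 1 / (Real.pi * v) - Real.cos (Real.pi * v) / Real.sin (Real.pi * v)

lemma qf_neg (v : ℝ) : qf (-v) = - qf v := by
  unfold qf
  rw [mul_neg, Real.cos_neg, Real.sin_neg, div_neg, div_neg]
  ring

lemma qf_zero : qf 0 = 0 := by simp [qf]

lemma sin_pos_aux {v : ℝ} (h0 : 0 < v) (h1 : v ≤ 3 / 4) : 0 < Real.sin (Real.pi * v) := by
  apply Real.sin_pos_of_pos_of_lt_pi (mul_pos Real.pi_pos h0)
  nlinarith [Real.pi_pos]

lemma qf_mono_pos : MonotoneOn qf (Ioc 0 (3 / 4)) := by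
  have hpi := Real.pi_pos
  have hd : ∀ v ∈ Ioc (0:ℝ) (3 / 4), HasDerivAt qf
      (-(Real.pi) / (Real.pi * v) ^ 2 + Real.pi / Real.sin (Real.pi * v) ^ 2) v := by
    intro v hv
    have hs := sin_pos_aux hv.1 hv.2
    have h1 : HasDerivAt (fun v : ℝ => Real.pi * v) Real.pi v := by
      simpa using (hasDerivAt_id v).const_mul Real.pi
    have h2 := (h1.inv (mul_pos hpi hv.1).ne')
    have h3 := (h1.cos).div (h1.sin) hs.ne'
    have h4 := h2.sub h3
    have e : qf = fun v => (Real.pi * v)⁻¹ - Real.cos (Real.pi * v) / Real.sin (Real.pi * v) := by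
      funext v; simp [qf]
    have e3 : Real.sin (Real.pi * v) ^ 2 + Real.cos (Real.pi * v) ^ 2 = 1 :=
      Real.sin_sq_add_cos_sq _
    have e4 : (-Real.sin (Real.pi * v) * Real.pi * Real.sin (Real.pi * v) -
        Real.cos (Real.pi * v) * (Real.cos (Real.pi * v) * Real.pi)) = - Real.pi := by
      linear_combination (-Real.pi) * e3
    rw [e4] at h4
    have e5 : -Real.pi / (Real.pi * v) ^ 2 - -Real.pi / Real.sin (Real.pi * v) ^ 2
        = -(Real.pi) / (Real.pi * v) ^ 2 + Real.pi / Real.sin (Real.pi * v) ^ 2 := by ring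
    rw [e5] at h4
    rw [e]
    exact h4
  apply monotoneOn_of_deriv_nonneg (convex_Ioc 0 (3 / 4))
  · intro v hv; exact (hd v hv).continuousAt.continuousWithinAt
  · intro v hv
    rw [interior_Ioc] at hv
    exact (hd v ⟨hv.1, hv.2.le⟩).differentiableAt.differentiableWithinAt
  · intro v hv
    rw [interior_Ioc] at hv
    rw [(hd v ⟨hv.1, hv.2.le⟩).deriv]
    have hs := sin_pos_aux hv.1 hv.2.le
    have h1 : Real.sin (Real.pi * v) ≤ Real.pi * v := Real.sin_le (mul_pos hpi hv.1).le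
    have h2 : Real.sin (Real.pi * v) ^ 2 ≤ (Real.pi * v) ^ 2 := by
      apply pow_le_pow_left₀ hs.le h1
    have h3 : Real.pi / (Real.pi * v) ^ 2 ≤ Real.pi / Real.sin (Real.pi * v) ^ 2 := by
      apply div_le_div_of_nonneg_left hpi.le (by positivity) h2
    have h4 : -Real.pi / (Real.pi * v) ^ 2 = - (Real.pi / (Real.pi * v) ^ 2) := by ring
    rw [h4]; linarith

lemma qf_nonneg {v : ℝ} (h0 : 0 ≤ v) (h1 : v ≤ 3 / 4) : 0 ≤ qf v := by
  rcases eq_or_lt_of_le h0 with h | h
  · rw [← h, qf_zero]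
  · have hpi := Real.pi_pos
    have hs := sin_pos_aux h h1
    unfold qf
    rw [sub_nonneg, div_le_div_iff₀ hs (mul_pos hpi h)]
    -- cos x * x ≤ sin x
    set x := Real.pi * v with hx
    have hx0 : 0 < x := mul_pos hpi h
    rcases le_or_gt x (Real.pi / 2) with h2 | h2
    · rcases eq_or_lt_of_le h2 with h3 | h3
      · rw [h3, Real.cos_pi_div_two]; simp
      · have := Real.lt_tan hx0 h3
        have hc : 0 < Real.cos x := Real.cos_pos_of_mem_Ioo ⟨by linarith, h3⟩
        rw [Real.tan_eq_sin_div_cos, lt_div_iff₀ hc] at this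
        linarith
    · have hc : Real.cos x ≤ 0 := by
        apply Real.cos_nonpos_of_pi_div_two_le_of_le h2.le
        have : x ≤ Real.pi * (3 / 4) := by rw [hx]; nlinarith
        linarith
      nlinarith

lemma qf_mono : MonotoneOn qf (Icc (-(3 / 4)) (3 / 4)) := by
  intro u hu v hv huv
  rcases le_or_gt u 0 with h1 | h1
  · rcases le_or_gt 0 v with h2 | h2
    · have a := qf_nonneg h2 hv.2
      have b := qf_nonneg (v := -u) (by linarith) (by linarith [hu.1])
      rw [qf_neg] at b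
      linarith
    · have := qf_mono_pos (a := -v) (b := -u) ⟨by linarith, by linarith [hv.1]⟩
        ⟨by linarith, by linarith [hu.1]⟩ (by linarith)
      rw [qf_neg, qf_neg] at this
      linarith
  · exact qf_mono_pos ⟨h1, hu.2⟩ ⟨by linarith, hv.2⟩ huv

lemma qf_top : qf (3 / 4) ≤ 3 / 2 := by
  unfold qf
  have h1 : Real.cos (Real.pi * (3 / 4)) = - (Real.sqrt 2 / 2) := by
    rw [show Real.pi * (3 / 4) = Real.pi - Real.pi / 4 by ring, Real.cos_pi_sub,
      Real.cos_pi_div_four]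
  have h2 : Real.sin (Real.pi * (3 / 4)) = Real.sqrt 2 / 2 := by
    rw [show Real.pi * (3 / 4) = Real.pi - Real.pi / 4 by ring, Real.sin_pi_sub,
      Real.sin_pi_div_four]
  rw [h1, h2]
  have h3 : 0 < Real.sqrt 2 / 2 := by positivity
  rw [neg_div, div_self h3.ne']
  have hpi := Real.pi_gt_three
  have : 1 / (Real.pi * (3 / 4)) ≤ 1 / 2 := by
    apply one_div_le_one_div_of_le (by norm_num); linarith
  linarith

lemma qf_abs {v : ℝ} (h : |v| ≤ 3 / 4) : |qf v| ≤ 3 / 2 := by
  rw [abs_le] at h ⊢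
  have a := qf_mono (a := v) (b := 3 / 4) ⟨by linarith [h.1], h.2⟩ ⟨by norm_num, le_rfl⟩ h.2
  have b := qf_mono (a := -(3 / 4)) (b := v) ⟨le_rfl, by norm_num⟩ ⟨h.1, h.2⟩ h.1
  rw [qf_neg] at b
  constructor <;> linarith [qf_top]

lemma integral_ee (v : ℝ) (hv : v ≠ 0) :
    (∫ u in (0:ℝ)..1, ee (v * u)) = (ee v - 1) / (2 * Real.pi * Complex.I * v) := by
  have hc : (2 * (Real.pi : ℂ) * Complex.I * v) ≠ 0 := by
    have : (Real.pi : ℂ) ≠ 0 := by exact_mod_cast Real.pi_ne_zero
    have hv' : (v : ℂ) ≠ 0 := by exact_mod_cast hv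
    simp [this, hv', Complex.I_ne_zero]
  have h := integral_exp_mul_complex (a := 0) (b := 1) hc
  have e : (∫ u in (0:ℝ)..1, ee (v * u)) = ∫ x in (0:ℝ)..1, Complex.exp (2 * Real.pi * Complex.I * v * x) := by
    refine integral_congr (fun x _ => ?_)
    unfold ee; congr 1; push_cast; ring
  rw [e, h]
  simp [ee]

/-- the key algebraic identity -/
lemma key_id {v : ℝ} (h : |v| ≤ 3 / 4) :
    1 - (∫ u in (0:ℝ)..1, ee (v * u)) = (-(1 / 2) + Complex.I / 2 * qf v) * (ee v - 1) := by
  rcases eq_or_ne v 0 with h0 | h0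
  · subst h0; simp
  have hpi : (Real.pi : ℂ) ≠ 0 := by exact_mod_cast Real.pi_ne_zero
  have hv' : (v : ℂ) ≠ 0 := by exact_mod_cast h0
  rw [integral_ee v h0]
  have hs : Real.sin (Real.pi * v) ≠ 0 := by
    rcases lt_or_gt_of_ne h0 with h1 | h1
    · have := sin_pos_aux (v := -v) (by linarith) (by rw [abs_le] at h; linarith [h.1])
      rw [mul_neg, Real.sin_neg] at this
      linarith
    · exact (sin_pos_aux h1 (by rw [abs_le] at h; linarith [h.2])).ne'
  have hs' : (Real.sin (Real.pi * v) : ℂ) ≠ 0 := by exact_mod_cast hs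
  set c : ℂ := (Real.cos (Real.pi * v) : ℂ) with hc
  set t : ℂ := (Real.sin (Real.pi * v) : ℂ) with ht
  have hct : t ^ 2 + c ^ 2 = 1 := by
    rw [ht, hc]; exact_mod_cast Real.sin_sq_add_cos_sq (Real.pi * v)
  have hee : ee v = (c + t * Complex.I) ^ 2 := by
    have : ee (v / 2) = c + t * Complex.I := by
      rw [ee_eq, Complex.exp_mul_I, hc, ht, Complex.ofReal_cos, Complex.ofReal_sin]
      congr 2 <;> (congr 1; push_cast; ring)
    rw [← this, sq, ← ee_add]; congr 1; ring
  have hq : (qf v : ℂ) = 1 / (Real.pi * v) - c / t := by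
    unfold qf; rw [hc, ht]; push_cast; ring
  rw [hq, hee]
  have hI : Complex.I ^ 2 = -1 := Complex.I_sq
  have hI2 : Complex.I ≠ 0 := Complex.I_ne_zero
  have e1 : (c + t * Complex.I) ^ 2 - 1 = 2 * t * Complex.I * (c + t * Complex.I) := by
    linear_combination hct + (-t ^ 2) * hI
  rw [e1]
  have e2 : (2 * t * Complex.I * (c + t * Complex.I)) / (2 * Real.pi * Complex.I * v)
      = t * (c + t * Complex.I) / (Real.pi * v) := by field_simp
  have e3 : (-(1 / 2) + Complex.I / 2 * (1 / (Real.pi * v) - c / t))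
      * (2 * t * Complex.I * (c + t * Complex.I))
      = -t * Complex.I * (c + t * Complex.I)
        + Complex.I ^ 2 * (t * (c + t * Complex.I) / (Real.pi * v))
        - Complex.I ^ 2 * (c * (c + t * Complex.I)) := by
    field_simp
    ring
  rw [e2, e3, hI]
  linear_combination (-1 : ℂ) * hct + (t ^ 2) * hI


lemma ee_sub_norm (x y : ℝ) : ‖ee x - ee y‖ ≤ 2 * Real.pi * |x - y| := by
  have h : ee x - ee y = ee y * (ee (x - y) - 1) := by
    rw [mul_sub, mul_one, ← ee_add]; congr 2; ring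
  rw [h, norm_mul, norm_ee, one_mul, ee_eq]
  have := Real.norm_exp_I_mul_ofReal_sub_one_le (x := 2 * Real.pi * (x - y))
  rw [mul_comm Complex.I] at this
  refine this.trans ?_
  rw [Real.norm_eq_abs, abs_mul, abs_of_pos (by positivity : (0:ℝ) < 2 * Real.pi)]

/-- Abel summation with a monotone bounded real weight -/
lemma abel_mono {n : ℕ} (q : ℕ → ℝ) (E : ℕ → ℂ) (hE : ∀ j, ‖E j‖ ≤ 1) {C : ℝ}
    (hq : ∀ j < n, |q j| ≤ C)
    (hm : (∀ j, j + 1 < n → q j ≤ q (j + 1)) ∨ (∀ j, j + 1 < n → q (j + 1) ≤ q j)) (hC : 0 ≤ C) :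
    ‖∑ j ∈ Finset.range n, (q j : ℂ) * (E (j + 1) - E j)‖ ≤ 4 * C := by
  -- partial sums: S_n = q_{n-1} E_n - q_0 E_0 - Σ_{j<n-1} (q_{j+1}-q_j) E_{j+1}
  have key : ∀ m : ℕ, ∑ j ∈ Finset.range (m + 1), (q j : ℂ) * (E (j + 1) - E j)
      = (q m : ℂ) * E (m + 1) - (q 0 : ℂ) * E 0
        - ∑ j ∈ Finset.range m, ((q (j + 1) - q j : ℝ) : ℂ) * E (j + 1) := by
    intro m
    induction m with
    | zero => simp; ring
    | succ m ih =>
      rw [Finset.sum_range_succ, ih, Finset.sum_range_succ]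
      push_cast
      ring
  rcases Nat.eq_zero_or_pos n with h0 | h0
  · subst h0; simp; linarith
  obtain ⟨m, rfl⟩ : ∃ m, n = m + 1 := ⟨n - 1, by omega⟩
  rw [key m]
  have h1 : ‖(q m : ℂ) * E (m + 1)‖ ≤ C := by
    rw [norm_mul, Complex.norm_real, Real.norm_eq_abs]
    calc |q m| * ‖E (m+1)‖ ≤ C * 1 := mul_le_mul (hq m (by omega)) (hE _) (norm_nonneg _) hC
      _ = C := mul_one C
  have h2 : ‖(q 0 : ℂ) * E 0‖ ≤ C := by
    rw [norm_mul, Complex.norm_real, Real.norm_eq_abs]
    calc |q 0| * ‖E 0‖ ≤ C * 1 := mul_le_mul (hq 0 (by omega)) (hE _) (norm_nonneg _) hC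
      _ = C := mul_one C
  have h3 : ‖∑ j ∈ Finset.range m, ((q (j + 1) - q j : ℝ) : ℂ) * E (j + 1)‖ ≤ 2 * C := by
    have hb : ∀ j ∈ Finset.range m, ‖((q (j + 1) - q j : ℝ) : ℂ) * E (j + 1)‖ ≤ |q (j + 1) - q j| := by
      intro j _
      rw [norm_mul, Complex.norm_real, Real.norm_eq_abs]
      exact mul_le_of_le_one_right (abs_nonneg _) (hE _)
    refine (norm_sum_le_of_le _ hb).trans ?_
    have ha := abs_le.1 (hq m (by omega))
    have hb' := abs_le.1 (hq 0 (by omega))
    rcases hm with hm | hm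
    · have : ∑ j ∈ Finset.range m, |q (j + 1) - q j| = ∑ j ∈ Finset.range m, (q (j + 1) - q j) := by
        apply Finset.sum_congr rfl
        intro j hj
        rw [Finset.mem_range] at hj
        exact abs_of_nonneg (by linarith [hm j (by omega)])
      rw [this, Finset.sum_range_sub]
      linarith [ha.2, hb'.1]
    · have : ∑ j ∈ Finset.range m, |q (j + 1) - q j| = ∑ j ∈ Finset.range m, (q j - q (j + 1)) := by
        apply Finset.sum_congr rfl
        intro j hj
        rw [Finset.mem_range] at hj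
        rw [abs_sub_comm]
        exact abs_of_nonneg (by linarith [hm j (by omega)])
      rw [this, Finset.sum_range_sub']
      linarith [ha.1, hb'.2]
  calc ‖(q m : ℂ) * E (m + 1) - (q 0 : ℂ) * E 0
        - ∑ j ∈ Finset.range m, ((q (j + 1) - q j : ℝ) : ℂ) * E (j + 1)‖
      ≤ ‖(q m : ℂ) * E (m + 1)‖ + ‖(q 0 : ℂ) * E 0‖
        + ‖∑ j ∈ Finset.range m, ((q (j + 1) - q j : ℝ) : ℂ) * E (j + 1)‖ :=
        (norm_sub_le _ _).trans (by gcongr; exact norm_sub_le _ _)
    _ ≤ C + C + 2 * C := by gcongr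
    _ = 4 * C := by ring

/-- van der Corput comparison of a quadratic exponential sum with its integral -/
theorem vdc (s μ ν : ℝ) (n : ℕ) (h : ∀ j < n, |s * (j + 1 / 2) + μ| ≤ 3 / 4) :
    ‖(∑ j ∈ Finset.range n, ee (s / 2 * (j : ℝ) ^ 2 + μ * j + ν))
      - ∫ x in (0:ℝ)..n, ee (s / 2 * x ^ 2 + μ * x + ν)‖ ≤ 4 + |s| * n := by
  set f : ℝ → ℝ := fun x => s / 2 * x ^ 2 + μ * x + ν with hf
  have hfc : Continuous f := by rw [hf]; fun_prop
  have hc : Continuous (fun x => ee (f x)) := ee_continuous.comp hfc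
  -- split the integral
  have h1 : (∫ x in (0:ℝ)..n, ee (f x)) = ∑ j ∈ Finset.range n, ∫ x in (j:ℝ)..(j + 1 : ℝ), ee (f x) := by
    have := intervalIntegral.sum_integral_adjacent_intervals (f := fun x => ee (f x))
      (a := fun j : ℕ => (j : ℝ)) (n := n) (μ := volume)
      (fun k _ => hc.intervalIntegrable _ _)
    simpa using this.symm
  have h2 : ∀ j : ℕ, (∫ x in (j:ℝ)..(j + 1 : ℝ), ee (f x))
      = ee (f j) * ∫ u in (0:ℝ)..1, ee (f (j + u) - f j) := by
    intro j
    rw [← intervalIntegral.integral_const_mul]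
    have e := intervalIntegral.integral_comp_add_left (a := 0) (b := 1)
      (fun x : ℝ => ee (f x)) (j : ℝ)
    rw [add_zero] at e
    rw [← e]
    refine integral_congr (fun u _ => ?_)
    change ee (f (j + u)) = ee (f j) * ee (f (j + u) - f j)
    rw [← ee_add]; congr 1; ring
  set v : ℕ → ℝ := fun j => s * (j + 1 / 2) + μ with hv
  have hfv : ∀ (j : ℕ) (u : ℝ), f (j + u) - f j = v j * u + s / 2 * (u ^ 2 - u) := by
    intro j u; simp only [hf, hv]; ring
  -- comparison with the linear phase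
  have h3 : ∀ j : ℕ, ‖(∫ u in (0:ℝ)..1, ee (f (j + u) - f j)) - ∫ u in (0:ℝ)..1, ee (v j * u)‖ ≤ |s| := by
    intro j
    rw [← intervalIntegral.integral_sub]
    · have := norm_integral_le_of_norm_le_const (a := 0) (b := 1) (C := |s|)
        (f := fun u : ℝ => ee (f (j + u) - f j) - ee (v j * u)) (by
          intro u hu
          rw [uIoc_of_le zero_le_one] at hu
          refine (ee_sub_norm _ _).trans ?_
          rw [hfv, add_sub_cancel_left, abs_mul, abs_div, abs_two]
          have h4 : |u ^ 2 - u| ≤ 1 / 4 := by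
            rw [abs_le]; constructor <;> nlinarith [sq_nonneg (u - 1 / 2), hu.1, hu.2]
          have hpi := Real.pi_lt_four
          have hs := abs_nonneg s
          calc 2 * Real.pi * (|s| / 2 * |u ^ 2 - u|) ≤ 2 * 4 * (|s| / 2 * (1 / 4)) := by gcongr
            _ = |s| := by ring)
      simpa using this
    · exact (ee_continuous.comp (by fun_prop)).intervalIntegrable _ _
    · exact (ee_continuous.comp (by fun_prop)).intervalIntegrable _ _
  -- main term
  have h5 : ∀ j < n, ee (f j) * (1 - ∫ u in (0:ℝ)..1, ee (v j * u))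
      = -(1 / 2) * (ee (f (j + 1 : ℕ)) - ee (f j))
        + Complex.I / 2 * ((qf (v j) : ℂ) * (ee (f (j + 1 : ℕ)) - ee (f j))) := by
    intro j hj
    rw [key_id (h j hj)]
    have : ee (f (j + 1 : ℕ)) = ee (f j) * ee (v j) := by
      rw [← ee_add]; congr 1
      have := hfv j 1
      push_cast
      linarith
    rw [this]
    change ee (f j) * ((-(1 / 2) + Complex.I / 2 * (qf (v j) : ℂ)) * (ee (v j) - 1)) = _
    ring
  have h6 : (∑ j ∈ Finset.range n, ee (f j)) - ∫ x in (0:ℝ)..n, ee (f x)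
      = (∑ j ∈ Finset.range n, ee (f j) * (1 - ∫ u in (0:ℝ)..1, ee (v j * u)))
        - ∑ j ∈ Finset.range n, ee (f j) * ((∫ u in (0:ℝ)..1, ee (f (j + u) - f j))
            - ∫ u in (0:ℝ)..1, ee (v j * u)) := by
    rw [h1, ← Finset.sum_sub_distrib, ← Finset.sum_sub_distrib]
    apply Finset.sum_congr rfl
    intro j _
    rw [h2 j]; ring
  have h7 : ‖∑ j ∈ Finset.range n, ee (f j) * ((∫ u in (0:ℝ)..1, ee (f (j + u) - f j))
            - ∫ u in (0:ℝ)..1, ee (v j * u))‖ ≤ |s| * n := by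
    have : ∀ j ∈ Finset.range n, ‖ee (f j) * ((∫ u in (0:ℝ)..1, ee (f (j + u) - f j))
            - ∫ u in (0:ℝ)..1, ee (v j * u))‖ ≤ |s| := by
      intro j _
      rw [norm_mul, norm_ee, one_mul]
      exact h3 j
    refine (norm_sum_le_of_le _ this).trans ?_
    rw [Finset.sum_const, Finset.card_range, nsmul_eq_mul, mul_comm]
  have h8 : ‖∑ j ∈ Finset.range n, ee (f j) * (1 - ∫ u in (0:ℝ)..1, ee (v j * u))‖ ≤ 4 := by
    have e : ∑ j ∈ Finset.range n, ee (f j) * (1 - ∫ u in (0:ℝ)..1, ee (v j * u))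
        = -(1 / 2) * (ee (f n) - ee (f (0 : ℕ)))
          + Complex.I / 2 * ∑ j ∈ Finset.range n, (qf (v j) : ℂ) * (ee (f (j + 1 : ℕ)) - ee (f j)) := by
      rw [Finset.sum_congr rfl (fun j hj => h5 j (Finset.mem_range.1 hj)), Finset.sum_add_distrib,
        ← Finset.mul_sum, ← Finset.mul_sum]
      congr 2
      exact Finset.sum_range_sub (fun j : ℕ => ee (f (j : ℝ))) n
    rw [e]
    have a1 : ‖-(1 / 2 : ℂ) * (ee (f n) - ee (f (0 : ℕ)))‖ ≤ 1 := by
      have h2' : ‖(-(1 / 2) : ℂ)‖ = 1 / 2 := by norm_num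
      rw [norm_mul, h2']
      refine (mul_le_mul_of_nonneg_left (norm_sub_le _ _) (by norm_num)).trans ?_
      rw [norm_ee, norm_ee]; norm_num
    have a2 : ‖Complex.I / 2 * ∑ j ∈ Finset.range n, (qf (v j) : ℂ) * (ee (f (j + 1 : ℕ)) - ee (f j))‖
        ≤ 3 := by
      rw [norm_mul]
      have h2' : ‖Complex.I / 2‖ = 1 / 2 := by rw [norm_div, Complex.norm_I]; norm_num
      rw [h2']
      have hmono : ∀ j, j + 1 < n → v j ∈ Icc (-(3 / 4) : ℝ) (3 / 4) ∧
          v (j + 1) ∈ Icc (-(3 / 4) : ℝ) (3 / 4) := by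
        intro j hj
        exact ⟨abs_le.1 (h j (by omega)), abs_le.1 (by simpa [hv] using h (j + 1) hj)⟩
      have := abel_mono (n := n) (fun j => qf (v j)) (fun j => ee (f (j : ℝ))) (fun j => by simp)
        (C := 3 / 2) (fun j hj => qf_abs (h j hj)) (by
          rcases le_total 0 s with hs | hs
          · left
            intro j hj
            apply qf_mono (hmono j hj).1 (hmono j hj).2
            simp only [hv]; push_cast; nlinarith
          · right
            intro j hj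
            apply qf_mono (hmono j hj).2 (hmono j hj).1
            simp only [hv]; push_cast; nlinarith) (by norm_num)
      linarith
    exact (norm_add_le _ _).trans (by linarith)
  rw [h6]
  exact (norm_sub_le _ _).trans (by linarith)

end Crest.Agent.R081.Vdc
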