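import Crest.Agent.R081.Vdc

/-!
# Row 81: uniform sup bound for quadratic exponential sums (helper301)

`chirp_sup` : `‖∑_{j<n} ee (κ/(2M) j² + β j + ν)‖ ≤ Csup κ * √M` for all `n ≤ M`, all real `β`, `ν`.
-/

set_option autoImplicit false

open MeasureTheory Set Filter Topology Complex intervalIntegral
open Crest.Agent.R075

namespace Crest.Agent.R081.Vdc

/-- the linear coefficient only matters modulo 1 -/
lemma sum_shift_int (s μ ν : ℝ) (k : ℤ) (n : ℕ) :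
    (∑ j ∈ Finset.range n, ee (s / 2 * (j : ℝ) ^ 2 + μ * j + ν))
      = ∑ j ∈ Finset.range n, ee (s / 2 * (j : ℝ) ^ 2 + (μ - k) * j + ν) := by
  apply Finset.sum_congr rfl
  intro j _
  have : s / 2 * (j : ℝ) ^ 2 + μ * j + ν
      = (s / 2 * (j : ℝ) ^ 2 + (μ - k) * j + ν) + ((k * j : ℤ) : ℝ) := by push_cast; ring
  rw [this, ee_add_int]

/-- short range: total sweep at most `1/2` -/
theorem sup_small {s : ℝ} (hs : s ≠ 0) (μ ν : ℝ) (n : ℕ) (h : |s| * n ≤ 1 / 2) :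
    ‖∑ j ∈ Finset.range n, ee (s / 2 * (j : ℝ) ^ 2 + μ * j + ν)‖ ≤ 3 / Real.sqrt |s| + 5 := by
  -- choose the representative of `μ`
  obtain ⟨k, hk⟩ : ∃ k : ℤ, ∀ j < n, |s * ((j:ℝ) + 1 / 2) + (μ - k)| ≤ 3 / 4 := by
    rcases lt_or_gt_of_ne hs with h0 | h0
    · refine ⟨⌊μ + 1 / 4⌋, fun j hj => ?_⟩
      have h1 := Int.floor_le (μ + 1 / 4)
      have h2 := Int.lt_floor_add_one (μ + 1 / 4)
      have h3 : (j : ℝ) + 1 ≤ n := by exact_mod_cast hj
      have h4 : (0:ℝ) ≤ j := Nat.cast_nonneg j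
      rw [abs_of_neg h0] at h
      have h5 : s * ((j:ℝ) + 1 / 2) ≤ 0 := by nlinarith
      have h6 : -(1 / 2) ≤ s * ((j:ℝ) + 1 / 2) := by nlinarith
      rw [abs_le]; constructor <;> linarith
    · refine ⟨⌊μ + 3 / 4⌋, fun j hj => ?_⟩
      have h1 := Int.floor_le (μ + 3 / 4)
      have h2 := Int.lt_floor_add_one (μ + 3 / 4)
      have h3 : (j : ℝ) + 1 ≤ n := by exact_mod_cast hj
      have h4 : (0:ℝ) ≤ j := Nat.cast_nonneg j
      rw [abs_of_pos h0] at h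
      have h5 : 0 ≤ s * ((j:ℝ) + 1 / 2) := by positivity
      have h6 : s * ((j:ℝ) + 1 / 2) ≤ 1 / 2 := by nlinarith
      rw [abs_le]; constructor <;> linarith
  rw [sum_shift_int s μ ν k n]
  have h1 := vdc s (μ - k) ν n hk
  have h2 := quad_bound hs (μ - k) ν 0 n
  have h3 : ‖∑ j ∈ Finset.range n, ee (s / 2 * (j : ℝ) ^ 2 + (μ - k) * j + ν)‖
      ≤ ‖(∑ j ∈ Finset.range n, ee (s / 2 * (j : ℝ) ^ 2 + (μ - k) * j + ν))
        - ∫ x in (0:ℝ)..n, ee (s / 2 * x ^ 2 + (μ - k) * x + ν)‖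
        + ‖∫ x in (0:ℝ)..n, ee (s / 2 * x ^ 2 + (μ - k) * x + ν)‖ := by
    have := norm_add_le ((∑ j ∈ Finset.range n, ee (s / 2 * (j : ℝ) ^ 2 + (μ - k) * j + ν))
        - ∫ x in (0:ℝ)..n, ee (s / 2 * x ^ 2 + (μ - k) * x + ν))
        (∫ x in (0:ℝ)..n, ee (s / 2 * x ^ 2 + (μ - k) * x + ν))
    simpa using this
  linarith

/-- splitting into blocks -/
lemma sup_blocks {s : ℝ} {B : ℝ} {L : ℕ}
    (hB : ∀ (μ ν : ℝ) (m : ℕ), m ≤ L → ‖∑ j ∈ Finset.range m, ee (s / 2 * (j : ℝ) ^ 2 + μ * j + ν)‖ ≤ B)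
    (q : ℕ) : ∀ (μ ν : ℝ) (n : ℕ), n ≤ q * L →
      ‖∑ j ∈ Finset.range n, ee (s / 2 * (j : ℝ) ^ 2 + μ * j + ν)‖ ≤ q * B := by
  have hB0 : 0 ≤ B := (norm_nonneg _).trans (hB 0 0 0 (Nat.zero_le _))
  induction q with
  | zero =>
    intro μ ν n hn
    have : n = 0 := by simpa using hn
    subst this; simp
  | succ q ih =>
    intro μ ν n hn
    rcases le_or_gt n L with h1 | h1
    · refine (hB μ ν n h1).trans ?_
      push_cast
      have : 0 ≤ (q:ℝ) * B := by positivity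
      linarith
    · obtain ⟨m, rfl⟩ : ∃ m, n = L + m := ⟨n - L, by omega⟩
      rw [Finset.sum_range_add]
      have h2 : ∑ x ∈ Finset.range m, ee (s / 2 * ((L + x : ℕ) : ℝ) ^ 2 + μ * ((L + x : ℕ) : ℝ) + ν)
          = ∑ x ∈ Finset.range m, ee (s / 2 * (x : ℝ) ^ 2 + (μ + s * L) * x
              + (ν + μ * L + s / 2 * (L:ℝ) ^ 2)) := by
        apply Finset.sum_congr rfl
        intro x _
        congr 1; push_cast; ring
      rw [h2]
      have h3 : m ≤ q * L := by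
        have : L + m ≤ (q + 1) * L := hn
        rw [add_mul, one_mul] at this
        omega
      refine (norm_add_le _ _).trans ?_
      have a := hB μ ν L le_rfl
      have b := ih (μ + s * L) (ν + μ * L + s / 2 * (L:ℝ) ^ 2) m h3
      push_cast
      linarith

/-- the constant of `chirp_sup` -/
noncomputable def Csup (κ : ℝ) : ℝ :=
  (4 * |κ| + 2) * (3 / Real.sqrt |κ| + 5) + Real.sqrt (2 * |κ|)

lemma Csup_nonneg (κ : ℝ) : 0 ≤ Csup κ := by
  unfold Csup; positivity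

/-- uniform sup bound for a chirp -/
theorem chirp_sup {κ : ℝ} (hκ : κ ≠ 0) {M n : ℕ} (hM : 0 < M) (hn : n ≤ M) (β ν : ℝ) :
    ‖∑ j ∈ Finset.range n, ee (κ / (2 * M) * (j : ℝ) ^ 2 + β * j + ν)‖ ≤ Csup κ * Real.sqrt M := by
  have hM' : (0:ℝ) < M := by exact_mod_cast hM
  have hM1 : (1:ℝ) ≤ M := by exact_mod_cast hM
  have hκ' : 0 < |κ| := abs_pos.2 hκ
  have hsq : 0 < Real.sqrt M := Real.sqrt_pos.2 hM'
  have hsqM : Real.sqrt M * Real.sqrt M = M := Real.mul_self_sqrt hM'.le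
  have hsq1 : 1 ≤ Real.sqrt M := by rw [Real.one_le_sqrt]; exact hM1
  set s : ℝ := κ / M with hs
  have hs0 : s ≠ 0 := div_ne_zero hκ hM'.ne'
  have habs : |s| = |κ| / M := by rw [hs, abs_div, abs_of_pos hM']
  have hsum : ∀ j : ℕ, κ / (2 * M) * (j : ℝ) ^ 2 + β * j + ν = s / 2 * (j : ℝ) ^ 2 + β * j + ν := by
    intro j; rw [hs]; ring
  simp only [hsum]
  unfold Csup
  rcases le_or_gt (1 / 2) |s| with h1 | h1
  · -- trivial bound
    have h2 : (M:ℝ) ≤ 2 * |κ| := by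
      rw [habs, le_div_iff₀ hM'] at h1
      linarith
    have h3 : ‖∑ j ∈ Finset.range n, ee (s / 2 * (j : ℝ) ^ 2 + β * j + ν)‖ ≤ M := by
      refine (norm_sum_le _ _).trans ?_
      simp only [norm_ee, Finset.sum_const, Finset.card_range, nsmul_eq_mul, mul_one]
      exact_mod_cast hn
    have h4 : (M:ℝ) ≤ Real.sqrt (2 * |κ|) * Real.sqrt M := by
      have : Real.sqrt M ≤ Real.sqrt (2 * |κ|) := Real.sqrt_le_sqrt h2
      calc (M:ℝ) = Real.sqrt M * Real.sqrt M := hsqM.symm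
        _ ≤ Real.sqrt (2 * |κ|) * Real.sqrt M := mul_le_mul_of_nonneg_right this hsq.le
    have h5 : 0 ≤ (4 * |κ| + 2) * (3 / Real.sqrt |κ| + 5) * Real.sqrt M := by positivity
    nlinarith
  · -- blocks of length L = ⌊1/(2|s|)⌋
    have hsp : 0 < |s| := abs_pos.2 hs0
    set L : ℕ := ⌊1 / (2 * |s|)⌋₊ with hL
    have hL1 : (L:ℝ) ≤ 1 / (2 * |s|) := Nat.floor_le (by positivity)
    have hL2 : 1 / (2 * |s|) < L + 1 := Nat.lt_floor_add_one _
    have hL0 : 0 < L := by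
      rw [hL, Nat.floor_pos, le_div_iff₀ (by positivity)]
      linarith
    have hL3 : (1:ℝ) ≤ L := by exact_mod_cast hL0
    have hB : ∀ (μ ν : ℝ) (m : ℕ), m ≤ L →
        ‖∑ j ∈ Finset.range m, ee (s / 2 * (j : ℝ) ^ 2 + μ * j + ν)‖ ≤ 3 / Real.sqrt |s| + 5 := by
      intro μ ν m hm
      apply sup_small hs0
      have : (m:ℝ) ≤ L := by exact_mod_cast hm
      have h2 : |s| * m ≤ |s| * (1 / (2 * |s|)) := by
        apply mul_le_mul_of_nonneg_left _ hsp.le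
        linarith
      have h3 : |s| * (1 / (2 * |s|)) = 1 / 2 := by field_simp
      linarith
    set q : ℕ := n / L + 1 with hq
    have hnq : n ≤ q * L := by
      have := Nat.lt_div_mul_add (a := n) hL0
      rw [hq, add_mul, one_mul]; omega
    have h2 := sup_blocks hB q β ν n hnq
    have h3 : (q:ℝ) ≤ 4 * |κ| + 1 := by
      have e1 : ((n / L : ℕ) : ℝ) ≤ n / L := Nat.cast_div_le
      have e2 : (n:ℝ) / L ≤ 4 * |κ| := by
        rw [div_le_iff₀ (by linarith)]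
        have e3 : (n:ℝ) ≤ M := by exact_mod_cast hn
        have e4 : 1 / (2 * |s|) ≤ 2 * L := by linarith
        rw [div_le_iff₀ (by positivity)] at e4
        -- 1 ≤ 4 L |s|, |s| = |κ|/M
        rw [habs] at e4
        have e5 : (M:ℝ) ≤ 4 * |κ| * L := by
          have : 2 * (L:ℝ) * (2 * (|κ| / M)) = 4 * |κ| * L / M := by ring
          rw [this, le_div_iff₀ hM'] at e4
          linarith
        linarith
      rw [hq]; push_cast; linarith
    have h4 : 3 / Real.sqrt |s| + 5 ≤ (3 / Real.sqrt |κ| + 5) * Real.sqrt M := by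
      rw [habs, Real.sqrt_div hκ'.le]
      have hk : 0 < Real.sqrt |κ| := Real.sqrt_pos.2 hκ'
      have : 3 / (Real.sqrt |κ| / Real.sqrt M) = 3 / Real.sqrt |κ| * Real.sqrt M := by
        field_simp
      rw [this]
      nlinarith
    have h5 : 0 ≤ 3 / Real.sqrt |s| + 5 := by positivity
    calc ‖∑ j ∈ Finset.range n, ee (s / 2 * (j : ℝ) ^ 2 + β * j + ν)‖
        ≤ q * (3 / Real.sqrt |s| + 5) := h2
      _ ≤ (4 * |κ| + 2) * ((3 / Real.sqrt |κ| + 5) * Real.sqrt M) := by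
          apply mul_le_mul (by linarith) h4 h5 (by positivity)
      _ ≤ ((4 * |κ| + 2) * (3 / Real.sqrt |κ| + 5) + Real.sqrt (2 * |κ|)) * Real.sqrt M := by
          have : 0 ≤ Real.sqrt (2 * |κ|) * Real.sqrt M := by positivity
          nlinarith

end Crest.Agent.R081.Vdc
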