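import Crest.Agent.R081.SpreadF

/-!
# Row 81, node Z-PROFILE (helper472): the step function with windows on the big torus
-/

set_option autoImplicit false

namespace Crest.Agent.R081.ZP

open MeasureTheory Finset Crest.Agent.R075 Crest.Agent.R081.Spread

/-! ### windows: contiguity of the Fourier coefficients -/

lemma kap_shift {K : ℕ} (hK : 1 ≤ K) (l c : ℤ) :
    ‖kap K (l - c) - ee (c / (2 * K)) * kap K l‖ ≤ Real.pi * |(c : ℝ)| / K ^ 2 := by
  have hK0 : (0:ℝ) < K := by exact_mod_cast (by omega : 0 < K)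
  unfold kap
  have hi : ∀ m : ℤ, IntervalIntegrable (fun x : ℝ => ee (-(m * x))) volume 0 (1 / K) := by
    intro m
    exact (ee_continuous.comp (by fun_prop)).intervalIntegrable _ _
  rw [← intervalIntegral.integral_const_mul, ← intervalIntegral.integral_sub (hi _) ((hi _).const_mul _)]
  have h1 : ‖∫ x in (0:ℝ)..(1 / K), (ee (-(((l - c : ℤ) : ℝ) * x)) - ee (c / (2 * K)) * ee (-(l * x)))‖
      ≤ (2 * Real.pi * (|(c : ℝ)| / (2 * K))) * |1 / (K:ℝ) - 0| := by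
    apply intervalIntegral.norm_integral_le_of_norm_le_const
    intro x hx
    rw [Set.uIoc_of_le (by positivity)] at hx
    have e1 : ee (-(((l - c : ℤ) : ℝ) * x)) - ee (c / (2 * K)) * ee (-(l * x))
        = ee (-(l * x)) * (ee (c * x) - ee (c / (2 * K))) := by
      have e0 : ee (-(((l - c : ℤ) : ℝ) * x)) = ee (-(l * x)) * ee (c * x) := by
        rw [← ee_add]; congr 1; push_cast; ring
      rw [e0]; ring
    rw [e1, norm_mul, norm_ee, one_mul]
    refine (norm_ee_sub_le _ _).trans ?_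
    refine mul_le_mul_of_nonneg_left ?_ (by positivity)
    have e2 : (c : ℝ) * x - c / (2 * K) = c * (x - 1 / (2 * K)) := by field_simp
    rw [e2, abs_mul, div_eq_mul_inv]
    refine mul_le_mul_of_nonneg_left ?_ (abs_nonneg _)
    have h3 : (1:ℝ) / K = 1 / (2 * K) + 1 / (2 * K) := by field_simp; norm_num
    rw [abs_le, ← one_div]
    constructor
    · linarith [hx.1]
    · linarith [hx.2]
  refine h1.trans (le_of_eq ?_)
  rw [sub_zero, abs_of_pos (show (0:ℝ) < 1 / K by positivity)]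
  field_simp

/-- a good frequency of the window -/
def goodl (K C : ℕ) (ε : ℝ) (l : ℤ) : Prop := Real.pi * C / K ^ 2 ≤ ε * ‖kap K l‖

lemma goodl_shift {K C : ℕ} (hK : 1 ≤ K) {ε : ℝ} {l c : ℤ} (hg : goodl K C ε l) (hc : |c| ≤ C) :
    ‖kap K (l - c) - ee (c / (2 * K)) * kap K l‖ ≤ ε * ‖kap K l‖ := by
  refine (kap_shift hK l c).trans (le_trans ?_ hg)
  have hc' : |(c : ℝ)| ≤ C := by exact_mod_cast hc
  gcongr

/-- amass is small outside -/
lemma amass_le {K : ℕ} (hK : 1 ≤ K) {t : ℤ} (ht : t ≠ 0) : amass K t ≤ K / (t : ℝ) ^ 2 := by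
  unfold amass
  rw [if_neg ht, div_pow]
  have h1 : Real.sin (Real.pi * t / K) ^ 2 ≤ 1 := Real.sin_sq_le_one _
  have ht' : (0:ℝ) < (t:ℝ) ^ 2 := by
    have : (t : ℝ) ≠ 0 := by exact_mod_cast ht
    positivity
  have hpi : (1:ℝ) ≤ Real.pi ^ 2 := by nlinarith [Real.pi_gt_three]
  have hK0 : (0:ℝ) ≤ K := Nat.cast_nonneg _
  rw [mul_pow, mul_div_assoc']
  rw [div_le_div_iff₀ (by positivity) ht']
  have h2 : (K:ℝ) * Real.sin (Real.pi * t / K) ^ 2 ≤ K := by nlinarith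
  nlinarith [mul_nonneg hK0 ht'.le, mul_le_mul_of_nonneg_right hpi (mul_nonneg hK0 ht'.le)]

lemma aint_tail {K : ℕ} (hK : 1 ≤ K) {M : ℕ} (hM : 1 ≤ M) : 1 - 2 * K / M ≤ aint K M := by
  have hM0 : (0:ℝ) < M := by exact_mod_cast (by omega : 0 < M)
  -- for N ≥ M, aint K N ≤ aint K M + 2K/M
  have h1 : ∀ N, M ≤ N → aint K N ≤ aint K M + 2 * K * ((M:ℝ)⁻¹ - (N:ℝ)⁻¹) := by
    intro N hN
    unfold aint
    rw [sum_Icc_symm _ _ (amass_neg K), sum_Icc_symm _ _ (amass_neg K)]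
    have h2 : ∑ n ∈ range N, amass K ((n : ℤ) + 1) - ∑ n ∈ range M, amass K ((n : ℤ) + 1)
        = ∑ n ∈ Ico M N, amass K ((n : ℤ) + 1) := by
      rw [sum_Ico_eq_sub _ hN]
    have h3 : ∑ n ∈ Ico M N, amass K ((n : ℤ) + 1) ≤ ∑ n ∈ Ico M N, K * (((n + 1 : ℕ) : ℝ) ^ 2)⁻¹ := by
      refine sum_le_sum fun n _ => ?_
      refine (amass_le hK (by omega)).trans (le_of_eq ?_)
      push_cast
      rw [div_eq_mul_inv]
    have h4 : ∑ n ∈ Ico M N, (((n + 1 : ℕ) : ℝ) ^ 2)⁻¹ = ∑ i ∈ Ioc M N, ((i : ℝ) ^ 2)⁻¹ := by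
      rw [← Finset.sum_image (s := Ico M N) (g := fun n => n + 1) (f := fun i : ℕ => ((i : ℝ) ^ 2)⁻¹)]
      · congr 1
        ext i
        simp only [mem_image, mem_Ico, mem_Ioc]
        constructor
        · rintro ⟨a, ⟨h1, h2⟩, rfl⟩; omega
        · rintro ⟨h1, h2⟩; exact ⟨i - 1, ⟨by omega, by omega⟩, by omega⟩
      · intro a _ b _ h; simpa using h
    have h5 := sum_Ioc_inv_sq_le_sub (α := ℝ) (k := M) (n := N) (by omega) hN
    rw [← mul_sum, h4] at h3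
    have hK0 : (0:ℝ) ≤ K := Nat.cast_nonneg _
    have h6 := mul_le_mul_of_nonneg_left h5 hK0
    linarith
  have h2 : ∀ N, M ≤ N → aint K N ≤ aint K M + 2 * K / M := by
    intro N hN
    refine (h1 N hN).trans ?_
    have : (0:ℝ) ≤ 2 * K * (N:ℝ)⁻¹ := by positivity
    rw [mul_sub, ← div_eq_mul_inv]
    linarith
  have h3 : (1:ℝ) ≤ aint K M + 2 * K / M :=
    le_of_tendsto (tendsto_aint hK) (Filter.eventually_atTop.2 ⟨M, h2⟩)
  linarith

open Classical in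
/-- the mass of the good frequencies -/
lemma exists_good (ε : ℝ) (hε : 0 < ε) (C : ℕ) :
    ∃ K M : ℕ, 1 ≤ K ∧ 1 - ε ≤ ∑ l ∈ (Icc (-(M : ℤ)) M).filter (goodl K C ε), amass K l := by
  obtain ⟨A, hA⟩ := exists_nat_gt (4 / ε)
  have hA0 : (0:ℝ) < A := lt_trans (by positivity) hA
  -- bad l : amass K l = K |kap|^2 ≤ K (π C/(ε K^2))^2
  obtain ⟨K, hK⟩ := exists_nat_gt (max 1 ((2 * A + 1) * (Real.pi * C / ε) ^ 2 * (2 / ε)))
  have hK1 : (1:ℝ) < K := lt_of_le_of_lt (le_max_left _ _) hK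
  have hK2 : (2 * A + 1) * (Real.pi * C / ε) ^ 2 * (2 / ε) < K := lt_of_le_of_lt (le_max_right _ _) hK
  have hK1' : 1 ≤ K := by exact_mod_cast hK1.le
  have hK0 : (0:ℝ) < K := by linarith
  refine ⟨K, A * K, hK1', ?_⟩
  have hAK : 1 ≤ A * K := by
    have : 0 < A := by exact_mod_cast hA0
    exact Nat.mul_pos this (by omega)
  have h1 := aint_tail hK1' hAK
  have h2 : 2 * (K:ℝ) / ((A * K : ℕ) : ℝ) ≤ ε / 2 := by
    push_cast
    rw [mul_div_mul_right _ _ hK0.ne', div_le_iff₀ hA0]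
    rw [div_lt_iff₀ hε] at hA
    linarith
  have h3 := Finset.sum_filter_add_sum_filter_not (Icc (-((A * K : ℕ) : ℤ)) ((A * K : ℕ) : ℤ)) (goodl K C ε)
    (fun l => amass K l)
  have h4 : ∑ l ∈ (Icc (-((A * K : ℕ) : ℤ)) ((A * K : ℕ) : ℤ)).filter (fun l => ¬ goodl K C ε l), amass K l
      ≤ ε / 2 := by
    have h5 : ∀ l ∈ (Icc (-((A * K : ℕ) : ℤ)) ((A * K : ℕ) : ℤ)).filter (fun l => ¬ goodl K C ε l),
        amass K l ≤ K * (Real.pi * C / ε / K ^ 2) ^ 2 := by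
      intro l hl
      have h6 := (mem_filter.1 hl).2
      unfold goodl at h6
      rw [not_le] at h6
      rw [← norm_kap_sq hK1']
      refine mul_le_mul_of_nonneg_left ?_ hK0.le
      refine pow_le_pow_left₀ (norm_nonneg _) ?_ 2
      rw [div_right_comm, le_div_iff₀ hε, mul_comm]
      exact h6.le
    refine (sum_le_card_nsmul _ _ _ h5).trans ?_
    have h7 : ((((Icc (-((A * K : ℕ) : ℤ)) ((A * K : ℕ) : ℤ)).filter (fun l => ¬ goodl K C ε l)).card : ℕ) : ℝ)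
        ≤ (2 * A + 1) * K := by
      have h8 := card_filter_le (Icc (-((A * K : ℕ) : ℤ)) ((A * K : ℕ) : ℤ)) (fun l => ¬ goodl K C ε l)
      rw [Int.card_Icc] at h8
      have h9 : (((A * K : ℕ) : ℤ) + 1 - -((A * K : ℕ) : ℤ)).toNat = 2 * (A * K) + 1 := by omega
      rw [h9] at h8
      have h10 : (((Icc (-((A * K : ℕ) : ℤ)) ((A * K : ℕ) : ℤ)).filter (fun l => ¬ goodl K C ε l)).card : ℝ)
          ≤ ((2 * (A * K) + 1 : ℕ) : ℝ) := by exact_mod_cast h8
      refine h10.trans ?_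
      push_cast
      nlinarith
    rw [nsmul_eq_mul]
    have h11 : (0:ℝ) ≤ K * (Real.pi * C / ε / K ^ 2) ^ 2 := by positivity
    refine (mul_le_mul_of_nonneg_right h7 h11).trans ?_
    have h12 : (2 * (A:ℝ) + 1) * K * (K * (Real.pi * C / ε / K ^ 2) ^ 2)
        = ((2 * A + 1) * (Real.pi * C / ε) ^ 2) / K ^ 2 := by
      field_simp
    rw [h12, div_le_iff₀ (by positivity)]
    have h13 : (2 * (A:ℝ) + 1) * (Real.pi * C / ε) ^ 2 ≤ K * (ε / 2) := by
      have h14 : (2 * (A:ℝ) + 1) * (Real.pi * C / ε) ^ 2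
          = ((2 * A + 1) * (Real.pi * C / ε) ^ 2 * (2 / ε)) * (ε / 2) := by field_simp
      rw [h14]
      exact mul_le_mul_of_nonneg_right hK2.le (by positivity)
    have h15 : (K:ℝ) * (ε / 2) ≤ K ^ 2 * (ε / 2) := by
      have : (K:ℝ) ≤ K ^ 2 := by nlinarith
      exact mul_le_mul_of_nonneg_right this (by positivity)
    linarith
  have h5 : aint K (A * K) = ∑ l ∈ Icc (-((A * K : ℕ) : ℤ)) ((A * K : ℕ) : ℤ), amass K l := rfl
  linarith

end Crest.Agent.R081.ZP
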